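import Vale.Agent.P232.MathlibUsed
import Vale.Agent.P232.Defs
import Vale.Agent.P232.ShapesDef

set_option linter.all false

section

section

open MeasureTheory Set Filter Topology
open scoped Pointwise

namespace Vale.Agent.P232

/-- `f` is invariant under integer translations. -/
def PerFun {n : ℕ} {β : Type*} (f : (Fin n → ℝ) → β) : Prop :=
  ∀ (x : Fin n → ℝ) (k : Fin n → ℤ), f (fun i => x i + (k i : ℝ)) = f x

theorem cube_eq_fundamentalDomain (n : ℕ) :
    cube n = ZSpan.fundamentalDomain (Pi.basisFun ℝ (Fin n)) := by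
  ext x
  simp [cube, ZSpan.mem_fundamentalDomain]

theorem cube_eq_pi (n : ℕ) : cube n = Set.pi univ (fun _ => Ico (0 : ℝ) 1) := by
  ext x
  simp [cube, Set.mem_pi, Set.mem_Ico]

theorem measurableSet_cube (n : ℕ) : MeasurableSet (cube n) := by
  rw [cube_eq_pi]
  exact MeasurableSet.univ_pi fun _ => measurableSet_Ico

theorem volume_cube (n : ℕ) : volume (cube n) = 1 := by
  rw [cube_eq_pi, volume_pi_pi]
  simp

instance (n : ℕ) : IsProbabilityMeasure (volume.restrict (cube n)) := by
  constructor
  rw [Measure.restrict_apply_univ, volume_cube]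

theorem mem_span_basisFun {n : ℕ}
    (g : Submodule.span ℤ (Set.range (Pi.basisFun ℝ (Fin n)))) :
    ∃ k : Fin n → ℤ, (g : Fin n → ℝ) = fun i => (k i : ℝ) := by
  have h := g.2
  rw [(Pi.basisFun ℝ (Fin n)).mem_span_iff_repr_mem ℤ] at h
  choose k hk using h
  refine ⟨k, ?_⟩
  ext i
  have := hk i
  simp only [Pi.basisFun_repr] at this
  rw [← this]
  simp

theorem isAddFundamentalDomain_cube (n : ℕ) :
    IsAddFundamentalDomain (Submodule.span ℤ (Set.range (Pi.basisFun ℝ (Fin n)))) (cube n)
      volume := by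
  rw [cube_eq_fundamentalDomain]
  exact ZSpan.isAddFundamentalDomain _ _

instance (n : ℕ) : VAddInvariantMeasure
    (Submodule.span ℤ (Set.range (Pi.basisFun ℝ (Fin n)))) (Fin n → ℝ) volume :=
  inferInstanceAs (VAddInvariantMeasure
    (Submodule.span ℤ (Set.range (Pi.basisFun ℝ (Fin n)))).toAddSubgroup (Fin n → ℝ) volume)

theorem PerFun.vadd {n : ℕ} {β : Type*} {f : (Fin n → ℝ) → β} (hf : PerFun f)
    (g : Submodule.span ℤ (Set.range (Pi.basisFun ℝ (Fin n)))) (x : Fin n → ℝ) :
    f (g +ᵥ x) = f x := by
  obtain ⟨k, hk⟩ := mem_span_basisFun g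
  have : g +ᵥ x = fun i => x i + (k i : ℝ) := by
    ext i
    change ((g : Fin n → ℝ) + x) i = _
    rw [hk]
    simp [add_comm]
  rw [this]
  exact hf x k

theorem integral_cube_add {n : ℕ} {f : (Fin n → ℝ) → ℝ} (hf : PerFun f) (z : Fin n → ℝ) :
    ∫ x in cube n, f (x + z) = ∫ x in cube n, f x := by
  have h1 := isAddFundamentalDomain_cube n
  have h2 := h1.vadd_of_comm z
  have h3 := h2.setIntegral_eq h1 (f := f) (fun g x => hf.vadd g x)
  rw [← h3]
  have h4 : (z +ᵥ cube n : Set (Fin n → ℝ)) = (fun x => x + z) '' cube n := by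
    ext y
    simp only [Set.mem_vadd_set, vadd_eq_add, Set.mem_image]
    constructor
    · rintro ⟨x, hx, rfl⟩; exact ⟨x, hx, add_comm _ _⟩
    · rintro ⟨x, hx, rfl⟩; exact ⟨x, hx, add_comm _ _⟩
  rw [h4]
  rw [(measurePreserving_add_right volume z).setIntegral_image_emb
    (MeasurableEquiv.addRight z).measurableEmbedding]

theorem cube_ae_eq_Icc (n : ℕ) : cube n =ᵐ[volume] Icc (0 : Fin n → ℝ) 1 := by
  rw [cube_eq_pi]
  exact Measure.univ_pi_Ico_ae_eq_Icc

theorem continuous_divergence {n : ℕ} {X : (Fin n → ℝ) → (Fin n → ℝ)} (hX : ContDiff ℝ 1 X) :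
    Continuous (divergence X) := by
  unfold divergence
  have h := hX.continuous_fderiv one_ne_zero
  fun_prop

theorem PerFun.fderiv {n : ℕ} {β : Type*} [NormedAddCommGroup β] [NormedSpace ℝ β]
    {f : (Fin n → ℝ) → β} (hf : PerFun f) :
    PerFun (fderiv ℝ f) := by
  intro x k
  have h : f = fun y => f (y + fun i => (k i : ℝ)) := by
    ext y
    exact (hf y k).symm
  conv_rhs => rw [h]
  rw [fderiv_comp_add_right]
  rfl

theorem PerFun.divergence {n : ℕ} {X : (Fin n → ℝ) → (Fin n → ℝ)} (hX : PerFun X) :
    PerFun (divergence X) := by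
  intro x k
  unfold Vale.Agent.P232.divergence
  rw [hX.fderiv x k]

theorem integral_divergence_eq_zero {n : ℕ} {G : (Fin n → ℝ) → (Fin n → ℝ)}
    (hG : ContDiff ℝ 1 G) (hp : PerFun G) : ∫ x in cube n, divergence G x = 0 := by
  cases n with
  | zero => simp [divergence]
  | succ n =>
    rw [setIntegral_congr_set (cube_ae_eq_Icc (n + 1))]
    have key := integral_divergence_of_hasFDerivAt_off_countable (0 : Fin (n+1) → ℝ) 1
      zero_le_one G (fderiv ℝ G) ∅ countable_empty hG.continuous.continuousOn
      (fun x _ => (hG.differentiable one_ne_zero x).hasFDerivAt)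
      ((continuous_divergence hG).continuousOn.integrableOn_compact isCompact_Icc)
    change ∫ x in Icc (0 : Fin (n+1) → ℝ) 1, ∑ i, (fderiv ℝ G x) (Pi.single i 1) i = 0
    rw [key]
    apply Finset.sum_eq_zero
    intro i _
    rw [sub_eq_zero]
    congr 1
    ext y
    have h := hp (i.insertNth ((0 : Fin (n+1) → ℝ) i) y) (Pi.single i 1)
    rw [← h]
    congr 2
    ext j
    refine Fin.succAboveCases i ?_ (fun j => ?_) j
    · simp
    · simp

theorem divergence_smul {n : ℕ} {f : (Fin n → ℝ) → ℝ} {X : (Fin n → ℝ) → (Fin n → ℝ)}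
    {x : Fin n → ℝ} (hf : DifferentiableAt ℝ f x) (hX : DifferentiableAt ℝ X x) :
    divergence (fun x => f x • X x) x =
      f x * divergence X x + ∑ i, fderiv ℝ f x (Pi.single i 1) * X x i := by
  unfold divergence
  rw [fderiv_fun_smul hf hX]
  simp [Finset.mul_sum, Finset.sum_add_distrib]

theorem integrableOn_cube {n : ℕ} {f : (Fin n → ℝ) → ℝ} (hf : Continuous f) :
    IntegrableOn f (cube n) := by
  rw [integrableOn_congr_set_ae (cube_ae_eq_Icc n)]
  exact hf.continuousOn.integrableOn_compact isCompact_Icc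

/-- Integration by parts on the torus. -/
theorem integral_mul_divergence {n : ℕ} {f : (Fin n → ℝ) → ℝ} {X : (Fin n → ℝ) → (Fin n → ℝ)}
    (hf : ContDiff ℝ 1 f) (hX : ContDiff ℝ 1 X) (hfp : PerFun f) (hXp : PerFun X) :
    ∫ x in cube n, f x * divergence X x =
      - ∫ x in cube n, ∑ i, fderiv ℝ f x (Pi.single i 1) * X x i := by
  have h1 : ∫ x in cube n, divergence (fun x => f x • X x) x = 0 :=
    integral_divergence_eq_zero (hf.smul hX) (fun x k => by
      simp only [hfp x k, hXp x k])
  have h2 : ∀ x, divergence (fun x => f x • X x) x =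
      f x * divergence X x + ∑ i, fderiv ℝ f x (Pi.single i 1) * X x i := fun x =>
    divergence_smul (hf.differentiable one_ne_zero x) (hX.differentiable one_ne_zero x)
  simp_rw [h2] at h1
  rw [integral_add] at h1
  · linarith
  · exact integrableOn_cube (hf.continuous.mul (continuous_divergence hX))
  · apply integrableOn_cube
    have h := hf.continuous_fderiv one_ne_zero
    have h' := hX.continuous
    fun_prop


end Vale.Agent.P232
end
end

section

section

open MeasureTheory Set Filter Topology
open scoped Pointwise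

namespace Vale.Agent.P232

/-- The Euclidean length of the gradient. -/
noncomputable def gradNorm {n : ℕ} (f : (Fin n → ℝ) → ℝ) (x : Fin n → ℝ) : ℝ :=
  Real.sqrt (∑ i, (fderiv ℝ f x (Pi.single i 1)) ^ 2)

theorem gradNorm_nonneg {n : ℕ} (f : (Fin n → ℝ) → ℝ) (x : Fin n → ℝ) : 0 ≤ gradNorm f x :=
  Real.sqrt_nonneg _

theorem continuous_gradNorm {n : ℕ} {f : (Fin n → ℝ) → ℝ} (hf : ContDiff ℝ 1 f) :
    Continuous (gradNorm f) := by
  unfold gradNorm
  have h := hf.continuous_fderiv one_ne_zero
  continuity

theorem PerFun.gradNorm {n : ℕ} {f : (Fin n → ℝ) → ℝ} (hf : PerFun f) :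
    PerFun (gradNorm f) := by
  intro x k
  unfold Vale.Agent.P232.gradNorm
  rw [hf.fderiv x k]

theorem TestField.perFun {n : ℕ} {X : (Fin n → ℝ) → (Fin n → ℝ)} (hX : TestField X) :
    PerFun X := hX.periodic

theorem TestField.neg {n : ℕ} {X : (Fin n → ℝ) → (Fin n → ℝ)} (hX : TestField X) :
    TestField (fun x => - X x) where
  contDiff := hX.contDiff.neg
  periodic := fun x k => by simp only [hX.periodic x k]
  bound := fun x => by simpa using hX.bound x

theorem divergence_neg {n : ℕ} (X : (Fin n → ℝ) → (Fin n → ℝ)) (x : Fin n → ℝ) :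
    divergence (fun x => - X x) x = - divergence X x := by
  unfold divergence
  rw [fderiv_fun_neg]
  simp

theorem abs_sum_mul_le {n : ℕ} (a b : Fin n → ℝ) :
    |∑ i, a i * b i| ≤ Real.sqrt (∑ i, a i ^ 2) * Real.sqrt (∑ i, b i ^ 2) := by
  rw [← Real.sqrt_mul (Finset.sum_nonneg fun i _ => sq_nonneg _)]
  apply Real.abs_le_sqrt
  exact Finset.sum_mul_sq_le_sq_mul_sq _ _ _

theorem integral_mul_divergence_le {n : ℕ} {f : (Fin n → ℝ) → ℝ}
    {X : (Fin n → ℝ) → (Fin n → ℝ)}
    (hf : ContDiff ℝ 1 f) (hfp : PerFun f) (hX : TestField X) :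
    ∫ x in cube n, f x * divergence X x ≤ ∫ x in cube n, gradNorm f x := by
  rw [integral_mul_divergence hf hX.contDiff hfp hX.periodic, ← integral_neg]
  apply integral_mono
  · apply (integrableOn_cube _)
    have h := hf.continuous_fderiv one_ne_zero
    have h' := hX.contDiff.continuous
    fun_prop
  · exact integrableOn_cube (continuous_gradNorm hf)
  · intro x
    have h1 := abs_sum_mul_le (fun i => fderiv ℝ f x (Pi.single i 1)) (X x)
    have h2 : Real.sqrt (∑ i, X x i ^ 2) ≤ 1 := by
      exact Real.sqrt_le_iff.mpr ⟨zero_le_one, by simpa using hX.bound x⟩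
    have h3 : |∑ i, fderiv ℝ f x (Pi.single i 1) * X x i| ≤ gradNorm f x := by
      refine h1.trans ?_
      exact mul_le_of_le_one_right (Real.sqrt_nonneg _) h2
    have h4 := neg_le_abs (∑ i, fderiv ℝ f x (Pi.single i 1) * X x i)
    exact h4.trans h3

theorem integral_gradNorm_le {n : ℕ} {f : (Fin n → ℝ) → ℝ} (hf : ContDiff ℝ 2 f)
    (hfp : PerFun f) {C : ℝ}
    (hC : ∀ X, TestField X → ∫ x in cube n, f x * divergence X x ≤ C) :
    ∫ x in cube n, gradNorm f x ≤ C := by
  have hf1 : ContDiff ℝ 1 f := hf.of_le one_le_two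
  apply le_of_forall_pos_le_add
  intro η hη
  set X : (Fin n → ℝ) → (Fin n → ℝ) := fun x i =>
    - fderiv ℝ f x (Pi.single i 1) / Real.sqrt (∑ j, (fderiv ℝ f x (Pi.single j 1)) ^ 2 + η ^ 2)
    with hXdef
  have hpos : ∀ x, 0 < ∑ j, (fderiv ℝ f x (Pi.single j 1)) ^ 2 + η ^ 2 := fun x => by
    have : 0 ≤ ∑ j, (fderiv ℝ f x (Pi.single j 1)) ^ 2 := Finset.sum_nonneg fun i _ => sq_nonneg _
    positivity
  have hfd : ContDiff ℝ 1 (fderiv ℝ f) := by
    apply hf.fderiv_right
    norm_num
  have hXt : TestField X := by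
    refine ⟨?_, ?_, ?_⟩
    · rw [contDiff_pi]
      intro i
      apply ContDiff.div
      · exact (hfd.clm_apply contDiff_const).neg
      · apply ContDiff.sqrt
        · apply ContDiff.add _ contDiff_const
          apply ContDiff.sum
          intro j _
          exact (hfd.clm_apply contDiff_const).pow 2
        · intro x
          exact (hpos x).ne'
      · intro x
        exact (Real.sqrt_pos.mpr (hpos x)).ne'
    · intro x k
      simp only [hXdef]
      rw [hfp.fderiv x k]
    · intro x
      simp only [hXdef]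
      have : ∀ i, (- fderiv ℝ f x (Pi.single i 1) /
          Real.sqrt (∑ j, (fderiv ℝ f x (Pi.single j 1)) ^ 2 + η ^ 2)) ^ 2 =
          (fderiv ℝ f x (Pi.single i 1)) ^ 2 /
            (∑ j, (fderiv ℝ f x (Pi.single j 1)) ^ 2 + η ^ 2) := by
        intro i
        rw [div_pow, Real.sq_sqrt (hpos x).le, neg_sq]
      simp_rw [this]
      rw [← Finset.sum_div, div_le_one (hpos x)]
      linarith only [sq_nonneg η]
  have h1 := hC X hXt
  rw [integral_mul_divergence hf1 hXt.contDiff hfp hXt.periodic, ← integral_neg] at h1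
  have h2 : ∫ x in cube n, (gradNorm f x - η) ≤
      ∫ x in cube n, - ∑ i, fderiv ℝ f x (Pi.single i 1) * X x i := by
    apply integral_mono
    · exact (integrableOn_cube (continuous_gradNorm hf1)).sub (integrable_const _)
    · apply (integrableOn_cube _)
      have h := hf1.continuous_fderiv one_ne_zero
      have h' := hXt.contDiff.continuous
      fun_prop
    · intro x
      simp only [hXdef]
      have hs : 0 ≤ ∑ j, (fderiv ℝ f x (Pi.single j 1)) ^ 2 :=
        Finset.sum_nonneg fun i _ => sq_nonneg _
      have e1 : - ∑ i, fderiv ℝ f x (Pi.single i 1) * (- fderiv ℝ f x (Pi.single i 1) /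
          Real.sqrt (∑ j, (fderiv ℝ f x (Pi.single j 1)) ^ 2 + η ^ 2)) =
          (∑ j, (fderiv ℝ f x (Pi.single j 1)) ^ 2) /
            Real.sqrt (∑ j, (fderiv ℝ f x (Pi.single j 1)) ^ 2 + η ^ 2) := by
        rw [Finset.sum_div, ← Finset.sum_neg_distrib]
        apply Finset.sum_congr rfl
        intro i _
        ring
      rw [e1]
      unfold gradNorm
      set s := ∑ j, (fderiv ℝ f x (Pi.single j 1)) ^ 2 with hsdef
      have hr := Real.sqrt_pos.mpr (hpos x)
      rw [le_div_iff₀ hr]
      set r := Real.sqrt (s + η ^ 2) with hrdef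
      have hr2 : r ^ 2 = s + η ^ 2 := Real.sq_sqrt (hpos x).le
      set g := Real.sqrt s with hgdef
      have hg2 : g ^ 2 = s := Real.sq_sqrt hs
      have hg0 : 0 ≤ g := Real.sqrt_nonneg _
      have hrg : r ≤ g + η := by
        apply Real.sqrt_le_iff.mpr
        constructor
        · (clear * - hη; positivity)
        · nlinarith only [hη, hg2, hg0]
      have hgr : g ≤ r := Real.sqrt_le_sqrt (by nlinarith only [])
      by_cases hgη : g ≤ η
      · nlinarith only [hs, hr, hgη]
      · push Not at hgη
        linarith only [mul_nonneg (le_of_lt (sub_pos.2 hr)) (sub_nonneg.2 hgr), mul_pos (sub_pos.2 hη) (sub_pos.2 hgη), mul_nonneg (le_of_lt (sub_pos.2 hη)) (sub_nonneg.2 hgr), hr2]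
  have h3 : ∫ x in cube n, (gradNorm f x - η) = (∫ x in cube n, gradNorm f x) - η := by
    rw [integral_sub (integrableOn_cube (continuous_gradNorm hf1)) (integrable_const _)]
    simp [Measure.real]
  linarith

end Vale.Agent.P232
end
end

section

section

open MeasureTheory Set Filter Topology ContinuousLinearMap
open scoped Pointwise Convolution

namespace Vale.Agent.P232

/-- The mollification of the indicator function of `E`. -/
noncomputable def moll {n : ℕ} (φ : ContDiffBump (0 : Fin n → ℝ)) (E : Set (Fin n → ℝ)) :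
    (Fin n → ℝ) → ℝ :=
  (φ.normed volume) ⋆[lsmul ℝ ℝ, volume] (E.indicator (fun _ => (1 : ℝ)))

theorem moll_apply {n : ℕ} (φ : ContDiffBump (0 : Fin n → ℝ)) (E : Set (Fin n → ℝ))
    (x : Fin n → ℝ) :
    moll φ E x = ∫ z, φ.normed volume z * E.indicator (fun _ => (1 : ℝ)) (x - z) := by
  simp [moll, convolution_def]

theorem locallyIntegrable_indicator {n : ℕ} {E : Set (Fin n → ℝ)} (hE : MeasurableSet E) :
    LocallyIntegrable (E.indicator (fun _ => (1 : ℝ))) volume :=
  (locallyIntegrable_const 1).indicator hE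

theorem contDiff_moll {n : ℕ} (φ : ContDiffBump (0 : Fin n → ℝ)) {E : Set (Fin n → ℝ)}
    (hE : MeasurableSet E) : ContDiff ℝ 2 (moll φ E) := by
  unfold moll
  apply HasCompactSupport.contDiff_convolution_left (n := 2)
  · exact φ.hasCompactSupport_normed
  · exact φ.contDiff_normed
  · exact locallyIntegrable_indicator hE

theorem indicator_nonneg' {n : ℕ} (E : Set (Fin n → ℝ)) (x : Fin n → ℝ) :
    0 ≤ E.indicator (fun _ => (1 : ℝ)) x := by
  by_cases h : x ∈ E <;> simp [h]

theorem indicator_le_one' {n : ℕ} (E : Set (Fin n → ℝ)) (x : Fin n → ℝ) :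
    E.indicator (fun _ => (1 : ℝ)) x ≤ 1 := by
  by_cases h : x ∈ E <;> simp [h]

theorem perFun_indicator {n : ℕ} {E : Set (Fin n → ℝ)} (hE : IsPeriodic E) :
    PerFun (E.indicator (fun _ => (1 : ℝ))) := by
  intro x k
  by_cases h : x ∈ E
  · rw [Set.indicator_of_mem h, Set.indicator_of_mem ((hE x k).mpr h)]
  · rw [Set.indicator_of_notMem h, Set.indicator_of_notMem (fun h' => h ((hE x k).mp h'))]

theorem perFun_moll {n : ℕ} (φ : ContDiffBump (0 : Fin n → ℝ)) {E : Set (Fin n → ℝ)}
    (hE : IsPeriodic E) : PerFun (moll φ E) := by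
  intro x k
  rw [moll_apply, moll_apply]
  congr 1
  ext z
  have := perFun_indicator hE (x - z) k
  rw [← this]
  congr 2
  ext i
  simp
  ring

theorem measurable_indicator' {n : ℕ} {E : Set (Fin n → ℝ)} (hE : MeasurableSet E) :
    Measurable (E.indicator (fun _ => (1 : ℝ))) :=
  measurable_const.indicator hE

theorem integrable_moll_integrand {n : ℕ} (φ : ContDiffBump (0 : Fin n → ℝ))
    {E : Set (Fin n → ℝ)} (hE : MeasurableSet E) (x : Fin n → ℝ) :
    Integrable (fun z => φ.normed volume z * E.indicator (fun _ => (1 : ℝ)) (x - z)) := by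
  apply Integrable.mul_bdd (c := 1) φ.integrable_normed
  · exact ((measurable_indicator' hE).comp (measurable_const.sub measurable_id)).aestronglyMeasurable
  · filter_upwards with z
    rw [Real.norm_eq_abs, abs_of_nonneg (indicator_nonneg' _ _)]
    exact indicator_le_one' _ _

theorem moll_nonneg {n : ℕ} (φ : ContDiffBump (0 : Fin n → ℝ)) (E : Set (Fin n → ℝ))
    (x : Fin n → ℝ) : 0 ≤ moll φ E x := by
  rw [moll_apply]
  exact integral_nonneg fun z => mul_nonneg (φ.nonneg_normed z) (indicator_nonneg' _ _)

theorem moll_le_one {n : ℕ} (φ : ContDiffBump (0 : Fin n → ℝ)) {E : Set (Fin n → ℝ)}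
    (hE : MeasurableSet E) (x : Fin n → ℝ) : moll φ E x ≤ 1 := by
  rw [moll_apply]
  calc ∫ z, φ.normed volume z * E.indicator (fun _ => (1 : ℝ)) (x - z)
      ≤ ∫ z, φ.normed volume z := by
        apply integral_mono (integrable_moll_integrand φ hE x) φ.integrable_normed
        intro z
        exact mul_le_of_le_one_right (φ.nonneg_normed z) (indicator_le_one' _ _)
    _ = 1 := φ.integral_normed

theorem TestField.comp_add {n : ℕ} {X : (Fin n → ℝ) → (Fin n → ℝ)} (hX : TestField X)
    (z : Fin n → ℝ) : TestField (fun x => X (x + z)) where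
  contDiff := hX.contDiff.comp (contDiff_id.add contDiff_const)
  periodic := fun x k => by
    have := hX.periodic (x + z) k
    rw [← this]
    congr 1
    ext i
    simp
    ring
  bound := fun x => hX.bound (x + z)

theorem divergence_comp_add {n : ℕ} (X : (Fin n → ℝ) → (Fin n → ℝ)) (z x : Fin n → ℝ) :
    divergence (fun x => X (x + z)) x = divergence X (x + z) := by
  unfold divergence
  rw [fderiv_comp_add_right]

theorem setIntegral_inter_cube {n : ℕ} {E : Set (Fin n → ℝ)} (hE : MeasurableSet E)
    (g : (Fin n → ℝ) → ℝ) :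
    ∫ x in E ∩ cube n, g x = ∫ x in cube n, E.indicator (fun _ => (1 : ℝ)) x * g x := by
  rw [inter_comm, ← setIntegral_indicator hE]
  congr 1
  ext x
  by_cases h : x ∈ E <;> simp [h]

theorem integral_moll_mul_divergence_le {n : ℕ} (φ : ContDiffBump (0 : Fin n → ℝ))
    {E : Set (Fin n → ℝ)} (hE : MeasurableSet E) (hp : IsPeriodic E) {C : ℝ}
    (hC : ∀ X, TestField X → ∫ x in E ∩ cube n, divergence X x ≤ C)
    {X : (Fin n → ℝ) → (Fin n → ℝ)} (hX : TestField X) :
    ∫ x in cube n, moll φ E x * divergence X x ≤ C := by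
  have hdiv := continuous_divergence hX.contDiff
  have h0 : ∀ x, moll φ E x * divergence X x =
      ∫ z, φ.normed volume z * E.indicator (fun _ => (1 : ℝ)) (x - z) * divergence X x := by
    intro x
    rw [moll_apply, integral_mul_const]
  simp_rw [h0]
  rw [integral_integral_swap]
  · have h1 : ∀ z, ∫ x in cube n,
        φ.normed volume z * E.indicator (fun _ => (1 : ℝ)) (x - z) * divergence X x =
        φ.normed volume z * ∫ x in E ∩ cube n, divergence (fun x => X (x + z)) x := by
      intro z
      have hper : PerFun (fun x =>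
          φ.normed volume z * E.indicator (fun _ => (1 : ℝ)) (x - z) * divergence X x) := by
        intro x k
        have e1 := perFun_indicator hp (x - z) k
        have e2 := hX.perFun.divergence x k
        change φ.normed volume z * E.indicator (fun _ => (1 : ℝ)) ((fun i => x i + (k i : ℝ)) - z) *
          divergence X (fun i => x i + (k i : ℝ)) =
          φ.normed volume z * E.indicator (fun _ => (1 : ℝ)) (x - z) * divergence X x
        rw [e2, ← e1]
        congr 3
        ext i
        simp
        ring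
      rw [← integral_cube_add hper z, setIntegral_inter_cube hE, ← integral_const_mul]
      congr 1
      ext x
      rw [divergence_comp_add, add_sub_cancel_right, mul_assoc]
    simp_rw [h1]
    calc ∫ z, φ.normed volume z * ∫ x in E ∩ cube n, divergence (fun x => X (x + z)) x
        ≤ ∫ z, φ.normed volume z * C := by
          by_cases hint : Integrable (fun z => φ.normed volume z *
              ∫ x in E ∩ cube n, divergence (fun x => X (x + z)) x)
          · apply integral_mono hint (φ.integrable_normed.mul_const C)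
            intro z
            exact mul_le_mul_of_nonneg_left (hC _ (hX.comp_add z)) (φ.nonneg_normed z)
          · rw [integral_undef hint]
            have hC0 : 0 ≤ C := by
              have h := hC (fun _ => 0) ⟨contDiff_const, fun _ _ => rfl, fun x => by simp⟩
              have h' : ∀ x, divergence (fun _ : Fin n → ℝ => (0 : Fin n → ℝ)) x = 0 := by
                intro x
                unfold divergence
                simp
              simp_rw [h'] at h
              simpa using h
            exact integral_nonneg fun z => mul_nonneg (φ.nonneg_normed z) hC0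
      _ = C := by
          rw [integral_mul_const, φ.integral_normed, one_mul]
  · have hi : Integrable (fun p : (Fin n → ℝ) × (Fin n → ℝ) =>
        divergence X p.1 * φ.normed volume p.2)
        ((volume.restrict (cube n)).prod volume) :=
      Integrable.mul_prod (integrableOn_cube hdiv) φ.integrable_normed
    refine hi.norm.mono' ?_ ?_
    · apply Measurable.aestronglyMeasurable
      apply Measurable.mul
      · apply Measurable.mul
        · exact (φ.continuous_normed.measurable).comp measurable_snd
        · exact (measurable_indicator' hE).comp (measurable_fst.sub measurable_snd)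
      · exact hdiv.measurable.comp measurable_fst
    · filter_upwards with p
      simp only [Function.uncurry]
      rw [norm_mul, norm_mul, norm_mul, Real.norm_eq_abs (E.indicator _ _),
        abs_of_nonneg (indicator_nonneg' _ _)]
      have h1 := indicator_le_one' E (p.1 - p.2)
      have h2 := norm_nonneg (φ.normed volume p.2)
      have h3 := norm_nonneg (divergence X p.1)
      calc ‖φ.normed volume p.2‖ * E.indicator (fun _ => (1 : ℝ)) (p.1 - p.2) *
            ‖divergence X p.1‖ ≤ ‖φ.normed volume p.2‖ * 1 * ‖divergence X p.1‖ := by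
              gcongr
        _ = ‖divergence X p.1‖ * ‖φ.normed volume p.2‖ := by ring

theorem integral_gradNorm_moll_le {n : ℕ} (φ : ContDiffBump (0 : Fin n → ℝ))
    {E : Set (Fin n → ℝ)} (hE : MeasurableSet E) (hp : IsPeriodic E) {C : ℝ}
    (hC : ∀ X, TestField X → ∫ x in E ∩ cube n, divergence X x ≤ C) :
    ∫ x in cube n, gradNorm (moll φ E) x ≤ C :=
  integral_gradNorm_le (contDiff_moll φ hE) (perFun_moll φ hp)
    (fun _ hX => integral_moll_mul_divergence_le φ hE hp hC hX)

/-- A sequence of bump functions shrinking to a point. -/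
noncomputable def bump (n : ℕ) (k : ℕ) : ContDiffBump (0 : Fin n → ℝ) where
  rIn := 1 / (k + 1)
  rOut := 2 / (k + 1)
  rIn_pos := by positivity
  rIn_lt_rOut := by
    apply div_lt_div_of_pos_right one_lt_two
    positivity

theorem tendsto_moll_bump {n : ℕ} {E : Set (Fin n → ℝ)} (hE : MeasurableSet E) :
    ∀ᵐ x : Fin n → ℝ, Tendsto (fun k => moll (bump n k) E x) atTop
      (𝓝 (E.indicator (fun _ => (1 : ℝ)) x)) := by
  apply ContDiffBump.ae_convolution_tendsto_right_of_locallyIntegrable (K := 2)
  · simp only [bump]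
    exact tendsto_const_div_atTop_nhds_zero_nat 2 |>.comp (tendsto_add_atTop_nat 1) |>.congr
      (fun k => by simp)
  · filter_upwards with k
    simp only [bump]
    ring_nf
    rfl
  · exact locallyIntegrable_indicator hE

end Vale.Agent.P232
end
end

section

section

open MeasureTheory Set Filter Topology ContinuousLinearMap
open scoped Pointwise Convolution

namespace Vale.Agent.P232

/-- The slice of `E` by the hyperplane `x i = t`. -/
def slice {n : ℕ} (i : Fin (n + 1)) (E : Set (Fin (n + 1) → ℝ)) (t : ℝ) : Set (Fin n → ℝ) :=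
  {y | i.insertNth (α := fun _ => ℝ) t y ∈ E}

/-- The linear map inserting a zero. -/
noncomputable def insL {n : ℕ} (i : Fin (n + 1)) : (Fin n → ℝ) →L[ℝ] (Fin (n + 1) → ℝ) :=
  LinearMap.toContinuousLinearMap
    { toFun := fun y => i.insertNth (α := fun _ => ℝ) 0 y
      map_add' := fun x y => by
        ext j
        refine Fin.succAboveCases i ?_ (fun j => ?_) j <;> simp
      map_smul' := fun c y => by
        ext j
        refine Fin.succAboveCases i ?_ (fun j => ?_) j <;> simp }

theorem insL_apply {n : ℕ} (i : Fin (n + 1)) (y : Fin n → ℝ) :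
    insL i y = i.insertNth (α := fun _ => ℝ) 0 y := rfl

theorem insertNth_eq {n : ℕ} (i : Fin (n + 1)) (t : ℝ) (y : Fin n → ℝ) :
    i.insertNth (α := fun _ => ℝ) t y = t • Pi.single i (1 : ℝ) + insL i y := by
  rw [insL_apply]
  ext j
  refine Fin.succAboveCases i ?_ (fun j => ?_) j
  · simp
  · simp

theorem insL_single {n : ℕ} (i : Fin (n + 1)) (j : Fin n) :
    insL i (Pi.single j 1) = Pi.single (i.succAbove j) 1 := by
  rw [insL_apply]
  ext k
  refine Fin.succAboveCases i ?_ (fun k => ?_) k
  · simp
  · simp [Pi.single_apply]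

theorem continuous_insertNth' {n : ℕ} (i : Fin (n + 1)) :
    Continuous (fun p : ℝ × (Fin n → ℝ) => i.insertNth (α := fun _ => ℝ) p.1 p.2) := by
  simp_rw [insertNth_eq]
  fun_prop

theorem measurable_insertNth' {n : ℕ} (i : Fin (n + 1)) :
    Measurable (fun p : ℝ × (Fin n → ℝ) => i.insertNth (α := fun _ => ℝ) p.1 p.2) :=
  (continuous_insertNth' i).measurable

theorem hasFDerivAt_insertNth {n : ℕ} (i : Fin (n + 1)) (t : ℝ) (y : Fin n → ℝ) :
    HasFDerivAt (fun y => i.insertNth (α := fun _ => ℝ) t y) (insL i) y := by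
  simp_rw [insertNth_eq]
  exact (insL i).hasFDerivAt.const_add _

theorem hasDerivAt_insertNth {n : ℕ} (i : Fin (n + 1)) (t : ℝ) (y : Fin n → ℝ) :
    HasDerivAt (fun t => i.insertNth (α := fun _ => ℝ) t y) (Pi.single i (1 : ℝ)) t := by
  simp_rw [insertNth_eq]
  have h := ((hasDerivAt_id t).smul_const (Pi.single i (1 : ℝ) : Fin (n+1) → ℝ)).add_const
    (insL i y)
  simpa using h

/-- The restriction of a function to a hyperplane. -/
def sliceFun {n : ℕ} (i : Fin (n + 1)) (f : (Fin (n + 1) → ℝ) → ℝ) (t : ℝ) :
    (Fin n → ℝ) → ℝ := fun y => f (i.insertNth (α := fun _ => ℝ) t y)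

theorem contDiff_sliceFun {n : ℕ} (i : Fin (n + 1)) {f : (Fin (n + 1) → ℝ) → ℝ} {m : ℕ∞}
    (hf : ContDiff ℝ m f) (t : ℝ) : ContDiff ℝ m (sliceFun i f t) := by
  unfold sliceFun
  simp_rw [insertNth_eq]
  exact hf.comp (contDiff_const.add (insL i).contDiff)

theorem perFun_sliceFun {n : ℕ} (i : Fin (n + 1)) {f : (Fin (n + 1) → ℝ) → ℝ}
    (hf : PerFun f) (t : ℝ) : PerFun (sliceFun i f t) := by
  intro y k
  unfold sliceFun
  rw [← hf (i.insertNth (α := fun _ => ℝ) t y) (i.insertNth (α := fun _ => ℤ) 0 k)]
  congr 1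
  ext j
  refine Fin.succAboveCases i ?_ (fun j => ?_) j <;> simp

theorem sliceFun_add_one {n : ℕ} (i : Fin (n + 1)) {f : (Fin (n + 1) → ℝ) → ℝ}
    (hf : PerFun f) (t : ℝ) : sliceFun i f (t + 1) = sliceFun i f t := by
  ext y
  unfold sliceFun
  rw [← hf (i.insertNth (α := fun _ => ℝ) t y) (i.insertNth (α := fun _ => ℤ) 1 0)]
  congr 1
  ext j
  refine Fin.succAboveCases i ?_ (fun j => ?_) j <;> simp

theorem fderiv_sliceFun {n : ℕ} (i : Fin (n + 1)) {f : (Fin (n + 1) → ℝ) → ℝ}
    (hf : ContDiff ℝ 1 f) (t : ℝ) (y : Fin n → ℝ) (j : Fin n) :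
    fderiv ℝ (sliceFun i f t) y (Pi.single j 1) =
      fderiv ℝ f (i.insertNth (α := fun _ => ℝ) t y) (Pi.single (i.succAbove j) 1) := by
  have h := ((hf.differentiable one_ne_zero
    (i.insertNth (α := fun _ => ℝ) t y)).hasFDerivAt).comp y (hasFDerivAt_insertNth i t y)
  have h' : fderiv ℝ (sliceFun i f t) y = _ := h.fderiv
  rw [h']
  simp [insL_single]

theorem gradNorm_sq_slice {n : ℕ} (i : Fin (n + 1)) {f : (Fin (n + 1) → ℝ) → ℝ}
    (hf : ContDiff ℝ 1 f) (t : ℝ) (y : Fin n → ℝ) :
    gradNorm f (i.insertNth (α := fun _ => ℝ) t y) ^ 2 =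
      (fderiv ℝ f (i.insertNth (α := fun _ => ℝ) t y) (Pi.single i 1)) ^ 2 +
        gradNorm (sliceFun i f t) y ^ 2 := by
  unfold gradNorm
  rw [Real.sq_sqrt (Finset.sum_nonneg fun i _ => sq_nonneg _),
    Real.sq_sqrt (Finset.sum_nonneg fun i _ => sq_nonneg _), Fin.sum_univ_succAbove _ i]
  simp_rw [fderiv_sliceFun i hf]

theorem gradNorm_slice_ge {n : ℕ} (i : Fin (n + 1)) {f : (Fin (n + 1) → ℝ) → ℝ}
    (hf : ContDiff ℝ 1 f) (t : ℝ) (y : Fin n → ℝ) {a b : ℝ} (hab : a ^ 2 + b ^ 2 ≤ 1) :
    a * |fderiv ℝ f (i.insertNth (α := fun _ => ℝ) t y) (Pi.single i 1)| +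
      b * gradNorm (sliceFun i f t) y ≤ gradNorm f (i.insertNth (α := fun _ => ℝ) t y) := by
  have h := gradNorm_sq_slice i hf t y
  set G := gradNorm f (i.insertNth (α := fun _ => ℝ) t y) with hG
  set u := |fderiv ℝ f (i.insertNth (α := fun _ => ℝ) t y) (Pi.single i 1)| with hu
  set v := gradNorm (sliceFun i f t) y with hv
  have hG0 : 0 ≤ G := gradNorm_nonneg _ _
  have hv0 : 0 ≤ v := gradNorm_nonneg _ _
  have hu0 : 0 ≤ u := abs_nonneg _
  have h2 : G ^ 2 = u ^ 2 + v ^ 2 := by rw [h, hu, sq_abs]
  apply le_of_sq_le_sq _ hG0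
  rw [h2]
  linarith only [mul_nonneg (sq_nonneg v) (sub_nonneg.2 hab), mul_nonneg (sq_nonneg u) (sub_nonneg.2 hab), mul_nonneg (sq_nonneg (a * v - b * u)) (sub_nonneg.2 hab), mul_nonneg (sq_nonneg (b : ℝ)) (sq_nonneg (a * v - b * u)), mul_nonneg (sq_nonneg (a : ℝ)) (sq_nonneg (a * v - b * u))]

theorem integral_cube_succ {n : ℕ} (i : Fin (n + 1)) (g : (Fin (n + 1) → ℝ) → ℝ)
    (hg : IntegrableOn g (cube (n + 1))) :
    ∫ x in cube (n + 1), g x =
      ∫ t in Ico (0 : ℝ) 1, ∫ y in cube n, g (i.insertNth (α := fun _ => ℝ) t y) := by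
  have hmp := volume_preserving_piFinSuccAbove (fun _ : Fin (n + 1) => ℝ) i
  have hpre : cube (n + 1) =
      (MeasurableEquiv.piFinSuccAbove (fun _ : Fin (n + 1) => ℝ) i) ⁻¹'
        (Ico (0 : ℝ) 1 ×ˢ cube n) := by
    ext x
    simp only [cube, mem_ofPred_eq, mem_preimage, MeasurableEquiv.piFinSuccAbove_apply,
      Fin.insertNthEquiv_symm_apply, mem_prod, mem_Ico]
    rw [Fin.forall_iff_succAbove i]
    rfl
  have h1 := hmp.symm.setIntegral_preimage_emb
    (MeasurableEquiv.piFinSuccAbove (fun _ : Fin (n + 1) => ℝ) i).symm.measurableEmbedding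
    g (cube (n + 1))
  rw [← h1]
  have h2 : (MeasurableEquiv.piFinSuccAbove (fun _ : Fin (n + 1) => ℝ) i).symm ⁻¹'
      (cube (n + 1)) = Ico (0 : ℝ) 1 ×ˢ cube n := by
    rw [hpre, ← preimage_comp]
    simp
  rw [h2]
  have h3 : IntegrableOn
      (fun p : ℝ × (Fin n → ℝ) => g (i.insertNth (α := fun _ => ℝ) p.1 p.2))
      (Ico (0 : ℝ) 1 ×ˢ cube n) (volume.prod volume) := by
    have := (hmp.symm.integrableOn_comp_preimage
      (MeasurableEquiv.piFinSuccAbove (fun _ : Fin (n + 1) => ℝ) i).symm.measurableEmbedding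
      (f := g) (s := cube (n + 1))).mpr hg
    rw [h2] at this
    exact this
  have h4 := setIntegral_prod (μ := volume) (ν := volume)
    (fun p : ℝ × (Fin n → ℝ) => g (i.insertNth (α := fun _ => ℝ) p.1 p.2)) h3
  rw [← h4]
  rfl

end Vale.Agent.P232
end
end

section

section

open MeasureTheory Set Filter Topology ContinuousLinearMap
open scoped Pointwise Convolution

namespace Vale.Agent.P232

/-- The mean of `f` over the slice `x i = t`. -/
noncomputable def sliceMean {n : ℕ} (i : Fin (n + 1)) (f : (Fin (n + 1) → ℝ) → ℝ) (t : ℝ) : ℝ :=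
  ∫ y in cube n, f (i.insertNth (α := fun _ => ℝ) t y)

theorem continuous_sliceMean {n : ℕ} (i : Fin (n + 1)) {f : (Fin (n + 1) → ℝ) → ℝ}
    (hf : Continuous f) : Continuous (sliceMean i f) := by
  unfold sliceMean
  have h : ∀ t, ∫ y in cube n, f (i.insertNth (α := fun _ => ℝ) t y) =
      ∫ y in Icc (0 : Fin n → ℝ) 1, f (i.insertNth (α := fun _ => ℝ) t y) := fun t =>
    setIntegral_congr_set (cube_ae_eq_Icc n)
  simp_rw [h]
  apply continuous_parametric_integral_of_continuous _ isCompact_Icc
  exact hf.comp (continuous_insertNth' i)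

theorem sliceMean_add_one {n : ℕ} (i : Fin (n + 1)) {f : (Fin (n + 1) → ℝ) → ℝ}
    (hf : PerFun f) (t : ℝ) : sliceMean i f (t + 1) = sliceMean i f t := by
  have := sliceFun_add_one i hf t
  unfold sliceMean
  change ∫ y in cube n, sliceFun i f (t + 1) y = ∫ y in cube n, sliceFun i f t y
  rw [this]

theorem integral_sliceMean {n : ℕ} (i : Fin (n + 1)) {f : (Fin (n + 1) → ℝ) → ℝ}
    (hf : Continuous f) : ∫ x in cube (n + 1), f x = ∫ t in Ico (0 : ℝ) 1, sliceMean i f t :=
  integral_cube_succ i f (integrableOn_cube hf)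

theorem hasDerivAt_sliceMean {n : ℕ} (i : Fin (n + 1)) {f : (Fin (n + 1) → ℝ) → ℝ}
    (hf : ContDiff ℝ 1 f) (t : ℝ) :
    HasDerivAt (sliceMean i f) (sliceMean i (fun x => fderiv ℝ f x (Pi.single i 1)) t) t := by
  have hcont : Continuous (fun x => fderiv ℝ f x (Pi.single i 1)) := by
    have := hf.continuous_fderiv one_ne_zero
    continuity
  have hcomp : IsCompact (Icc (t - 1) (t + 1) ×ˢ Icc (0 : Fin n → ℝ) 1) :=
    isCompact_Icc.prod isCompact_Icc
  obtain ⟨K, hK⟩ := hcomp.exists_bound_of_continuousOn
    (hcont.comp (continuous_insertNth' i)).continuousOn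
  unfold sliceMean
  refine (hasDerivAt_integral_of_dominated_loc_of_deriv_le (μ := volume.restrict (cube n))
    (s := Icc (t - 1) (t + 1)) (bound := fun _ => K)
    (F := fun t y => f (i.insertNth (α := fun _ => ℝ) t y))
    (F' := fun t y => fderiv ℝ f (i.insertNth (α := fun _ => ℝ) t y) (Pi.single i 1))
    ?_ ?_ ?_ ?_ ?_ ?_ ?_).2
  · exact Icc_mem_nhds (by linarith) (by linarith)
  · filter_upwards with s
    apply Continuous.aestronglyMeasurable
    exact hf.continuous.comp ((continuous_insertNth' i).comp (continuous_const.prodMk continuous_id))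
  · exact integrableOn_cube
      (hf.continuous.comp ((continuous_insertNth' i).comp (continuous_const.prodMk continuous_id)))
  · apply Continuous.aestronglyMeasurable
    exact hcont.comp ((continuous_insertNth' i).comp (continuous_const.prodMk continuous_id))
  · filter_upwards [ae_restrict_mem (measurableSet_cube n)] with y hy s hs
    apply hK (s, y)
    refine ⟨hs, ?_, ?_⟩
    · intro j; exact (hy j).1
    · intro j; exact (hy j).2.le
  · exact integrable_const _
  · filter_upwards with y s _
    have h := (hf.differentiable one_ne_zero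
      (i.insertNth (α := fun _ => ℝ) s y)).hasFDerivAt.comp_hasDerivAt s
        (hasDerivAt_insertNth i s y)
    exact h

theorem sliceMean_gradNorm_ge {n : ℕ} (i : Fin (n + 1)) {f : (Fin (n + 1) → ℝ) → ℝ}
    (hf : ContDiff ℝ 1 f) (t : ℝ) {a b : ℝ} (ha : 0 ≤ a)
    (hab : a ^ 2 + b ^ 2 ≤ 1) :
    a * |sliceMean i (fun x => fderiv ℝ f x (Pi.single i 1)) t| +
      b * ∫ y in cube n, gradNorm (sliceFun i f t) y ≤ sliceMean i (gradNorm f) t := by
  have hcont : Continuous (fun x => fderiv ℝ f x (Pi.single i 1)) := by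
    have := hf.continuous_fderiv one_ne_zero
    continuity
  have hins : Continuous (fun y : Fin n → ℝ => i.insertNth (α := fun _ => ℝ) t y) :=
    (continuous_insertNth' i).comp (continuous_const.prodMk continuous_id)
  have h1 : a * |sliceMean i (fun x => fderiv ℝ f x (Pi.single i 1)) t| ≤
      a * ∫ y in cube n, |fderiv ℝ f (i.insertNth (α := fun _ => ℝ) t y) (Pi.single i 1)| := by
    apply mul_le_mul_of_nonneg_left _ ha
    exact abs_integral_le_integral_abs
  have hi1 : IntegrableOn (fun y =>
      a * |fderiv ℝ f (i.insertNth (α := fun _ => ℝ) t y) (Pi.single i 1)|) (cube n) :=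
    integrableOn_cube (continuous_const.mul (hcont.comp hins).abs)
  have hi2 : IntegrableOn (fun y => b * gradNorm (sliceFun i f t) y) (cube n) :=
    integrableOn_cube (continuous_const.mul
      (continuous_gradNorm (contDiff_sliceFun (m := 1) i hf t)))
  have h2 : ∫ y in cube n, (a * |fderiv ℝ f (i.insertNth (α := fun _ => ℝ) t y) (Pi.single i 1)| +
      b * gradNorm (sliceFun i f t) y) ≤ sliceMean i (gradNorm f) t := by
    unfold sliceMean
    apply integral_mono (hi1.add hi2)
    · exact integrableOn_cube ((continuous_gradNorm hf).comp hins)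
    · intro y
      exact gradNorm_slice_ge i hf t y hab
  rw [integral_add hi1 hi2, integral_const_mul, integral_const_mul] at h2
  linarith

end Vale.Agent.P232
end
end

section

section

open MeasureTheory Set Filter Topology ContinuousLinearMap
open scoped Pointwise Convolution

namespace Vale.Agent.P232

/-- The primitive of `α` vanishing at the origin. -/
noncomputable def prim (α : ℝ → ℝ) (u : ℝ) : ℝ := ∫ x in (0 : ℝ)..u, α x

theorem hasDerivAt_prim {α : ℝ → ℝ} (hα : Continuous α) (u : ℝ) :
    HasDerivAt (prim α) (α u) u :=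
  intervalIntegral.integral_hasDerivAt_right (hα.intervalIntegrable _ _)
    (hα.stronglyMeasurableAtFilter _ _) hα.continuousAt

theorem continuous_prim {α : ℝ → ℝ} (hα : Continuous α) : Continuous (prim α) :=
  continuous_iff_continuousAt.mpr fun u => (hasDerivAt_prim hα u).continuousAt

theorem path_piece {α w w' : ℝ → ℝ} (hα : Continuous α) (hα0 : ∀ u, 0 ≤ α u)
    (hw : ∀ t, HasDerivAt w (w' t) t) (hw' : Continuous w') {a b : ℝ} (hab : a ≤ b) :
    |prim α (w b) - prim α (w a)| ≤ ∫ t in a..b, α (w t) * |w' t| := by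
  have hwc : Continuous w := continuous_iff_continuousAt.mpr fun u => (hw u).continuousAt
  have h1 : ∫ t in a..b, α (w t) * w' t = prim α (w b) - prim α (w a) := by
    apply intervalIntegral.integral_eq_sub_of_hasDerivAt
    · intro t _
      exact (hasDerivAt_prim hα (w t)).comp t (hw t)
    · exact ((hα.comp hwc).mul hw').intervalIntegrable _ _
  rw [← h1]
  refine (intervalIntegral.abs_integral_le_integral_abs hab).trans (le_of_eq ?_)
  apply intervalIntegral.integral_congr
  intro t _
  simp only
  rw [abs_mul, abs_of_nonneg (hα0 _)]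

theorem path_ineq {α w w' : ℝ → ℝ} (hα : Continuous α) (hα0 : ∀ u, 0 ≤ α u)
    (hw : ∀ t, HasDerivAt w (w' t) t) (hw' : Continuous w') {s : ℕ → ℝ} (hs : Monotone s)
    (N : ℕ) :
    ∑ j ∈ Finset.range N, |prim α (w (s (j + 1))) - prim α (w (s j))| ≤
      ∫ t in (s 0)..(s N), α (w t) * |w' t| := by
  have hwc : Continuous w := continuous_iff_continuousAt.mpr fun u => (hw u).continuousAt
  rw [← intervalIntegral.sum_integral_adjacent_intervals]
  · apply Finset.sum_le_sum
    intro j _
    exact path_piece hα hα0 hw hw' (hs (Nat.le_succ j))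
  · intro k _
    exact ((hα.comp hwc).mul hw'.abs).intervalIntegrable _ _

/-- The total variation of the slice at height `t`. -/
noncomputable def sliceTV {n : ℕ} (i : Fin (n + 1)) (f : (Fin (n + 1) → ℝ) → ℝ) (t : ℝ) : ℝ :=
  ∫ y in cube n, gradNorm (sliceFun i f t) y

theorem sliceTV_eq {n : ℕ} (i : Fin (n + 1)) {f : (Fin (n + 1) → ℝ) → ℝ}
    (hf : ContDiff ℝ 1 f) (t : ℝ) : sliceTV i f t =
      sliceMean i (fun x => Real.sqrt (∑ j, (fderiv ℝ f x (Pi.single (i.succAbove j) 1)) ^ 2)) t := by
  unfold sliceTV sliceMean gradNorm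
  simp_rw [fderiv_sliceFun i hf]

theorem continuous_sliceTV {n : ℕ} (i : Fin (n + 1)) {f : (Fin (n + 1) → ℝ) → ℝ}
    (hf : ContDiff ℝ 1 f) : Continuous (sliceTV i f) := by
  have : sliceTV i f = sliceMean i (fun x =>
      Real.sqrt (∑ j, (fderiv ℝ f x (Pi.single (i.succAbove j) 1)) ^ 2)) := by
    ext t
    exact sliceTV_eq i hf t
  rw [this]
  apply continuous_sliceMean
  have := hf.continuous_fderiv one_ne_zero
  continuity

theorem sliceTV_nonneg {n : ℕ} (i : Fin (n + 1)) (f : (Fin (n + 1) → ℝ) → ℝ) (t : ℝ) :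
    0 ≤ sliceTV i f t := integral_nonneg fun _ => gradNorm_nonneg _ _

theorem integral_Ico_eq {g : ℝ → ℝ} (hg : ∀ t, g (t + 1) = g t) (a : ℝ) :
    ∫ t in a..(a + 1), g t = ∫ t in Ico (0 : ℝ) 1, g t := by
  have h : Function.Periodic g 1 := hg
  rw [h.intervalIntegral_add_eq a 0, zero_add, intervalIntegral.integral_of_le zero_le_one,
    integral_Ico_eq_integral_Ioc]

theorem continuous_deriv_sliceMean {n : ℕ} (i : Fin (n + 1)) {f : (Fin (n + 1) → ℝ) → ℝ}
    (hf : ContDiff ℝ 1 f) :
    Continuous (sliceMean i (fun x => fderiv ℝ f x (Pi.single i 1))) := by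
  apply continuous_sliceMean
  have := hf.continuous_fderiv one_ne_zero
  continuity

theorem slicing_smooth {n : ℕ} (i : Fin (n + 1)) {f : (Fin (n + 1) → ℝ) → ℝ}
    (hf : ContDiff ℝ 1 f) (hp : PerFun f) {α β : ℝ → ℝ} (hα : Continuous α)
    (hβ : Continuous β) (hα0 : ∀ u, 0 ≤ α u) (hαβ : ∀ u, α u ^ 2 + β u ^ 2 ≤ 1)
    {s : ℕ → ℝ} (hs : Monotone s) {N : ℕ} (hN : s N = s 0 + 1) :
    ∑ j ∈ Finset.range N, |prim α (sliceMean i f (s (j + 1))) - prim α (sliceMean i f (s j))| +
      ∫ t in Ico (0 : ℝ) 1, β (sliceMean i f t) * sliceTV i f t ≤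
      ∫ x in cube (n + 1), gradNorm f x := by
  have hwc : Continuous (sliceMean i f) := continuous_sliceMean i hf.continuous
  have hdc := continuous_deriv_sliceMean i hf
  have h1 := path_ineq hα hα0 (hasDerivAt_sliceMean i hf) hdc hs N
  have hper : ∀ t, α (sliceMean i f (t + 1)) *
      |sliceMean i (fun x => fderiv ℝ f x (Pi.single i 1)) (t + 1)| =
      α (sliceMean i f t) * |sliceMean i (fun x => fderiv ℝ f x (Pi.single i 1)) t| := by
    intro t
    rw [sliceMean_add_one i hp]
    rw [sliceMean_add_one i (f := fun x => fderiv ℝ f x (Pi.single i 1))]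
    intro x k
    simp only
    rw [hp.fderiv x k]
  rw [hN, integral_Ico_eq hper] at h1
  rw [integral_sliceMean i (continuous_gradNorm hf)]
  have hTV := continuous_sliceTV i hf
  have hfin : ∀ {g : ℝ → ℝ}, Continuous g → IntegrableOn g (Ico (0 : ℝ) 1) := fun hg =>
    (hg.continuousOn.integrableOn_compact isCompact_Icc).mono_set Ico_subset_Icc_self
  calc _ ≤ (∫ t in Ico (0 : ℝ) 1, α (sliceMean i f t) *
        |sliceMean i (fun x => fderiv ℝ f x (Pi.single i 1)) t|) +
        ∫ t in Ico (0 : ℝ) 1, β (sliceMean i f t) * sliceTV i f t := by gcongr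
    _ = ∫ t in Ico (0 : ℝ) 1, (α (sliceMean i f t) *
        |sliceMean i (fun x => fderiv ℝ f x (Pi.single i 1)) t| +
          β (sliceMean i f t) * sliceTV i f t) := by
        rw [integral_add]
        · exact hfin ((hα.comp hwc).mul hdc.abs)
        · exact hfin ((hβ.comp hwc).mul hTV)
    _ ≤ ∫ t in Ico (0 : ℝ) 1, sliceMean i (gradNorm f) t := by
        apply integral_mono
        · exact hfin (((hα.comp hwc).mul hdc.abs).add ((hβ.comp hwc).mul hTV))
        · exact hfin (continuous_sliceMean i (continuous_gradNorm hf))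
        · intro t
          exact sliceMean_gradNorm_ge i hf t (hα0 _) (hαβ _)

end Vale.Agent.P232
end
end

section

section

open MeasureTheory Set Filter Topology ContinuousLinearMap
open scoped Pointwise Convolution

namespace Vale.Agent.P232

theorem perimeter_le_liminf {n : ℕ} {F : Set (Fin n → ℝ)} (hF : MeasurableSet F)
    {g : ℕ → (Fin n → ℝ) → ℝ} (hg : ∀ k, ContDiff ℝ 1 (g k)) (hp : ∀ k, PerFun (g k))
    (hb : ∀ k x, |g k x| ≤ 1)
    (hlim : ∀ᵐ x ∂(volume.restrict (cube n)),
      Tendsto (fun k => g k x) atTop (𝓝 (F.indicator (fun _ => (1 : ℝ)) x))) :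
    perimeter F ≤
      liminf (fun k => ENNReal.ofReal (∫ x in cube n, gradNorm (g k) x)) atTop := by
  unfold perimeter
  apply iSup₂_le
  intro X hX
  have hdiv := continuous_divergence hX.contDiff
  have h1 : Tendsto (fun k => ∫ x in cube n, g k x * divergence X x) atTop
      (𝓝 (∫ x in cube n, F.indicator (fun _ => (1 : ℝ)) x * divergence X x)) := by
    apply tendsto_integral_of_dominated_convergence (fun x => |divergence X x|)
    · intro k
      exact ((hg k).continuous.mul hdiv).aestronglyMeasurable
    · exact integrableOn_cube hdiv.abs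
    · intro k
      filter_upwards with x
      rw [Real.norm_eq_abs, abs_mul]
      exact mul_le_of_le_one_left (abs_nonneg _) (hb k x)
    · filter_upwards [hlim] with x hx
      exact hx.mul_const _
  rw [setIntegral_inter_cube hF]
  have h2 : Tendsto (fun k => ENNReal.ofReal (∫ x in cube n, g k x * divergence X x)) atTop
      (𝓝 (ENNReal.ofReal (∫ x in cube n, F.indicator (fun _ => (1 : ℝ)) x * divergence X x))) :=
    ENNReal.tendsto_ofReal h1
  rw [← h2.liminf_eq]
  refine liminf_le_liminf (Eventually.of_forall fun k => ?_)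
  exact ENNReal.ofReal_le_ofReal (integral_mul_divergence_le (hg k) (hp k) hX)

theorem integral_divergence_le_of_perimeter {n : ℕ} {E : Set (Fin n → ℝ)}
    (h : perimeter E ≠ ⊤) {X : (Fin n → ℝ) → (Fin n → ℝ)} (hX : TestField X) :
    ∫ x in E ∩ cube n, divergence X x ≤ (perimeter E).toReal := by
  have h1 : ENNReal.ofReal (∫ x in E ∩ cube n, divergence X x) ≤ perimeter E :=
    le_iSup₂_of_le X hX le_rfl
  exact (ENNReal.ofReal_le_iff_le_toReal h).mp h1

theorem measurableSet_slice {n : ℕ} (i : Fin (n + 1)) {E : Set (Fin (n + 1) → ℝ)}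
    (hE : MeasurableSet E) (t : ℝ) : MeasurableSet (slice i E t) :=
  ((measurable_insertNth' i).comp (measurable_const.prodMk measurable_id)) hE

theorem isPeriodic_slice {n : ℕ} (i : Fin (n + 1)) {E : Set (Fin (n + 1) → ℝ)}
    (hE : IsPeriodic E) (t : ℝ) : IsPeriodic (slice i E t) := by
  intro y k
  unfold slice
  simp only [mem_ofPred_eq]
  rw [← hE (i.insertNth (α := fun _ => ℝ) t y) (i.insertNth (α := fun _ => ℤ) 0 k)]
  have : (fun j => i.insertNth (α := fun _ => ℝ) t y j +
      ((i.insertNth (α := fun _ => ℤ) 0 k : Fin (n + 1) → ℤ) j : ℝ)) =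
      i.insertNth (α := fun _ => ℝ) t (fun i => y i + (k i : ℝ)) := by
    ext j
    refine Fin.succAboveCases i ?_ (fun j => ?_) j <;> simp
  rw [this]

theorem slice_add_one {n : ℕ} (i : Fin (n + 1)) {E : Set (Fin (n + 1) → ℝ)}
    (hE : IsPeriodic E) (t : ℝ) : slice i E (t + 1) = slice i E t := by
  ext y
  unfold slice
  simp only [mem_ofPred_eq]
  rw [← hE (i.insertNth (α := fun _ => ℝ) t y) (i.insertNth (α := fun _ => ℤ) 1 0)]
  have : (fun j => i.insertNth (α := fun _ => ℝ) t y j +
      ((i.insertNth (α := fun _ => ℤ) 1 0 : Fin (n + 1) → ℤ) j : ℝ)) =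
      i.insertNth (α := fun _ => ℝ) (t + 1) y := by
    ext j
    refine Fin.succAboveCases i ?_ (fun j => ?_) j <;> simp
  rw [this]

/-- The volume of the slice `x i = t`. -/
noncomputable def sv {n : ℕ} (i : Fin (n + 1)) (E : Set (Fin (n + 1) → ℝ)) (t : ℝ) : ℝ :=
  vol (slice i E t)

theorem vol_eq_integral {n : ℕ} {F : Set (Fin n → ℝ)} (hF : MeasurableSet F) :
    vol F = ∫ x in cube n, F.indicator (fun _ => (1 : ℝ)) x := by
  have := setIntegral_inter_cube hF (fun _ => (1 : ℝ))
  simp only [mul_one] at this
  rw [← this]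
  simp [vol, Measure.real]

theorem vol_nonneg {n : ℕ} (F : Set (Fin n → ℝ)) : 0 ≤ vol F := ENNReal.toReal_nonneg

theorem vol_le_one {n : ℕ} (F : Set (Fin n → ℝ)) : vol F ≤ 1 := by
  unfold vol
  have h : volume (F ∩ cube n) ≤ 1 := by
    rw [← volume_cube n]
    exact measure_mono inter_subset_right
  exact ENNReal.toReal_le_of_le_ofReal zero_le_one (by simpa using h)

/-- The points at which the mollifications converge on the slice. -/
def GoodPt {n : ℕ} (i : Fin (n + 1)) (E : Set (Fin (n + 1) → ℝ)) (t : ℝ) : Prop :=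
  ∀ᵐ y ∂(volume.restrict (cube n)), Tendsto (fun k => sliceFun i (moll (bump (n + 1) k) E) t y)
    atTop (𝓝 ((slice i E t).indicator (fun _ => (1 : ℝ)) y))

theorem ae_goodPt {n : ℕ} (i : Fin (n + 1)) {E : Set (Fin (n + 1) → ℝ)}
    (hE : MeasurableSet E) : ∀ᵐ t : ℝ, GoodPt i E t := by
  have h := tendsto_moll_bump hE
  have hmp := (volume_preserving_piFinSuccAbove (fun _ : Fin (n + 1) => ℝ) i).symm
  have h2 := hmp.quasiMeasurePreserving.ae h
  have h3 := Measure.ae_ae_of_ae_prod h2
  filter_upwards [h3] with t ht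
  apply ae_restrict_of_ae
  filter_upwards [ht] with y hy
  exact hy

theorem GoodPt.tendsto_sliceMean {n : ℕ} {i : Fin (n + 1)} {E : Set (Fin (n + 1) → ℝ)}
    (hE : MeasurableSet E) {t : ℝ} (ht : GoodPt i E t) :
    Tendsto (fun k => sliceMean i (moll (bump (n + 1) k) E) t) atTop (𝓝 (sv i E t)) := by
  unfold sv
  rw [vol_eq_integral (measurableSet_slice i hE t)]
  apply tendsto_integral_of_dominated_convergence (fun _ => (1 : ℝ))
  · intro k
    exact (contDiff_sliceFun (m := 1) i ((contDiff_moll (bump (n+1) k) hE).of_le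
      one_le_two) t).continuous.aestronglyMeasurable
  · exact integrable_const _
  · intro k
    filter_upwards with y
    rw [Real.norm_eq_abs, abs_of_nonneg (moll_nonneg _ _ _)]
    exact moll_le_one _ hE _
  · exact ht

theorem GoodPt.perimeter_le_liminf {n : ℕ} {i : Fin (n + 1)} {E : Set (Fin (n + 1) → ℝ)}
    (hE : MeasurableSet E) (hp : IsPeriodic E) {t : ℝ} (ht : GoodPt i E t) :
    perimeter (slice i E t) ≤
      liminf (fun k => ENNReal.ofReal (sliceTV i (moll (bump (n + 1) k) E) t)) atTop := by
  apply Vale.Agent.P232.perimeter_le_liminf (measurableSet_slice i hE t)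
  · intro k
    exact contDiff_sliceFun (m := 1) i ((contDiff_moll (bump (n+1) k) hE).of_le one_le_two) t
  · intro k
    exact perFun_sliceFun i (perFun_moll _ hp) t
  · intro k y
    change |moll _ E _| ≤ 1
    rw [abs_of_nonneg (moll_nonneg _ _ _)]
    exact moll_le_one _ hE _
  · exact ht

theorem slicing {n : ℕ} (i : Fin (n + 1)) {E : Set (Fin (n + 1) → ℝ)}
    (hE : MeasurableSet E) (hp : IsPeriodic E) {α β : ℝ → ℝ} (hα : Continuous α)
    (hβ : Continuous β) (hα0 : ∀ u, 0 ≤ α u) (hβ0 : ∀ u, 0 ≤ β u)
    (hαβ : ∀ u, α u ^ 2 + β u ^ 2 ≤ 1)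
    {s : ℕ → ℝ} (hs : Monotone s) {N : ℕ} (hN : s N = s 0 + 1) (hgood : ∀ j, GoodPt i E (s j)) :
    ENNReal.ofReal (∑ j ∈ Finset.range N, |prim α (sv i E (s (j + 1))) - prim α (sv i E (s j))|) +
      ∫⁻ t in Ico (0 : ℝ) 1, ENNReal.ofReal (β (sv i E t)) * perimeter (slice i E t) ≤
      perimeter E := by
  by_cases htop : perimeter E = ⊤
  · rw [htop]; exact le_top
  set f : ℕ → (Fin (n + 1) → ℝ) → ℝ := fun k => moll (bump (n + 1) k) E with hf
  have hfc : ∀ k, ContDiff ℝ 1 (f k) := fun k => (contDiff_moll _ hE).of_le one_le_two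
  have hfp : ∀ k, PerFun (f k) := fun k => perFun_moll _ hp
  set C := (perimeter E).toReal with hC
  set S : ℕ → ℝ := fun k => ∑ j ∈ Finset.range N,
    |prim α (sliceMean i (f k) (s (j + 1))) - prim α (sliceMean i (f k) (s j))| with hS
  set S' : ℝ := ∑ j ∈ Finset.range N, |prim α (sv i E (s (j + 1))) - prim α (sv i E (s j))|
    with hS'
  have hSlim : Tendsto S atTop (𝓝 S') := by
    apply tendsto_finsetSum
    intro j _
    apply Tendsto.abs
    apply Tendsto.sub
    · exact ((continuous_prim hα).tendsto _).comp ((hgood (j + 1)).tendsto_sliceMean hE)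
    · exact ((continuous_prim hα).tendsto _).comp ((hgood j).tendsto_sliceMean hE)
  have hmain : ∀ k, S k + ∫ t in Ico (0 : ℝ) 1, β (sliceMean i (f k) t) * sliceTV i (f k) t ≤ C := by
    intro k
    refine (slicing_smooth i (hfc k) (hfp k) hα hβ hα0 hαβ hs hN).trans ?_
    exact integral_gradNorm_moll_le _ hE hp
      (fun X hX => integral_divergence_le_of_perimeter htop hX)
  have hint0 : ∀ k, 0 ≤ ∫ t in Ico (0 : ℝ) 1, β (sliceMean i (f k) t) * sliceTV i (f k) t :=
    fun k => integral_nonneg fun t => mul_nonneg (hβ0 _) (sliceTV_nonneg _ _ _)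
  have hcont : ∀ k, Continuous (fun t => β (sliceMean i (f k) t) * sliceTV i (f k) t) := fun k =>
    (hβ.comp (continuous_sliceMean i (hfc k).continuous)).mul (continuous_sliceTV i (hfc k))
  have hb : ∀ k, ∫⁻ t in Ico (0 : ℝ) 1, ENNReal.ofReal (β (sliceMean i (f k) t)) *
      ENNReal.ofReal (sliceTV i (f k) t) ≤ ENNReal.ofReal (C - S k) := by
    intro k
    have e1 : ∀ t, ENNReal.ofReal (β (sliceMean i (f k) t)) * ENNReal.ofReal (sliceTV i (f k) t) =
        ENNReal.ofReal (β (sliceMean i (f k) t) * sliceTV i (f k) t) := fun t =>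
      (ENNReal.ofReal_mul (hβ0 _)).symm
    simp_rw [e1]
    rw [← ofReal_integral_eq_lintegral_ofReal]
    · apply ENNReal.ofReal_le_ofReal
      linarith [hmain k]
    · exact ((hcont k).continuousOn.integrableOn_compact isCompact_Icc).mono_set
        Ico_subset_Icc_self
    · filter_upwards with t
      exact mul_nonneg (hβ0 _) (sliceTV_nonneg _ _ _)
  have hB : ∫⁻ t in Ico (0 : ℝ) 1, ENNReal.ofReal (β (sv i E t)) * perimeter (slice i E t) ≤
      ENNReal.ofReal (C - S') := by
    have h1 : ∫⁻ t in Ico (0 : ℝ) 1, ENNReal.ofReal (β (sv i E t)) * perimeter (slice i E t) ≤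
        ∫⁻ t in Ico (0 : ℝ) 1, liminf (fun k => ENNReal.ofReal (β (sliceMean i (f k) t)) *
          ENNReal.ofReal (sliceTV i (f k) t)) atTop := by
      apply lintegral_mono_ae
      filter_upwards [ae_restrict_of_ae (ae_goodPt i hE)] with t ht
      have e1 : Tendsto (fun k => ENNReal.ofReal (β (sliceMean i (f k) t))) atTop
          (𝓝 (ENNReal.ofReal (β (sv i E t)))) :=
        ENNReal.tendsto_ofReal ((hβ.tendsto _).comp (ht.tendsto_sliceMean hE))
      rw [← e1.liminf_eq]
      refine le_trans ?_ ENNReal.le_liminf_mul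
      gcongr
      exact ht.perimeter_le_liminf hE hp
    refine h1.trans ?_
    refine (lintegral_liminf_le (fun k => ?_)).trans ?_
    · exact (ENNReal.measurable_ofReal.comp (hβ.comp
          (continuous_sliceMean i (hfc k).continuous)).measurable).mul
        (ENNReal.measurable_ofReal.comp (continuous_sliceTV i (hfc k)).measurable)
    · have h2 : Tendsto (fun k => ENNReal.ofReal (C - S k)) atTop (𝓝 (ENNReal.ofReal (C - S'))) :=
        ENNReal.tendsto_ofReal (tendsto_const_nhds.sub hSlim)
      rw [← h2.liminf_eq]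
      exact liminf_le_liminf (Eventually.of_forall fun k => hb k)
  have hS'C : S' ≤ C := by
    apply le_of_tendsto hSlim
    filter_upwards with k
    linarith [hmain k, hint0 k]
  have hS'0 : 0 ≤ S' := Finset.sum_nonneg fun j _ => abs_nonneg _
  calc _ ≤ ENNReal.ofReal S' + ENNReal.ofReal (C - S') := by gcongr
    _ = ENNReal.ofReal C := by
        rw [← ENNReal.ofReal_add hS'0 (by linarith)]
        congr 1
        ring
    _ = perimeter E := ENNReal.ofReal_toReal htop

end Vale.Agent.P232
end
end

section

section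

open MeasureTheory Set Filter Topology ContinuousLinearMap
open scoped Pointwise Convolution

namespace Vale.Agent.P232

/-- Remove from `E` the part lying over the arc `[a, b)` (modulo one) of the `i`-th circle. -/
def cut {n : ℕ} (i : Fin (n + 1)) (a b : ℝ) (E : Set (Fin (n + 1) → ℝ)) :
    Set (Fin (n + 1) → ℝ) := {x | x ∈ E ∧ b - a ≤ Int.fract (x i - a)}

theorem cut_subset {n : ℕ} (i : Fin (n + 1)) (a b : ℝ) (E : Set (Fin (n + 1) → ℝ)) :
    cut i a b E ⊆ E := fun _ hx => hx.1

theorem measurableSet_cut {n : ℕ} (i : Fin (n + 1)) (a b : ℝ) {E : Set (Fin (n + 1) → ℝ)}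
    (hE : MeasurableSet E) : MeasurableSet (cut i a b E) := by
  have h0 : Measurable (fun x : Fin (n + 1) → ℝ => x i - a) := by fun_prop
  have h : MeasurableSet {x : Fin (n + 1) → ℝ | b - a ≤ Int.fract (x i - a)} :=
    measurableSet_le measurable_const (measurable_fract.comp h0)
  exact hE.inter h

theorem isPeriodic_cut {n : ℕ} (i : Fin (n + 1)) (a b : ℝ) {E : Set (Fin (n + 1) → ℝ)}
    (hE : IsPeriodic E) : IsPeriodic (cut i a b E) := by
  intro x k
  unfold cut
  simp only [mem_ofPred_eq]
  rw [hE x k]
  have : x i + (k i : ℝ) - a = x i - a + (k i : ℝ) := by ring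
  rw [this, Int.fract_add_intCast]

theorem slice_cut_of_mem {n : ℕ} (i : Fin (n + 1)) {a b : ℝ} (E : Set (Fin (n + 1) → ℝ))
    (hab : a ≤ b) {t : ℝ} (ht : t ∈ Ico b (a + 1)) : slice i (cut i a b E) t = slice i E t := by
  ext y
  unfold slice cut
  simp only [mem_ofPred_eq, Fin.insertNth_apply_same]
  have h : Int.fract (t - a) = t - a := by
    rw [Int.fract_eq_self]
    constructor <;> linarith [ht.1, ht.2]
  rw [h]
  constructor
  · exact fun h => h.1
  · exact fun h => ⟨h, by linarith [ht.1]⟩

theorem slice_cut_of_mem' {n : ℕ} (i : Fin (n + 1)) {a b : ℝ} (E : Set (Fin (n + 1) → ℝ))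
    (hb : b ≤ a + 1) {t : ℝ} (ht : t ∈ Ico a b) : slice i (cut i a b E) t = ∅ := by
  ext y
  unfold slice cut
  simp only [mem_ofPred_eq, Fin.insertNth_apply_same, mem_empty_iff_false, iff_false, not_and]
  have h : Int.fract (t - a) = t - a := by
    rw [Int.fract_eq_self]
    constructor <;> linarith [ht.1, ht.2]
  rw [h]
  intro _
  linarith [ht.2]

/-- The tangential part of a field on a slice. -/
def sliceField {n : ℕ} (i : Fin (n + 1)) (G : (Fin (n + 1) → ℝ) → (Fin (n + 1) → ℝ)) (t : ℝ) :
    (Fin n → ℝ) → (Fin n → ℝ) :=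
  fun y j => G (i.insertNth (α := fun _ => ℝ) t y) (i.succAbove j)

theorem contDiff_sliceField {n : ℕ} (i : Fin (n + 1))
    {G : (Fin (n + 1) → ℝ) → (Fin (n + 1) → ℝ)} (hG : ContDiff ℝ 1 G) (t : ℝ) :
    ContDiff ℝ 1 (sliceField i G t) := by
  rw [contDiff_pi]
  intro j
  exact contDiff_sliceFun (m := 1) i (contDiff_pi.mp hG (i.succAbove j)) t

theorem perFun_sliceField {n : ℕ} (i : Fin (n + 1))
    {G : (Fin (n + 1) → ℝ) → (Fin (n + 1) → ℝ)} (hG : PerFun G) (t : ℝ) :
    PerFun (sliceField i G t) := by
  intro y k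
  ext j
  exact perFun_sliceFun i (f := fun x => G x (i.succAbove j))
    (fun x k => by simp only [hG x k]) t y k

theorem divergence_insertNth {n : ℕ} (i : Fin (n + 1))
    {G : (Fin (n + 1) → ℝ) → (Fin (n + 1) → ℝ)} (hG : ContDiff ℝ 1 G) (t : ℝ) (y : Fin n → ℝ) :
    divergence G (i.insertNth (α := fun _ => ℝ) t y) =
      fderiv ℝ (fun x => G x i) (i.insertNth (α := fun _ => ℝ) t y) (Pi.single i 1) +
        divergence (sliceField i G t) y := by
  unfold divergence
  rw [Fin.sum_univ_succAbove _ i]
  have hd : DifferentiableAt ℝ G (i.insertNth (α := fun _ => ℝ) t y) :=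
    hG.differentiable one_ne_zero _
  have hc : ∀ j, fderiv ℝ (fun x => G x j) (i.insertNth (α := fun _ => ℝ) t y) =
      (ContinuousLinearMap.proj j).comp (fderiv ℝ G (i.insertNth (α := fun _ => ℝ) t y)) := by
    intro j
    exact ((hasFDerivAt_pi'.mp hd.hasFDerivAt) j).fderiv
  congr 1
  · rw [hc i]; rfl
  · apply Finset.sum_congr rfl
    intro j _
    have h2 : DifferentiableAt ℝ (sliceField i G t) y :=
      (contDiff_sliceField i hG t).differentiable one_ne_zero _
    have h3 : fderiv ℝ (fun y => sliceField i G t y j) y =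
        (ContinuousLinearMap.proj j).comp (fderiv ℝ (sliceField i G t) y) :=
      ((hasFDerivAt_pi'.mp h2.hasFDerivAt) j).fderiv
    have h4 : fderiv ℝ (sliceField i G t) y (Pi.single j 1) j =
        fderiv ℝ (fun y => sliceField i G t y j) y (Pi.single j 1) := by
      rw [h3]; rfl
    rw [h4]
    have h5 := fderiv_sliceFun i (f := fun x => G x (i.succAbove j))
      (contDiff_pi.mp hG (i.succAbove j)) t y j
    have h6 : (fun y => sliceField i G t y j) = sliceFun i (fun x => G x (i.succAbove j)) t := rfl
    rw [h6, h5, hc]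
    rfl

theorem sliceMean_divergence {n : ℕ} (i : Fin (n + 1))
    {G : (Fin (n + 1) → ℝ) → (Fin (n + 1) → ℝ)} (hG : ContDiff ℝ 1 G) (hp : PerFun G) (t : ℝ) :
    sliceMean i (divergence G) t =
      sliceMean i (fun x => fderiv ℝ (fun x => G x i) x (Pi.single i 1)) t := by
  unfold sliceMean
  simp_rw [divergence_insertNth i hG t]
  rw [integral_add, integral_divergence_eq_zero (contDiff_sliceField i hG t)
    (perFun_sliceField i hp t), add_zero]
  · apply integrableOn_cube
    have h1 := (contDiff_pi.mp hG i).continuous_fderiv one_ne_zero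
    exact (h1.clm_apply continuous_const).comp
      ((continuous_insertNth' i).comp (continuous_const.prodMk continuous_id))
  · exact integrableOn_cube (continuous_divergence (contDiff_sliceField i hG t))

theorem integral_sliceMean_divergence {n : ℕ} (i : Fin (n + 1))
    {G : (Fin (n + 1) → ℝ) → (Fin (n + 1) → ℝ)} (hG : ContDiff ℝ 1 G) (hp : PerFun G) (a b : ℝ) :
    ∫ t in a..b, sliceMean i (divergence G) t =
      sliceMean i (fun x => G x i) b - sliceMean i (fun x => G x i) a := by
  simp_rw [sliceMean_divergence i hG hp]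
  apply intervalIntegral.integral_eq_sub_of_hasDerivAt
  · intro t _
    exact hasDerivAt_sliceMean i (contDiff_pi.mp hG i) t
  · exact (continuous_deriv_sliceMean i (contDiff_pi.mp hG i)).intervalIntegrable _ _

/-- The basic inequality for smooth functions restricted to `b ≤ x i ≤ a + 1`. -/
theorem cut_smooth {n : ℕ} (i : Fin (n + 1)) {f : (Fin (n + 1) → ℝ) → ℝ}
    (hf : ContDiff ℝ 1 f) (hp : PerFun f) (hf0 : ∀ x, 0 ≤ f x)
    {X : (Fin (n + 1) → ℝ) → (Fin (n + 1) → ℝ)} (hX : TestField X) {a b : ℝ}
    (hab : a ≤ b) (hb : b ≤ a + 1) :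
    (∫ t in b..(a + 1), sliceMean i (fun x => f x * divergence X x) t) +
      ∫ t in a..b, sliceTV i f t ≤
      (∫ x in cube (n + 1), gradNorm f x) + sliceMean i f a + sliceMean i f b := by
  have hGc : ContDiff ℝ 1 (fun x => f x • X x) := hf.smul hX.contDiff
  have hGp : PerFun (fun x => f x • X x) := fun x k => by simp only [hp x k, hX.periodic x k]
  have hdX := continuous_divergence hX.contDiff
  have hgr : Continuous (fun x => ∑ j, fderiv ℝ f x (Pi.single j 1) * X x j) := by
    have h := hf.continuous_fderiv one_ne_zero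
    have h' := hX.contDiff.continuous
    fun_prop
  have hdiv : ∀ x, f x * divergence X x = divergence (fun x => f x • X x) x -
      ∑ j, fderiv ℝ f x (Pi.single j 1) * X x j := fun x => by
    rw [divergence_smul (hf.differentiable one_ne_zero x)
      (hX.contDiff.differentiable one_ne_zero x)]
    ring
  have e1 : ∀ t, sliceMean i (fun x => f x * divergence X x) t =
      sliceMean i (divergence (fun x => f x • X x)) t -
        sliceMean i (fun x => ∑ j, fderiv ℝ f x (Pi.single j 1) * X x j) t := by
    intro t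
    unfold sliceMean
    simp_rw [hdiv]
    have hins : Continuous (fun y : Fin n → ℝ => i.insertNth (α := fun _ => ℝ) t y) :=
      (continuous_insertNth' i).comp (continuous_const.prodMk continuous_id)
    rw [integral_sub]
    · exact integrableOn_cube ((continuous_divergence hGc).comp hins)
    · exact integrableOn_cube (hgr.comp hins)
  simp_rw [e1]
  rw [intervalIntegral.integral_sub
    ((continuous_sliceMean i (continuous_divergence hGc)).intervalIntegrable _ _)
    ((continuous_sliceMean i hgr).intervalIntegrable _ _),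
    integral_sliceMean_divergence i hGc hGp]
  have hXi : ∀ x, |X x i| ≤ 1 := by
    intro x
    have h1 := hX.bound x
    have h2 : X x i ^ 2 ≤ ∑ j, X x j ^ 2 :=
      Finset.single_le_sum (f := fun j => X x j ^ 2) (fun j _ => sq_nonneg _) (Finset.mem_univ i)
    exact abs_le_one_iff_mul_self_le_one.mpr (by linarith only [h1, h2])
  have hm : ∀ t, |sliceMean i (fun x => (f x • X x) i) t| ≤ sliceMean i f t := by
    intro t
    unfold sliceMean
    have hins : Continuous (fun y : Fin n → ℝ => i.insertNth (α := fun _ => ℝ) t y) :=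
      (continuous_insertNth' i).comp (continuous_const.prodMk continuous_id)
    refine abs_integral_le_integral_abs.trans ?_
    apply integral_mono
    · exact integrableOn_cube ((((continuous_apply i).comp hGc.continuous).comp hins).abs)
    · exact integrableOn_cube (hf.continuous.comp hins)
    · intro y
      simp only [Pi.smul_apply, smul_eq_mul, abs_mul]
      rw [abs_of_nonneg (hf0 _)]
      exact mul_le_of_le_one_right (hf0 _) (hXi _)
  have hper : sliceMean i (fun x => (f x • X x) i) (a + 1) =
      sliceMean i (fun x => (f x • X x) i) a :=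
    sliceMean_add_one i (fun x k => by simp only [hp x k, hX.periodic x k]) a
  have hgrad : ∀ t, - sliceMean i (fun x => ∑ j, fderiv ℝ f x (Pi.single j 1) * X x j) t ≤
      sliceMean i (gradNorm f) t := by
    intro t
    unfold sliceMean
    have hins : Continuous (fun y : Fin n → ℝ => i.insertNth (α := fun _ => ℝ) t y) :=
      (continuous_insertNth' i).comp (continuous_const.prodMk continuous_id)
    rw [← integral_neg]
    apply integral_mono
    · exact integrableOn_cube (hgr.comp hins).neg
    · exact integrableOn_cube ((continuous_gradNorm hf).comp hins)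
    · intro y
      have h1 := abs_sum_mul_le
        (fun j => fderiv ℝ f (i.insertNth (α := fun _ => ℝ) t y) (Pi.single j 1))
        (X (i.insertNth (α := fun _ => ℝ) t y))
      have h2 : Real.sqrt (∑ j, X (i.insertNth (α := fun _ => ℝ) t y) j ^ 2) ≤ 1 :=
        Real.sqrt_le_iff.mpr ⟨zero_le_one, by simpa using hX.bound _⟩
      exact (neg_le_abs _).trans (h1.trans (mul_le_of_le_one_right (Real.sqrt_nonneg _) h2))
  have hgc := continuous_sliceMean i (continuous_gradNorm hf)
  have h3 : - ∫ t in b..(a + 1), sliceMean i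
      (fun x => ∑ j, fderiv ℝ f x (Pi.single j 1) * X x j) t ≤
      ∫ t in b..(a + 1), sliceMean i (gradNorm f) t := by
    rw [← intervalIntegral.integral_neg]
    apply intervalIntegral.integral_mono_on hb
    · exact ((continuous_sliceMean i hgr).neg).intervalIntegrable _ _
    · exact hgc.intervalIntegrable _ _
    · intro t _
      exact hgrad t
  have h4 : ∫ t in a..b, sliceTV i f t ≤ ∫ t in a..b, sliceMean i (gradNorm f) t := by
    apply intervalIntegral.integral_mono_on hab
    · exact (continuous_sliceTV i hf).intervalIntegrable _ _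
    · exact hgc.intervalIntegrable _ _
    · intro t _
      have := sliceMean_gradNorm_ge i hf t (a := 0) (b := 1) le_rfl (by norm_num)
      simpa [sliceTV] using this
  have h5 : (∫ t in a..b, sliceMean i (gradNorm f) t) +
      ∫ t in b..(a + 1), sliceMean i (gradNorm f) t = ∫ x in cube (n + 1), gradNorm f x := by
    rw [intervalIntegral.integral_add_adjacent_intervals (hgc.intervalIntegrable _ _)
      (hgc.intervalIntegrable _ _), integral_sliceMean i (continuous_gradNorm hf)]
    exact integral_Ico_eq (fun t => sliceMean_add_one i hp.gradNorm t) a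
  have h6 := neg_abs_le (sliceMean i (fun x => (f x • X x) i) b)
  have h7 := le_abs_self (sliceMean i (fun x => (f x • X x) i) a)
  have h8 := hm a
  have h9 := hm b
  linarith only [hper, h3, h4, h5, h6, h7, h8, h9]

end Vale.Agent.P232
end
end

section

section

open MeasureTheory Set Filter Topology ContinuousLinearMap
open scoped Pointwise Convolution

namespace Vale.Agent.P232

theorem sv_nonneg {n : ℕ} (i : Fin (n + 1)) (E : Set (Fin (n + 1) → ℝ)) (t : ℝ) :
    0 ≤ sv i E t := vol_nonneg _

theorem sv_le_one {n : ℕ} (i : Fin (n + 1)) (E : Set (Fin (n + 1) → ℝ)) (t : ℝ) :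
    sv i E t ≤ 1 := vol_le_one _

theorem sv_add_one {n : ℕ} (i : Fin (n + 1)) {E : Set (Fin (n + 1) → ℝ)} (hE : IsPeriodic E)
    (t : ℝ) : sv i E (t + 1) = sv i E t := by
  unfold sv
  rw [slice_add_one i hE]

theorem measurable_indicator_insertNth {n : ℕ} (i : Fin (n + 1)) {E : Set (Fin (n + 1) → ℝ)}
    (hE : MeasurableSet E) : Measurable (fun p : ℝ × (Fin n → ℝ) =>
      E.indicator (fun _ => (1 : ℝ)) (i.insertNth (α := fun _ => ℝ) p.1 p.2)) :=
  (measurable_indicator' hE).comp (measurable_insertNth' i)

theorem sv_eq_integral {n : ℕ} (i : Fin (n + 1)) {E : Set (Fin (n + 1) → ℝ)}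
    (hE : MeasurableSet E) (t : ℝ) :
    sv i E t = sliceMean i (E.indicator (fun _ => (1 : ℝ))) t := by
  unfold sv sliceMean
  rw [vol_eq_integral (measurableSet_slice i hE t)]
  rfl

theorem measurable_sv {n : ℕ} (i : Fin (n + 1)) {E : Set (Fin (n + 1) → ℝ)}
    (hE : MeasurableSet E) : Measurable (sv i E) := by
  have h : sv i E = fun t => ∫ y in cube n,
      E.indicator (fun _ => (1 : ℝ)) (i.insertNth (α := fun _ => ℝ) t y) := by
    ext t
    exact sv_eq_integral i hE t
  rw [h]
  have h2 := (measurable_indicator_insertNth i hE).stronglyMeasurable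
  exact (h2.integral_prod_right (ν := volume.restrict (cube n))).measurable

theorem integrableOn_indicator {n : ℕ} {E : Set (Fin n → ℝ)} (hE : MeasurableSet E) :
    IntegrableOn (E.indicator (fun _ => (1 : ℝ))) (cube n) := by
  apply Integrable.indicator _ hE
  exact integrable_const _

theorem vol_eq_integral_sv {n : ℕ} (i : Fin (n + 1)) {E : Set (Fin (n + 1) → ℝ)}
    (hE : MeasurableSet E) : vol E = ∫ t in Ico (0 : ℝ) 1, sv i E t := by
  rw [vol_eq_integral hE, integral_cube_succ i _ (integrableOn_indicator hE)]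
  congr 1
  ext t
  exact (sv_eq_integral i hE t).symm

theorem intervalIntegrable_sv {n : ℕ} (i : Fin (n + 1)) {E : Set (Fin (n + 1) → ℝ)}
    (hE : MeasurableSet E) (a b : ℝ) : IntervalIntegrable (sv i E) volume a b := by
  rw [intervalIntegrable_iff]
  refine Measure.integrableOn_of_bounded (M := 1) ?_ (measurable_sv i hE).aestronglyMeasurable ?_
  · exact (measure_Ioc_lt_top).ne
  · filter_upwards with t
    rw [Real.norm_eq_abs, abs_of_nonneg (sv_nonneg _ _ _)]
    exact sv_le_one _ _ _

theorem vol_eq_intervalIntegral {n : ℕ} (i : Fin (n + 1)) {E : Set (Fin (n + 1) → ℝ)}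
    (hE : MeasurableSet E) (hp : IsPeriodic E) (a : ℝ) :
    vol E = ∫ t in a..(a + 1), sv i E t := by
  rw [vol_eq_integral_sv i hE, integral_Ico_eq (sv_add_one i hp)]

theorem sv_cut_of_mem {n : ℕ} (i : Fin (n + 1)) {a b : ℝ} (E : Set (Fin (n + 1) → ℝ))
    (hab : a ≤ b) {t : ℝ} (ht : t ∈ Ico b (a + 1)) : sv i (cut i a b E) t = sv i E t := by
  unfold sv
  rw [slice_cut_of_mem i E hab ht]

theorem sv_cut_of_mem' {n : ℕ} (i : Fin (n + 1)) {a b : ℝ} (E : Set (Fin (n + 1) → ℝ))
    (hb : b ≤ a + 1) {t : ℝ} (ht : t ∈ Ico a b) : sv i (cut i a b E) t = 0 := by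
  unfold sv
  rw [slice_cut_of_mem' i E hb ht]
  simp [vol]

theorem vol_cut {n : ℕ} (i : Fin (n + 1)) {a b : ℝ} {E : Set (Fin (n + 1) → ℝ)}
    (hE : MeasurableSet E) (hp : IsPeriodic E) (hab : a ≤ b) (hb : b ≤ a + 1) :
    vol (cut i a b E) = vol E - ∫ t in a..b, sv i E t := by
  have hE' := measurableSet_cut i a b hE
  rw [vol_eq_intervalIntegral i hE' (isPeriodic_cut i a b hp) a,
    vol_eq_intervalIntegral i hE hp a,
    ← intervalIntegral.integral_add_adjacent_intervals
      (intervalIntegrable_sv i hE' a b) (intervalIntegrable_sv i hE' b (a + 1)),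
    ← intervalIntegral.integral_add_adjacent_intervals
      (intervalIntegrable_sv i hE a b) (intervalIntegrable_sv i hE b (a + 1))]
  have h1 : ∫ t in a..b, sv i (cut i a b E) t = 0 := by
    rw [intervalIntegral.integral_of_le hab, ← integral_Ico_eq_integral_Ioc]
    rw [setIntegral_congr_fun measurableSet_Ico (g := fun _ => (0 : ℝ))]
    · simp
    · intro t ht
      exact sv_cut_of_mem' i E hb ht
  have h2 : ∫ t in b..(a + 1), sv i (cut i a b E) t = ∫ t in b..(a + 1), sv i E t := by
    rw [intervalIntegral.integral_of_le hb, intervalIntegral.integral_of_le hb,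
      ← integral_Ico_eq_integral_Ioc, ← integral_Ico_eq_integral_Ioc]
    apply setIntegral_congr_fun measurableSet_Ico
    intro t ht
    exact sv_cut_of_mem i E hab ht
  rw [h1, h2]
  ring

theorem perFun_indicator_mul {n : ℕ} {E : Set (Fin n → ℝ)} (hp : IsPeriodic E)
    {g : (Fin n → ℝ) → ℝ} (hg : PerFun g) :
    PerFun (fun x => E.indicator (fun _ => (1 : ℝ)) x * g x) := by
  intro x k
  simp only
  rw [perFun_indicator hp x k, hg x k]

/-- The divergence integral over the cut set. -/
theorem integral_divergence_cut {n : ℕ} (i : Fin (n + 1)) {a b : ℝ}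
    {E : Set (Fin (n + 1) → ℝ)} (hE : MeasurableSet E) (hp : IsPeriodic E)
    (hab : a ≤ b) (hb : b ≤ a + 1)
    {X : (Fin (n + 1) → ℝ) → (Fin (n + 1) → ℝ)} (hX : TestField X) :
    ∫ x in cut i a b E ∩ cube (n + 1), divergence X x =
      ∫ t in b..(a + 1),
        sliceMean i (fun x => E.indicator (fun _ => (1 : ℝ)) x * divergence X x) t := by
  have hE' := measurableSet_cut i a b hE
  have hp' := isPeriodic_cut i a b hp
  have hdX := continuous_divergence hX.contDiff
  have hdp := hX.perFun.divergence
  have hint : ∀ {F : Set (Fin (n + 1) → ℝ)}, MeasurableSet F → IntegrableOn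
      (fun x => F.indicator (fun _ => (1 : ℝ)) x * divergence X x) (cube (n + 1)) := by
    intro F hF
    have h1 : IntegrableOn (F.indicator (divergence X)) (cube (n + 1)) :=
      Integrable.indicator (integrableOn_cube hdX) hF
    refine h1.congr ?_
    filter_upwards with x
    by_cases hx : x ∈ F <;> simp [hx]
  rw [setIntegral_inter_cube hE', integral_cube_succ i _ (hint hE')]
  change ∫ t in Ico (0 : ℝ) 1, sliceMean i
    (fun x => (cut i a b E).indicator (fun _ => (1 : ℝ)) x * divergence X x) t = _
  obtain ⟨K, hK⟩ := (isCompact_Icc (a := (0 : Fin (n + 1) → ℝ)) (b := 1)).exists_bound_of_continuousOn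
    hdX.continuousOn
  have hK' : ∀ x, |divergence X x| ≤ K := by
    intro x
    have h1 := hdp x (fun j => - ⌊x j⌋)
    rw [← h1, ← Real.norm_eq_abs]
    apply hK
    constructor
    · intro j
      have := Int.fract_nonneg (x j)
      simp only [Pi.zero_apply, Int.cast_neg]
      rw [← sub_eq_add_neg]
      exact this
    · intro j
      have := (Int.fract_lt_one (x j)).le
      simp only [Pi.one_apply, Int.cast_neg]
      rw [← sub_eq_add_neg]
      exact this
  have hii : ∀ {F : Set (Fin (n + 1) → ℝ)}, MeasurableSet F → ∀ c d : ℝ, IntervalIntegrable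
      (sliceMean i (fun x => F.indicator (fun _ => (1 : ℝ)) x * divergence X x)) volume c d := by
    intro F hF c d
    rw [intervalIntegrable_iff]
    have hm : Measurable (fun p : ℝ × (Fin n → ℝ) =>
        F.indicator (fun _ => (1 : ℝ)) (i.insertNth (α := fun _ => ℝ) p.1 p.2) *
          divergence X (i.insertNth (α := fun _ => ℝ) p.1 p.2)) :=
      (measurable_indicator_insertNth i hF).mul (hdX.measurable.comp (measurable_insertNth' i))
    have hm2 : StronglyMeasurable
        (sliceMean i (fun x => F.indicator (fun _ => (1 : ℝ)) x * divergence X x)) :=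
      hm.stronglyMeasurable.integral_prod_right (ν := volume.restrict (cube n))
    refine Measure.integrableOn_of_bounded (M := K) (measure_Ioc_lt_top).ne
      hm2.aestronglyMeasurable ?_
    filter_upwards with t
    unfold sliceMean
    refine (norm_integral_le_integral_norm _).trans ?_
    calc ∫ y in cube n, ‖F.indicator (fun _ => (1 : ℝ)) (i.insertNth (α := fun _ => ℝ) t y) *
          divergence X (i.insertNth (α := fun _ => ℝ) t y)‖ ≤ ∫ y in cube n, K := by
          apply integral_mono_of_nonneg
          · filter_upwards with y using norm_nonneg _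
          · exact integrable_const _
          · filter_upwards with y
            rw [norm_mul, Real.norm_eq_abs, abs_of_nonneg (indicator_nonneg' _ _),
              Real.norm_eq_abs]
            have h1 := indicator_le_one' F (i.insertNth (α := fun _ => ℝ) t y)
            have h2 := hK' (i.insertNth (α := fun _ => ℝ) t y)
            have h3 := abs_nonneg (divergence X (i.insertNth (α := fun _ => ℝ) t y))
            have h4 := indicator_nonneg' F (i.insertNth (α := fun _ => ℝ) t y)
            linarith only [mul_nonneg (sub_nonneg.2 h2) (sub_nonneg.2 h4), mul_nonneg (sub_nonneg.2 h1) (sub_nonneg.2 h3), mul_nonneg (sub_nonneg.2 h1) (sub_nonneg.2 h2)]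
      _ = K := by simp
  rw [← integral_Ico_eq (sliceMean_add_one i (perFun_indicator_mul hp' hdp)) a,
    ← intervalIntegral.integral_add_adjacent_intervals (hii hE' a b) (hii hE' b (a + 1))]
  have h1 : ∫ t in a..b, sliceMean i
      (fun x => (cut i a b E).indicator (fun _ => (1 : ℝ)) x * divergence X x) t = 0 := by
    rw [intervalIntegral.integral_of_le hab, ← integral_Ico_eq_integral_Ioc]
    rw [setIntegral_congr_fun measurableSet_Ico (g := fun _ => (0 : ℝ))]
    · simp
    · intro t ht
      have h := slice_cut_of_mem' i E hb ht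
      unfold sliceMean
      have h' : ∀ y : Fin n → ℝ, (cut i a b E).indicator (fun _ => (1 : ℝ))
          (i.insertNth (α := fun _ => ℝ) t y) = 0 := by
        intro y
        apply Set.indicator_of_notMem
        intro hy
        have : y ∈ slice i (cut i a b E) t := hy
        rw [h] at this
        exact this
      simp_rw [h']
      simp
  have h2 : ∫ t in b..(a + 1), sliceMean i
      (fun x => (cut i a b E).indicator (fun _ => (1 : ℝ)) x * divergence X x) t =
      ∫ t in b..(a + 1), sliceMean i
        (fun x => E.indicator (fun _ => (1 : ℝ)) x * divergence X x) t := by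
    rw [intervalIntegral.integral_of_le hb, intervalIntegral.integral_of_le hb,
      ← integral_Ico_eq_integral_Ioc, ← integral_Ico_eq_integral_Ioc]
    apply setIntegral_congr_fun measurableSet_Ico
    intro t ht
    have h := slice_cut_of_mem i E hab ht
    unfold sliceMean
    simp only
    congr 1
    ext y
    congr 1
    have h1 : (i.insertNth (α := fun _ => ℝ) t y ∈ cut i a b E) ↔
        (i.insertNth (α := fun _ => ℝ) t y ∈ E) := by
      change y ∈ slice i (cut i a b E) t ↔ y ∈ slice i E t
      rw [h]
    by_cases hy : i.insertNth (α := fun _ => ℝ) t y ∈ E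
    · rw [Set.indicator_of_mem hy, Set.indicator_of_mem (h1.mpr hy)]
    · rw [Set.indicator_of_notMem hy, Set.indicator_of_notMem (fun h' => hy (h1.mp h'))]
  rw [h1, h2, zero_add]

end Vale.Agent.P232
end
end

section

section

open MeasureTheory Set Filter Topology ContinuousLinearMap
open scoped Pointwise Convolution

namespace Vale.Agent.P232

theorem exists_bound_divergence {n : ℕ} {X : (Fin n → ℝ) → (Fin n → ℝ)} (hX : TestField X) :
    ∃ K, ∀ x, |divergence X x| ≤ K := by
  have hdX := continuous_divergence hX.contDiff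
  have hdp := hX.perFun.divergence
  obtain ⟨K, hK⟩ := (isCompact_Icc (a := (0 : Fin n → ℝ)) (b := 1)).exists_bound_of_continuousOn
    hdX.continuousOn
  refine ⟨K, fun x => ?_⟩
  have h1 := hdp x (fun j => - ⌊x j⌋)
  rw [← h1, ← Real.norm_eq_abs]
  apply hK
  constructor
  · intro j
    have := Int.fract_nonneg (x j)
    simp only [Pi.zero_apply, Int.cast_neg]
    rw [← sub_eq_add_neg]
    exact this
  · intro j
    have := (Int.fract_lt_one (x j)).le
    simp only [Pi.one_apply, Int.cast_neg]
    rw [← sub_eq_add_neg]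
    exact this

theorem GoodPt.tendsto_sliceMean_mul {n : ℕ} {i : Fin (n + 1)} {E : Set (Fin (n + 1) → ℝ)}
    (hE : MeasurableSet E) {t : ℝ} (ht : GoodPt i E t)
    {X : (Fin (n + 1) → ℝ) → (Fin (n + 1) → ℝ)} (hX : TestField X) :
    Tendsto (fun k => sliceMean i (fun x => moll (bump (n + 1) k) E x * divergence X x) t) atTop
      (𝓝 (sliceMean i (fun x => E.indicator (fun _ => (1 : ℝ)) x * divergence X x) t)) := by
  obtain ⟨K, hK⟩ := exists_bound_divergence hX
  have hins : Continuous (fun y : Fin n → ℝ => i.insertNth (α := fun _ => ℝ) t y) :=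
    (continuous_insertNth' i).comp (continuous_const.prodMk continuous_id)
  unfold sliceMean
  apply tendsto_integral_of_dominated_convergence (fun _ => K)
  · intro k
    exact (((contDiff_moll (bump (n+1) k) hE).continuous.mul
      (continuous_divergence hX.contDiff)).comp hins).aestronglyMeasurable
  · exact integrable_const _
  · intro k
    filter_upwards with y
    rw [norm_mul, Real.norm_eq_abs, Real.norm_eq_abs, abs_of_nonneg (moll_nonneg _ _ _)]
    have h1 := moll_le_one (bump (n+1) k) hE (i.insertNth (α := fun _ => ℝ) t y)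
    have h2 := hK (i.insertNth (α := fun _ => ℝ) t y)
    have h3 := abs_nonneg (divergence X (i.insertNth (α := fun _ => ℝ) t y))
    have h4 := moll_nonneg (bump (n+1) k) E (i.insertNth (α := fun _ => ℝ) t y)
    nlinarith
  · filter_upwards [ht] with y hy
    exact hy.mul_const _

/-- **Cutting.**  Removing the part of `E` over an arc `[a, b)` costs at most the two slices at
`a` and `b` and gains the perimeters of the slices in between. -/
theorem cut_perimeter {n : ℕ} (i : Fin (n + 1)) {a b : ℝ}
    {E : Set (Fin (n + 1) → ℝ)} (hE : MeasurableSet E) (hp : IsPeriodic E)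
    (hab : a ≤ b) (hb : b ≤ a + 1) (ga : GoodPt i E a) (gb : GoodPt i E b) :
    perimeter (cut i a b E) + ∫⁻ t in Ico a b, perimeter (slice i E t) ≤
      perimeter E + ENNReal.ofReal (sv i E a + sv i E b) := by
  by_cases htop : perimeter E = ⊤
  · rw [htop, top_add]; exact le_top
  set f : ℕ → (Fin (n + 1) → ℝ) → ℝ := fun k => moll (bump (n + 1) k) E with hf
  have hfc : ∀ k, ContDiff ℝ 1 (f k) := fun k => (contDiff_moll _ hE).of_le one_le_two
  have hfp : ∀ k, PerFun (f k) := fun k => perFun_moll _ hp
  set C := (perimeter E).toReal with hC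
  have hgr : ∀ k, ∫ x in cube (n + 1), gradNorm (f k) x ≤ C := fun k =>
    integral_gradNorm_moll_le _ hE hp (fun X hX => integral_divergence_le_of_perimeter htop hX)
  have hva := sv_nonneg i E a
  have hvb := sv_nonneg i E b
  -- the key estimate
  have key : ∀ X, TestField X →
      (∫ x in cut i a b E ∩ cube (n + 1), divergence X x) ≤ C + sv i E a + sv i E b ∧
      ∫⁻ t in Ico a b, perimeter (slice i E t) ≤ ENNReal.ofReal (C + sv i E a + sv i E b -
        ∫ x in cut i a b E ∩ cube (n + 1), divergence X x) := by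
    intro X hX
    set D := ∫ x in cut i a b E ∩ cube (n + 1), divergence X x with hD
    obtain ⟨K, hK⟩ := exists_bound_divergence hX
    have hDk : Tendsto (fun k => ∫ t in b..(a + 1),
        sliceMean i (fun x => f k x * divergence X x) t) atTop (𝓝 D) := by
      rw [hD, integral_divergence_cut i hE hp hab hb hX]
      apply intervalIntegral.tendsto_integral_filter_of_dominated_convergence (fun _ => K)
      · filter_upwards with k
        apply Continuous.aestronglyMeasurable
        apply continuous_sliceMean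
        exact (hfc k).continuous.mul (continuous_divergence hX.contDiff)
      · filter_upwards with k
        filter_upwards with t _
        unfold sliceMean
        refine (norm_integral_le_integral_norm _).trans ?_
        calc ∫ y in cube n, ‖f k (i.insertNth (α := fun _ => ℝ) t y) *
              divergence X (i.insertNth (α := fun _ => ℝ) t y)‖ ≤ ∫ y in cube n, K := by
              apply integral_mono_of_nonneg
              · filter_upwards with y using norm_nonneg _
              · exact integrable_const _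
              · filter_upwards with y
                rw [norm_mul, Real.norm_eq_abs, abs_of_nonneg (moll_nonneg _ _ _),
                  Real.norm_eq_abs]
                have h1 := moll_le_one (bump (n+1) k) hE (i.insertNth (α := fun _ => ℝ) t y)
                have h2 := hK (i.insertNth (α := fun _ => ℝ) t y)
                have h3 := abs_nonneg (divergence X (i.insertNth (α := fun _ => ℝ) t y))
                have h4 := moll_nonneg (bump (n+1) k) E (i.insertNth (α := fun _ => ℝ) t y)
                linarith only [mul_nonneg (sub_nonneg.2 h1) (sub_nonneg.2 h3), h2]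
          _ = K := by simp
      · exact intervalIntegrable_const
      · filter_upwards [ae_goodPt i hE] with t ht _
        exact ht.tendsto_sliceMean_mul hE hX
    have hak := ga.tendsto_sliceMean hE
    have hbk := gb.tendsto_sliceMean hE
    have hsm : ∀ k, (∫ t in b..(a + 1), sliceMean i (fun x => f k x * divergence X x) t) +
        ∫ t in a..b, sliceTV i (f k) t ≤ C + sliceMean i (f k) a + sliceMean i (f k) b := by
      intro k
      have := cut_smooth i (hfc k) (hfp k) (fun x => moll_nonneg _ _ _) hX hab hb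
      linarith [hgr k]
    have hTV0 : ∀ k, 0 ≤ ∫ t in a..b, sliceTV i (f k) t := fun k =>
      intervalIntegral.integral_nonneg hab fun t _ => sliceTV_nonneg _ _ _
    constructor
    · have l1 : Tendsto (fun k => C + sliceMean i (f k) a + sliceMean i (f k) b) atTop
          (𝓝 (C + sv i E a + sv i E b)) := (hak.const_add C).add hbk
      exact le_of_tendsto_of_tendsto' hDk l1 (fun k => by linarith [hsm k, hTV0 k])
    · have hb1 : ∀ k, ∫⁻ t in Ico a b, ENNReal.ofReal (sliceTV i (f k) t) ≤
          ENNReal.ofReal (C + sliceMean i (f k) a + sliceMean i (f k) b -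
            ∫ t in b..(a + 1), sliceMean i (fun x => f k x * divergence X x) t) := by
        intro k
        rw [← ofReal_integral_eq_lintegral_ofReal]
        · apply ENNReal.ofReal_le_ofReal
          have h1 := hsm k
          rw [intervalIntegral.integral_of_le hab, ← integral_Ico_eq_integral_Ioc] at h1
          linarith
        · exact ((continuous_sliceTV i (hfc k)).continuousOn.integrableOn_compact
            isCompact_Icc).mono_set Ico_subset_Icc_self
        · filter_upwards with t
          exact sliceTV_nonneg _ _ _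
      calc ∫⁻ t in Ico a b, perimeter (slice i E t)
          ≤ ∫⁻ t in Ico a b, liminf (fun k => ENNReal.ofReal (sliceTV i (f k) t)) atTop := by
            apply lintegral_mono_ae
            filter_upwards [ae_restrict_of_ae (ae_goodPt i hE)] with t ht
            exact ht.perimeter_le_liminf hE hp
        _ ≤ liminf (fun k => ∫⁻ t in Ico a b, ENNReal.ofReal (sliceTV i (f k) t)) atTop :=
            lintegral_liminf_le (fun k =>
              ENNReal.measurable_ofReal.comp (continuous_sliceTV i (hfc k)).measurable)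
        _ ≤ liminf (fun k => ENNReal.ofReal (C + sliceMean i (f k) a + sliceMean i (f k) b -
            ∫ t in b..(a + 1), sliceMean i (fun x => f k x * divergence X x) t)) atTop :=
            liminf_le_liminf (Eventually.of_forall hb1)
        _ = ENNReal.ofReal (C + sv i E a + sv i E b - D) := by
            apply Tendsto.liminf_eq
            apply ENNReal.tendsto_ofReal
            exact ((hak.const_add C).add hbk).sub hDk
  set B := ∫⁻ t in Ico a b, perimeter (slice i E t) with hB
  have hzero : TestField (fun _ : Fin (n + 1) → ℝ => (0 : Fin (n + 1) → ℝ)) :=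
    ⟨contDiff_const, fun _ _ => rfl, fun x => by simp⟩
  have hB0 : B ≤ ENNReal.ofReal (C + sv i E a + sv i E b) := by
    have h := (key _ hzero).2
    have h0 : ∀ x, divergence (fun _ : Fin (n + 1) → ℝ => (0 : Fin (n + 1) → ℝ)) x = 0 := by
      intro x; simp [divergence]
    simp_rw [h0] at h
    simpa using h
  have hBtop : B ≠ ⊤ := (hB0.trans_lt ENNReal.ofReal_lt_top).ne
  have hRHS : perimeter E + ENNReal.ofReal (sv i E a + sv i E b) =
      ENNReal.ofReal (C + sv i E a + sv i E b) := by
    rw [← ENNReal.ofReal_toReal htop, ← ENNReal.ofReal_add ENNReal.toReal_nonneg (by positivity),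
      add_assoc]
  rw [hRHS]
  have hcut : perimeter (cut i a b E) ≤ ENNReal.ofReal (C + sv i E a + sv i E b) - B := by
    unfold perimeter
    apply iSup₂_le
    intro X hX
    apply ENNReal.le_sub_of_add_le_right hBtop
    obtain ⟨h1, h2⟩ := key X hX
    by_cases hD : 0 ≤ ∫ x in cut i a b E ∩ cube (n + 1), divergence X x
    · refine (add_le_add_right h2 _).trans ?_
      rw [← ENNReal.ofReal_add hD (by linarith)]
      apply ENNReal.ofReal_le_ofReal
      linarith
    · rw [ENNReal.ofReal_of_nonpos (not_le.mp hD).le, zero_add]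
      exact hB0
  calc perimeter (cut i a b E) + B ≤ (ENNReal.ofReal (C + sv i E a + sv i E b) - B) + B := by
        gcongr
    _ = ENNReal.ofReal (C + sv i E a + sv i E b) := tsub_add_cancel_of_le hB0

end Vale.Agent.P232
end
end

section

section

open MeasureTheory Set Filter Topology ContinuousLinearMap
open scoped Pointwise Convolution

namespace Vale.Agent.P232

/-- Lebesgue measure on the unit interval. -/
noncomputable abbrev mu : Measure ℝ := volume.restrict (Ico (0 : ℝ) 1)

theorem goodPt_add_one {n : ℕ} (i : Fin (n + 1)) {E : Set (Fin (n + 1) → ℝ)}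
    (hE : IsPeriodic E) {t : ℝ} (ht : GoodPt i E t) : GoodPt i E (t + 1) := by
  unfold GoodPt at ht ⊢
  rw [slice_add_one i hE]
  have : ∀ k y, sliceFun i (moll (bump (n + 1) k) E) (t + 1) y =
      sliceFun i (moll (bump (n + 1) k) E) t y := fun k y => by
    rw [sliceFun_add_one i (perFun_moll _ hE)]
  simp_rw [this]
  exact ht

theorem goodPt_iff_add_one {n : ℕ} (i : Fin (n + 1)) {E : Set (Fin (n + 1) → ℝ)}
    (hE : IsPeriodic E) (t : ℝ) : GoodPt i E (t + 1) ↔ GoodPt i E t := by
  unfold GoodPt
  rw [slice_add_one i hE]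
  have : ∀ k y, sliceFun i (moll (bump (n + 1) k) E) (t + 1) y =
      sliceFun i (moll (bump (n + 1) k) E) t y := fun k y => by
    rw [sliceFun_add_one i (perFun_moll _ hE)]
  simp_rw [this]

theorem goodPt_add_int {n : ℕ} (i : Fin (n + 1)) {E : Set (Fin (n + 1) → ℝ)}
    (hE : IsPeriodic E) (t : ℝ) (k : ℤ) : GoodPt i E (t + k) ↔ GoodPt i E t := by
  induction k with
  | zero => simp
  | succ k ih =>
    rw [← ih]
    push_cast
    rw [← add_assoc]
    exact goodPt_iff_add_one i hE _
  | pred k ih =>
    rw [← ih]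
    push_cast
    have : t + -(k : ℝ) = t + (-(k : ℝ) - 1) + 1 := by ring
    rw [this]
    exact (goodPt_iff_add_one i hE _).symm

theorem sv_add_int {n : ℕ} (i : Fin (n + 1)) {E : Set (Fin (n + 1) → ℝ)}
    (hE : IsPeriodic E) (t : ℝ) (k : ℤ) : sv i E (t + k) = sv i E t := by
  have h : Function.Periodic (sv i E) 1 := sv_add_one i hE
  have := h.int_mul k t
  simpa using this

/-- The slicing inequality with two marked points. -/
theorem slicing_two {n : ℕ} (i : Fin (n + 1)) {E : Set (Fin (n + 1) → ℝ)}
    (hE : MeasurableSet E) (hp : IsPeriodic E) {α β : ℝ → ℝ} (hα : Continuous α)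
    (hβ : Continuous β) (hα0 : ∀ u, 0 ≤ α u) (hβ0 : ∀ u, 0 ≤ β u)
    (hαβ : ∀ u, α u ^ 2 + β u ^ 2 ≤ 1) {p q : ℝ} (gp : GoodPt i E p) (gq : GoodPt i E q) :
    ENNReal.ofReal (2 * |prim α (sv i E q) - prim α (sv i E p)|) +
      ∫⁻ t in Ico (0 : ℝ) 1, ENNReal.ofReal (β (sv i E t)) * perimeter (slice i E t) ≤
      perimeter E := by
  -- move `q` into `[p, p + 1)`
  set q' : ℝ := p + Int.fract (q - p) with hq'
  have e1 : q' = q + ((-⌊q - p⌋ : ℤ) : ℝ) := by
    rw [hq', Int.fract]
    push_cast
    ring
  have gq' : GoodPt i E q' := by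
    rw [e1]; exact (goodPt_add_int i hp q _).mpr gq
  have sq' : sv i E q' = sv i E q := by
    rw [e1]; exact sv_add_int i hp q _
  have h0 : p ≤ q' := by have := Int.fract_nonneg (q - p); linarith
  have h1 : q' ≤ p + 1 := by have := (Int.fract_lt_one (q - p)).le; linarith
  set s : ℕ → ℝ := fun j => if j = 0 then p else if j = 1 then q' else p + 1 with hs
  have hmono : Monotone s := by
    apply monotone_nat_of_le_succ
    intro j
    rcases j with _ | _ | j
    · simpa [hs] using h0
    · simpa [hs] using h1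
    · simp [hs]
  have hgood : ∀ j, GoodPt i E (s j) := by
    intro j
    rcases j with _ | _ | j
    · simpa [hs] using gp
    · simpa [hs] using gq'
    · simpa [hs] using (goodPt_iff_add_one i hp p).mpr gp
  have key := slicing i hE hp hα hβ hα0 hβ0 hαβ hmono (N := 2) (by simp [hs]) hgood
  have e2 : ∑ j ∈ Finset.range 2, |prim α (sv i E (s (j + 1))) - prim α (sv i E (s j))| =
      2 * |prim α (sv i E q) - prim α (sv i E p)| := by
    rw [Finset.sum_range_succ, Finset.sum_range_one]
    simp only [hs]
    norm_num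
    rw [sq', sv_add_one i hp, abs_sub_comm (prim α (sv i E p))]
    ring
  rw [e2] at key
  exact key

/-- Essential lower and upper bounds. -/
structure EssBd (v : ℝ → ℝ) (m M : ℝ) : Prop where
  lower : ∀ᵐ t ∂mu, m ≤ v t
  upper : ∀ᵐ t ∂mu, v t ≤ M
  inf : ∀ ε > 0, ∃ᶠ t in ae mu, v t < m + ε
  sup : ∀ ε > 0, ∃ᶠ t in ae mu, M - ε < v t

theorem exists_essBd {v : ℝ → ℝ} (h0 : ∀ t, 0 ≤ v t) (h1 : ∀ t, v t ≤ 1) :
    ∃ m M, 0 ≤ m ∧ m ≤ M ∧ M ≤ 1 ∧ EssBd v m M := by
  have hne : NeBot (ae mu) := by
    rw [ae_neBot]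
    intro h
    have : mu univ = 0 := by rw [h]; simp
    simp [mu] at this
  have hbu : IsBoundedUnder (· ≤ ·) (ae mu) v := ⟨1, by simp [eventually_map, h1]⟩
  have hbl : IsBoundedUnder (· ≥ ·) (ae mu) v := ⟨0, by simp [eventually_map, h0]⟩
  refine ⟨essInf v mu, essSup v mu, ?_, ?_, ?_, ?_, ?_, ?_, ?_⟩
  · exact le_liminf_of_le hbu.isCoboundedUnder_ge (Eventually.of_forall h0)
  · exact liminf_le_limsup hbu hbl
  · exact limsup_le_of_le hbl.isCoboundedUnder_le (Eventually.of_forall h1)
  · exact ae_essInf_le hbl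
  · exact ae_le_essSup hbu
  · intro ε hε
    rw [Filter.Frequently]
    intro h
    have h2 : ∀ᵐ t ∂mu, essInf v mu + ε ≤ v t := by
      filter_upwards [h] with t ht
      exact not_lt.mp ht
    have := le_liminf_of_le hbu.isCoboundedUnder_ge h2
    change essInf v mu + ε ≤ essInf v mu at this
    linarith
  · intro ε hε
    rw [Filter.Frequently]
    intro h
    have h2 : ∀ᵐ t ∂mu, v t ≤ essSup v mu - ε := by
      filter_upwards [h] with t ht
      exact not_lt.mp ht
    have := limsup_le_of_le hbl.isCoboundedUnder_le h2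
    change essSup v mu ≤ essSup v mu - ε at this
    linarith

/-- The slicing inequality with essential bounds. -/
theorem slicing_ess {n : ℕ} (i : Fin (n + 1)) {E : Set (Fin (n + 1) → ℝ)}
    (hE : MeasurableSet E) (hp : IsPeriodic E) {α β : ℝ → ℝ} (hα : Continuous α)
    (hβ : Continuous β) (hα0 : ∀ u, 0 ≤ α u) (hβ0 : ∀ u, 0 ≤ β u)
    (hαβ : ∀ u, α u ^ 2 + β u ^ 2 ≤ 1) {m M : ℝ} (hm : EssBd (sv i E) m M) :
    ENNReal.ofReal (2 * (prim α M - prim α m)) +
      ∫⁻ t in Ico (0 : ℝ) 1, ENNReal.ofReal (β (sv i E t)) * perimeter (slice i E t) ≤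
      perimeter E := by
  set B := ∫⁻ t in Ico (0 : ℝ) 1, ENNReal.ofReal (β (sv i E t)) * perimeter (slice i E t) with hB
  have hmono : Monotone (prim α) :=
    monotone_of_deriv_nonneg (fun u => (hasDerivAt_prim hα u).differentiableAt)
      (fun u => by rw [(hasDerivAt_prim hα u).deriv]; exact hα0 u)
  have hgood := ae_restrict_of_ae (s := Ico (0 : ℝ) 1) (ae_goodPt i hE)
  have hε : ∀ ε > 0, ENNReal.ofReal (2 * (prim α (M - ε) - prim α (m + ε))) + B ≤ perimeter E := by
    intro ε hε
    obtain ⟨p, hp1, hp2⟩ := ((hm.inf ε hε).and_eventually hgood).exists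
    obtain ⟨q, hq1, hq2⟩ := ((hm.sup ε hε).and_eventually hgood).exists
    refine le_trans ?_ (slicing_two i hE hp hα hβ hα0 hβ0 hαβ hp2 hq2)
    gcongr
    refine le_trans ?_ (le_abs_self _)
    have h1 := hmono hp1.le
    have h2 := hmono hq1.le
    linarith
  have hlim : Tendsto (fun ε => ENNReal.ofReal (2 * (prim α (M - ε) - prim α (m + ε))) + B)
      (𝓝[>] 0) (𝓝 (ENNReal.ofReal (2 * (prim α M - prim α m)) + B)) := by
    apply Tendsto.add_const
    apply ENNReal.tendsto_ofReal
    apply tendsto_nhdsWithin_of_tendsto_nhds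
    have hc : Continuous (fun ε => 2 * (prim α (M - ε) - prim α (m + ε))) := by
      have := continuous_prim hα
      fun_prop
    have := hc.tendsto 0
    simpa using this
  apply le_of_tendsto hlim
  filter_upwards [self_mem_nhdsWithin] with ε hε'
  exact hε ε hε'

end Vale.Agent.P232
end
end

section

section

open MeasureTheory Set Filter Topology ContinuousLinearMap
open scoped Pointwise Convolution

namespace Vale.Agent.P232

theorem isPeriodic_compl {n : ℕ} {E : Set (Fin n → ℝ)} (hE : IsPeriodic E) :
    IsPeriodic Eᶜ := fun x k => not_congr (hE x k)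

theorem vol_compl {n : ℕ} {E : Set (Fin n → ℝ)} (hE : MeasurableSet E) :
    vol Eᶜ = 1 - vol E := by
  rw [vol_eq_integral hE, vol_eq_integral hE.compl]
  have h : ∀ x, Eᶜ.indicator (fun _ => (1 : ℝ)) x = 1 - E.indicator (fun _ => (1 : ℝ)) x := by
    intro x
    by_cases hx : x ∈ E <;> simp [hx]
  simp_rw [h]
  rw [integral_sub (integrable_const _) (integrableOn_indicator hE)]
  simp

theorem perimeter_compl_le {n : ℕ} {E : Set (Fin n → ℝ)} (hE : MeasurableSet E) :
    perimeter Eᶜ ≤ perimeter E := by
  unfold perimeter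
  apply iSup₂_le
  intro X hX
  refine le_iSup₂_of_le (fun x => - X x) hX.neg ?_
  apply ENNReal.ofReal_le_ofReal
  apply le_of_eq
  rw [setIntegral_inter_cube hE.compl, setIntegral_inter_cube hE]
  have h0 := integral_divergence_eq_zero hX.contDiff hX.periodic
  have h : ∀ x, Eᶜ.indicator (fun _ => (1 : ℝ)) x * divergence X x =
      divergence X x + E.indicator (fun _ => (1 : ℝ)) x * divergence (fun x => - X x) x := by
    intro x
    rw [divergence_neg]
    by_cases hx : x ∈ E <;> simp [hx]
  simp_rw [h]
  rw [integral_add, h0, zero_add]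
  · exact integrableOn_cube (continuous_divergence hX.contDiff)
  · have h1 : IntegrableOn (E.indicator (divergence (fun x => - X x))) (cube n) :=
      Integrable.indicator (integrableOn_cube (continuous_divergence hX.neg.contDiff)) hE
    refine h1.congr ?_
    filter_upwards with x
    by_cases hx : x ∈ E <;> simp [hx]

theorem perimeter_compl {n : ℕ} {E : Set (Fin n → ℝ)} (hE : MeasurableSet E) :
    perimeter Eᶜ = perimeter E := by
  apply le_antisymm (perimeter_compl_le hE)
  have := perimeter_compl_le hE.compl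
  rwa [compl_compl] at this

theorem prim_const (c u : ℝ) : prim (fun _ => c) u = c * u := by
  simp [prim, mul_comm]

theorem vol_fin_zero (F : Set (Fin 0 → ℝ)) : vol F = 0 ∨ vol F = 1 := by
  rcases F.eq_empty_or_nonempty with h | h
  · left; rw [h]; simp [vol]
  · right
    have : F = univ := Subsingleton.eq_univ_of_nonempty h
    rw [this]
    unfold vol
    rw [univ_inter, volume_cube]
    simp

theorem ae_mu_mem : ∀ᵐ t ∂mu, t ∈ Ico (0 : ℝ) 1 := ae_restrict_mem measurableSet_Ico

/-- The perimeter of a nontrivial subset of the circle is at least two. -/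
theorem two_le_perimeter_one {E : Set (Fin 1 → ℝ)} (hE : MeasurableSet E) (hp : IsPeriodic E)
    (h0 : 0 < vol E) (h1 : vol E < 1) : 2 ≤ perimeter E := by
  obtain ⟨m, M, hm0, hmM, hM1, hess⟩ := exists_essBd (sv_nonneg 0 E) (sv_le_one 0 E)
  have hval : ∀ t, sv 0 E t = 0 ∨ sv 0 E t = 1 := fun t => vol_fin_zero _
  have hvol := vol_eq_integral_sv 0 hE
  have hm : m = 0 := by
    by_contra hne
    have hpos : 0 < m := lt_of_le_of_ne hm0 (Ne.symm hne)
    have : ∀ᵐ t ∂mu, sv 0 E t = 1 := by
      filter_upwards [hess.lower] with t ht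
      rcases hval t with h | h
      · rw [h] at ht; linarith
      · exact h
    rw [integral_congr_ae this] at hvol
    simp at hvol
    linarith
  have hM : M = 1 := by
    by_contra hne
    have hlt : M < 1 := lt_of_le_of_ne hM1 hne
    have : ∀ᵐ t ∂mu, sv 0 E t = 0 := by
      filter_upwards [hess.upper] with t ht
      rcases hval t with h | h
      · exact h
      · rw [h] at ht; linarith
    rw [integral_congr_ae this] at hvol
    simp at hvol
    linarith
  have key := slicing_ess 0 hE hp (α := fun _ => 1) (β := fun _ => 0) continuous_const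
    continuous_const (fun _ => zero_le_one) (fun _ => le_rfl) (fun _ => by norm_num) hess
  rw [hm, hM] at key
  simp only [prim_const] at key
  refine le_trans ?_ key
  simp

theorem slicing_affine {n : ℕ} (i : Fin (n + 1)) {E : Set (Fin (n + 1) → ℝ)}
    (hE : MeasurableSet E) (hp : IsPeriodic E) {α β : ℝ → ℝ} (hα : Continuous α)
    (hβ : Continuous β) (hα0 : ∀ u, 0 ≤ α u) (hβ0 : ∀ u, 0 ≤ β u)
    (hαβ : ∀ u, α u ^ 2 + β u ^ 2 ≤ 1) {m M : ℝ} (hm : EssBd (sv i E) m M) (hmM : m ≤ M)
    {F H : ℝ} (hb : ∀ᵐ t ∂mu, 0 ≤ F + H * sv i E t ∧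
      ENNReal.ofReal (F + H * sv i E t) ≤
        ENNReal.ofReal (β (sv i E t)) * perimeter (slice i E t)) :
    ENNReal.ofReal (2 * (prim α M - prim α m) + F + H * vol E) ≤ perimeter E := by
  refine le_trans ?_ (slicing_ess i hE hp hα hβ hα0 hβ0 hαβ hm)
  have hmono : Monotone (prim α) :=
    monotone_of_deriv_nonneg (fun u => (hasDerivAt_prim hα u).differentiableAt)
      (fun u => by rw [(hasDerivAt_prim hα u).deriv]; exact hα0 u)
  have h1 := hmono hmM
  have hint : Integrable (sv i E) mu := by
    have := intervalIntegrable_sv i hE 0 1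
    rw [intervalIntegrable_iff_integrableOn_Ico_of_le zero_le_one] at this
    exact this
  have hI : ∫ t, (F + H * sv i E t) ∂mu = F + H * vol E := by
    rw [integral_add (integrable_const _) (hint.const_mul H), integral_const_mul,
      vol_eq_integral_sv i hE]
    simp
  have hnn : 0 ≤ F + H * vol E := by
    rw [← hI]
    exact integral_nonneg_of_ae (by filter_upwards [hb] with t ht using ht.1)
  rw [add_assoc, ENNReal.ofReal_add (by linarith) hnn]
  gcongr
  rw [← hI, ofReal_integral_eq_lintegral_ofReal]
  · apply lintegral_mono_ae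
    filter_upwards [hb] with t ht
    exact ht.2
  · exact (integrable_const _).add (hint.const_mul H)
  · filter_upwards [hb] with t ht using ht.1

end Vale.Agent.P232
end
end

section

section

open MeasureTheory Set Filter Topology ContinuousLinearMap
open scoped Pointwise Convolution

namespace Vale.Agent.P232

theorem integral_quarter : ∫ x in (0 : ℝ)..1, Real.sqrt (1 - x ^ 2) = Real.pi / 4 := by
  have h := integral_sqrt_one_sub_sq
  have hc : Continuous (fun x : ℝ => Real.sqrt (1 - x ^ 2)) := by fun_prop
  rw [← intervalIntegral.integral_add_adjacent_intervals (hc.intervalIntegrable (-1) 0)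
    (hc.intervalIntegrable 0 1)] at h
  have h2 : ∫ x in (-1 : ℝ)..0, Real.sqrt (1 - x ^ 2) = ∫ x in (0 : ℝ)..1, Real.sqrt (1 - x ^ 2) := by
    have := intervalIntegral.integral_comp_neg (a := 0) (b := 1)
      (fun x : ℝ => Real.sqrt (1 - x ^ 2))
    simp only [neg_zero, even_two, Even.neg_pow] at this
    exact this.symm
  rw [h2] at h
  linarith only [h]

/-- Clipping to the unit interval. -/
noncomputable def clip (x : ℝ) : ℝ := min 1 (max 0 x)

theorem continuous_clip : Continuous clip := by unfold clip; fun_prop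

theorem clip_nonneg (x : ℝ) : 0 ≤ clip x := le_min zero_le_one (le_max_left _ _)

theorem clip_le_one (x : ℝ) : clip x ≤ 1 := min_le_left _ _

theorem clip_of_mem {x : ℝ} (h0 : 0 ≤ x) (h1 : x ≤ 1) : clip x = x := by
  unfold clip; rw [max_eq_right h0, min_eq_right h1]

theorem prim_disc {M : ℝ} (hM : 0 < M) :
    prim (fun u => Real.sqrt (1 - clip (u / M) ^ 2)) M = M * (Real.pi / 4) := by
  unfold prim
  have h1 : ∫ x in (0 : ℝ)..M, Real.sqrt (1 - clip (x / M) ^ 2) =
      ∫ x in (0 : ℝ)..M, Real.sqrt (1 - (x / M) ^ 2) := by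
    apply intervalIntegral.integral_congr
    intro x hx
    rw [uIcc_of_le hM.le] at hx
    simp only
    rw [clip_of_mem (div_nonneg hx.1 hM.le) ((div_le_one hM).mpr hx.2)]
  rw [h1, intervalIntegral.integral_comp_div (fun x => Real.sqrt (1 - x ^ 2)) hM.ne',
    zero_div, div_self hM.ne', integral_quarter]
  rfl

theorem prim_zero (α : ℝ → ℝ) : prim α 0 = 0 := by simp [prim]

theorem vol_slice_one_perimeter {i : Fin 2} {E : Set (Fin 2 → ℝ)} (hE : MeasurableSet E)
    (hp : IsPeriodic E) {t : ℝ} (h0 : 0 < sv i E t) (h1 : sv i E t < 1) :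
    2 ≤ perimeter (slice i E t) :=
  two_le_perimeter_one (measurableSet_slice i hE t) (isPeriodic_slice i hp t) h0 h1

theorem two_mul_sqrt_le_add {x y : ℝ} (hx : 0 ≤ x) (hy : 0 ≤ y) :
    2 * Real.sqrt (x * y) ≤ x + y := by
  have h : Real.sqrt (x * y) = Real.sqrt x * Real.sqrt y := Real.sqrt_mul hx y
  rw [h]
  linarith only [sq_nonneg (Real.sqrt x - Real.sqrt y), Real.sq_sqrt hx, Real.sq_sqrt hy]

/-- The planar isoperimetric inequality. -/
theorem disc_bound {i : Fin 2} {E : Set (Fin 2 → ℝ)} (hE : MeasurableSet E)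
    (hp : IsPeriodic E) {M : ℝ} (hm : EssBd (sv i E) 0 M) (h1 : ∀ᵐ t ∂mu, sv i E t < 1) :
    ENNReal.ofReal (2 * Real.sqrt (Real.pi * vol E)) ≤ perimeter E := by
  have hvol := vol_eq_integral_sv i hE
  rcases (vol_nonneg E).eq_or_lt with h0 | h0
  · rw [← h0]; simp
  have hM : 0 < M := by
    by_contra hM
    push Not at hM
    have : ∀ᵐ t ∂mu, sv i E t = 0 := by
      filter_upwards [hm.upper] with t ht
      exact le_antisymm (ht.trans hM) (sv_nonneg _ _ _)
    rw [integral_congr_ae this] at hvol
    simp at hvol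
    linarith
  have hcβ : Continuous (fun u => clip (u / M)) := continuous_clip.comp (by fun_prop)
  have key := slicing_affine i hE hp (α := fun u => Real.sqrt (1 - clip (u / M) ^ 2))
    (β := fun u => clip (u / M)) (by fun_prop) hcβ (fun _ => Real.sqrt_nonneg _)
    (fun _ => clip_nonneg _) (fun u => by
      rw [Real.sq_sqrt]
      · linarith
      · have := clip_nonneg (u / M); have := clip_le_one (u / M); nlinarith) hm hM.le
    (F := 0) (H := 2 / M) (by
      filter_upwards [hm.upper, h1] with t ht ht1
      have hs0 := sv_nonneg i E t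
      constructor
      · positivity
      · rw [clip_of_mem (div_nonneg hs0 hM.le) ((div_le_one hM).mpr ht)]
        rcases hs0.eq_or_lt with h | h
        · rw [← h]; simp
        · have h2 := vol_slice_one_perimeter hE hp h ht1
          calc ENNReal.ofReal (0 + 2 / M * sv i E t) =
              ENNReal.ofReal (sv i E t / M) * 2 := by
                rw [← ENNReal.ofReal_ofNat 2, ← ENNReal.ofReal_mul (by positivity)]
                congr 1
                ring
            _ ≤ _ := by gcongr)
  rw [prim_disc hM, prim_zero] at key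
  refine le_trans (ENNReal.ofReal_le_ofReal ?_) key
  have h2 := two_mul_sqrt_le_add (x := Real.pi * M / 2) (y := 2 / M * vol E)
    (by positivity) (by positivity)
  have h3 : Real.pi * M / 2 * (2 / M * vol E) = Real.pi * vol E := by
    field_simp
  rw [h3] at h2
  linarith

/-- The isoperimetric profile of the square two-torus. -/
noncomputable def I2 (u : ℝ) : ℝ :=
  min (min (2 * Real.sqrt (Real.pi * u)) (2 * Real.sqrt (Real.pi * (1 - u)))) 2

theorem sv_compl {n : ℕ} (i : Fin (n + 1)) {E : Set (Fin (n + 1) → ℝ)} (hE : MeasurableSet E)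
    (t : ℝ) : sv i Eᶜ t = 1 - sv i E t :=
  vol_compl (measurableSet_slice i hE t)

theorem EssBd.compl {n : ℕ} {i : Fin (n + 1)} {E : Set (Fin (n + 1) → ℝ)}
    (hE : MeasurableSet E) {m M : ℝ} (h : EssBd (sv i E) m M) :
    EssBd (sv i Eᶜ) (1 - M) (1 - m) where
  lower := by
    filter_upwards [h.upper] with t ht
    rw [sv_compl i hE]; linarith
  upper := by
    filter_upwards [h.lower] with t ht
    rw [sv_compl i hE]; linarith
  inf := fun ε hε => by
    refine (h.sup ε hε).mono fun t ht => ?_
    rw [sv_compl i hE]; linarith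
  sup := fun ε hε => by
    refine (h.inf ε hε).mono fun t ht => ?_
    rw [sv_compl i hE]; linarith

/-- The isoperimetric inequality in the square two-torus. -/
theorem I2_le_perimeter {E : Set (Fin 2 → ℝ)} (hE : MeasurableSet E) (hp : IsPeriodic E) :
    ENNReal.ofReal (I2 (vol E)) ≤ perimeter E := by
  obtain ⟨m, M, hm0, hmM, hM1, hess⟩ := exists_essBd (sv_nonneg 0 E) (sv_le_one 0 E)
  have hI1 : I2 (vol E) ≤ 2 * Real.sqrt (Real.pi * vol E) :=
    (min_le_left _ _).trans (min_le_left _ _)
  have hI2 : I2 (vol E) ≤ 2 * Real.sqrt (Real.pi * (1 - vol E)) :=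
    (min_le_left _ _).trans (min_le_right _ _)
  have hI3 : I2 (vol E) ≤ 2 := min_le_right _ _
  by_cases hA : ∀ᵐ t ∂mu, 0 < sv 0 E t
  · by_cases hB : ∀ᵐ t ∂mu, sv 0 E t < 1
    · -- all slices are nontrivial
      have key := slicing_affine 0 hE hp (α := fun _ => 0) (β := fun _ => 1) continuous_const
        continuous_const (fun _ => le_rfl) (fun _ => zero_le_one) (fun _ => by norm_num) hess hmM
        (F := 2) (H := 0) (by
          filter_upwards [hA, hB] with t h1 h2
          refine ⟨by norm_num, ?_⟩
          have := vol_slice_one_perimeter hE hp h1 h2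
          simpa using this)
      simp only [prim_const] at key
      refine le_trans (ENNReal.ofReal_le_ofReal ?_) key
      linarith
    · -- some slices are full: use the complement
      have hM : M = 1 := by
        by_contra hne
        apply hB
        filter_upwards [hess.upper] with t ht
        exact lt_of_le_of_lt ht (lt_of_le_of_ne hM1 hne)
      have h1 := hess.compl hE
      rw [hM, sub_self] at h1
      have h2 := disc_bound hE.compl (isPeriodic_compl hp) h1 (by
        filter_upwards [hA] with t ht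
        rw [sv_compl 0 hE]; linarith)
      rw [perimeter_compl hE, vol_compl hE] at h2
      exact (ENNReal.ofReal_le_ofReal hI2).trans h2
  · have hm : m = 0 := by
      by_contra hne
      apply hA
      filter_upwards [hess.lower] with t ht
      exact lt_of_lt_of_le (lt_of_le_of_ne hm0 (Ne.symm hne)) ht
    rw [hm] at hess
    by_cases hB : ∀ᵐ t ∂mu, sv 0 E t < 1
    · exact (ENNReal.ofReal_le_ofReal hI1).trans (disc_bound hE hp hess hB)
    · have hM : M = 1 := by
        by_contra hne
        apply hB
        filter_upwards [hess.upper] with t ht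
        exact lt_of_le_of_lt ht (lt_of_le_of_ne hM1 hne)
      rw [hM] at hess
      have key := slicing_ess 0 hE hp (α := fun _ => 1) (β := fun _ => 0) continuous_const
        continuous_const (fun _ => zero_le_one) (fun _ => le_rfl) (fun _ => by norm_num) hess
      simp only [prim_const] at key
      refine le_trans ?_ key
      refine (ENNReal.ofReal_le_ofReal hI3).trans ?_
      simp

end Vale.Agent.P232
end
end

section

section

open MeasureTheory Set Filter Topology ContinuousLinearMap
open scoped Pointwise Convolution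

namespace Vale.Agent.P232

/-- The smaller one of the perimeters of balls and tubes of volume `V`. -/
noncomputable def J0 (V : ℝ) : ℝ :=
  min ((36 * Real.pi) ^ (1 / 3 : ℝ) * V ^ (2 / 3 : ℝ)) (2 * Real.sqrt (Real.pi * V))

theorem ball_cube {V : ℝ} (hV : 0 ≤ V) :
    ((36 * Real.pi) ^ (1 / 3 : ℝ) * V ^ (2 / 3 : ℝ)) ^ 3 = 36 * Real.pi * V ^ 2 := by
  rw [mul_pow, ← Real.rpow_natCast, ← Real.rpow_natCast (V ^ (2 / 3 : ℝ)),
    ← Real.rpow_mul (by positivity), ← Real.rpow_mul hV]
  norm_num

theorem ball_le {V ρ : ℝ} (hV : 0 ≤ V) (hρ : 0 < ρ) :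
    (36 * Real.pi) ^ (1 / 3 : ℝ) * V ^ (2 / 3 : ℝ) ≤ 4 * Real.pi / 3 * ρ ^ 2 + 2 * V / ρ := by
  have hpi := Real.pi_pos
  have h0 : 0 ≤ 4 * Real.pi / 3 * ρ ^ 2 + 2 * V / ρ := by positivity
  refine le_of_pow_le_pow_left₀ (n := 3) (by norm_num) h0 ?_
  rw [ball_cube hV]
  set x := 4 * Real.pi / 3 * ρ ^ 2 with hx
  set y := V / ρ with hy
  have e1 : 2 * V / ρ = 2 * y := by rw [hy]; ring
  have e2 : 36 * Real.pi * V ^ 2 = 27 * x * y ^ 2 := by
    rw [hx, hy]; field_simp; ring
  rw [e1, e2]
  have hx0 : 0 ≤ x := by positivity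
  have hy0 : 0 ≤ y := by positivity
  linarith only [mul_nonneg (sq_nonneg (x - y)) hx0, mul_nonneg (sq_nonneg (x - y)) hy0]

/-- The calibration slope for the pair of radii `r ≤ R`. -/
noncomputable def tubeBeta (r R u : ℝ) : ℝ :=
  if r = 0 then clip (Real.sqrt (u / Real.pi) / R)
  else clip ((r * R + (Real.sqrt (u / Real.pi)) ^ 2) / ((r + R) * max r (Real.sqrt (u / Real.pi))))

theorem continuous_tubeBeta {r R : ℝ} (hr : 0 ≤ r) (hR : 0 < R) : Continuous (tubeBeta r R) := by
  unfold tubeBeta
  split_ifs with h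
  · exact continuous_clip.comp (by fun_prop)
  · have hr' : 0 < r := lt_of_le_of_ne hr (Ne.symm h)
    apply continuous_clip.comp
    apply Continuous.div
    · fun_prop
    · fun_prop
    · intro u
      have : 0 < max r (Real.sqrt (u / Real.pi)) := lt_max_of_lt_left hr'
      positivity

theorem tubeBeta_nonneg (r R u : ℝ) : 0 ≤ tubeBeta r R u := by
  unfold tubeBeta; split_ifs <;> exact clip_nonneg _

theorem tubeBeta_le_one (r R u : ℝ) : tubeBeta r R u ≤ 1 := by
  unfold tubeBeta; split_ifs <;> exact clip_le_one _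

theorem tubeBeta_eq {r R s : ℝ} (hr : 0 ≤ r) (hR : 0 < R) (hs : r ≤ s) (hs0 : 0 < s)
    (hsR : s ≤ R) :
    tubeBeta r R (Real.pi * s ^ 2) = (r * R + s ^ 2) / ((r + R) * s) := by
  have hpi := Real.pi_pos
  have e : Real.sqrt (Real.pi * s ^ 2 / Real.pi) = s := by
    rw [mul_div_cancel_left₀ _ hpi.ne', Real.sqrt_sq hs0.le]
  unfold tubeBeta
  rw [e, max_eq_right hs]
  have h1 : (r * R + s ^ 2) / ((r + R) * s) ≤ 1 := by
    rw [div_le_one (by positivity)]
    linarith only [mul_nonneg (sub_nonneg.mpr hs) (sub_nonneg.mpr hsR)]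
  split_ifs with h
  · rw [h]
    rw [clip_of_mem (by positivity) ((div_le_one hR).mpr hsR)]
    field_simp
    ring
  · exact clip_of_mem (by positivity) h1

/-- The key pointwise inequality behind the tube bound. -/
theorem key_pointwise {r d x : ℝ} (hr : 0 ≤ r) (hd : 0 ≤ d) (hx0 : 0 ≤ x) (hx1 : x ≤ 1) :
    (4 * r * x * (1 - x) + d * x * Real.sqrt (1 - x ^ 2)) ^ 2 ≤
      x * (1 - x) * (2 * r + d * (1 + x)) * (2 * r + d * x) := by
  have hw : 0 ≤ 1 - x ^ 2 := by nlinarith
  set w := Real.sqrt (1 - x ^ 2) with hwdef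
  have hw0 : 0 ≤ w := Real.sqrt_nonneg _
  have hw2 : w ^ 2 = 1 - x ^ 2 := Real.sq_sqrt hw
  have hw1 : w ≤ 1 := by (by_contra nlg; linarith [mul_eq_zero_of_left (sub_eq_zero.2 hw2) (w - (0)), mul_eq_zero_of_left (sub_eq_zero.2 hw2) (w - (1)), mul_pos (sub_pos.2 (not_le.1 nlg)) (sub_pos.2 (not_le.1 nlg)), mul_nonneg (sq_nonneg (x : ℝ)) (sub_nonneg.2 hw0), mul_nonneg (sq_nonneg (x : ℝ)) (le_of_lt (sub_pos.2 (not_le.1 nlg))), mul_nonneg (sq_nonneg (w : ℝ)) (le_of_lt (sub_pos.2 (not_le.1 nlg)))])
  have h1 : 4 * x * w ≤ 1 + 2 * x := by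
    by_cases h : x ≤ 1 / 2
    · nlinarith only [hx0, hw1, h]
    · push Not at h
      linarith only [sq_nonneg (x - w), hw2, h]
  have hxx : 0 ≤ x * (1 - x) := mul_nonneg hx0 (by linarith)
  have e1 : x * (1 - x) * (2 * r + d * (1 + x)) * (2 * r + d * x) -
      (4 * r * x * (1 - x) + d * x * w) ^ 2 =
      4 * r ^ 2 * (x * (1 - x)) * (1 - 2 * x) ^ 2 +
        2 * r * d * (x * (1 - x)) * (1 + 2 * x - 4 * x * w) +
        d ^ 2 * x ^ 2 * (1 - x ^ 2 - w ^ 2) := by ring
  have h2 : 0 ≤ 4 * r ^ 2 * (x * (1 - x)) * (1 - 2 * x) ^ 2 := by positivity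
  have h3 : 0 ≤ 2 * r * d * (x * (1 - x)) * (1 + 2 * x - 4 * x * w) := by
    apply mul_nonneg
    · positivity
    · linarith
  have h4 : d ^ 2 * x ^ 2 * (1 - x ^ 2 - w ^ 2) = 0 := by rw [hw2]; ring
  linarith

theorem tube_slope {r R s : ℝ} (hr : 0 ≤ r) (hR : 0 < R) (hrR : r < R) (hs : r < s) (hsR : s < R) :
    (4 * r * ((s - r) / (R - r)) * (1 - (s - r) / (R - r)) +
      (R - r) * ((s - r) / (R - r)) * Real.sqrt (1 - ((s - r) / (R - r)) ^ 2)) *
        ((R - r) / (r + R)) ≤
      s * Real.sqrt (1 - tubeBeta r R (Real.pi * s ^ 2) ^ 2) := by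
  have hs0 : 0 < s := lt_of_le_of_lt hr hs
  have hd : 0 < R - r := by linarith
  set d := R - r with hddef
  set x := (s - r) / d with hxdef
  have hx0 : 0 ≤ x := div_nonneg (by linarith) hd.le
  have hx1 : x ≤ 1 := (div_le_one hd).mpr (by linarith)
  have hsx : s = r + d * x := by rw [hxdef]; field_simp; ring
  have hRx : R = r + d := by rw [hddef]; ring
  have hsum : 0 < r + R := by linarith
  rw [tubeBeta_eq hr hR hs.le hs0 hsR.le]
  have hk := key_pointwise hr hd.le hx0 hx1
  set Q := 4 * r * x * (1 - x) + d * x * Real.sqrt (1 - x ^ 2) with hQ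
  have hQ0 : 0 ≤ Q := by
    have : 0 ≤ 1 - x := by linarith
    positivity
  have e1 : s * Real.sqrt (1 - ((r * R + s ^ 2) / ((r + R) * s)) ^ 2) =
      Real.sqrt (s ^ 2 - ((r * R + s ^ 2) / (r + R)) ^ 2) := by
    have : s ^ 2 - ((r * R + s ^ 2) / (r + R)) ^ 2 =
        s ^ 2 * (1 - ((r * R + s ^ 2) / ((r + R) * s)) ^ 2) := by
      field_simp
    rw [this, Real.sqrt_mul (sq_nonneg s), Real.sqrt_sq hs0.le]
  rw [e1]
  apply Real.le_sqrt_of_sq_le
  have e2 : s ^ 2 - ((r * R + s ^ 2) / (r + R)) ^ 2 =
      (x * (1 - x) * (2 * r + d * (1 + x)) * (2 * r + d * x)) * (d / (r + R)) ^ 2 := by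
    have h1 : s ^ 2 * (r + R) ^ 2 - (r * R + s ^ 2) ^ 2 =
        (x * (1 - x) * (2 * r + d * (1 + x)) * (2 * r + d * x)) * d ^ 2 := by
      rw [hsx, hRx]; ring
    field_simp
    linarith only [h1]
  rw [e2, mul_pow]
  gcongr

/-- The primitive of the minorant of the calibration. -/
noncomputable def tubePhi (r d s : ℝ) : ℝ :=
  2 * Real.pi * d / (2 * r + d) *
    (4 * r * d * (((s - r) / d) ^ 2 / 2 - ((s - r) / d) ^ 3 / 3) -
      d ^ 2 * ((1 - ((s - r) / d) ^ 2) * Real.sqrt (1 - ((s - r) / d) ^ 2)) / 3)

end Vale.Agent.P232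
end
end

section

section

open MeasureTheory Set Filter Topology ContinuousLinearMap
open scoped Pointwise Convolution

namespace Vale.Agent.P232

theorem hasDerivAt_tubePhi {r d s : ℝ} (hd : 0 < d) (hs : r < s) (hsR : s < r + d) :
    HasDerivAt (tubePhi r d)
      (2 * Real.pi * ((4 * r * ((s - r) / d) * (1 - (s - r) / d) +
        d * ((s - r) / d) * Real.sqrt (1 - ((s - r) / d) ^ 2)) * (d / (2 * r + d)))) s := by
  set x := (s - r) / d with hx
  have hx0 : 0 < x := div_pos (by linarith) hd
  have hx1 : x < 1 := (div_lt_one hd).mpr (by linarith)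
  have hw : 0 < 1 - x ^ 2 := by nlinarith only [hx0, hx1]
  have hX : HasDerivAt (fun s : ℝ => (s - r) / d) (1 / d) s := by
    have := ((hasDerivAt_id s).sub_const r).div_const d
    simpa using this
  have hq : HasDerivAt (fun s : ℝ => 1 - ((s - r) / d) ^ 2) (-(2 * x * (1 / d))) s := by
    have := (hX.pow 2).const_sub 1
    simpa using this
  have hsq : HasDerivAt (fun s : ℝ => Real.sqrt (1 - ((s - r) / d) ^ 2))
      (-(2 * x * (1 / d)) / (2 * Real.sqrt (1 - x ^ 2))) s := hq.sqrt hw.ne'
  have h3 := (((hX.pow 2).div_const 2).sub ((hX.pow 3).div_const 3)).const_mul (4 * r * d)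
  have h4 := ((hq.mul hsq).const_mul (d ^ 2)).div_const 3
  have h5 := (h3.sub h4).const_mul (2 * Real.pi * d / (2 * r + d))
  have hval : 2 * Real.pi * d / (2 * r + d) *
      (4 * r * d * ((2 : ℕ) * x ^ (2 - 1) * (1 / d) / 2 - (3 : ℕ) * x ^ (3 - 1) * (1 / d) / 3) -
        d ^ 2 * (-(2 * x * (1 / d)) * Real.sqrt (1 - x ^ 2) +
          (1 - x ^ 2) * (-(2 * x * (1 / d)) / (2 * Real.sqrt (1 - x ^ 2)))) / 3) =
      2 * Real.pi * ((4 * r * x * (1 - x) + d * x * Real.sqrt (1 - x ^ 2)) *
        (d / (2 * r + d))) := by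
    set w := Real.sqrt (1 - x ^ 2) with hwdef
    have hw0 : 0 < w := Real.sqrt_pos.mpr hw
    have hw2 : 1 - x ^ 2 = w ^ 2 := (Real.sq_sqrt hw.le).symm
    rw [hw2]
    field_simp
    ring
  rw [← hval]
  refine HasDerivAt.congr_of_eventuallyEq h5 ?_
  filter_upwards with s'
  simp [tubePhi]

theorem tubePhi_sub {r d : ℝ} (hr : 0 ≤ r) (hd : 0 < d) :
    tubePhi r d (r + d) - tubePhi r d r = 2 * Real.pi / 3 * d ^ 2 := by
  unfold tubePhi
  have h : (r + d - r) / d = 1 := by field_simp; ring
  rw [h]
  simp
  have : 2 * r + d ≠ 0 := by positivity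
  field_simp
  ring

theorem continuous_tubePhi (r d : ℝ) : Continuous (tubePhi r d) := by
  unfold tubePhi
  fun_prop

theorem tube_integral {r R : ℝ} (hr : 0 ≤ r) (hR : 0 < R) (hrR : r ≤ R) :
    2 * Real.pi / 3 * (R - r) ^ 2 ≤
      prim (fun u => Real.sqrt (1 - tubeBeta r R u ^ 2)) (Real.pi * R ^ 2) -
        prim (fun u => Real.sqrt (1 - tubeBeta r R u ^ 2)) (Real.pi * r ^ 2) := by
  rcases hrR.eq_or_lt with h | h
  · rw [h]; simp
  have hd : 0 < R - r := by linarith
  set α := fun u => Real.sqrt (1 - tubeBeta r R u ^ 2) with hα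
  have hαc : Continuous α := by
    have := continuous_tubeBeta hr hR
    fun_prop
  set G : ℝ → ℝ := fun s => prim α (Real.pi * s ^ 2) - tubePhi r (R - r) s with hG
  have hGc : ContinuousOn G (Icc r R) := by
    apply Continuous.continuousOn
    exact ((continuous_prim hαc).comp (by fun_prop)).sub (continuous_tubePhi _ _)
  have hGd : ∀ s ∈ interior (Icc r R), HasDerivAt G (α (Real.pi * s ^ 2) * (Real.pi * (2 * s)) -
      2 * Real.pi * ((4 * r * ((s - r) / (R - r)) * (1 - (s - r) / (R - r)) +
        (R - r) * ((s - r) / (R - r)) * Real.sqrt (1 - ((s - r) / (R - r)) ^ 2)) *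
          ((R - r) / (2 * r + (R - r))))) s := by
    intro s hs
    rw [interior_Icc] at hs
    apply HasDerivAt.sub
    · have h1 : HasDerivAt (fun s : ℝ => Real.pi * s ^ 2) (Real.pi * (2 * s)) s := by
        have := (hasDerivAt_pow 2 s).const_mul Real.pi
        simpa using this
      exact (hasDerivAt_prim hαc _).comp s h1
    · exact hasDerivAt_tubePhi hd hs.1 (by linarith [hs.2])
  have hmono : MonotoneOn G (Icc r R) := by
    apply monotoneOn_of_deriv_nonneg (convex_Icc r R) hGc
    · intro s hs
      exact (hGd s hs).differentiableAt.differentiableWithinAt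
    · intro s hs
      rw [(hGd s hs).deriv]
      rw [interior_Icc] at hs
      have h1 := tube_slope hr hR h hs.1 hs.2
      have e : 2 * r + (R - r) = r + R := by ring
      rw [e]
      have hpi := Real.pi_pos
      have h2 : α (Real.pi * s ^ 2) * (Real.pi * (2 * s)) =
          2 * Real.pi * (s * Real.sqrt (1 - tubeBeta r R (Real.pi * s ^ 2) ^ 2)) := by
        rw [hα]; ring
      rw [h2, ← mul_sub]
      apply mul_nonneg (by positivity)
      linarith only [h1]
  have h1 := hmono (left_mem_Icc.mpr h.le) (right_mem_Icc.mpr h.le) h.le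
  have h2 := tubePhi_sub hr hd
  simp only [hG] at h1
  have e3 : r + (R - r) = R := by ring
  rw [e3] at h2
  linarith

/-- The algebraic end of the tube bound. -/
theorem J0_le_of_radii {r R V : ℝ} (hr : 0 ≤ r) (hR : 0 < R) (hV : 0 ≤ V) :
    J0 V ≤ 2 * (2 * Real.pi / 3 * (R - r) ^ 2) + 2 * Real.pi * (r * R) / (r + R) +
      2 / (r + R) * V := by
  have hpi := Real.pi_pos
  set ρ := r + R with hρ
  have hρ0 : 0 < ρ := by positivity
  set D := (R - r) ^ 2 with hD
  have hD0 : 0 ≤ D := sq_nonneg _
  have hDρ : D ≤ ρ ^ 2 := by rw [hD, hρ]; linarith only [mul_nonneg hr hR.le]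
  have e1 : 2 * Real.pi * (r * R) / ρ = Real.pi * ρ / 2 - Real.pi * D / (2 * ρ) := by
    rw [hD]
    field_simp
    rw [hρ]
    ring
  rw [e1]
  by_cases h : 1 / (2 * ρ) ≤ 4 / 3
  · refine (min_le_right _ _).trans ?_
    have h2 := two_mul_sqrt_le_add (x := Real.pi * ρ / 2) (y := 2 / ρ * V)
      (by positivity) (by positivity)
    have h3 : Real.pi * ρ / 2 * (2 / ρ * V) = Real.pi * V := by field_simp
    rw [h3] at h2
    have h4 : Real.pi * D / (2 * ρ) ≤ 4 / 3 * (Real.pi * D) := by
      have := mul_le_mul_of_nonneg_right h (mul_nonneg hpi.le hD0)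
      calc Real.pi * D / (2 * ρ) = 1 / (2 * ρ) * (Real.pi * D) := by ring
        _ ≤ _ := this
    linarith only [h2, h4]
  · push Not at h
    refine (min_le_left _ _).trans ?_
    refine (ball_le hV hρ0).trans ?_
    have h5 : (1 / (2 * ρ) - 4 / 3) * D ≤ (1 / (2 * ρ) - 4 / 3) * ρ ^ 2 :=
      mul_le_mul_of_nonneg_left hDρ (by linarith)
    have h6 : 1 / (2 * ρ) * ρ ^ 2 = ρ / 2 := by field_simp
    have h7 : Real.pi * D / (2 * ρ) = Real.pi * (1 / (2 * ρ) * D) := by ring
    have h8 : 2 * V / ρ = 2 / ρ * V := by ring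
    rw [h7, h8]
    nlinarith only [hpi, h5, h6]

/-- The isoperimetric inequality of `ℝ² × S¹`, in slicing form. -/
theorem J0_le_perimeter {k : Fin 3} {E : Set (Fin 3 → ℝ)} (hE : MeasurableSet E)
    (hp : IsPeriodic E)
    (hper : ∀ᵐ t ∂mu, ENNReal.ofReal (2 * Real.sqrt (Real.pi * sv k E t)) ≤
      perimeter (slice k E t)) :
    ENNReal.ofReal (J0 (vol E)) ≤ perimeter E := by
  have hpi := Real.pi_pos
  obtain ⟨m, M, hm0, hmM, hM1, hess⟩ := exists_essBd (sv_nonneg k E) (sv_le_one k E)
  have hvol := vol_eq_integral_sv k hE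
  rcases (vol_nonneg E).eq_or_lt with h0 | h0
  · rw [← h0]
    have : J0 0 ≤ 0 := (min_le_right _ _).trans (by simp)
    rw [ENNReal.ofReal_of_nonpos this]
    exact bot_le
  have hM : 0 < M := by
    by_contra hM
    push Not at hM
    have : ∀ᵐ t ∂mu, sv k E t = 0 := by
      filter_upwards [hess.upper] with t ht
      exact le_antisymm (ht.trans hM) (sv_nonneg _ _ _)
    rw [integral_congr_ae this] at hvol
    simp at hvol
    linarith
  set r := Real.sqrt (m / Real.pi) with hr
  set R := Real.sqrt (M / Real.pi) with hR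
  have hr0 : 0 ≤ r := Real.sqrt_nonneg _
  have hR0 : 0 < R := Real.sqrt_pos.mpr (by positivity)
  have hrR : r ≤ R := Real.sqrt_le_sqrt (by gcongr)
  have hmr : m = Real.pi * r ^ 2 := by rw [hr, Real.sq_sqrt (by positivity)]; field_simp
  have hMR : M = Real.pi * R ^ 2 := by rw [hR, Real.sq_sqrt (by positivity)]; field_simp
  have hβc := continuous_tubeBeta hr0 hR0
  have key := slicing_affine k hE hp (α := fun u => Real.sqrt (1 - tubeBeta r R u ^ 2))
    (β := tubeBeta r R) (by fun_prop) hβc (fun _ => Real.sqrt_nonneg _)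
    (fun _ => tubeBeta_nonneg _ _ _) (fun u => by
      rw [Real.sq_sqrt]
      · linarith
      · have := tubeBeta_nonneg r R u; have := tubeBeta_le_one r R u; nlinarith) hess hmM
    (F := 2 * Real.pi * (r * R) / (r + R)) (H := 2 / (r + R)) (by
      filter_upwards [hess.lower, hess.upper, hper] with t h1 h2 h3
      have hs0 := sv_nonneg k E t
      refine ⟨by (clear * - hM hs0; positivity), ?_⟩
      refine le_trans ?_ (mul_le_mul_right h3 _)
      rw [← ENNReal.ofReal_mul (tubeBeta_nonneg _ _ _)]
      apply ENNReal.ofReal_le_ofReal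
      set v := sv k E t with hv
      rcases hs0.eq_or_lt with h | h
      · have hm' : m = 0 := le_antisymm (by rw [h]; exact h1) hm0
        have hr' : r = 0 := by rw [hr, hm']; simp
        rw [← h, hr']; simp
      · set s := Real.sqrt (v / Real.pi) with hs
        have hsp : 0 < s := Real.sqrt_pos.mpr (by positivity)
        have hvs : v = Real.pi * s ^ 2 := by rw [hs, Real.sq_sqrt (by positivity)]; field_simp
        have hrs : r ≤ s := Real.sqrt_le_sqrt (by gcongr)
        have hsR : s ≤ R := Real.sqrt_le_sqrt (by gcongr)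
        have e1 : Real.sqrt (Real.pi * v) = Real.pi * s := by
          rw [hvs, show Real.pi * (Real.pi * s ^ 2) = (Real.pi * s) ^ 2 by ring,
            Real.sqrt_sq (by positivity)]
        rw [e1]
        have e2 := tubeBeta_eq hr0 hR0 hrs hsp hsR
        rw [← hvs] at e2
        rw [e2, hvs]
        apply le_of_eq
        field_simp)
  refine le_trans (ENNReal.ofReal_le_ofReal ?_) key
  have h1 := tube_integral hr0 hR0 hrR
  rw [← hmr, ← hMR] at h1
  have h2 := J0_le_of_radii hr0 hR0 h0.le
  linarith only [h1, h2]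

end Vale.Agent.P232
end
end

section

section

open MeasureTheory Set Filter Topology ContinuousLinearMap
open scoped Pointwise Convolution

namespace Vale.Agent.P232

/-- `E` misses a slab orthogonal to the `i`-th axis. -/
def Avoids {n : ℕ} (i : Fin n) (E : Set (Fin n → ℝ)) : Prop :=
  ∃ a b : ℝ, a < b ∧ b ≤ a + 1 ∧ ∀ x ∈ E, b - a ≤ Int.fract (x i - a)

theorem Avoids.mono {n : ℕ} {i : Fin n} {E E' : Set (Fin n → ℝ)} (h : Avoids i E)
    (hE : E' ⊆ E) : Avoids i E' := by
  obtain ⟨a, b, h1, h2, h3⟩ := h
  exact ⟨a, b, h1, h2, fun x hx => h3 x (hE hx)⟩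

theorem avoids_cut {n : ℕ} (i : Fin (n + 1)) {a b : ℝ} (E : Set (Fin (n + 1) → ℝ))
    (hab : a < b) (hb : b ≤ a + 1) : Avoids i (cut i a b E) :=
  ⟨a, b, hab, hb, fun _ hx => hx.2⟩

theorem Avoids.slice {n : ℕ} {i : Fin (n + 1)} {j : Fin n} {E : Set (Fin (n + 1) → ℝ)}
    (h : Avoids (i.succAbove j) E) (t : ℝ) : Avoids j (slice i E t) := by
  obtain ⟨a, b, h1, h2, h3⟩ := h
  refine ⟨a, b, h1, h2, fun y hy => ?_⟩
  have := h3 _ hy
  simpa using this

theorem Avoids.slice_eq_empty {n : ℕ} {i : Fin (n + 1)} {E : Set (Fin (n + 1) → ℝ)}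
    {a b : ℝ} (h3 : ∀ x ∈ E, b - a ≤ Int.fract (x i - a)) (hb : b ≤ a + 1) {t : ℝ}
    (ht : t ∈ Ico a b) : Vale.Agent.P232.slice i E t = ∅ := by
  ext y
  simp only [mem_empty_iff_false, iff_false]
  intro hy
  have h := h3 _ hy
  rw [Fin.insertNth_apply_same] at h
  have h' : Int.fract (t - a) = t - a := by
    rw [Int.fract_eq_self]
    constructor <;> linarith [ht.1, ht.2]
  rw [h'] at h
  linarith [ht.2]

theorem Avoids.vol_lt_one {n : ℕ} {i : Fin (n + 1)} {E : Set (Fin (n + 1) → ℝ)}
    (h : Avoids i E) (hE : MeasurableSet E) (hp : IsPeriodic E) : vol E < 1 := by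
  obtain ⟨a, b, h1, h2, h3⟩ := h
  rw [vol_eq_intervalIntegral i hE hp a, ← intervalIntegral.integral_add_adjacent_intervals
      (intervalIntegrable_sv i hE a b) (intervalIntegrable_sv i hE b (a + 1))]
  have e1 : ∫ t in a..b, sv i E t = 0 := by
    rw [intervalIntegral.integral_of_le h1.le, ← integral_Ico_eq_integral_Ioc]
    rw [setIntegral_congr_fun measurableSet_Ico (g := fun _ => (0 : ℝ))]
    · simp
    · intro t ht
      unfold sv
      rw [Avoids.slice_eq_empty h3 h2 ht]
      simp [vol]
  have e2 : ∫ t in b..(a + 1), sv i E t ≤ ∫ t in b..(a + 1), (1 : ℝ) := by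
    apply intervalIntegral.integral_mono_on h2 (intervalIntegrable_sv i hE _ _)
      intervalIntegrable_const
    intro t _
    exact sv_le_one _ _ _
  rw [intervalIntegral.integral_const] at e2
  simp only [smul_eq_mul, mul_one] at e2
  linarith

theorem Avoids.frequently_sv {n : ℕ} {i : Fin (n + 1)} {E : Set (Fin (n + 1) → ℝ)}
    (h : Avoids i E) (hp : IsPeriodic E) : ∃ᶠ t in ae mu, sv i E t = 0 := by
  obtain ⟨a, b, h1, h2, h3⟩ := h
  rw [Filter.Frequently]
  intro hne
  -- transfer the almost everywhere statement to the interval `[a, b)`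
  have hA : ∀ᵐ t : ℝ, t ∈ Ico (0 : ℝ) 1 → ¬ sv i E t = 0 :=
    (ae_restrict_iff' measurableSet_Ico).mp hne
  have hB : ∀ k : ℤ, ∀ᵐ t : ℝ, t + k ∈ Ico (0 : ℝ) 1 → ¬ sv i E t = 0 := by
    intro k
    have := (measurePreserving_add_right volume (k : ℝ)).quasiMeasurePreserving.ae hA
    filter_upwards [this] with t ht hk
    have := ht hk
    rwa [sv_add_int i hp] at this
  have hC : ∀ᵐ t : ℝ, ¬ sv i E t = 0 := by
    have := ae_all_iff.mpr hB
    filter_upwards [this] with t ht
    apply ht (-⌊t⌋)
    push_cast
    rw [← sub_eq_add_neg]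
    exact ⟨Int.fract_nonneg t, Int.fract_lt_one t⟩
  have hD : volume (Ico a b) = 0 := by
    have : Ico a b ⊆ {t | ¬ (¬ sv i E t = 0)} := by
      intro t ht
      simp only [not_not, mem_ofPred_eq]
      unfold sv
      rw [Avoids.slice_eq_empty h3 h2 ht]
      simp [vol]
    exact measure_mono_null this hC
  rw [Real.volume_Ico] at hD
  simp at hD
  linarith

theorem disc_bound_avoids {E : Set (Fin 2 → ℝ)} (hE : MeasurableSet E)
    (hp : IsPeriodic E) (h0 : Avoids 0 E) (h1 : Avoids 1 E) :
    ENNReal.ofReal (2 * Real.sqrt (Real.pi * vol E)) ≤ perimeter E := by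
  obtain ⟨m, M, hm0, hmM, hM1, hess⟩ := exists_essBd (sv_nonneg 0 E) (sv_le_one 0 E)
  have hm : m = 0 := by
    obtain ⟨t, ht1, ht2⟩ := ((h0.frequently_sv hp).and_eventually hess.lower).exists
    rw [ht1] at ht2
    exact le_antisymm ht2 hm0
  rw [hm] at hess
  apply disc_bound hE hp hess
  filter_upwards with t
  have h : Avoids ((0 : Fin 2).succAbove 0) E := h1
  exact (h.slice t).vol_lt_one (measurableSet_slice 0 hE t) (isPeriodic_slice 0 hp t)

end Vale.Agent.P232
end
end

section

section

open MeasureTheory Set Filter Topology ContinuousLinearMap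
open scoped Pointwise Convolution

namespace Vale.Agent.P232

/-- The one-direction bound with an affine calibration `F + H u ≤ I u`. -/
theorem line_bound {n : ℕ} (i : Fin (n + 1)) {E : Set (Fin (n + 1) → ℝ)}
    (hE : MeasurableSet E) (hp : IsPeriodic E) {I : ℝ → ℝ}
    (hI : ∀ᵐ t ∂mu, ENNReal.ofReal (I (sv i E t)) ≤ perimeter (slice i E t))
    {m M F H : ℝ} (hm : EssBd (sv i E) m M) (hmM : m ≤ M)
    (h0 : ∀ u ∈ Icc m M, 0 ≤ F + H * u) (h1 : ∀ u ∈ Icc m M, F + H * u ≤ I u)
    (hc : ContinuousOn (fun u => (F + H * u) / I u) (Icc m M)) :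
    ENNReal.ofReal (2 * (∫ u in m..M, Real.sqrt (1 - ((F + H * u) / I u) ^ 2)) + F + H * vol E) ≤
      perimeter E := by
  set q : ℝ → ℝ := fun u => max m (min M u) with hq
  have hqm : ∀ u, q u ∈ Icc m M := fun u =>
    ⟨le_max_left _ _, max_le hmM (min_le_left _ _)⟩
  have hqe : ∀ u ∈ Icc m M, q u = u := fun u hu => by
    rw [hq]; simp only; rw [min_eq_right hu.2, max_eq_right hu.1]
  have hqc : Continuous q := by rw [hq]; fun_prop
  set b0 : ℝ → ℝ := fun u => (F + H * u) / I u with hb0
  set β : ℝ → ℝ := fun u => b0 (q u) with hβ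
  have hβc : Continuous β := hc.comp_continuous hqc hqm
  have hI0 : ∀ u ∈ Icc m M, 0 ≤ I u := fun u hu => (h0 u hu).trans (h1 u hu)
  have hβ0 : ∀ u, 0 ≤ β u := fun u => div_nonneg (h0 _ (hqm u)) (hI0 _ (hqm u))
  have hβ1 : ∀ u, β u ≤ 1 := fun u => div_le_one_of_le₀ (h1 _ (hqm u)) (hI0 _ (hqm u))
  have key := slicing_affine i hE hp (α := fun u => Real.sqrt (1 - β u ^ 2)) (β := β)
    (by fun_prop) hβc (fun _ => Real.sqrt_nonneg _) hβ0 (fun u => by
      rw [Real.sq_sqrt]
      · linarith
      · have := hβ0 u; have := hβ1 u; nlinarith) hm hmM (F := F) (H := H) (by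
      filter_upwards [hm.lower, hm.upper, hI] with t h2 h3 h4
      have hu : sv i E t ∈ Icc m M := ⟨h2, h3⟩
      refine ⟨h0 _ hu, ?_⟩
      refine le_trans ?_ (mul_le_mul_right h4 _)
      rw [← ENNReal.ofReal_mul (hβ0 _)]
      apply ENNReal.ofReal_le_ofReal
      rw [hβ]
      simp only
      rw [hqe _ hu, hb0]
      simp only
      rcases (hI0 _ hu).eq_or_lt with h5 | h5
      · have := h1 _ hu
        rw [← h5] at this ⊢
        simpa using this
      · rw [div_mul_cancel₀ _ h5.ne'])
  refine le_trans (le_of_eq ?_) key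
  congr 1
  have hαc : Continuous (fun u => Real.sqrt (1 - β u ^ 2)) := by fun_prop
  have h5 : prim (fun u => Real.sqrt (1 - β u ^ 2)) M - prim (fun u => Real.sqrt (1 - β u ^ 2)) m =
      ∫ u in m..M, Real.sqrt (1 - ((F + H * u) / I u) ^ 2) := by
    unfold prim
    rw [intervalIntegral.integral_interval_sub_left (hαc.intervalIntegrable _ _)
      (hαc.intervalIntegrable _ _)]
    apply intervalIntegral.integral_congr
    intro u hu
    rw [uIcc_of_le hmM] at hu
    simp only [hβ, hb0]
    rw [hqe u hu]
  rw [h5]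

theorem continuous_I2 : Continuous I2 := by unfold I2; fun_prop

theorem I2_nonneg (u : ℝ) : 0 ≤ I2 u :=
  le_min (le_min (by positivity) (by positivity)) (by norm_num)

theorem le_I2 {u : ℝ} (h0 : 0 ≤ u) (h1 : u ≤ 1) : 2 * Real.sqrt (u * (1 - u)) ≤ I2 u := by
  have hpi := Real.pi_gt_three
  have h2 : 0 ≤ 1 - u := by linarith
  refine le_min (le_min ?_ ?_) ?_
  · apply mul_le_mul_of_nonneg_left (Real.sqrt_le_sqrt _) (by norm_num)
    nlinarith only [mul_nonneg h0 h2, mul_nonneg h0 h0, hpi]
  · apply mul_le_mul_of_nonneg_left (Real.sqrt_le_sqrt _) (by norm_num)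
    nlinarith [mul_nonneg h0 h2, mul_nonneg h2 h2]
  · have : Real.sqrt (u * (1 - u)) ≤ Real.sqrt 1 := Real.sqrt_le_sqrt (by nlinarith)
    rw [Real.sqrt_one] at this
    linarith

theorem I2_pos {u : ℝ} (h0 : 0 < u) (h1 : u < 1) : 0 < I2 u := by
  refine lt_of_lt_of_le ?_ (le_I2 h0.le h1.le)
  have : 0 < u * (1 - u) := mul_pos h0 (by linarith)
  positivity

theorem I2_zero : I2 0 = 0 := by
  refine le_antisymm ?_ (I2_nonneg 0)
  exact ((min_le_left _ _).trans (min_le_left _ _)).trans (by simp)

theorem I2_one_sub (u : ℝ) : I2 (1 - u) = I2 u := by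
  unfold I2
  rw [sub_sub_cancel, min_comm (2 * Real.sqrt (Real.pi * (1 - u)))]

theorem I2_one : I2 1 = 0 := by
  rw [← I2_zero, ← I2_one_sub 0, sub_zero]

theorem continuousAt_zero_aux {H : ℝ} : ContinuousWithinAt (fun u => (H * u) / I2 u) (Ici 0) 0 := by
  have h0 : (fun u => (H * u) / I2 u) 0 = 0 := by simp
  unfold ContinuousWithinAt
  rw [h0]
  have hlim : Tendsto (fun u : ℝ => |H| * Real.sqrt u) (𝓝[≥] 0) (𝓝 0) := by
    apply tendsto_nhdsWithin_of_tendsto_nhds
    have hc : Continuous (fun u : ℝ => |H| * Real.sqrt u) := by fun_prop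
    have := hc.tendsto 0
    simpa using this
  apply squeeze_zero_norm' _ hlim
  have hmem : Ico (0 : ℝ) (1 / 2) ∈ 𝓝[≥] (0 : ℝ) := Ico_mem_nhdsGE (by norm_num)
  filter_upwards [hmem] with u hu
  rw [Real.norm_eq_abs, abs_div, abs_mul, abs_of_nonneg hu.1, abs_of_nonneg (I2_nonneg u)]
  rcases hu.1.eq_or_lt with h | h
  · rw [← h]; simp
  · have h1 : u < 1 := by linarith [hu.2]
    rw [div_le_iff₀ (I2_pos h h1)]
    have h2 := le_I2 h.le h1.le
    have h3 : Real.sqrt u ≤ 2 * Real.sqrt (u * (1 - u)) := by
      have : Real.sqrt u = 2 * Real.sqrt (u / 4) := by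
        rw [show u / 4 = u * (1 / 2) ^ 2 by ring, Real.sqrt_mul h.le, Real.sqrt_sq (by norm_num)]
        ring
      rw [this]
      gcongr
      nlinarith only [hu.2, h, h1]
    calc |H| * u = |H| * (Real.sqrt u * Real.sqrt u) := by rw [Real.mul_self_sqrt h.le]
      _ = |H| * Real.sqrt u * Real.sqrt u := by ring
      _ ≤ |H| * Real.sqrt u * I2 u := by
        have := abs_nonneg H
        gcongr
        linarith

theorem continuousOn_line_div_I2 {m M F H : ℝ} (hm : 0 ≤ m) (hM : M ≤ 1)
    (h0 : ∀ u ∈ Icc m M, 0 ≤ F + H * u) (h1 : ∀ u ∈ Icc m M, F + H * u ≤ I2 u) :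
    ContinuousOn (fun u => (F + H * u) / I2 u) (Icc m M) := by
  intro u hu
  have hu0 : 0 ≤ u := hm.trans hu.1
  have hu1 : u ≤ 1 := hu.2.trans hM
  rcases hu0.eq_or_lt with h | h
  · have hF : F = 0 := by
      have a1 := h0 u hu
      have a2 := h1 u hu
      rw [← h, I2_zero] at a2
      rw [← h] at a1
      linarith
    rw [← h, hF]
    simp only [zero_add]
    exact (continuousAt_zero_aux).mono (fun x hx => hm.trans hx.1)
  rcases hu1.eq_or_lt with h' | h'
  · have hF : F + H = 0 := by
      have a1 := h0 u hu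
      have a2 := h1 u hu
      rw [h', I2_one] at a2
      rw [h'] at a1
      linarith
    rw [h']
    have e : (fun u => (F + H * u) / I2 u) = (fun u => (F * u) / I2 u) ∘ (fun u => 1 - u) := by
      ext x
      simp only [Function.comp]
      rw [I2_one_sub]
      congr 1
      linear_combination x * hF
    rw [e]
    have h2 : ContinuousWithinAt (fun u : ℝ => (F * u) / I2 u) (Ici 0) ((fun u : ℝ => 1 - u) 1) := by
      have : (fun u : ℝ => 1 - u) 1 = 0 := by norm_num
      rw [this]
      exact continuousAt_zero_aux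
    apply ContinuousWithinAt.comp h2
    · exact (by fun_prop : Continuous (fun u : ℝ => 1 - u)).continuousWithinAt
    · intro x hx
      simp only [mem_Ici]
      linarith [hx.2]
  · apply ContinuousAt.continuousWithinAt
    apply ContinuousAt.div (by fun_prop) continuous_I2.continuousAt
    exact (I2_pos h h').ne'

/-- The one-direction bound in the three-torus. -/
theorem line_bound_I2 (i : Fin 3) {E : Set (Fin 3 → ℝ)}
    (hE : MeasurableSet E) (hp : IsPeriodic E)
    {m M F H : ℝ} (hm : EssBd (sv i E) m M) (hm0 : 0 ≤ m) (hmM : m ≤ M) (hM : M ≤ 1)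
    (h0 : ∀ u ∈ Icc m M, 0 ≤ F + H * u) (h1 : ∀ u ∈ Icc m M, F + H * u ≤ I2 u) :
    ENNReal.ofReal (2 * (∫ u in m..M, Real.sqrt (1 - ((F + H * u) / I2 u) ^ 2)) + F + H * vol E) ≤
      perimeter E :=
  line_bound i hE hp (Eventually.of_forall fun t =>
    I2_le_perimeter (measurableSet_slice i hE t) (isPeriodic_slice i hp t)) hm hmM h0 h1
    (continuousOn_line_div_I2 hm0 hM h0 h1)

end Vale.Agent.P232
end
end

section

section

open MeasureTheory Set

namespace Vale.Agent.P232

/-- The integrand of the one-direction bound. -/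
noncomputable def sl (c l u : ℝ) : ℝ := Real.sqrt (1 - ((2 * c + 2 * l * u) / I2 u) ^ 2)

theorem sl_nonneg (c l u : ℝ) : 0 ≤ sl c l u := Real.sqrt_nonneg _

theorem sl_le_one (c l u : ℝ) : sl c l u ≤ 1 := by
  unfold sl
  have := sq_nonneg ((2 * c + 2 * l * u) / I2 u)
  exact Real.sqrt_le_one.2 (by linarith)

theorem intervalIntegrable_sl (c l a b : ℝ) : IntervalIntegrable (sl c l) volume a b := by
  have h1 : IntervalIntegrable (fun _ : ℝ => (1 : ℝ)) volume a b := intervalIntegrable_const
  refine h1.mono_fun' ?_ ?_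
  · apply Measurable.aestronglyMeasurable
    unfold sl
    have hI := continuous_I2.measurable
    fun_prop
  · refine Filter.Eventually.of_forall fun u => ?_
    show ‖sl c l u‖ ≤ 1
    rw [Real.norm_eq_abs, abs_of_nonneg (sl_nonneg c l u)]
    exact sl_le_one c l u

theorem I2_sq_ge {u w : ℝ} (h1 : w ≤ 4 * (Real.pi * u)) (h2 : w ≤ 4 * (Real.pi * (1 - u)))
    (h3 : w ≤ 4) (h4 : 0 ≤ w) : w ≤ I2 u ^ 2 := by
  have k1 : 0 ≤ Real.pi * u := by linarith
  have k2 : 0 ≤ Real.pi * (1 - u) := by linarith
  have : Real.sqrt w ≤ I2 u := by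
    refine le_min (le_min ?_ ?_) ?_
    · rw [Real.sqrt_le_left (by positivity), mul_pow, Real.sq_sqrt k1]; linarith
    · rw [Real.sqrt_le_left (by positivity), mul_pow, Real.sq_sqrt k2]; linarith
    · rw [Real.sqrt_le_left (by positivity)]; linarith
  calc w = Real.sqrt w ^ 2 := (Real.sq_sqrt h4).symm
    _ ≤ I2 u ^ 2 := by
      have := Real.sqrt_nonneg w
      gcongr

theorem line_ok {c l a b : ℝ} (hab : a ≤ b)
    (a1 : 0 ≤ c + l * a) (a2 : c + l * a ≤ 1) (a3 : (c + l * a) ^ 2 ≤ Real.pi * a)
    (a4 : (c + l * a) ^ 2 ≤ Real.pi * (1 - a))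
    (b1 : 0 ≤ c + l * b) (b2 : c + l * b ≤ 1) (b3 : (c + l * b) ^ 2 ≤ Real.pi * b)
    (b4 : (c + l * b) ^ 2 ≤ Real.pi * (1 - b)) {u : ℝ} (hu : u ∈ Icc a b) :
    0 ≤ 2 * c + 2 * l * u ∧ 2 * c + 2 * l * u ≤ I2 u := by
  obtain ⟨hu1, hu2⟩ := hu
  rcases hab.eq_or_lt with h | h
  · have e : u = a := by linarith
    subst e
    refine ⟨by linarith, ?_⟩
    have := I2_sq_ge (u := u) (w := 4 * (c + l * u) ^ 2) (by linarith) (by linarith)
      (by nlinarith only [a1, a2]) (by positivity)
    exact le_of_sq_le_sq (by linarith [this, sq (2 * c + 2 * l * u), sq (c + l * u)]) (I2_nonneg _)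
  · have hb : 0 < b - a := by linarith
    have e1 : 0 ≤ u - a := by linarith
    have e2 : 0 ≤ b - u := by linarith
    have c1 : 0 ≤ c + l * u := by
      have : 0 ≤ (b - a) * (c + l * u) := by linarith only [mul_nonneg e1 b1, mul_nonneg e2 a1]
      exact nonneg_of_mul_nonneg_right this hb
    have c2 : c + l * u ≤ 1 := by
      have : 0 ≤ (b - a) * (1 - (c + l * u)) := by
        linarith only [mul_nonneg e1 (sub_nonneg.2 b2), mul_nonneg e2 (sub_nonneg.2 a2)]
      linarith [nonneg_of_mul_nonneg_right this hb]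
    have c3 : (c + l * u) ^ 2 ≤ Real.pi * u := by
      have : 0 ≤ (b - a) * (Real.pi * u - (c + l * u) ^ 2) := by
        have k1 := mul_nonneg e1 (sub_nonneg.2 b3)
        have k2 := mul_nonneg e2 (sub_nonneg.2 a3)
        have k3 := mul_nonneg (mul_nonneg (sq_nonneg l) hb.le) (mul_nonneg e1 e2)
        linarith only [k1, k2, k3]
      linarith [nonneg_of_mul_nonneg_right this hb]
    have c4 : (c + l * u) ^ 2 ≤ Real.pi * (1 - u) := by
      have : 0 ≤ (b - a) * (Real.pi * (1 - u) - (c + l * u) ^ 2) := by
        have k1 := mul_nonneg e1 (sub_nonneg.2 b4)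
        have k2 := mul_nonneg e2 (sub_nonneg.2 a4)
        have k3 := mul_nonneg (mul_nonneg (sq_nonneg l) hb.le) (mul_nonneg e1 e2)
        linarith only [k1, k2, k3]
      linarith [nonneg_of_mul_nonneg_right this hb]
    refine ⟨by linarith, ?_⟩
    have := I2_sq_ge (u := u) (w := 4 * (c + l * u) ^ 2) (by linarith) (by linarith)
      (by nlinarith only [c1, c2]) (by positivity)
    exact le_of_sq_le_sq (by linarith [this, sq (2 * c + 2 * l * u), sq (c + l * u)]) (I2_nonneg _)

theorem interp {h0 h1 s0 s1 w0 w1 t : ℝ} (ht0 : 0 ≤ t) (ht1 : t ≤ 1) (hw0 : 0 < w0)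
    (hw1 : 0 < w1) (a0 : h0 ^ 2 ≤ w0 * (1 - s0 ^ 2)) (a1 : h1 ^ 2 ≤ w1 * (1 - s1 ^ 2)) :
    ((1 - t) * h0 + t * h1) ^ 2 ≤
      ((1 - t) * w0 + t * w1) * (1 - ((1 - t) * s0 + t * s1) ^ 2) := by
  have ht2 : 0 ≤ 1 - t := by linarith
  have hA : h0 ^ 2 / w0 ≤ 1 - s0 ^ 2 := by rw [div_le_iff₀ hw0]; linarith
  have hB : h1 ^ 2 / w1 ≤ 1 - s1 ^ 2 := by rw [div_le_iff₀ hw1]; linarith
  set A := h0 / w0 with hAd
  set B := h1 / w1 with hBd
  have eA : h0 = A * w0 := by rw [hAd]; field_simp
  have eB : h1 = B * w1 := by rw [hBd]; field_simp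
  have fA : h0 ^ 2 / w0 = A ^ 2 * w0 := by rw [hAd]; field_simp
  have fB : h1 ^ 2 / w1 = B ^ 2 * w1 := by rw [hBd]; field_simp
  rw [fA] at hA
  rw [fB] at hB
  have hW : 0 ≤ (1 - t) * w0 + t * w1 := by positivity
  have k1 : ((1 - t) * h0 + t * h1) ^ 2 ≤
      ((1 - t) * w0 + t * w1) * ((1 - t) * (A ^ 2 * w0) + t * (B ^ 2 * w1)) := by
    rw [eA, eB]
    have : 0 ≤ (1 - t) * t * (w0 * w1) * (A - B) ^ 2 := by positivity
    linarith only [this]
  refine k1.trans (mul_le_mul_of_nonneg_left ?_ hW)
  have k2 : 0 ≤ (1 - t) * t * (s0 - s1) ^ 2 := by positivity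
  linarith only [mul_le_mul_of_nonneg_left hA ht2, mul_le_mul_of_nonneg_left hB ht0, k2]

/-- A node: `s` is a lower bound of the integrand at `x`. -/
def Node (c l x s : ℝ) : Prop :=
  0 < x ∧ x < 1 ∧ 0 ≤ s ∧ (c + l * x) ^ 2 ≤ 1 - s ^ 2 ∧
    (c + l * x) ^ 2 ≤ Real.pi * x * (1 - s ^ 2) ∧
    (c + l * x) ^ 2 ≤ Real.pi * (1 - x) * (1 - s ^ 2)

theorem sl_ge {c l x0 s0 x1 s1 t : ℝ} (n0 : Node c l x0 s0) (n1 : Node c l x1 s1)
    (ht0 : 0 ≤ t) (ht1 : t ≤ 1) :
    (1 - t) * s0 + t * s1 ≤ sl c l ((1 - t) * x0 + t * x1) := by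
  obtain ⟨p1, p2, p3, p4, p5, p6⟩ := n0
  obtain ⟨q1, q2, q3, q4, q5, q6⟩ := n1
  have hpi := Real.pi_pos
  have ht2 : 0 ≤ 1 - t := by linarith
  set u := (1 - t) * x0 + t * x1 with hu
  set s := (1 - t) * s0 + t * s1 with hs
  have hu0 : 0 < u := by
    rcases ht0.eq_or_lt with h | h
    · rw [hu, ← h]; linarith
    · have : 0 ≤ (1 - t) * x0 := by positivity
      have : 0 < t * x1 := by positivity
      linarith
  have hu1 : u < 1 := by
    rcases ht0.eq_or_lt with h | h
    · rw [hu, ← h]; linarith
    · nlinarith only [ht1, p2, q2, h]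
  have eh : c + l * u = (1 - t) * (c + l * x0) + t * (c + l * x1) := by rw [hu]; ring
  have r1 := interp ht0 ht1 (w0 := 1) (w1 := 1) one_pos one_pos (by linarith) (by linarith)
    (h0 := c + l * x0) (h1 := c + l * x1) (s0 := s0) (s1 := s1)
  have r2 := interp ht0 ht1 (w0 := Real.pi * x0) (w1 := Real.pi * x1) (by positivity)
    (by positivity) p5 q5
  have r3 := interp ht0 ht1 (w0 := Real.pi * (1 - x0)) (w1 := Real.pi * (1 - x1))
    (mul_pos hpi (by linarith)) (mul_pos hpi (by linarith)) p6 q6
  rw [← eh, ← hs] at r1 r2 r3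
  have e2 : (1 - t) * (Real.pi * x0) + t * (Real.pi * x1) = Real.pi * u := by rw [hu]; ring
  have e3 : (1 - t) * (Real.pi * (1 - x0)) + t * (Real.pi * (1 - x1)) = Real.pi * (1 - u) := by
    rw [hu]; ring
  rw [e2] at r2
  rw [e3] at r3
  have e1 : (1 - t) * 1 + t * 1 = (1 : ℝ) := by ring
  rw [e1, one_mul] at r1
  have hs0 : 0 ≤ s := by rw [hs]; positivity
  have hs1 : s ^ 2 ≤ 1 := by linarith only [sq_nonneg (c + l * u), r1]
  have hI := I2_pos hu0 hu1
  unfold sl
  apply Real.le_sqrt_of_sq_le
  clear_value u s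
  have hI2 : (2 * c + 2 * l * u) ^ 2 ≤ I2 u ^ 2 * (1 - s ^ 2) := by
    have e4 : (2 * c + 2 * l * u) ^ 2 = 4 * (c + l * u) ^ 2 := by ring
    rw [e4]
    rcases hs1.eq_or_lt with h | h
    · rw [h] at r1 ⊢
      linarith
    · have h' : 0 < 1 - s ^ 2 := by linarith
      have := I2_sq_ge (u := u) (w := 4 * (c + l * u) ^ 2 / (1 - s ^ 2))
        (by rw [div_le_iff₀ h']; linarith) (by rw [div_le_iff₀ h']; linarith)
        (by rw [div_le_iff₀ h']; linarith) (by positivity)
      rw [div_le_iff₀ h'] at this
      exact this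
  have : ((2 * c + 2 * l * u) / I2 u) ^ 2 ≤ 1 - s ^ 2 := by
    rw [div_pow, div_le_iff₀ (by positivity)]
    linarith
  linarith

theorem integral_sl_ge {c l x0 s0 x1 s1 : ℝ} (n0 : Node c l x0 s0) (n1 : Node c l x1 s1)
    (h : x0 < x1) :
    (x1 - x0) * (s0 + s1) / 2 ≤ ∫ u in x0..x1, sl c l u := by
  have hx : 0 < x1 - x0 := by linarith
  have e : (∫ u in x0..x1, ((1 - (u - x0) / (x1 - x0)) * s0 + ((u - x0) / (x1 - x0)) * s1)) =
      (x1 - x0) * (s0 + s1) / 2 := by
    have e1 : (fun u : ℝ => ((1 - (u - x0) / (x1 - x0)) * s0 + ((u - x0) / (x1 - x0)) * s1)) =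
        fun u => (s0 - x0 * ((s1 - s0) / (x1 - x0))) + ((s1 - s0) / (x1 - x0)) * u := by
      ext u
      field_simp
      ring
    rw [e1, intervalIntegral.integral_add (by simp) (by apply Continuous.intervalIntegrable; fun_prop),
      intervalIntegral.integral_const, intervalIntegral.integral_const_mul, integral_id,
      smul_eq_mul]
    field_simp
    ring
  rw [← e]
  apply intervalIntegral.integral_mono_on h.le
  · apply Continuous.intervalIntegrable
    fun_prop
  · exact intervalIntegrable_sl c l x0 x1
  · intro u hu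
    have h1 : 0 ≤ (u - x0) / (x1 - x0) := div_nonneg (by linarith [hu.1]) hx.le
    have h2 : (u - x0) / (x1 - x0) ≤ 1 := by
      rw [div_le_one hx]; linarith [hu.2]
    have := sl_ge n0 n1 h1 h2
    have e3 : (1 - (u - x0) / (x1 - x0)) * x0 + (u - x0) / (x1 - x0) * x1 = u := by
      field_simp
      ring
    rw [e3] at this
    exact this

end Vale.Agent.P232
end
end

section

section

open MeasureTheory Set

namespace Vale.Agent.P232

/-- The information about a set given by the slices in one direction: `m`, `M` are the essential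
bounds of the areas of the slices, `V` is the volume and `P` the perimeter. -/
def LineHyp (m M V : ℝ) (P : ENNReal) : Prop :=
  ∀ F H : ℝ, (∀ u ∈ Icc m M, 0 ≤ F + H * u) → (∀ u ∈ Icc m M, F + H * u ≤ I2 u) →
    ENNReal.ofReal (2 * (∫ u in m..M, Real.sqrt (1 - ((F + H * u) / I2 u) ^ 2)) + F +
      H * V) ≤ P

/-- Lower bound of `π`. -/
def piL : ℚ := 3141592 / 1000000

/-- Upper bound of `π`. -/
def piU : ℚ := 3141593 / 1000000

theorem piL_le : ((piL : ℚ) : ℝ) ≤ Real.pi := by
  have := Real.pi_gt_d6
  have e : ((piL : ℚ) : ℝ) = 3.141592 := by norm_num [piL]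
  rw [e]; exact this.le

theorem le_piU : Real.pi ≤ ((piU : ℚ) : ℝ) := by
  have := Real.pi_lt_d6
  have e : ((piU : ℚ) : ℝ) = 3.141593 := by norm_num [piU]
  rw [e]; exact this.le

/-- Check that the line is below the profile at `x`. -/
def lineOK (c l x : ℚ) : Bool :=
  decide (0 ≤ c + l * x) && decide (c + l * x ≤ 1) && decide ((c + l * x) ^ 2 ≤ piL * x) &&
    decide ((c + l * x) ^ 2 ≤ piL * (1 - x))

/-- Check a node. -/
def nodeOK (c l : ℚ) (p : ℚ × ℚ) : Bool :=
  decide (0 < p.1) && decide (p.1 < 1) && decide (0 ≤ p.2) &&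
    decide ((c + l * p.1) ^ 2 ≤ 1 - p.2 ^ 2) &&
    decide ((c + l * p.1) ^ 2 ≤ piL * p.1 * (1 - p.2 ^ 2)) &&
    decide ((c + l * p.1) ^ 2 ≤ piL * (1 - p.1) * (1 - p.2 ^ 2))

/-- Check a list of nodes. -/
def chainOK (c l : ℚ) : ℚ × ℚ → List (ℚ × ℚ) → Bool
  | p, [] => nodeOK c l p
  | p, q :: L => nodeOK c l p && decide (p.1 < q.1) && chainOK c l q L

/-- The trapezoidal sum. -/
def trap : ℚ × ℚ → List (ℚ × ℚ) → ℚ
  | _, [] => 0
  | p, q :: L => (q.1 - p.1) * (p.2 + q.2) / 2 + trap q L

/-- The last node. -/
def lastX : ℚ × ℚ → List (ℚ × ℚ) → ℚ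
  | p, [] => p.1
  | _, q :: L => lastX q L

theorem node_of_nodeOK {c l : ℚ} {p : ℚ × ℚ} (h : nodeOK c l p = true) :
    Node (c : ℝ) (l : ℝ) (p.1 : ℝ) (p.2 : ℝ) := by
  simp only [nodeOK, Bool.and_eq_true, decide_eq_true_eq] at h
  obtain ⟨⟨⟨⟨⟨h1, h2⟩, h3⟩, h4⟩, h5⟩, h6⟩ := h
  have g1 : (0 : ℝ) < (p.1 : ℝ) := by exact_mod_cast h1
  have g2 : (p.1 : ℝ) < 1 := by exact_mod_cast h2
  have g3 : (0 : ℝ) ≤ (p.2 : ℝ) := by exact_mod_cast h3
  have g4 : ((c : ℝ) + l * p.1) ^ 2 ≤ 1 - (p.2 : ℝ) ^ 2 := by exact_mod_cast h4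
  have g5 : ((c : ℝ) + l * p.1) ^ 2 ≤ (piL : ℝ) * p.1 * (1 - (p.2 : ℝ) ^ 2) := by
    exact_mod_cast h5
  have g6 : ((c : ℝ) + l * p.1) ^ 2 ≤ (piL : ℝ) * (1 - p.1) * (1 - (p.2 : ℝ) ^ 2) := by
    exact_mod_cast h6
  have hs : 0 ≤ 1 - (p.2 : ℝ) ^ 2 := (sq_nonneg _).trans g4
  refine ⟨g1, g2, g3, g4, g5.trans ?_, g6.trans ?_⟩
  · have := piL_le
    gcongr
  · have := piL_le
    have h7 : 0 ≤ 1 - (p.1 : ℝ) := by linarith
    gcongr

theorem trap_le_integral {c l : ℚ} (L : List (ℚ × ℚ)) (p : ℚ × ℚ)
    (h : chainOK c l p L = true) :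
    p.1 ≤ lastX p L ∧
      ((trap p L : ℚ) : ℝ) ≤ ∫ u in (p.1 : ℝ)..((lastX p L : ℚ) : ℝ), sl c l u := by
  induction L generalizing p with
  | nil => simp [lastX, trap]
  | cons q L ih =>
    simp only [chainOK, Bool.and_eq_true, decide_eq_true_eq] at h
    obtain ⟨⟨h1, h2⟩, h3⟩ := h
    obtain ⟨h4, h5⟩ := ih q h3
    have n0 := node_of_nodeOK h1
    have n1 : Node (c : ℝ) (l : ℝ) (q.1 : ℝ) (q.2 : ℝ) := by
      apply node_of_nodeOK
      cases L with
      | nil => simpa [chainOK] using h3
      | cons r L =>
        simp only [chainOK, Bool.and_eq_true] at h3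
        exact h3.1.1
    refine ⟨h2.le.trans (by simpa [lastX] using h4), ?_⟩
    simp only [lastX, trap]
    rw [← intervalIntegral.integral_add_adjacent_intervals (b := (q.1 : ℝ))
      (intervalIntegrable_sl _ _ _ _) (intervalIntegrable_sl _ _ _ _)]
    have := integral_sl_ge n0 n1 (by exact_mod_cast h2)
    push_cast
    linarith

/-- Certificate for one cell. -/
structure Cert where
  /-- upper end for `M` -/
  b2 : ℚ
  /-- constant term of the line -/
  c : ℚ
  /-- slope of the line -/
  l : ℚ
  /-- first node -/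
  p : ℚ × ℚ
  /-- other nodes -/
  L : List (ℚ × ℚ)
  /-- parameters of the comparison -/
  th : ℚ
  /-- parameters of the comparison -/
  r : ℚ
  /-- parameters of the comparison -/
  t : ℚ

/-- Base check for the cell `[a, a2] × [b, C.b2]`. -/
def baseOK (a a2 b : ℚ) (C : Cert) : Bool :=
  lineOK C.c C.l a && lineOK C.c C.l C.b2 && decide (C.p.1 = a2) &&
    decide (lastX C.p C.L = b) && chainOK C.c C.l C.p C.L

theorem base_sound {a a2 b : ℚ} {C : Cert} (h : baseOK a a2 b C = true) {m M V : ℝ}
    {P : ENNReal} (hl : LineHyp m M V P) (h1 : (a : ℝ) ≤ m) (h2 : m ≤ (a2 : ℝ))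
    (h3 : (b : ℝ) ≤ M) (h4 : M ≤ (C.b2 : ℝ)) :
    ENNReal.ofReal (2 * ((C.c : ℝ) + C.l * V + ((trap C.p C.L : ℚ) : ℝ))) ≤ P := by
  simp only [baseOK, lineOK, Bool.and_eq_true, decide_eq_true_eq] at h
  obtain ⟨⟨⟨⟨⟨⟨⟨x1, x2⟩, x3⟩, x4⟩, ⟨⟨y1, y2⟩, y3⟩, y4⟩, h5⟩, h6⟩, h7⟩ := h
  obtain ⟨k1, k2⟩ := trap_le_integral C.L C.p h7
  rw [h5, h6] at k1
  rw [h5, h6] at k2
  have k1' : (a2 : ℝ) ≤ (b : ℝ) := by exact_mod_cast k1
  have x1' : (0 : ℝ) ≤ (C.c : ℝ) + C.l * a := by exact_mod_cast x1
  have x2' : (C.c : ℝ) + C.l * a ≤ 1 := by exact_mod_cast x2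
  have x3' : ((C.c : ℝ) + C.l * a) ^ 2 ≤ (piL : ℝ) * a := by exact_mod_cast x3
  have x4' : ((C.c : ℝ) + C.l * a) ^ 2 ≤ (piL : ℝ) * (1 - a) := by exact_mod_cast x4
  have y1' : (0 : ℝ) ≤ (C.c : ℝ) + C.l * C.b2 := by exact_mod_cast y1
  have y2' : (C.c : ℝ) + C.l * C.b2 ≤ 1 := by exact_mod_cast y2
  have y3' : ((C.c : ℝ) + C.l * C.b2) ^ 2 ≤ (piL : ℝ) * C.b2 := by exact_mod_cast y3
  have y4' : ((C.c : ℝ) + C.l * C.b2) ^ 2 ≤ (piL : ℝ) * (1 - C.b2) := by exact_mod_cast y4
  have hpL : (0 : ℝ) < (piL : ℝ) := by norm_num [piL]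
  have e1 : (0 : ℝ) ≤ a := nonneg_of_mul_nonneg_right ((sq_nonneg _).trans x3') hpL
  have e2 : (0 : ℝ) ≤ 1 - a := nonneg_of_mul_nonneg_right ((sq_nonneg _).trans x4') hpL
  have e3 : (0 : ℝ) ≤ C.b2 := nonneg_of_mul_nonneg_right ((sq_nonneg _).trans y3') hpL
  have e4 : (0 : ℝ) ≤ 1 - C.b2 := nonneg_of_mul_nonneg_right ((sq_nonneg _).trans y4') hpL
  have hline := fun (u : ℝ) (hu : u ∈ Icc (a : ℝ) (C.b2 : ℝ)) =>
    line_ok (c := (C.c : ℝ)) (l := (C.l : ℝ)) (a := (a : ℝ)) (b := (C.b2 : ℝ))
      (h1.trans (h2.trans (k1'.trans (h3.trans h4)))) x1' x2'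
      (x3'.trans (mul_le_mul_of_nonneg_right piL_le e1))
      (x4'.trans (mul_le_mul_of_nonneg_right piL_le e2)) y1' y2'
      (y3'.trans (mul_le_mul_of_nonneg_right piL_le e3))
      (y4'.trans (mul_le_mul_of_nonneg_right piL_le e4)) hu
  have hsub : Icc m M ⊆ Icc (a : ℝ) (C.b2 : ℝ) := Icc_subset_Icc h1 h4
  have key := hl (2 * C.c) (2 * C.l) (fun u hu => (hline u (hsub hu)).1)
    (fun u hu => (hline u (hsub hu)).2)
  refine le_trans (ENNReal.ofReal_le_ofReal ?_) key
  have hmono : ∫ u in (a2 : ℝ)..(b : ℝ), sl C.c C.l u ≤ ∫ u in m..M, sl C.c C.l u :=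
    intervalIntegral.integral_mono_interval h2 k1' h3
      (Filter.Eventually.of_forall fun u => sl_nonneg _ _ _) (intervalIntegrable_sl _ _ _ _)
  have : (∫ u in m..M, Real.sqrt (1 - ((2 * (C.c : ℝ) + 2 * C.l * u) / I2 u) ^ 2)) =
      ∫ u in m..M, sl C.c C.l u := rfl
  rw [this]
  linarith only [hmono, k2]

/-- Check all the cells over a strip. -/
def cellsOK (fin : ℚ → ℚ → Cert → Bool) (B1 a a2 : ℚ) : ℚ → List Cert → Bool
  | b, [] => decide (B1 ≤ b)
  | b, C :: Cs => baseOK a a2 b C && fin a b C && cellsOK fin B1 a a2 C.b2 Cs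

/-- Check all strips. -/
def stripsOK (fin : ℚ → ℚ → Cert → Bool) (A1 B0 B1 : ℚ) : ℚ → List (ℚ × List Cert) → Bool
  | a, [] => decide (A1 ≤ a)
  | a, S :: Ss => cellsOK fin B1 a S.1 B0 S.2 && stripsOK fin A1 B0 B1 S.1 Ss

theorem cells_sound {fin : ℚ → ℚ → Cert → Bool} {B1 a a2 : ℚ} (Cs : List Cert) (b : ℚ)
    (h : cellsOK fin B1 a a2 b Cs = true) {M : ℝ} (hb : (b : ℝ) < M) (hM : M ≤ (B1 : ℝ)) :
    ∃ (b' : ℚ) (C : Cert), baseOK a a2 b' C = true ∧ fin a b' C = true ∧ (b' : ℝ) < M ∧
      M ≤ (C.b2 : ℝ) := by
  induction Cs generalizing b with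
  | nil =>
    simp only [cellsOK, decide_eq_true_eq] at h
    have : (B1 : ℝ) ≤ b := by exact_mod_cast h
    linarith
  | cons C Cs ih =>
    simp only [cellsOK, Bool.and_eq_true] at h
    obtain ⟨⟨h1, h2⟩, h3⟩ := h
    rcases le_or_gt M (C.b2 : ℝ) with h4 | h4
    · exact ⟨b, C, h1, h2, hb, h4⟩
    · exact ih C.b2 h3 h4

theorem strips_sound {fin : ℚ → ℚ → Cert → Bool} {A1 B0 B1 : ℚ} (Ss : List (ℚ × List Cert))
    (a : ℚ) (h : stripsOK fin A1 B0 B1 a Ss = true) {m M : ℝ} (ha : (a : ℝ) ≤ m)
    (hm : m < (A1 : ℝ)) (hb : (B0 : ℝ) < M) (hM : M ≤ (B1 : ℝ)) :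
    ∃ (a a2 b : ℚ) (C : Cert), baseOK a a2 b C = true ∧ fin a b C = true ∧ (a : ℝ) ≤ m ∧
      m ≤ (a2 : ℝ) ∧ (b : ℝ) < M ∧ M ≤ (C.b2 : ℝ) := by
  induction Ss generalizing a with
  | nil =>
    simp only [stripsOK, decide_eq_true_eq] at h
    have : (A1 : ℝ) ≤ a := by exact_mod_cast h
    linarith
  | cons S Ss ih =>
    simp only [stripsOK, Bool.and_eq_true] at h
    obtain ⟨h1, h2⟩ := h
    rcases le_or_gt m (S.1 : ℝ) with h4 | h4
    · obtain ⟨b', C, k1, k2, k3, k4⟩ := cells_sound S.2 B0 h1 hb hM
      exact ⟨a, S.1, b', C, k1, k2, ha, h4, k3, k4⟩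
    · exact ih S.1 h2 h4.le

/-- Final check for the range of balls and tubes. -/
def finLow (V1 : ℚ) (a _b : ℚ) (C : Cert) : Bool :=
  decide (0 < C.r) && decide (0 < C.t) && decide (0 ≤ C.th) && decide (C.th ≤ 1) &&
    decide (C.th * (2 * piU / 3 * C.r ^ 2 + a / C.r) + (1 - C.th) * ((piU * a / C.t + C.t) / 2) ≤
      C.c + C.l * a + trap C.p C.L) &&
    decide (C.th * (2 * piU / 3 * C.r ^ 2 + V1 / C.r) + (1 - C.th) * ((piU * V1 / C.t + C.t) / 2) ≤
      C.c + C.l * V1 + trap C.p C.L)

theorem tube_le {V t : ℝ} (hV : 0 ≤ V) (ht : 0 < t) :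
    2 * Real.sqrt (Real.pi * V) ≤ Real.pi * V / t + t := by
  have h := two_mul_sqrt_le_add (x := Real.pi * V / t) (y := t) (by positivity) ht.le
  rwa [div_mul_cancel₀ _ ht.ne'] at h

theorem finLow_sound {V1 a b : ℚ} {C : Cert} (h : finLow V1 a b C = true) {V : ℝ}
    (ha0 : (0 : ℝ) ≤ a) (hV0 : (a : ℝ) ≤ V) (hV1 : V ≤ (V1 : ℝ)) :
    J0 V ≤ 2 * ((C.c : ℝ) + C.l * V + ((trap C.p C.L : ℚ) : ℝ)) := by
  simp only [finLow, Bool.and_eq_true, decide_eq_true_eq] at h
  obtain ⟨⟨⟨⟨⟨h1, h2⟩, h3⟩, h4⟩, h5⟩, h6⟩ := h
  have g1 : (0 : ℝ) < (C.r : ℝ) := by exact_mod_cast h1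
  have g2 : (0 : ℝ) < (C.t : ℝ) := by exact_mod_cast h2
  have g3 : (0 : ℝ) ≤ (C.th : ℝ) := by exact_mod_cast h3
  have g4 : (C.th : ℝ) ≤ 1 := by exact_mod_cast h4
  have g5 : (C.th : ℝ) * (2 * piU / 3 * (C.r : ℝ) ^ 2 + a / C.r) +
      (1 - C.th) * ((piU * a / C.t + C.t) / 2) ≤ C.c + C.l * a + ((trap C.p C.L : ℚ) : ℝ) := by
    exact_mod_cast h5
  have g6 : (C.th : ℝ) * (2 * piU / 3 * (C.r : ℝ) ^ 2 + V1 / C.r) +
      (1 - C.th) * ((piU * V1 / C.t + C.t) / 2) ≤ C.c + C.l * V1 + ((trap C.p C.L : ℚ) : ℝ) := by
    exact_mod_cast h6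
  have hVp : 0 ≤ V := ha0.trans hV0
  have hb := ball_le hVp g1
  have ht := tube_le hVp g2
  have hpi := le_piU
  set T : ℝ := ((trap C.p C.L : ℚ) : ℝ) with hT
  set th : ℝ := (C.th : ℝ)
  set r : ℝ := (C.r : ℝ)
  set t : ℝ := (C.t : ℝ)
  set c : ℝ := (C.c : ℝ)
  set l : ℝ := (C.l : ℝ)
  set pu : ℝ := (piU : ℝ)
  have i1 : J0 V ≤ th * (4 * Real.pi / 3 * r ^ 2 + 2 * V / r) +
      (1 - th) * (Real.pi * V / t + t) := by
    have j1 : J0 V ≤ 4 * Real.pi / 3 * r ^ 2 + 2 * V / r := (min_le_left _ _).trans hb
    have j2 : J0 V ≤ Real.pi * V / t + t := (min_le_right _ _).trans ht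
    linarith only [mul_le_mul_of_nonneg_left j1 g3,
      mul_le_mul_of_nonneg_left j2 (sub_nonneg.2 g4)]
  have i2 : th * (4 * Real.pi / 3 * r ^ 2 + 2 * V / r) + (1 - th) * (Real.pi * V / t + t) ≤
      2 * (th * (2 * pu / 3 * r ^ 2 + V / r) + (1 - th) * ((pu * V / t + t) / 2)) := by
    have j1 : 4 * Real.pi / 3 * r ^ 2 ≤ 4 * pu / 3 * r ^ 2 := by gcongr
    have j2 : Real.pi * V / t ≤ pu * V / t := by gcongr
    have j3 := mul_le_mul_of_nonneg_left j1 g3
    have j4 := mul_le_mul_of_nonneg_left j2 (sub_nonneg.2 g4)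
    have e : 2 * (th * (2 * pu / 3 * r ^ 2 + V / r) + (1 - th) * ((pu * V / t + t) / 2)) =
      th * (4 * pu / 3 * r ^ 2 + 2 * V / r) + (1 - th) * (pu * V / t + t) := by ring
    rw [e]
    linarith only [j4, j3]
  -- the difference of the two affine functions
  have i3 : th * (2 * pu / 3 * r ^ 2 + V / r) + (1 - th) * ((pu * V / t + t) / 2) ≤
      c + l * V + T := by
    set s : ℝ := th / r + (1 - th) * (pu / t / 2) with hs
    have e : ∀ v : ℝ, th * (2 * pu / 3 * r ^ 2 + v / r) + (1 - th) * ((pu * v / t + t) / 2) =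
        th * (2 * pu / 3 * r ^ 2) + (1 - th) * (t / 2) + s * v := by
      intro v; rw [hs]; ring
    rw [e] at g5 g6 ⊢
    rcases (hV0.trans hV1).eq_or_lt with h7 | h7
    · have : V = a := le_antisymm (by rw [h7]; exact hV1) hV0
      rw [this]; exact g5
    · have h8 : (0 : ℝ) < V1 - a := by linarith only [h7]
      have h9 : 0 ≤ (V1 - a) * (c + l * V + T -
          (th * (2 * pu / 3 * r ^ 2) + (1 - th) * (t / 2) + s * V)) := by
        have k1 := mul_nonneg (sub_nonneg.2 hV1) (sub_nonneg.2 g5)
        have k2 := mul_nonneg (sub_nonneg.2 hV0) (sub_nonneg.2 g6)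
        linarith only [k1, k2]
      linarith only [nonneg_of_mul_nonneg_right h9 h8]
  linarith only [i3, i2, i1]

/-- Final check for the range of slabs. -/
def finSlab (V0 V1 : ℚ) (a _b : ℚ) (C : Cert) : Bool :=
  (decide (1 ≤ C.c + C.l * V0 + trap C.p C.L) ||
    (decide (V0 ≤ a) && decide (1 ≤ C.c + C.l * a + trap C.p C.L))) &&
  (decide (1 ≤ C.c + C.l * V1 + trap C.p C.L) ||
    (decide (C.b2 ≤ V1) && decide (1 ≤ C.c + C.l * C.b2 + trap C.p C.L)))

theorem affine_ge {c l x y v T : ℝ} (h1 : 1 ≤ c + l * x + T) (h2 : 1 ≤ c + l * y + T)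
    (hx : x ≤ v) (hy : v ≤ y) : 1 ≤ c + l * v + T := by
  rcases (hx.trans hy).eq_or_lt with h7 | h7
  · have : v = x := le_antisymm (by rw [h7]; exact hy) hx
    rw [this]; exact h1
  · have h8 : (0 : ℝ) < y - x := by linarith
    have h9 : 0 ≤ (y - x) * (c + l * v + T - 1) := by
      have k1 := mul_nonneg (sub_nonneg.2 hy) (sub_nonneg.2 h1)
      have k2 := mul_nonneg (sub_nonneg.2 hx) (sub_nonneg.2 h2)
      linarith only [k1, k2]
    linarith [nonneg_of_mul_nonneg_right h9 h8]

theorem finSlab_sound {V0 V1 a b : ℚ} {C : Cert} (h : finSlab V0 V1 a b C = true) {V : ℝ}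
    (hV0 : (V0 : ℝ) ≤ V) (hV1 : V ≤ (V1 : ℝ)) (ha : (a : ℝ) ≤ V) (hb : V ≤ (C.b2 : ℝ)) :
    2 ≤ 2 * ((C.c : ℝ) + C.l * V + ((trap C.p C.L : ℚ) : ℝ)) := by
  simp only [finSlab, Bool.and_eq_true, Bool.or_eq_true, decide_eq_true_eq] at h
  obtain ⟨h1, h2⟩ := h
  have k1 : ∃ x : ℝ, x ≤ V ∧ 1 ≤ (C.c : ℝ) + C.l * x + ((trap C.p C.L : ℚ) : ℝ) := by
    rcases h1 with h | ⟨_, h⟩
    · exact ⟨V0, hV0, by exact_mod_cast h⟩
    · exact ⟨a, ha, by exact_mod_cast h⟩
  have k2 : ∃ y : ℝ, V ≤ y ∧ 1 ≤ (C.c : ℝ) + C.l * y + ((trap C.p C.L : ℚ) : ℝ) := by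
    rcases h2 with h | ⟨_, h⟩
    · exact ⟨V1, hV1, by exact_mod_cast h⟩
    · exact ⟨C.b2, hb, by exact_mod_cast h⟩
  obtain ⟨x, hx, h3⟩ := k1
  obtain ⟨y, hy, h4⟩ := k2
  have := affine_ge h3 h4 hx hy
  linarith

/-- Rational numbers with denominator `10 ^ 5`. -/
def d (z : ℤ) : ℚ := mkRat z 100000

end Vale.Agent.P232
end
end

section

section

open MeasureTheory Set

namespace Vale.Agent.P232

theorem one_le_aux {τ D : ℝ} (h0 : 0 ≤ τ) (h1 : τ ≤ 1) (hD : 0 ≤ D)
    (h : 1 - τ ≤ D ^ 2 * (1 + τ)) : 1 ≤ τ + D * Real.sqrt (1 - τ ^ 2) := by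
  have h2 : 0 ≤ 1 - τ ^ 2 := by linarith [mul_nonneg (sub_nonneg.2 h1) (sub_nonneg.2 h1), mul_nonneg (sub_nonneg.2 h0) (sub_nonneg.2 h1)]
  have h3 : (1 - τ) ^ 2 ≤ (D * Real.sqrt (1 - τ ^ 2)) ^ 2 := by
    rw [mul_pow, Real.sq_sqrt h2]
    have := mul_le_mul_of_nonneg_left h (sub_nonneg.2 h1)
    linarith only [this]
  have h4 := abs_le_of_sq_le_sq' h3 (by positivity)
  linarith [h4.2]

/-- A horizontal line. -/
theorem const_line {m M V m' M' τ : ℝ} {P : ENNReal} (hl : LineHyp m M V P)
    (hmM : m ≤ M) (h0 : 0 ≤ τ) (h1 : τ ≤ 1)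
    (a1 : τ ^ 2 ≤ Real.pi * m) (a2 : τ ^ 2 ≤ Real.pi * (1 - m))
    (a3 : τ ^ 2 ≤ Real.pi * M) (a4 : τ ^ 2 ≤ Real.pi * (1 - M))
    (b1 : m ≤ m') (b2 : m' < M') (b3 : M' ≤ M) (c1 : 1 ≤ Real.pi * m')
    (c2 : 1 ≤ Real.pi * (1 - M')) (hD : 1 - τ ≤ (M' - m') ^ 2 * (1 + τ)) :
    ENNReal.ofReal 2 ≤ P := by
  have hpi := Real.pi_pos
  have hline := fun (u : ℝ) (hu : u ∈ Icc m M) =>
    line_ok (c := τ) (l := 0) (a := m) (b := M) hmM (by linarith) (by linarith)
      (by rw [zero_mul, add_zero]; exact a1) (by rw [zero_mul, add_zero]; exact a2)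
      (by linarith) (by linarith)
      (by rw [zero_mul, add_zero]; exact a3) (by rw [zero_mul, add_zero]; exact a4) hu
  have key := hl (2 * τ) (2 * 0) (fun u hu => (hline u hu).1) (fun u hu => (hline u hu).2)
  refine le_trans (ENNReal.ofReal_le_ofReal ?_) key
  have h2 : 0 ≤ 1 - τ ^ 2 := by nlinarith only [h0, h1]
  have node : ∀ x : ℝ, 1 ≤ Real.pi * x → 1 ≤ Real.pi * (1 - x) →
      Node τ 0 x (Real.sqrt (1 - τ ^ 2)) := by
    intro x hx1 hx2
    have e : τ + 0 * x = τ := by ring
    refine ⟨?_, ?_, Real.sqrt_nonneg _, ?_, ?_, ?_⟩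
    · by_contra h
      push Not at h
      linarith [mul_nonneg (sub_nonneg.2 a2) (sub_nonneg.2 h), mul_nonneg (sub_nonneg.2 a1) (sub_nonneg.2 h), mul_nonneg (sq_nonneg (τ : ℝ)) (sub_nonneg.2 h), hx1]
    · by_contra h
      push Not at h
      nlinarith only [a1, a2, hx2, h]
    · rw [e, Real.sq_sqrt h2]; linarith
    · rw [e, Real.sq_sqrt h2]; nlinarith only [sq_nonneg τ, hx1]
    · rw [e, Real.sq_sqrt h2]; nlinarith only [sq_nonneg τ, hx2]
  have n0 := node m' c1 (by linarith only [mul_nonneg (sub_nonneg.2 a2) (le_of_lt (sub_pos.2 b2)), mul_nonneg (sub_nonneg.2 a1) (le_of_lt (sub_pos.2 b2)), mul_nonneg (sq_nonneg (τ : ℝ)) (le_of_lt (sub_pos.2 b2)), c2])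
  have n1 := node M' (by nlinarith only [a1, a2, b2, c1]) c2
  have k1 := integral_sl_ge n0 n1 b2
  have hmono : ∫ u in m'..M', sl τ 0 u ≤ ∫ u in m..M, sl τ 0 u :=
    intervalIntegral.integral_mono_interval b1 b2.le b3
      (Filter.Eventually.of_forall fun u => sl_nonneg _ _ _) (intervalIntegrable_sl _ _ _ _)
  have k2 := one_le_aux h0 h1 (sub_nonneg.2 b2.le) hD
  have : (∫ u in m..M, Real.sqrt (1 - ((2 * τ + 2 * 0 * u) / I2 u) ^ 2)) =
      ∫ u in m..M, sl τ 0 u := rfl
  rw [this]
  linarith

/-- The slab range, when all slices have area between `0.3162` and `0.72`. -/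
theorem slab_mid {m M V : ℝ} {P : ENNReal} (hl : LineHyp m M V P) (hm : 0.3162 ≤ m)
    (hM : M ≤ 0.72) (hmV : m ≤ V) (hVM : V ≤ M) (hV0 : 0.36 ≤ V) (hV1 : V ≤ 0.5) :
    ENNReal.ofReal 2 ≤ P := by
  have hpi := Real.pi_pos
  have p1 := Real.pi_gt_d6
  have p2 := Real.pi_lt_d6
  set q : ℝ := 1 / Real.pi with hq
  have hqp : Real.pi * q = 1 := by rw [hq]; field_simp
  have q1 : 0.318309 ≤ q := by rw [hq, le_div_iff₀ hpi]; linarith only [p2, p1]
  have q2 : q ≤ 0.31831 := by rw [hq, div_le_iff₀ hpi]; linarith only [p1, p2]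
  have hs1 : (0.9966 : ℝ) ^ 2 ≤ Real.pi * m := by nlinarith only [hm, hpi, p1, p2]
  rcases le_or_gt M (1 - q) with hM1 | hM1
  · rcases le_or_gt q m with hm1 | hm1
    · -- everything in the flat part
      have hline := fun (u : ℝ) (hu : u ∈ Icc m M) =>
        line_ok (c := 1) (l := 0) (a := m) (b := M) (hmV.trans hVM) (by norm_num) (by norm_num)
          (by nlinarith only [hpi, hqp, hm1]) (by nlinarith only [hm, hmV, hV1, p1, p2]) (by norm_num) (by norm_num)
          (by nlinarith only [hM, hVM, hV0, p1, p2]) (by nlinarith only [hpi, hqp, hM1]) hu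
      have key := hl (2 * 1) (2 * 0) (fun u hu => (hline u hu).1) (fun u hu => (hline u hu).2)
      refine le_trans (ENNReal.ofReal_le_ofReal ?_) key
      have : 0 ≤ ∫ u in m..M, Real.sqrt (1 - ((2 * 1 + 2 * 0 * u) / I2 u) ^ 2) :=
        intervalIntegral.integral_nonneg (hmV.trans hVM) fun u _ => Real.sqrt_nonneg _
      linarith only [this]
    · refine const_line (m' := q) (M' := M) (τ := 0.9966) hl (hmV.trans hVM) (by norm_num)
        (by norm_num) hs1 (by nlinarith only [hm, p1, p2, q2, hm1]) (by nlinarith only [hm, hM, hVM, hV0, p1, p2, q2, hm1]) (by nlinarith only [hm, hM, p1, q2, hM1, hm1]) hm1.le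
        (by linarith only [hm, hVM, hV0, q2, hm1]) le_rfl hqp.ge (by nlinarith only [hpi, hqp, hM1]) ?_
      have : (0.04169 : ℝ) ^ 2 ≤ (M - q) ^ 2 := by
        apply pow_le_pow_left₀ (by norm_num); linarith only [hVM, hV0, q2]
      linarith only [this]
  · have hs2 : (0.9378 : ℝ) ^ 2 ≤ Real.pi * (1 - M) := by nlinarith only [hM, hpi, p1, q2, hM1]
    refine const_line (m' := max m q) (M' := 1 - q) (τ := 0.9378) hl (hmV.trans hVM)
      (by norm_num) (by norm_num) (by linarith only [hs1]) (by nlinarith only [hm, hM, hmV, hVM, p1, p2, q2, hM1]) (by nlinarith only [hM, p1, p2, q2, hM1]) hs2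
      (le_max_left _ _) (max_lt (by linarith only [hmV, hV1, p1, p2, q2]) (by linarith only [p1, p2, q2])) hM1.le ?_ ?_ ?_
    · rw [← hqp]; exact mul_le_mul_of_nonneg_left (le_max_right _ _) hpi.le
    · rw [sub_sub_cancel, hqp]
    · have : (0.181 : ℝ) ^ 2 ≤ (1 - q - max m q) ^ 2 := by
        apply pow_le_pow_left₀ (by norm_num)
        have : max m q ≤ 0.5 := max_le (by linarith only [hmV, hV1]) (by linarith only [p1, p2, q2])
        linarith only [hM, q2, hM1, this]
      linarith only [this]

/-! ### The corner `m → 0`, `M → 1` -/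

theorem mul_log_le {m : ℝ} (h0 : 0 < m) : m * (-Real.log m) ≤ 0.7358 * Real.sqrt m := by
  have hs : 0 < Real.sqrt m := Real.sqrt_pos.2 h0
  have h1 : Real.log (1 / Real.sqrt m / Real.exp 1) ≤ 1 / Real.sqrt m / Real.exp 1 - 1 :=
    Real.log_le_sub_one_of_pos (by positivity)
  have h2 : Real.log (1 / Real.sqrt m / Real.exp 1) = - (Real.log m / 2) - 1 := by
    rw [Real.log_div (by positivity) (by positivity), Real.log_exp, one_div, Real.log_inv,
      Real.log_sqrt h0.le]
  rw [h2] at h1
  have h3 : - Real.log m ≤ 2 / Real.exp 1 * (1 / Real.sqrt m) := by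
    have : 1 / Real.sqrt m / Real.exp 1 = 1 / Real.exp 1 * (1 / Real.sqrt m) := by
      field_simp
    rw [this] at h1
    have : 2 / Real.exp 1 * (1 / Real.sqrt m) = 2 * (1 / Real.exp 1 * (1 / Real.sqrt m)) := by ring
    rw [this]
    linarith only [h1]
  have h4 : 2 / Real.exp 1 ≤ 0.7358 := by
    rw [div_le_iff₀ (Real.exp_pos 1)]
    have := Real.exp_one_gt_d9
    linarith only [this]
  calc m * (-Real.log m) ≤ m * (2 / Real.exp 1 * (1 / Real.sqrt m)) :=
        mul_le_mul_of_nonneg_left h3 h0.le
    _ = 2 / Real.exp 1 * (m / Real.sqrt m) := by ring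
    _ = 2 / Real.exp 1 * Real.sqrt m := by rw [Real.div_sqrt]
    _ ≤ 0.7358 * Real.sqrt m := mul_le_mul_of_nonneg_right h4 hs.le

theorem intervalIntegrable_div {m M : ℝ} (h0 : 0 ≤ m) (hmM : m ≤ M) :
    IntervalIntegrable (fun u : ℝ => m / u) volume m M := by
  rcases h0.eq_or_lt with h | h
  · rw [← h]
    simp
  · apply ContinuousOn.intervalIntegrable
    apply ContinuousOn.div continuousOn_const continuousOn_id
    intro x hx
    rw [uIcc_of_le hmM] at hx
    exact (h.trans_le hx.1).ne'

theorem integral_div_le {m M : ℝ} (h0 : 0 ≤ m) (hmM : m ≤ M) (hM : M ≤ 1) :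
    ∫ u in m..M, m / u ≤ 0.7358 * Real.sqrt m := by
  rcases h0.eq_or_lt with h | h
  · rw [← h]
    simp
  · have e : ∫ u in m..M, m / u = m * Real.log (M / m) := by
      simp only [div_eq_mul_inv]
      rw [intervalIntegral.integral_const_mul, integral_inv_of_pos h (h.trans_le hmM)]
      rw [div_eq_mul_inv]
    rw [e]
    refine le_trans ?_ (mul_log_le h)
    apply mul_le_mul_of_nonneg_left _ h.le
    rw [Real.log_div (h.trans_le hmM).ne' h.ne']
    have := Real.log_nonpos (h.le.trans hmM) hM
    linarith

end Vale.Agent.P232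
end
end

section

section

open MeasureTheory Set

namespace Vale.Agent.P232

theorem le_sqrt_self {t : ℝ} (h : t ≤ 1) : t ≤ Real.sqrt t := by
  rcases le_or_gt t 0 with h0 | h0
  · exact h0.trans (Real.sqrt_nonneg _)
  · apply Real.le_sqrt_of_sq_le
    nlinarith

theorem corner_pointwise {x y u : ℝ} (hu0 : 0 ≤ u) (hu1 : u ≤ 1) :
    1 - 0.0920 * (x ^ 2 / u) - 0.0920 * (y ^ 2 / (1 - u)) ≤
      sl (0.38 * x) (0.38 * (y - x)) u := by
  have hpi := Real.pi_gt_d6
  have hpi2 := Real.pi_lt_d6
  have A0 : 0 ≤ x ^ 2 / u := div_nonneg (sq_nonneg _) hu0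
  have B0 : 0 ≤ y ^ 2 / (1 - u) := div_nonneg (sq_nonneg _) (by linarith only [hu1])
  rcases hu0.eq_or_lt with h | h
  · have : sl (0.38 * x) (0.38 * (y - x)) u = 1 := by
      rw [← h]; unfold sl; rw [I2_zero]; simp
    rw [this]
    linarith only [A0, B0]
  rcases hu1.eq_or_lt with h' | h'
  · have : sl (0.38 * x) (0.38 * (y - x)) u = 1 := by
      rw [h']; unfold sl; rw [I2_one]; simp
    rw [this]
    linarith only [A0, B0]
  · have hu2 : 0 < 1 - u := by linarith only [h']
    have hI := I2_sq_ge (u := u) (w := 4 * (Real.pi * (u * (1 - u))))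
      (by linarith only [mul_pos h h, mul_pos Real.pi_pos (mul_pos h h)])
      (by linarith only [mul_pos Real.pi_pos (mul_pos hu2 hu2)])
      (by linarith only [sq_nonneg (2 * u - 1), mul_nonneg Real.pi_pos.le (sq_nonneg (2 * u - 1)), hpi, hpi2])
      (by positivity)
    have hIp := I2_pos h h'
    have key : ((2 * (0.38 * x) + 2 * (0.38 * (y - x)) * u) / I2 u) ^ 2 ≤
        0.0920 * (x ^ 2 / u) + 0.0920 * (y ^ 2 / (1 - u)) := by
      rw [div_pow, div_le_iff₀ (by positivity)]
      have e1 : (2 * (0.38 * x) + 2 * (0.38 * (y - x)) * u) ^ 2 ≤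
          4 * 0.1444 * 2 * (x ^ 2 * (1 - u) ^ 2 + y ^ 2 * u ^ 2) := by
        linarith only [sq_nonneg (x * (1 - u) - y * u)]
      refine e1.trans ?_
      have hnn : 0 ≤ 0.0920 * (x ^ 2 / u) + 0.0920 * (y ^ 2 / (1 - u)) := by positivity
      refine le_trans ?_ (mul_le_mul_of_nonneg_left hI hnn)
      have e2 : (0.0920 * (x ^ 2 / u) + 0.0920 * (y ^ 2 / (1 - u))) *
          (4 * (Real.pi * (u * (1 - u)))) =
          0.368 * Real.pi * (x ^ 2 * (1 - u) + y ^ 2 * u) := by
        field_simp
        ring
      rw [e2]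
      have e3 : x ^ 2 * (1 - u) ^ 2 + y ^ 2 * u ^ 2 ≤ x ^ 2 * (1 - u) + y ^ 2 * u := by
        linarith only [mul_nonneg (sq_nonneg x) (mul_nonneg h.le hu2.le),
          mul_nonneg (sq_nonneg y) (mul_nonneg h.le hu2.le)]
      have e4 : 0 ≤ x ^ 2 * (1 - u) + y ^ 2 * u := by positivity
      linarith only [mul_nonneg (le_of_lt (sub_pos.2 hpi)) (sub_nonneg.2 e3), mul_nonneg (le_of_lt (sub_pos.2 hpi)) (sub_nonneg.2 e1), mul_nonneg (sq_nonneg (1 * 2 * (1 * 19 * (1 * x)) + 1 * 2 * (1 * 19 * (1 * y - 1 * x)) * (1 * u) : ℝ)) (le_of_lt (sub_pos.2 hpi)), mul_nonneg (sq_nonneg (1 * u : ℝ)) (sq_nonneg (1 * y : ℝ)), mul_nonneg (sq_nonneg (1 * x : ℝ)) (sq_nonneg (1 * 1 - 1 * u : ℝ)), mul_nonneg (mul_self_nonneg (1 : ℝ)) (sub_nonneg.2 e3)]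
    unfold sl
    refine le_trans ?_ (le_sqrt_self ?_)
    · linarith only [key]
    · have := sq_nonneg ((2 * (0.38 * x) + 2 * (0.38 * (y - x)) * u) / I2 u)
      linarith only [this]

theorem corner {m M V : ℝ} {P : ENNReal} (hl : LineHyp m M V P) (hm0 : 0 ≤ m)
    (hm : m ≤ 0.002) (hM : 0.998 ≤ M) (hM1 : M ≤ 1) (hV0 : 0.305 ≤ V) (hV1 : V ≤ 0.5) :
    ENNReal.ofReal (2 + 0.006 * (Real.sqrt m + Real.sqrt (1 - M))) ≤ P := by
  have hpi := Real.pi_gt_d6
  have hw0 : 0 ≤ 1 - M := by linarith only [hM1]
  set x := Real.sqrt m with hx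
  set y := Real.sqrt (1 - M) with hy
  have hx0 : 0 ≤ x := Real.sqrt_nonneg _
  have hy0 : 0 ≤ y := Real.sqrt_nonneg _
  have hx2 : x ^ 2 = m := Real.sq_sqrt hm0
  have hy2 : y ^ 2 = 1 - M := Real.sq_sqrt hw0
  have hx1 : x ≤ 0.0448 := by
    by_contra h
    push Not at h
    nlinarith only [hm, hx0, hx2, h]
  have hy1 : y ≤ 0.0448 := by
    by_contra h
    push Not at h
    nlinarith only [hM, hy0, hy2, h]
  have hmM : m ≤ M := by linarith only [hm, hM]
  have hha : 0.38 * x + 0.38 * (y - x) * m ≤ 0.4 * x := by
    rw [← hx2]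
    have : y * x ^ 2 ≤ 0.0448 * (0.0448 * x) := by
      rw [sq]
      have := mul_le_mul hy1 (mul_le_mul_of_nonneg_right hx1 hx0) (by positivity) (by norm_num)
      linarith only [this]
    linarith only [mul_nonneg hx0 (sq_nonneg x), this, hx0]
  have hha0 : 0 ≤ 0.38 * x + 0.38 * (y - x) * m := by
    have : 0.38 * x + 0.38 * (y - x) * m = 0.38 * (x * (1 - m) + y * m) := by ring
    rw [this]
    have : 0 ≤ 1 - m := by linarith only [hm]
    (clear * - this hm0; positivity)
  have hhb : 0.38 * x + 0.38 * (y - x) * M ≤ 0.4 * y := by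
    have e : M = 1 - y ^ 2 := by rw [hy2]; ring
    rw [e]
    have : x * y ^ 2 ≤ 0.0448 * (0.0448 * y) := by
      rw [sq]
      have := mul_le_mul hx1 (mul_le_mul_of_nonneg_right hy1 hy0) (by positivity) (by norm_num)
      linarith only [this]
    linarith only [hy0, this, mul_nonneg hy0 (sq_nonneg y)]
  have hhb0 : 0 ≤ 0.38 * x + 0.38 * (y - x) * M := by
    have : 0.38 * x + 0.38 * (y - x) * M = 0.38 * (x * (1 - M) + y * M) := by ring
    rw [this]
    have : 0 ≤ M := by linarith only [hM]
    (clear * - hM1 hM; positivity)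
  have hsa : (0.38 * x + 0.38 * (y - x) * m) ^ 2 ≤ 0.16 * m := by
    rw [← hx2]
    calc _ ≤ (0.4 * x) ^ 2 := by
          rw [hx2]
          exact pow_le_pow_left₀ hha0 hha 2
      _ = _ := by ring
  have hsb : (0.38 * x + 0.38 * (y - x) * M) ^ 2 ≤ 0.16 * (1 - M) := by
    rw [← hy2]
    calc _ ≤ (0.4 * y) ^ 2 := pow_le_pow_left₀ hhb0 hhb 2
      _ = _ := by ring
  have hline := fun (u : ℝ) (hu : u ∈ Icc m M) =>
    line_ok (c := 0.38 * x) (l := 0.38 * (y - x)) (a := m) (b := M) hmM hha0 (by linarith only [hha, hx1])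
      (hsa.trans (by nlinarith only [hm0, hpi])) (hsa.trans (by nlinarith only [hm, hpi])) hhb0 (by linarith only [hy1, hhb])
      (hsb.trans (by nlinarith only [hM, hpi])) (hsb.trans (by nlinarith only [hM1, hpi])) hu
  have key := hl (2 * (0.38 * x)) (2 * (0.38 * (y - x))) (fun u hu => (hline u hu).1)
    (fun u hu => (hline u hu).2)
  refine le_trans (ENNReal.ofReal_le_ofReal ?_) key
  have e0 : (∫ u in m..M, Real.sqrt (1 - ((2 * (0.38 * x) + 2 * (0.38 * (y - x)) * u) / I2 u) ^ 2)) =
      ∫ u in m..M, sl (0.38 * x) (0.38 * (y - x)) u := rfl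
  rw [e0]
  have i1 : IntervalIntegrable (fun u : ℝ => x ^ 2 / u) volume m M := by
    rw [hx2]
    exact intervalIntegrable_div hm0 hmM
  have i2 : IntervalIntegrable (fun u : ℝ => y ^ 2 / (1 - u)) volume m M := by
    rw [hy2]
    have := (intervalIntegrable_div hw0 (by linarith only [hm, hM] : 1 - M ≤ 1 - m)).comp_sub_left 1
    simp only [sub_sub_cancel] at this
    exact this.symm
  have j1 : ∫ u in m..M, x ^ 2 / u ≤ 0.7358 * x := by
    rw [hx2]
    exact integral_div_le hm0 hmM hM1
  have j2 : ∫ u in m..M, y ^ 2 / (1 - u) ≤ 0.7358 * y := by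
    rw [hy2]
    have := intervalIntegral.integral_comp_sub_left (a := m) (b := M)
      (fun u : ℝ => (1 - M) / u) 1
    rw [this]
    exact integral_div_le hw0 (by linarith only [hm, hM]) (by linarith only [hm0])
  have j3 : ∫ u in m..M, (1 - 0.0920 * (x ^ 2 / u) - 0.0920 * (y ^ 2 / (1 - u))) ≤
      ∫ u in m..M, sl (0.38 * x) (0.38 * (y - x)) u := by
    apply intervalIntegral.integral_mono_on hmM
    · exact (intervalIntegrable_const.sub (i1.const_mul _)).sub (i2.const_mul _)
    · exact intervalIntegrable_sl _ _ _ _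
    · intro u hu
      exact corner_pointwise (hm0.trans hu.1) (hu.2.trans hM1)
  rw [intervalIntegral.integral_sub (intervalIntegrable_const.sub (i1.const_mul _))
    (i2.const_mul _), intervalIntegral.integral_sub intervalIntegrable_const (i1.const_mul _),
    intervalIntegral.integral_const_mul, intervalIntegral.integral_const_mul,
    intervalIntegral.integral_const, smul_eq_mul, mul_one] at j3
  have g1 : 2 * (0.38 * (y - x)) * V = 0.76 * (y * V) - 0.76 * (x * V) := by ring
  have g2 : y * 0.305 ≤ y * V := mul_le_mul_of_nonneg_left hV0 hy0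
  have g3 : x * V ≤ x * 0.5 := mul_le_mul_of_nonneg_left hV1 hx0
  have g4 : m ≤ 0.0448 * x := by rw [← hx2, sq]; exact mul_le_mul_of_nonneg_right hx1 hx0
  have g5 : 1 - M ≤ 0.0448 * y := by rw [← hy2, sq]; exact mul_le_mul_of_nonneg_right hy1 hy0
  rw [g1]
  linarith only [hx0, hy0, j1, j2, j3, g2, g3, g4, g5]

end Vale.Agent.P232
end
end

section

section

open MeasureTheory Set

namespace Vale.Agent.P232

/-- `E` is symmetric decreasing in every coordinate (with respect to the distance to the nearest
integer). -/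
def IsDown {n : ℕ} (E : Set (Fin n → ℝ)) : Prop :=
  ∀ x y : Fin n → ℝ, (∀ i, |y i - round (y i)| ≤ |x i - round (x i)|) → x ∈ E → y ∈ E

/-- The volume of the slices `x i = t` as `t` tends to `1 / 2` from below. -/
noncomputable def far {n : ℕ} (i : Fin (n + 1)) (F : Set (Fin (n + 1) → ℝ)) : ℝ :=
  sInf (sv i F '' Ioo 0 (1 / 2))

end Vale.Agent.P232
end
end

section

section

/-! Steiner symmetrization, part 1: means over vertical lines. -/

open MeasureTheory Set Filter Topology ContinuousLinearMap
open scoped Pointwise Convolution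

namespace Vale.Agent.P232

theorem integral_cube_succ' {n : ℕ} (i : Fin (n + 1)) (g : (Fin (n + 1) → ℝ) → ℝ)
    (hg : IntegrableOn g (cube (n + 1))) :
    ∫ x in cube (n + 1), g x =
      ∫ y in cube n, ∫ t in Ico (0 : ℝ) 1, g (i.insertNth (α := fun _ => ℝ) t y) := by
  rw [integral_cube_succ i g hg]
  have hmp := volume_preserving_piFinSuccAbove (fun _ : Fin (n + 1) => ℝ) i
  have hpre : cube (n + 1) =
      (MeasurableEquiv.piFinSuccAbove (fun _ : Fin (n + 1) => ℝ) i) ⁻¹'
        (Ico (0 : ℝ) 1 ×ˢ cube n) := by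
    ext x
    simp only [cube, mem_ofPred_eq, mem_preimage, MeasurableEquiv.piFinSuccAbove_apply,
      Fin.insertNthEquiv_symm_apply, mem_prod, mem_Ico]
    rw [Fin.forall_iff_succAbove i]
    rfl
  have h2 : (MeasurableEquiv.piFinSuccAbove (fun _ : Fin (n + 1) => ℝ) i).symm ⁻¹'
      (cube (n + 1)) = Ico (0 : ℝ) 1 ×ˢ cube n := by
    rw [hpre, ← preimage_comp]
    simp
  have h3 : IntegrableOn
      (fun p : ℝ × (Fin n → ℝ) => g (i.insertNth (α := fun _ => ℝ) p.1 p.2))
      (Ico (0 : ℝ) 1 ×ˢ cube n) (volume.prod volume) := by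
    have := (hmp.symm.integrableOn_comp_preimage
      (MeasurableEquiv.piFinSuccAbove (fun _ : Fin (n + 1) => ℝ) i).symm.measurableEmbedding
      (f := g) (s := cube (n + 1))).mpr hg
    rw [h2] at this
    exact this
  rw [IntegrableOn, ← Measure.prod_restrict] at h3
  exact integral_integral_swap h3

/-- The mean of `f` over the line through `y` in direction `i`. -/
noncomputable def colMean {n : ℕ} (i : Fin (n + 1)) (f : (Fin (n + 1) → ℝ) → ℝ)
    (y : Fin n → ℝ) : ℝ :=
  ∫ t in Ico (0 : ℝ) 1, f (i.insertNth (α := fun _ => ℝ) t y)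

theorem continuous_ins_left {n : ℕ} (i : Fin (n + 1)) (y : Fin n → ℝ) :
    Continuous (fun t : ℝ => i.insertNth (α := fun _ => ℝ) t y) :=
  (continuous_insertNth' i).comp (continuous_id.prodMk continuous_const)

theorem integrableOn_Ico {g : ℝ → ℝ} (hg : Continuous g) : IntegrableOn g (Ico (0 : ℝ) 1) :=
  (hg.continuousOn.integrableOn_compact isCompact_Icc).mono_set Ico_subset_Icc_self

theorem setIntegral_Ico_eq {β : Type*} [NormedAddCommGroup β] [NormedSpace ℝ β] (g : ℝ → β) :
    ∫ t in Ico (0 : ℝ) 1, g t = ∫ t in Icc (0 : ℝ) 1, g t :=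
  setIntegral_congr_set Ico_ae_eq_Icc

theorem continuous_colMean {n : ℕ} (i : Fin (n + 1)) {f : (Fin (n + 1) → ℝ) → ℝ}
    (hf : Continuous f) : Continuous (colMean i f) := by
  unfold colMean
  simp_rw [setIntegral_Ico_eq]
  apply continuous_parametric_integral_of_continuous _ isCompact_Icc
  exact hf.comp ((continuous_insertNth' i).comp (continuous_snd.prodMk continuous_fst))

theorem integral_colMean {n : ℕ} (i : Fin (n + 1)) {f : (Fin (n + 1) → ℝ) → ℝ}
    (hf : Continuous f) : ∫ x in cube (n + 1), f x = ∫ y in cube n, colMean i f y :=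
  integral_cube_succ' i f (integrableOn_cube hf)

theorem perFun_colMean {n : ℕ} (i : Fin (n + 1)) {f : (Fin (n + 1) → ℝ) → ℝ}
    (hf : PerFun f) : PerFun (colMean i f) := by
  intro y k
  unfold colMean
  apply integral_congr_ae
  filter_upwards with t
  exact perFun_sliceFun i hf t y k

theorem colMean_nonneg {n : ℕ} (i : Fin (n + 1)) {f : (Fin (n + 1) → ℝ) → ℝ}
    (h0 : ∀ x, 0 ≤ f x) (y : Fin n → ℝ) : 0 ≤ colMean i f y :=
  integral_nonneg fun _ => h0 _

theorem colMean_le_one {n : ℕ} (i : Fin (n + 1)) {f : (Fin (n + 1) → ℝ) → ℝ}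
    (hf : Continuous f) (h1 : ∀ x, f x ≤ 1) (y : Fin n → ℝ) : colMean i f y ≤ 1 := by
  unfold colMean
  calc ∫ t in Ico (0 : ℝ) 1, f (i.insertNth (α := fun _ => ℝ) t y)
      ≤ ∫ t in Ico (0 : ℝ) 1, (1 : ℝ) := by
        apply integral_mono
        · exact integrableOn_Ico (hf.comp (continuous_ins_left i y))
        · exact integrableOn_Ico continuous_const
        · intro t
          exact h1 _
    _ = 1 := by simp

/-- the derivative of a column mean -/
noncomputable def colDeriv {n : ℕ} (i : Fin (n + 1)) (f : (Fin (n + 1) → ℝ) → ℝ)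
    (y : Fin n → ℝ) : (Fin n → ℝ) →L[ℝ] ℝ :=
  ∫ t in Ico (0 : ℝ) 1, (fderiv ℝ f (i.insertNth (α := fun _ => ℝ) t y)).comp (insL i)

theorem continuous_colIntegrand {n : ℕ} (i : Fin (n + 1)) {f : (Fin (n + 1) → ℝ) → ℝ}
    (hf : ContDiff ℝ 1 f) : Continuous (fun p : ℝ × (Fin n → ℝ) =>
      (fderiv ℝ f (i.insertNth (α := fun _ => ℝ) p.1 p.2)).comp (insL i)) :=
  ((hf.continuous_fderiv one_ne_zero).comp (continuous_insertNth' i)).clm_comp continuous_const

theorem hasFDerivAt_colMean {n : ℕ} (i : Fin (n + 1)) {f : (Fin (n + 1) → ℝ) → ℝ}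
    (hf : ContDiff ℝ 1 f) (y : Fin n → ℝ) :
    HasFDerivAt (colMean i f) (colDeriv i f y) y := by
  have hcont := continuous_colIntegrand i hf
  have hcomp : IsCompact (Icc (0 : ℝ) 1 ×ˢ Metric.closedBall y 1) :=
    isCompact_Icc.prod (isCompact_closedBall y 1)
  obtain ⟨K, hK⟩ := hcomp.exists_bound_of_continuousOn hcont.continuousOn
  unfold colMean colDeriv
  refine hasFDerivAt_integral_of_dominated_of_fderiv_le (μ := volume.restrict (Ico (0 : ℝ) 1))
    (s := Metric.closedBall y 1) (bound := fun _ => K)
    (F := fun y t => f (i.insertNth (α := fun _ => ℝ) t y))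
    (F' := fun y t => (fderiv ℝ f (i.insertNth (α := fun _ => ℝ) t y)).comp (insL i))
    ?_ ?_ ?_ ?_ ?_ ?_ ?_
  · exact Metric.closedBall_mem_nhds y one_pos
  · filter_upwards with z
    exact (hf.continuous.comp (continuous_ins_left i z)).aestronglyMeasurable
  · exact integrableOn_Ico (hf.continuous.comp (continuous_ins_left i y))
  · exact (hcont.comp (continuous_id.prodMk continuous_const)).aestronglyMeasurable
  · filter_upwards [ae_restrict_mem measurableSet_Ico] with t ht z hz
    exact hK (t, z) ⟨Ico_subset_Icc_self ht, hz⟩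
  · exact integrable_const _
  · filter_upwards with t z _
    exact ((hf.differentiable one_ne_zero
      (i.insertNth (α := fun _ => ℝ) t z)).hasFDerivAt).comp z (hasFDerivAt_insertNth i t z)

theorem continuous_colDeriv {n : ℕ} (i : Fin (n + 1)) {f : (Fin (n + 1) → ℝ) → ℝ}
    (hf : ContDiff ℝ 1 f) : Continuous (colDeriv i f) := by
  unfold colDeriv
  simp_rw [setIntegral_Ico_eq]
  apply continuous_parametric_integral_of_continuous _ isCompact_Icc
  exact (continuous_colIntegrand i hf).comp (continuous_snd.prodMk continuous_fst)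

theorem contDiff_colMean {n : ℕ} (i : Fin (n + 1)) {f : (Fin (n + 1) → ℝ) → ℝ}
    (hf : ContDiff ℝ 1 f) : ContDiff ℝ 1 (colMean i f) := by
  rw [contDiff_one_iff_fderiv]
  refine ⟨fun y => (hasFDerivAt_colMean i hf y).differentiableAt, ?_⟩
  have : fderiv ℝ (colMean i f) = colDeriv i f := by
    funext y
    exact (hasFDerivAt_colMean i hf y).fderiv
  rw [this]
  exact continuous_colDeriv i hf

theorem fderiv_colMean {n : ℕ} (i : Fin (n + 1)) {f : (Fin (n + 1) → ℝ) → ℝ}
    (hf : ContDiff ℝ 1 f) (y : Fin n → ℝ) (j : Fin n) :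
    fderiv ℝ (colMean i f) y (Pi.single j 1) =
      colMean i (fun x => fderiv ℝ f x (Pi.single (i.succAbove j) 1)) y := by
  rw [(hasFDerivAt_colMean i hf y).fderiv]
  unfold colDeriv colMean
  rw [ContinuousLinearMap.integral_apply]
  · apply integral_congr_ae
    filter_upwards with t
    rw [ContinuousLinearMap.comp_apply, insL_single]
  · have h := (continuous_colIntegrand i hf).comp
      (continuous_id.prodMk (continuous_const (y := y)) : Continuous fun t : ℝ => (t, y))
    exact (h.continuousOn.integrableOn_compact isCompact_Icc).mono_set Ico_subset_Icc_self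

/-- total variation on a vertical line -/
noncomputable def colTV {n : ℕ} (i : Fin (n + 1)) (f : (Fin (n + 1) → ℝ) → ℝ)
    (y : Fin n → ℝ) : ℝ :=
  colMean i (fun x => |fderiv ℝ f x (Pi.single i 1)|) y

theorem continuous_partial {n : ℕ} {f : (Fin n → ℝ) → ℝ}
    (hf : ContDiff ℝ 1 f) (j : Fin n) : Continuous fun x => fderiv ℝ f x (Pi.single j 1) := by
  have := hf.continuous_fderiv one_ne_zero
  continuity

theorem perFun_partial {n : ℕ} {f : (Fin n → ℝ) → ℝ}
    (hf : PerFun f) (j : Fin n) : PerFun fun x => fderiv ℝ f x (Pi.single j 1) := by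
  intro x k
  simp only
  rw [hf.fderiv x k]

/-- the key pointwise inequality -/
theorem col_cs {n : ℕ} (i : Fin (n + 1)) {f : (Fin (n + 1) → ℝ) → ℝ}
    (hf : ContDiff ℝ 1 f) (y : Fin n → ℝ) (p : Fin n → ℝ) (q : ℝ)
    (hpq : q ^ 2 / 4 + ∑ j, p j ^ 2 ≤ 1) :
    |q| / 2 * colTV i f y - ∑ j, fderiv ℝ (colMean i f) y (Pi.single j 1) * p j ≤
      colMean i (gradNorm f) y := by
  have e1 : |q| / 2 * colTV i f y - ∑ j, fderiv ℝ (colMean i f) y (Pi.single j 1) * p j =
      colMean i (fun x => |q| / 2 * |fderiv ℝ f x (Pi.single i 1)| -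
        ∑ j, fderiv ℝ f x (Pi.single (i.succAbove j) 1) * p j) y := by
    have hc1 : Continuous fun t : ℝ =>
        |q| / 2 * |fderiv ℝ f (i.insertNth (α := fun _ => ℝ) t y) (Pi.single i 1)| :=
      continuous_const.mul (((continuous_partial hf i).abs).comp (continuous_ins_left i y))
    have hc2 : ∀ j, Continuous fun t : ℝ =>
        fderiv ℝ f (i.insertNth (α := fun _ => ℝ) t y) (Pi.single (i.succAbove j) 1) * p j :=
      fun j => ((continuous_partial hf _).comp (continuous_ins_left i y)).mul continuous_const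
    have e2 : ∫ t in Ico (0 : ℝ) 1,
        (|q| / 2 * |fderiv ℝ f (i.insertNth (α := fun _ => ℝ) t y) (Pi.single i 1)| -
        ∑ j, fderiv ℝ f (i.insertNth (α := fun _ => ℝ) t y) (Pi.single (i.succAbove j) 1) * p j) =
        |q| / 2 * (∫ t in Ico (0 : ℝ) 1,
          |fderiv ℝ f (i.insertNth (α := fun _ => ℝ) t y) (Pi.single i 1)|) -
        ∑ j, (∫ t in Ico (0 : ℝ) 1,
          fderiv ℝ f (i.insertNth (α := fun _ => ℝ) t y) (Pi.single (i.succAbove j) 1)) * p j := by
      rw [integral_sub (integrableOn_Ico hc1)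
        (integrable_finsetSum _ fun j _ => integrableOn_Ico (hc2 j)),
        integral_const_mul, integral_finsetSum _ fun j _ => integrableOn_Ico (hc2 j)]
      congr 1
      apply Finset.sum_congr rfl
      intro j _
      rw [integral_mul_const]
    have e3 : ∀ j, fderiv ℝ (colMean i f) y (Pi.single j 1) * p j = (∫ t in Ico (0 : ℝ) 1,
          fderiv ℝ f (i.insertNth (α := fun _ => ℝ) t y) (Pi.single (i.succAbove j) 1)) * p j := by
      intro j
      rw [fderiv_colMean i hf]
      rfl
    rw [Finset.sum_congr rfl fun j _ => e3 j]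
    exact e2.symm
  rw [e1]
  unfold colMean
  have hcp := fun j => continuous_partial hf j
  apply integral_mono
  · apply integrableOn_Ico
    have h := continuous_ins_left i y
    have h2 : Continuous fun x => |q| / 2 * |fderiv ℝ f x (Pi.single i 1)| -
        ∑ j, fderiv ℝ f x (Pi.single (i.succAbove j) 1) * p j :=
      (continuous_const.mul (hcp i).abs).sub
        (continuous_finsetSum _ fun j _ => (hcp _).mul continuous_const)
    exact h2.comp h
  · exact integrableOn_Ico ((continuous_gradNorm hf).comp (continuous_ins_left i y))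
  · intro t
    simp only
    set x := i.insertNth (α := fun _ => ℝ) t y
    set a := fderiv ℝ f x (Pi.single i 1)
    set b := fun j => fderiv ℝ f x (Pi.single (i.succAbove j) 1)
    have h1 : gradNorm f x = Real.sqrt (a ^ 2 + ∑ j, b j ^ 2) := by
      unfold gradNorm
      rw [Fin.sum_univ_succAbove _ i]
    rw [h1]
    apply Real.le_sqrt_of_sq_le
    have hcs := Finset.sum_mul_sq_le_sq_mul_sq Finset.univ b p
    have hb0 : 0 ≤ ∑ j, b j ^ 2 := Finset.sum_nonneg fun j _ => sq_nonneg _
    have hp0 : 0 ≤ ∑ j, p j ^ 2 := Finset.sum_nonneg fun j _ => sq_nonneg _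
    change (|q| / 2 * |a| - ∑ j, b j * p j) ^ 2 ≤ _
    set P := ∑ j, p j ^ 2
    set B := ∑ j, b j ^ 2
    set m := ∑ j, b j * p j
    have hm : |m| ≤ Real.sqrt (B * P) := Real.abs_le_sqrt hcs
    have hs : Real.sqrt (B * P) ^ 2 = B * P := Real.sq_sqrt (mul_nonneg hb0 hp0)
    have hs0 := Real.sqrt_nonneg (B * P)
    set s := Real.sqrt (B * P)
    have hq : |q| ^ 2 = q ^ 2 := sq_abs q
    have ha : |a| ^ 2 = a ^ 2 := sq_abs a
    have hq0 := abs_nonneg q
    have ha0 := abs_nonneg a
    have h2 : (|q| / 2 * |a| - m) ^ 2 ≤ (|q| / 2 * |a| + s) ^ 2 := by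
      apply sq_le_sq'
      · have := (abs_le.mp hm).2
        linarith only [mul_nonneg hq0 ha0, this]
      · have := (abs_le.mp hm).1
        linarith only [this]
    refine h2.trans ?_
    -- (|q|/2 |a| + s)^2 ≤ (q²/4 + P)(a² + B)
    have h3 : (|q| / 2 * |a| + s) ^ 2 ≤ (q ^ 2 / 4 + P) * (a ^ 2 + B) := by
      have h4 : 2 * (|q| / 2 * |a|) * s ≤ q ^ 2 / 4 * B + P * a ^ 2 := by
        have h5 : (2 * (|q| / 2 * |a|) * s) ^ 2 ≤ (q ^ 2 / 4 * B + P * a ^ 2) ^ 2 := by
          have : (2 * (|q| / 2 * |a|) * s) ^ 2 = q ^ 2 * a ^ 2 * (B * P) := by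
            rw [← hq, ← ha, ← hs]; ring
          rw [this]
          linarith only [sq_nonneg (q ^ 2 / 4 * B - P * a ^ 2)]
        have h6 : 0 ≤ q ^ 2 / 4 * B + P * a ^ 2 := by (clear * -; positivity)
        exact le_of_sq_le_sq h5 h6
      have e : (|q| / 2 * |a| + s) ^ 2 = q ^ 2 / 4 * a ^ 2 + 2 * (|q| / 2 * |a|) * s + B * P := by
        rw [← hq, ← ha, ← hs]; ring
      rw [e]
      linarith only [h4]
    refine h3.trans ?_
    have : 0 ≤ a ^ 2 + B := by (clear * -; positivity)
    linarith only [mul_nonneg (sub_nonneg.2 hpq) (sub_nonneg.2 hb0), mul_nonneg (sq_nonneg (1 * a : ℝ)) (sub_nonneg.2 hpq)]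

end Vale.Agent.P232
end
end

section

section

/-! Steiner symmetrization, part 2: the divergence identity under a smooth graph. -/

open MeasureTheory Set Filter Topology ContinuousLinearMap
open scoped Pointwise Convolution

namespace Vale.Agent.P232

section
variable {n : ℕ} (i : Fin (n + 1)) {X : (Fin (n + 1) → ℝ) → (Fin (n + 1) → ℝ)}
  {H : (Fin n → ℝ) → ℝ}

/-- scaled point -/
noncomputable def wpt (H : (Fin n → ℝ) → ℝ) (σ : ℝ) (y : Fin n → ℝ) : Fin (n + 1) → ℝ :=
  i.insertNth (α := fun _ => ℝ) (σ * H y) y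

theorem continuous_wpt (hH : Continuous H) :
    Continuous (fun p : ℝ × (Fin n → ℝ) => wpt i H p.1 p.2) := by
  unfold wpt
  exact (continuous_insertNth' i).comp
    ((continuous_fst.mul (hH.comp continuous_snd)).prodMk continuous_snd)

theorem hasFDerivAt_wpt {σ : ℝ} {y : Fin n → ℝ} (hH : DifferentiableAt ℝ H y) :
    HasFDerivAt (wpt i H σ) ((σ • fderiv ℝ H y).smulRight (Pi.single i (1 : ℝ)) + insL i) y := by
  have e : wpt i H σ = fun y => (σ * H y) • (Pi.single i (1 : ℝ) : Fin (n + 1) → ℝ) + insL i y := by
    funext y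
    unfold wpt
    rw [insertNth_eq]
  rw [e]
  exact ((hH.hasFDerivAt.const_mul σ).smul_const _).add (insL i).hasFDerivAt

theorem hasDerivAt_wpt (σ : ℝ) (y : Fin n → ℝ) :
    HasDerivAt (fun σ => wpt i H σ y) (H y • Pi.single i (1 : ℝ)) σ := by
  have e : (fun σ => wpt i H σ y) =
      fun σ => (σ * H y) • (Pi.single i (1 : ℝ) : Fin (n + 1) → ℝ) + insL i y := by
    funext σ
    unfold wpt
    rw [insertNth_eq]
  rw [e]
  have h := (((hasDerivAt_id σ).mul_const (H y)).smul_const
    (Pi.single i (1 : ℝ) : Fin (n + 1) → ℝ)).add_const (insL i y)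
  simpa using h

/-- the field on the base -/
noncomputable def zfield (X : (Fin (n + 1) → ℝ) → (Fin (n + 1) → ℝ)) (H : (Fin n → ℝ) → ℝ)
    (σ : ℝ) (y : Fin n → ℝ) : Fin n → ℝ :=
  fun j => H y * X (wpt i H σ y) (i.succAbove j)

/-- its divergence -/
noncomputable def zdiv (X : (Fin (n + 1) → ℝ) → (Fin (n + 1) → ℝ)) (H : (Fin n → ℝ) → ℝ)
    (σ : ℝ) (y : Fin n → ℝ) : ℝ :=
  (∑ j, fderiv ℝ H y (Pi.single j 1) * (X (wpt i H σ y) (i.succAbove j) +
    σ * H y * fderiv ℝ X (wpt i H σ y) (Pi.single i 1) (i.succAbove j))) +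
  (H y * divergence X (wpt i H σ y) - H y * fderiv ℝ X (wpt i H σ y) (Pi.single i 1) i)

theorem perFun_wpt (hHp : PerFun H) (hXp : PerFun X) (σ : ℝ) :
    PerFun (fun y => X (wpt i H σ y)) := by
  intro y k
  simp only [wpt]
  rw [hHp y k, ← hXp (i.insertNth (α := fun _ => ℝ) (σ * H y) y)
    (i.insertNth (α := fun _ => ℤ) 0 k)]
  congr 1
  ext j
  refine Fin.succAboveCases i ?_ (fun j => ?_) j <;> simp

theorem divergence_zfield (hX : ContDiff ℝ 1 X) (hH : ContDiff ℝ 1 H) (σ : ℝ) (y : Fin n → ℝ) :
    divergence (zfield i X H σ) y = zdiv i X H σ y := by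
  have hHd : DifferentiableAt ℝ H y := hH.differentiable one_ne_zero y
  have hXd : DifferentiableAt ℝ X (wpt i H σ y) := hX.differentiable one_ne_zero _
  have h1 : ∀ j, HasFDerivAt (fun y => zfield i X H σ y j)
      (H y • ((ContinuousLinearMap.proj (R := ℝ) (φ := fun _ : Fin (n + 1) => ℝ)
        (i.succAbove j)).comp ((fderiv ℝ X (wpt i H σ y)).comp
          ((σ • fderiv ℝ H y).smulRight (Pi.single i (1 : ℝ)) + insL i)))
        + X (wpt i H σ y) (i.succAbove j) • fderiv ℝ H y) y := by
    intro j
    have h2 : HasFDerivAt (fun y => X (wpt i H σ y) (i.succAbove j))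
        ((ContinuousLinearMap.proj (R := ℝ) (φ := fun _ : Fin (n + 1) => ℝ)
        (i.succAbove j)).comp ((fderiv ℝ X (wpt i H σ y)).comp
          ((σ • fderiv ℝ H y).smulRight (Pi.single i (1 : ℝ)) + insL i))) y :=
      (ContinuousLinearMap.proj (R := ℝ) (φ := fun _ : Fin (n + 1) => ℝ)
        (i.succAbove j)).hasFDerivAt.comp y (hXd.hasFDerivAt.comp y (hasFDerivAt_wpt i hHd))
    exact hHd.hasFDerivAt.mul h2
  have h3 := (hasFDerivAt_pi.mpr h1).fderiv
  have h4 : fderiv ℝ (zfield i X H σ) y = _ := h3
  unfold divergence zdiv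
  rw [h4]
  have h5 : divergence X (wpt i H σ y) = fderiv ℝ X (wpt i H σ y) (Pi.single i 1) i +
      ∑ j, fderiv ℝ X (wpt i H σ y) (Pi.single (i.succAbove j) 1) (i.succAbove j) := by
    unfold divergence
    rw [Fin.sum_univ_succAbove _ i]
  change _ = _ + (H y * divergence X (wpt i H σ y) - _)
  rw [h5]
  have h6 : ∀ j : Fin n, (ContinuousLinearMap.pi fun j =>
      (H y • ((ContinuousLinearMap.proj (R := ℝ) (φ := fun _ : Fin (n + 1) => ℝ)
        (i.succAbove j)).comp ((fderiv ℝ X (wpt i H σ y)).comp
          ((σ • fderiv ℝ H y).smulRight (Pi.single i (1 : ℝ)) + insL i)))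
        + X (wpt i H σ y) (i.succAbove j) • fderiv ℝ H y)) (Pi.single j 1) j =
      fderiv ℝ H y (Pi.single j 1) * (X (wpt i H σ y) (i.succAbove j) +
        σ * H y * fderiv ℝ X (wpt i H σ y) (Pi.single i 1) (i.succAbove j)) +
      H y * fderiv ℝ X (wpt i H σ y) (Pi.single (i.succAbove j) 1) (i.succAbove j) := by
    intro j
    simp only [ContinuousLinearMap.coe_pi', add_apply,
      smul_apply, ContinuousLinearMap.comp_apply, ContinuousLinearMap.proj_apply,
      ContinuousLinearMap.smulRight_apply, map_add, map_smul, smul_eq_mul, insL_single]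
    ring
  rw [Finset.sum_congr rfl fun j _ => h6 j, Finset.sum_add_distrib, ← Finset.mul_sum]
  ring

theorem integral_zdiv (hX : ContDiff ℝ 1 X) (hXp : PerFun X) (hH : ContDiff ℝ 1 H)
    (hHp : PerFun H) (σ : ℝ) : ∫ y in cube n, zdiv i X H σ y = 0 := by
  have h := integral_divergence_eq_zero (G := zfield i X H σ) ?_ ?_
  · rw [← h]
    apply integral_congr_ae
    filter_upwards with y
    exact (divergence_zfield i hX hH σ y).symm
  · rw [contDiff_pi]
    intro j
    have hw : ContDiff ℝ 1 (wpt i H σ) := by
      have e : wpt i H σ =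
          fun y => (σ * H y) • (Pi.single i (1 : ℝ) : Fin (n + 1) → ℝ) + insL i y := by
        funext y
        unfold wpt
        rw [insertNth_eq]
      rw [e]
      exact ((contDiff_const.mul hH).smul contDiff_const).add (insL i).contDiff
    exact hH.mul ((contDiff_pi.mp (hX.comp hw)) (i.succAbove j))
  · intro y k
    funext j
    simp only [zfield]
    have := perFun_wpt i hHp hXp σ y k
    simp only at this
    rw [this, hHp y k]

theorem continuous_zdiv (hX : ContDiff ℝ 1 X) (hH : ContDiff ℝ 1 H) :
    Continuous (fun p : ℝ × (Fin n → ℝ) => zdiv i X H p.1 p.2) := by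
  unfold zdiv
  have hw := continuous_wpt i hH.continuous
  have h1 := hX.continuous_fderiv one_ne_zero
  have h2 := hH.continuous_fderiv one_ne_zero
  have h3 : Continuous fun p : ℝ × (Fin n → ℝ) => fderiv ℝ X (wpt i H p.1 p.2) := h1.comp hw
  have h4 : Continuous fun p : ℝ × (Fin n → ℝ) => X (wpt i H p.1 p.2) := hX.continuous.comp hw
  have h5 : Continuous fun p : ℝ × (Fin n → ℝ) => divergence X (wpt i H p.1 p.2) :=
    (continuous_divergence hX).comp hw
  have h6 : Continuous fun p : ℝ × (Fin n → ℝ) => H p.2 := hH.continuous.comp continuous_snd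
  have h7 : Continuous fun p : ℝ × (Fin n → ℝ) => fderiv ℝ H p.2 := h2.comp continuous_snd
  have h8 : ∀ j, Continuous fun p : ℝ × (Fin n → ℝ) =>
      fderiv ℝ X (wpt i H p.1 p.2) (Pi.single i 1) j := fun j =>
    (continuous_apply j).comp (h3.clm_apply continuous_const)
  have h9 : ∀ j, Continuous fun p : ℝ × (Fin n → ℝ) => X (wpt i H p.1 p.2) j := fun j =>
    (continuous_apply j).comp h4
  have h10 : ∀ j, Continuous fun p : ℝ × (Fin n → ℝ) => fderiv ℝ H p.2 (Pi.single j 1) := fun j =>
    h7.clm_apply continuous_const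
  apply Continuous.add
  · apply continuous_finsetSum
    intro j _
    exact (h10 j).mul ((h9 _).add ((continuous_fst.mul h6).mul (h8 _)))
  · exact (h6.mul h5).sub (h6.mul (h8 _))

/-- the vertical jump -/
noncomputable def qf (X : (Fin (n + 1) → ℝ) → (Fin (n + 1) → ℝ)) (H : (Fin n → ℝ) → ℝ)
    (y : Fin n → ℝ) : ℝ := X (wpt i H (1 / 2) y) i - X (wpt i H (-1 / 2) y) i

/-- the horizontal average -/
noncomputable def pf (X : (Fin (n + 1) → ℝ) → (Fin (n + 1) → ℝ)) (H : (Fin n → ℝ) → ℝ)
    (y : Fin n → ℝ) (j : Fin n) : ℝ :=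
  (X (wpt i H (1 / 2) y) (i.succAbove j) + X (wpt i H (-1 / 2) y) (i.succAbove j)) / 2

theorem qf_pf_le (hX : TestField X) (y : Fin n → ℝ) :
    qf i X H y ^ 2 / 4 + ∑ j, pf i X H y j ^ 2 ≤ 1 := by
  have h1 := hX.bound (wpt i H (1 / 2) y)
  have h2 := hX.bound (wpt i H (-1 / 2) y)
  rw [Fin.sum_univ_succAbove _ i] at h1 h2
  unfold qf pf
  set a := X (wpt i H (1 / 2) y)
  set b := X (wpt i H (-1 / 2) y)
  have h3 : ∀ j : Fin n, ((a (i.succAbove j) + b (i.succAbove j)) / 2) ^ 2 ≤
      (a (i.succAbove j) ^ 2 + b (i.succAbove j) ^ 2) / 2 := fun j => by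
    linarith only [sq_nonneg (a (i.succAbove j) - b (i.succAbove j))]
  have h4 := Finset.sum_le_sum fun j (_ : j ∈ Finset.univ) => h3 j
  rw [← Finset.sum_div, Finset.sum_add_distrib] at h4
  linarith only [sq_nonneg (a i + b i), h1, h2, h4]

/-- the integral of the divergence under the graph, over the line through `y` -/
noncomputable def psi (X : (Fin (n + 1) → ℝ) → (Fin (n + 1) → ℝ)) (s : ℝ) (y : Fin n → ℝ) : ℝ :=
  ∫ σ in (-1 / 2 : ℝ)..(1 / 2), s * divergence X (i.insertNth (α := fun _ => ℝ) (σ * s) y)

theorem psi_eq (X : (Fin (n + 1) → ℝ) → (Fin (n + 1) → ℝ)) (s : ℝ) (y : Fin n → ℝ) :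
    psi i X s y = ∫ t in (-1 / 2 * s)..(1 / 2 * s),
      divergence X (i.insertNth (α := fun _ => ℝ) t y) := by
  unfold psi
  rw [intervalIntegral.integral_const_mul]
  have h := intervalIntegral.smul_integral_comp_mul_right (a := (-1 / 2 : ℝ)) (b := 1 / 2)
    (fun t => divergence X (i.insertNth (α := fun _ => ℝ) t y)) s
  exact h

theorem continuous_psi (hX : ContDiff ℝ 1 X) :
    Continuous (fun p : ℝ × (Fin n → ℝ) => psi i X p.1 p.2) := by
  unfold psi
  apply intervalIntegral.continuous_parametric_intervalIntegral_of_continuous'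
  have h1 := continuous_divergence hX
  have h2 := continuous_insertNth' i
  have h3 : Continuous (fun q : (ℝ × (Fin n → ℝ)) × ℝ =>
      divergence X (i.insertNth (α := fun _ => ℝ) (q.2 * q.1.1) q.1.2)) :=
    h1.comp (h2.comp ((continuous_snd.mul (continuous_fst.comp continuous_fst)).prodMk
      (continuous_snd.comp continuous_fst)))
  exact (continuous_fst.comp continuous_fst).mul h3

theorem interval_zdiv (hX : ContDiff ℝ 1 X) (hH : ContDiff ℝ 1 H) (y : Fin n → ℝ) :
    ∫ σ in (-1 / 2 : ℝ)..(1 / 2), zdiv i X H σ y =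
      (∑ j, fderiv ℝ H y (Pi.single j 1) * pf i X H y j) + psi i X (H y) y - qf i X H y := by
  have hwc : Continuous fun σ : ℝ => wpt i H σ y :=
    (continuous_wpt i hH.continuous).comp (continuous_id.prodMk continuous_const)
  have hdc : Continuous fun σ : ℝ => fderiv ℝ X (wpt i H σ y) (Pi.single i 1) :=
    ((hX.continuous_fderiv one_ne_zero).comp hwc).clm_apply continuous_const
  have hdj : ∀ j, Continuous fun σ : ℝ => fderiv ℝ X (wpt i H σ y) (Pi.single i 1) j := fun j =>
    (continuous_apply j).comp hdc
  have hXj : ∀ j, Continuous fun σ : ℝ => X (wpt i H σ y) j := fun j =>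
    (continuous_apply j).comp (hX.continuous.comp hwc)
  have hder : ∀ j σ, HasDerivAt (fun σ => X (wpt i H σ y) j)
      (H y * fderiv ℝ X (wpt i H σ y) (Pi.single i 1) j) σ := by
    intro j σ
    have h1 := ((hX.differentiable one_ne_zero (wpt i H σ y)).hasFDerivAt).comp_hasDerivAt σ
      (hasDerivAt_wpt i σ y)
    have h2 := (hasDerivAt_pi.mp h1) j
    rw [map_smul] at h2
    exact h2
  have hA : ∀ j, ∫ σ in (-1 / 2 : ℝ)..(1 / 2), (X (wpt i H σ y) (i.succAbove j) +
      σ * H y * fderiv ℝ X (wpt i H σ y) (Pi.single i 1) (i.succAbove j)) = pf i X H y j := by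
    intro j
    have h1 : ∀ σ, HasDerivAt (fun σ => σ * X (wpt i H σ y) (i.succAbove j))
        (X (wpt i H σ y) (i.succAbove j) +
          σ * H y * fderiv ℝ X (wpt i H σ y) (Pi.single i 1) (i.succAbove j)) σ := by
      intro σ
      have h2 := (hasDerivAt_id σ).mul (hder (i.succAbove j) σ)
      refine h2.congr_deriv ?_
      simp only [id]
      ring
    rw [intervalIntegral.integral_eq_sub_of_hasDerivAt (fun σ _ => h1 σ)]
    · unfold pf
      ring
    · apply Continuous.intervalIntegrable
      exact (hXj _).add ((continuous_id.mul continuous_const).mul (hdj _))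
  have hB : ∫ σ in (-1 / 2 : ℝ)..(1 / 2), H y * fderiv ℝ X (wpt i H σ y) (Pi.single i 1) i =
      qf i X H y := by
    rw [intervalIntegral.integral_eq_sub_of_hasDerivAt (fun σ _ => hder i σ)]
    · rfl
    · exact (continuous_const.mul (hdj i)).intervalIntegrable _ _
  have hc1 : ∀ j, Continuous fun σ : ℝ => fderiv ℝ H y (Pi.single j 1) *
      (X (wpt i H σ y) (i.succAbove j) +
      σ * H y * fderiv ℝ X (wpt i H σ y) (Pi.single i 1) (i.succAbove j)) := fun j =>
    continuous_const.mul ((hXj _).add ((continuous_id.mul continuous_const).mul (hdj _)))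
  have hc2 : Continuous fun σ : ℝ => H y * divergence X (wpt i H σ y) :=
    continuous_const.mul ((continuous_divergence hX).comp hwc)
  have hc3 : Continuous fun σ : ℝ => H y * fderiv ℝ X (wpt i H σ y) (Pi.single i 1) i :=
    continuous_const.mul (hdj i)
  have hc23 : Continuous fun σ : ℝ => H y * divergence X (wpt i H σ y) -
      H y * fderiv ℝ X (wpt i H σ y) (Pi.single i 1) i := hc2.sub hc3
  have hc11 : Continuous fun σ : ℝ => ∑ j, fderiv ℝ H y (Pi.single j 1) *
      (X (wpt i H σ y) (i.succAbove j) +
      σ * H y * fderiv ℝ X (wpt i H σ y) (Pi.single i 1) (i.succAbove j)) :=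
    continuous_finsetSum _ fun j _ => hc1 j
  unfold zdiv
  rw [intervalIntegral.integral_add (hc11.intervalIntegrable _ _) (hc23.intervalIntegrable _ _),
    intervalIntegral.integral_sub (hc2.intervalIntegrable _ _) (hc3.intervalIntegrable _ _),
    intervalIntegral.integral_finsetSum (fun j _ => (hc1 j).intervalIntegrable _ _), hB]
  have hS : ∑ j, ∫ σ in (-1 / 2 : ℝ)..(1 / 2), fderiv ℝ H y (Pi.single j 1) *
      (X (wpt i H σ y) (i.succAbove j) +
      σ * H y * fderiv ℝ X (wpt i H σ y) (Pi.single i 1) (i.succAbove j)) =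
      ∑ j, fderiv ℝ H y (Pi.single j 1) * pf i X H y j := by
    apply Finset.sum_congr rfl
    intro j _
    rw [intervalIntegral.integral_const_mul, hA j]
  rw [hS]
  have hP : ∫ σ in (-1 / 2 : ℝ)..(1 / 2), H y * divergence X (wpt i H σ y) = psi i X (H y) y := rfl
  rw [hP]
  ring

/-- **Divergence theorem under a smooth symmetric graph.** -/
theorem integral_psi (hX : ContDiff ℝ 1 X) (hXp : PerFun X) (hH : ContDiff ℝ 1 H)
    (hHp : PerFun H) : ∫ y in cube n, psi i X (H y) y =
      ∫ y in cube n, (qf i X H y - ∑ j, fderiv ℝ H y (Pi.single j 1) * pf i X H y j) := by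
  have hzc := continuous_zdiv i hX hH
  have hint : Integrable (Function.uncurry fun (σ : ℝ) (y : Fin n → ℝ) => zdiv i X H σ y)
      ((volume.restrict (Ioc (-1 / 2 : ℝ) (1 / 2))).prod (volume.restrict (cube n))) := by
    rw [Measure.prod_restrict]
    have h1 : IntegrableOn (Function.uncurry fun (σ : ℝ) (y : Fin n → ℝ) => zdiv i X H σ y)
        (Icc (-1 / 2 : ℝ) (1 / 2) ×ˢ Icc (0 : Fin n → ℝ) 1) (volume.prod volume) :=
      hzc.continuousOn.integrableOn_compact (isCompact_Icc.prod isCompact_Icc)
    apply h1.mono_set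
    refine Set.prod_mono Ioc_subset_Icc_self ?_
    intro y hy
    exact ⟨fun j => (hy j).1, fun j => (hy j).2.le⟩
  have h0 : ∫ y in cube n, ∫ σ in (-1 / 2 : ℝ)..(1 / 2), zdiv i X H σ y = 0 := by
    simp_rw [intervalIntegral.integral_of_le (by norm_num : (-1 / 2 : ℝ) ≤ 1 / 2)]
    rw [← integral_integral_swap hint]
    simp_rw [integral_zdiv i hX hXp hH hHp]
    simp
  simp_rw [interval_zdiv i hX hH] at h0
  have hwc : ∀ σ : ℝ, Continuous fun y => wpt i H σ y := fun σ =>
    (continuous_wpt i hH.continuous).comp (continuous_const.prodMk continuous_id)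
  have hc1 : Continuous fun y => psi i X (H y) y :=
    (continuous_psi i hX).comp (hH.continuous.prodMk continuous_id)
  have hXj : ∀ σ j, Continuous fun y : Fin n → ℝ => X (wpt i H σ y) j := fun σ j =>
    (continuous_apply j).comp (hX.continuous.comp (hwc σ))
  have hc2 : Continuous fun y => qf i X H y := (hXj _ _).sub (hXj _ _)
  have hc3 : Continuous fun y => ∑ j, fderiv ℝ H y (Pi.single j 1) * pf i X H y j := by
    apply continuous_finsetSum
    intro j _
    exact (continuous_partial hH j).mul (((hXj _ _).add (hXj _ _)).div_const _)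
  have e1 : ∫ y in cube n, ((∑ j, fderiv ℝ H y (Pi.single j 1) * pf i X H y j)
      + psi i X (H y) y - qf i X H y) = (∫ y in cube n, psi i X (H y) y) -
      ∫ y in cube n, (qf i X H y - ∑ j, fderiv ℝ H y (Pi.single j 1) * pf i X H y j) := by
    have hc23 : Continuous fun y => qf i X H y -
        ∑ j, fderiv ℝ H y (Pi.single j 1) * pf i X H y j := hc2.sub hc3
    rw [← integral_sub (integrableOn_cube hc1) (integrableOn_cube hc23)]
    congr 1
    funext y
    ring
  rw [e1] at h0
  linarith

end

end Vale.Agent.P232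
end
end

section

section

/-! Steiner symmetrization in the torus, main theorem. -/

open MeasureTheory Set Filter Topology ContinuousLinearMap
open scoped Pointwise Convolution

namespace Vale.Agent.P232

/-- The length of the part of `E` on the line through `y` in direction `i`. -/
noncomputable def colH {n : ℕ} (i : Fin (n + 1)) (E : Set (Fin (n + 1) → ℝ))
    (y : Fin n → ℝ) : ℝ := colMean i (E.indicator (fun _ => (1 : ℝ))) y

/-- The Steiner symmetrization of `E` in direction `i`. -/
def steiner {n : ℕ} (i : Fin (n + 1)) (E : Set (Fin (n + 1) → ℝ)) : Set (Fin (n + 1) → ℝ) :=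
  {x | |x i - round (x i)| < colH i E (fun j => x (i.succAbove j)) / 2}

section
variable {n : ℕ} (i : Fin (n + 1)) {E : Set (Fin (n + 1) → ℝ)}

theorem mem_steiner (E : Set (Fin (n + 1) → ℝ)) (t : ℝ) (y : Fin n → ℝ) :
    i.insertNth (α := fun _ => ℝ) t y ∈ steiner i E ↔ |t - round t| < colH i E y / 2 := by
  simp [steiner]

theorem measurable_colH (hE : MeasurableSet E) : Measurable (colH i E) := by
  have h : StronglyMeasurable (fun p : (Fin n → ℝ) × ℝ =>
      E.indicator (fun _ => (1 : ℝ)) (i.insertNth (α := fun _ => ℝ) p.2 p.1)) :=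
    ((measurable_indicator' hE).comp
      ((measurable_insertNth' i).comp (measurable_snd.prodMk measurable_fst))).stronglyMeasurable
  exact (StronglyMeasurable.integral_prod_right
    (ν := volume.restrict (Ico (0 : ℝ) 1)) (f := fun y t =>
      E.indicator (fun _ => (1 : ℝ)) (i.insertNth (α := fun _ => ℝ) t y)) h).measurable

theorem perFun_colH (hp : IsPeriodic E) : PerFun (colH i E) :=
  perFun_colMean i (perFun_indicator hp)

theorem colH_nonneg (E : Set (Fin (n + 1) → ℝ)) (y : Fin n → ℝ) : 0 ≤ colH i E y :=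
  colMean_nonneg i (fun x => indicator_nonneg' E x) y

theorem measurable_ind_col (hE : MeasurableSet E) (y : Fin n → ℝ) :
    Measurable fun t : ℝ => E.indicator (fun _ => (1 : ℝ)) (i.insertNth (α := fun _ => ℝ) t y) :=
  (measurable_indicator' hE).comp (continuous_ins_left i y).measurable

theorem integrable_ind_col (hE : MeasurableSet E) (y : Fin n → ℝ) :
    IntegrableOn (fun t : ℝ =>
      E.indicator (fun _ => (1 : ℝ)) (i.insertNth (α := fun _ => ℝ) t y)) (Ico (0 : ℝ) 1) := by
  refine Integrable.mono' (integrable_const (1 : ℝ))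
    (measurable_ind_col i hE y).aestronglyMeasurable ?_
  filter_upwards with t
  rw [Real.norm_eq_abs, abs_of_nonneg (indicator_nonneg' _ _)]
  exact indicator_le_one' _ _

theorem colH_le_one (hE : MeasurableSet E) (y : Fin n → ℝ) : colH i E y ≤ 1 := by
  unfold colH colMean
  calc ∫ t in Ico (0 : ℝ) 1, E.indicator (fun _ => (1 : ℝ)) (i.insertNth (α := fun _ => ℝ) t y)
      ≤ ∫ t in Ico (0 : ℝ) 1, (1 : ℝ) := by
        apply integral_mono (integrable_ind_col i hE y) (integrableOn_Ico continuous_const)
        intro t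
        exact indicator_le_one' _ _
    _ = 1 := by simp

theorem measurableSet_steiner (hE : MeasurableSet E) : MeasurableSet (steiner i E) := by
  have hr : Measurable fun t : ℝ => ((round t : ℤ) : ℝ) := by
    simp_rw [round_eq]
    exact (Measurable.of_discrete (f := fun z : ℤ => (z : ℝ))).comp
      (Int.measurable_floor.comp (measurable_id.add_const (1 / 2 : ℝ)))
  apply measurableSet_lt
  · exact continuous_abs.measurable.comp
      ((measurable_pi_apply i).sub (hr.comp (measurable_pi_apply i)))
  · exact ((measurable_colH i hE).comp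
      (measurable_pi_lambda _ fun j => measurable_pi_apply _)).div_const 2

theorem isPeriodic_steiner (hp : IsPeriodic E) : IsPeriodic (steiner i E) := by
  intro x k
  simp only [steiner, mem_ofPred_eq]
  have h := perFun_colH i hp (fun j => x (i.succAbove j)) (fun j => k (i.succAbove j))
  rw [h, round_add_intCast]
  push_cast
  rw [add_sub_add_right_eq_sub]

/-- integrals over the symmetrized set on a line -/
theorem integral_steiner_col (hE : MeasurableSet E) (hp : IsPeriodic E) (y : Fin n → ℝ)
    {φ : ℝ → ℝ} (hφ : ∀ t, φ (t + 1) = φ t) :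
    ∫ t in Ico (0 : ℝ) 1, (steiner i E).indicator (fun _ => (1 : ℝ))
      (i.insertNth (α := fun _ => ℝ) t y) * φ t =
      ∫ t in (-1 / 2 * colH i E y)..(1 / 2 * colH i E y), φ t := by
  have h0 := colH_nonneg i E y
  have h1 := colH_le_one i hE y
  set h := colH i E y with hh
  have hper : ∀ t, (steiner i E).indicator (fun _ => (1 : ℝ))
      (i.insertNth (α := fun _ => ℝ) (t + 1) y) * φ (t + 1) =
      (steiner i E).indicator (fun _ => (1 : ℝ))
      (i.insertNth (α := fun _ => ℝ) t y) * φ t := by
    intro t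
    rw [hφ]
    congr 1
    have := congrFun (sliceFun_add_one i (perFun_indicator (isPeriodic_steiner i hp)) t) y
    exact this
  rw [← integral_Ico_eq hper (-1 / 2)]
  have e1 : (-1 / 2 + 1 : ℝ) = 1 / 2 := by norm_num
  rw [e1, intervalIntegral.integral_of_le (by norm_num), intervalIntegral.integral_of_le
    (by linarith only [h0]), ← integral_Icc_eq_integral_Ioc, ← integral_Icc_eq_integral_Ioc,
    integral_Icc_eq_integral_Ioo, integral_Icc_eq_integral_Ioo]
  have e2 : ∀ t ∈ Ioo (-1 / 2 : ℝ) (1 / 2), (steiner i E).indicator (fun _ => (1 : ℝ))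
      (i.insertNth (α := fun _ => ℝ) t y) * φ t =
      (Ioo (-1 / 2 * h) (1 / 2 * h)).indicator φ t := by
    intro t ht
    have hr : round t = 0 := by
      rw [round_eq_zero_iff]
      exact ⟨by linarith only [ht.1], ht.2⟩
    have hmem : i.insertNth (α := fun _ => ℝ) t y ∈ steiner i E ↔
        t ∈ Ioo (-1 / 2 * h) (1 / 2 * h) := by
      rw [mem_steiner, hr, Int.cast_zero, sub_zero, abs_lt, ← hh]
      constructor
      · rintro ⟨ha, hb⟩
        exact ⟨by linarith only [ha], by linarith only [hb]⟩
      · rintro ⟨ha, hb⟩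
        exact ⟨by linarith only [ha], by linarith only [hb]⟩
    by_cases hm : t ∈ Ioo (-1 / 2 * h) (1 / 2 * h)
    · rw [indicator_of_mem hm, indicator_of_mem (hmem.mpr hm), one_mul]
    · rw [indicator_of_notMem hm, indicator_of_notMem (fun h' => hm (hmem.mp h')), zero_mul]
  rw [setIntegral_congr_fun measurableSet_Ioo e2, setIntegral_indicator measurableSet_Ioo]
  congr 2
  apply inter_eq_self_of_subset_right
  apply Ioo_subset_Ioo
  · linarith only [h1]
  · linarith only [h1]

theorem colH_steiner (hE : MeasurableSet E) (hp : IsPeriodic E) (y : Fin n → ℝ) :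
    colH i (steiner i E) y = colH i E y := by
  have h := integral_steiner_col i hE hp y (φ := fun _ => (1 : ℝ)) (fun _ => rfl)
  simp only [mul_one] at h
  unfold colH colMean at h ⊢
  rw [h]
  simp
  ring

theorem integrableOn_ind_cube (hE : MeasurableSet E) :
    IntegrableOn (E.indicator (fun _ => (1 : ℝ))) (cube (n + 1)) := integrableOn_indicator hE

theorem vol_eq_integral_colH (hE : MeasurableSet E) : vol E = ∫ y in cube n, colH i E y := by
  rw [vol_eq_integral hE, integral_cube_succ' i _ (integrableOn_ind_cube hE)]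
  rfl

theorem vol_steiner (hE : MeasurableSet E) (hp : IsPeriodic E) : vol (steiner i E) = vol E := by
  rw [vol_eq_integral_colH i hE, vol_eq_integral_colH i (measurableSet_steiner i hE)]
  simp_rw [colH_steiner i hE hp]

theorem integral_divergence_steiner (hE : MeasurableSet E) (hp : IsPeriodic E)
    {X : (Fin (n + 1) → ℝ) → (Fin (n + 1) → ℝ)} (hX : TestField X) :
    ∫ x in steiner i E ∩ cube (n + 1), divergence X x =
      ∫ y in cube n, psi i X (colH i E y) y := by
  have hS := measurableSet_steiner i hE
  rw [setIntegral_inter_cube hS]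
  have hint : IntegrableOn (fun x => (steiner i E).indicator (fun _ => (1 : ℝ)) x *
      divergence X x) (cube (n + 1)) := by
    obtain ⟨K, hK⟩ := exists_bound_divergence hX
    refine Integrable.mono' (integrable_const K)
      ((measurable_indicator' hS).mul (continuous_divergence hX.contDiff).measurable).aestronglyMeasurable ?_
    filter_upwards with x
    rw [norm_mul, Real.norm_eq_abs, Real.norm_eq_abs, abs_of_nonneg (indicator_nonneg' _ _)]
    have h1 := indicator_le_one' (steiner i E) x
    have h2 := hK x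
    have h3 := indicator_nonneg' (steiner i E) x
    linarith only [mul_nonneg (sub_nonneg.2 (abs_nonneg (divergence X x))) (sub_nonneg.2 h1), h2]
  rw [integral_cube_succ' i _ hint]
  apply integral_congr_ae
  filter_upwards with y
  rw [psi_eq]
  apply integral_steiner_col i hE hp y (φ := fun t => divergence X (i.insertNth (α := fun _ => ℝ) t y))
  intro t
  exact congrFun (sliceFun_add_one i hX.perFun.divergence t) y

/-- oscillation is controlled by the total variation on a circle -/
theorem colTV_ge {f : (Fin (n + 1) → ℝ) → ℝ} (hf : ContDiff ℝ 1 f) (hfp : PerFun f)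
    (y : Fin n → ℝ) {a b : ℝ} (hab : a ≤ b) (hb : b ≤ a + 1) :
    |f (i.insertNth (α := fun _ => ℝ) b y) - f (i.insertNth (α := fun _ => ℝ) a y)| ≤
      colTV i f y / 2 := by
  set g : ℝ → ℝ := fun t => f (i.insertNth (α := fun _ => ℝ) t y) with hg
  set g' : ℝ → ℝ := fun t => fderiv ℝ f (i.insertNth (α := fun _ => ℝ) t y) (Pi.single i 1)
    with hg'
  have hder : ∀ t, HasDerivAt g (g' t) t := fun t =>
    (hf.differentiable one_ne_zero
      (i.insertNth (α := fun _ => ℝ) t y)).hasFDerivAt.comp_hasDerivAt t (hasDerivAt_insertNth i t y)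
  have hcont : Continuous g' := (continuous_partial hf i).comp (continuous_ins_left i y)
  have hper : ∀ t, |g' (t + 1)| = |g' t| := by
    intro t
    have := congrFun (sliceFun_add_one i (perFun_partial hfp i) t) y
    simp only [sliceFun] at this
    simp only [hg', this]
  have hgper : g (a + 1) = g a := congrFun (sliceFun_add_one i hfp a) y
  have h1 : ∀ s t, s ≤ t → |g t - g s| ≤ ∫ x in s..t, |g' x| := by
    intro s t hst
    rw [← intervalIntegral.integral_eq_sub_of_hasDerivAt (fun x _ => hder x)
      (hcont.intervalIntegrable _ _)]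
    exact intervalIntegral.abs_integral_le_integral_abs hst
  have h2 : colTV i f y = ∫ x in a..(a + 1), |g' x| := (integral_Ico_eq hper a).symm
  have h3 := intervalIntegral.integral_add_adjacent_intervals
    (hcont.abs.intervalIntegrable (μ := volume) a b) (hcont.abs.intervalIntegrable b (a + 1))
  have h4 := h1 a b hab
  have h5 := h1 b (a + 1) hb
  rw [hgper, abs_sub_comm] at h5
  change |g b - g a| ≤ _
  rw [h2, ← h3]
  linarith only [h4, h5]

/-- lines on which the mollifications converge -/
def GoodCol (E : Set (Fin (n + 1) → ℝ)) (y : Fin n → ℝ) : Prop :=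
  ∀ᵐ t ∂(volume.restrict (Ico (0 : ℝ) 1)), Tendsto
    (fun k => moll (bump (n + 1) k) E (i.insertNth (α := fun _ => ℝ) t y))
    atTop (𝓝 (E.indicator (fun _ => (1 : ℝ)) (i.insertNth (α := fun _ => ℝ) t y)))

theorem ae_goodCol (hE : MeasurableSet E) : ∀ᵐ y : Fin n → ℝ, GoodCol i E y := by
  have h := tendsto_moll_bump hE
  have hmp := (volume_preserving_piFinSuccAbove (fun _ : Fin (n + 1) => ℝ) i).symm
  have h2 := hmp.quasiMeasurePreserving.ae h
  have h3 := (Measure.measurePreserving_swap (μ := (volume : Measure (Fin n → ℝ)))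
    (ν := (volume : Measure ℝ))).quasiMeasurePreserving.ae h2
  have h4 := Measure.ae_ae_of_ae_prod h3
  filter_upwards [h4] with y hy
  apply ae_restrict_of_ae
  filter_upwards [hy] with t ht
  exact ht

theorem GoodCol.tendsto_colMean {i : Fin (n + 1)} (hE : MeasurableSet E) {y : Fin n → ℝ}
    (hy : GoodCol i E y) :
    Tendsto (fun k => colMean i (moll (bump (n + 1) k) E) y) atTop (𝓝 (colH i E y)) := by
  unfold colH colMean
  apply tendsto_integral_of_dominated_convergence (fun _ => (1 : ℝ))
  · intro k
    exact ((contDiff_moll (bump (n+1) k) hE).continuous.comp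
      (continuous_ins_left i y)).aestronglyMeasurable
  · exact integrable_const _
  · intro k
    filter_upwards with t
    rw [Real.norm_eq_abs, abs_of_nonneg (moll_nonneg _ _ _)]
    exact moll_le_one _ hE _
  · exact hy

theorem GoodCol.exists_pair {i : Fin (n + 1)} (_hE : MeasurableSet E) {y : Fin n → ℝ}
    (hy : GoodCol i E y) (h0 : 0 < colH i E y) (h1 : colH i E y < 1) :
    ∃ a b : ℝ, a ∈ Ico (0 : ℝ) 1 ∧ b ∈ Ico (0 : ℝ) 1 ∧
      Tendsto (fun k => |moll (bump (n + 1) k) E (i.insertNth (α := fun _ => ℝ) b y) -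
        moll (bump (n + 1) k) E (i.insertNth (α := fun _ => ℝ) a y)|) atTop (𝓝 1) := by
  set ind : ℝ → ℝ := fun t => E.indicator (fun _ => (1 : ℝ)) (i.insertNth (α := fun _ => ℝ) t y)
    with hind
  have hvals : ∀ t, ind t = 0 ∨ ind t = 1 := by
    intro t
    by_cases h : i.insertNth (α := fun _ => ℝ) t y ∈ E
    · right; simp [hind, h]
    · left; simp [hind, h]
  have hmem : ∀ᵐ t ∂(volume.restrict (Ico (0 : ℝ) 1)), t ∈ Ico (0 : ℝ) 1 :=
    ae_restrict_mem measurableSet_Ico
  have hb : ∃ b, b ∈ Ico (0 : ℝ) 1 ∧ ind b = 1 ∧ Tendsto (fun k =>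
      moll (bump (n + 1) k) E (i.insertNth (α := fun _ => ℝ) b y)) atTop (𝓝 (ind b)) := by
    by_contra hcon
    push Not at hcon
    have : ∀ᵐ t ∂(volume.restrict (Ico (0 : ℝ) 1)), ind t = 0 := by
      filter_upwards [hy, hmem] with t ht htm
      rcases hvals t with h | h
      · exact h
      · exact absurd ht (hcon t htm h)
    have h2 : colH i E y = 0 := by
      unfold colH colMean
      rw [integral_congr_ae this]
      simp
    exact h0.ne' h2
  have ha : ∃ a, a ∈ Ico (0 : ℝ) 1 ∧ ind a = 0 ∧ Tendsto (fun k =>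
      moll (bump (n + 1) k) E (i.insertNth (α := fun _ => ℝ) a y)) atTop (𝓝 (ind a)) := by
    by_contra hcon
    push Not at hcon
    have : ∀ᵐ t ∂(volume.restrict (Ico (0 : ℝ) 1)), ind t = 1 := by
      filter_upwards [hy, hmem] with t ht htm
      rcases hvals t with h | h
      · exact absurd ht (hcon t htm h)
      · exact h
    have h2 : colH i E y = 1 := by
      unfold colH colMean
      rw [integral_congr_ae this]
      simp
    exact h1.ne h2
  obtain ⟨b, hb1, hb2, hb3⟩ := hb
  obtain ⟨a, ha1, ha2, ha3⟩ := ha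
  refine ⟨a, b, ha1, hb1, ?_⟩
  have := (hb3.sub ha3).abs
  rw [hb2, ha2] at this
  simpa using this

theorem abs_qf_le {X : (Fin (n + 1) → ℝ) → (Fin (n + 1) → ℝ)} (hX : TestField X)
    (H : (Fin n → ℝ) → ℝ) (y : Fin n → ℝ) : |qf i X H y| ≤ 2 := by
  have h := qf_pf_le i (H := H) hX y
  have h2 : 0 ≤ ∑ j, pf i X H y j ^ 2 := Finset.sum_nonneg fun j _ => sq_nonneg _
  apply abs_le_of_sq_le_sq _ (by norm_num)
  linarith only [h, h2]

/-- the error term tends to zero -/
theorem GoodCol.tendsto_error {i : Fin (n + 1)} (hE : MeasurableSet E) (hp : IsPeriodic E)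
    {y : Fin n → ℝ} (hy : GoodCol i E y)
    {X : (Fin (n + 1) → ℝ) → (Fin (n + 1) → ℝ)} (hX : TestField X) :
    Tendsto (fun k => |qf i X (colMean i (moll (bump (n + 1) k) E)) y| *
      max 0 (1 - colTV i (moll (bump (n + 1) k) E) y / 2)) atTop (𝓝 0) := by
  set f : ℕ → (Fin (n + 1) → ℝ) → ℝ := fun k => moll (bump (n + 1) k) E with hf
  have hfc : ∀ k, ContDiff ℝ 1 (f k) := fun k => (contDiff_moll _ hE).of_le one_le_two
  have hfp : ∀ k, PerFun (f k) := fun k => perFun_moll _ hp
  have hTV0 : ∀ k, 0 ≤ colTV i (f k) y := fun k => colMean_nonneg i (fun x => abs_nonneg _) y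
  have hH := hy.tendsto_colMean hE
  by_cases hcase : 0 < colH i E y ∧ colH i E y < 1
  · obtain ⟨a, b, ha, hb, hlim⟩ := hy.exists_pair hE hcase.1 hcase.2
    have hge : ∀ k, |f k (i.insertNth (α := fun _ => ℝ) b y) -
        f k (i.insertNth (α := fun _ => ℝ) a y)| ≤ colTV i (f k) y / 2 := by
      intro k
      rcases le_total a b with hab | hab
      · exact colTV_ge i (hfc k) (hfp k) y hab (by linarith [ha.1, hb.2])
      · rw [abs_sub_comm]
        exact colTV_ge i (hfc k) (hfp k) y hab (by linarith [hb.1, ha.2])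
    have hup : Tendsto (fun k => 2 * max 0 (1 - |f k (i.insertNth (α := fun _ => ℝ) b y) -
        f k (i.insertNth (α := fun _ => ℝ) a y)|)) atTop (𝓝 0) := by
      have h1 : Tendsto (fun k => 2 * max 0 (1 - |f k (i.insertNth (α := fun _ => ℝ) b y) -
        f k (i.insertNth (α := fun _ => ℝ) a y)|)) atTop (𝓝 (2 * max 0 (1 - 1))) :=
        (tendsto_const_nhds.max (tendsto_const_nhds.sub hlim)).const_mul 2
      simpa using h1
    refine squeeze_zero (fun k => mul_nonneg (abs_nonneg _) (le_max_left _ _)) (fun k => ?_) hup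
    apply mul_le_mul (abs_qf_le i hX _ y) _ (le_max_left _ _) (by norm_num)
    apply max_le_max le_rfl
    have := hge k
    linarith only [this]
  · have hends : colH i E y = 0 ∨ colH i E y = 1 := by
      rcases (colH_nonneg i E y).eq_or_lt with h | h
      · left; exact h.symm
      · right
        push Not at hcase
        exact le_antisymm (colH_le_one i hE y) (hcase h)
    have hXc : Continuous fun s : ℝ => X (i.insertNth (α := fun _ => ℝ) s y) i :=
      (continuous_apply i).comp (hX.contDiff.continuous.comp (continuous_ins_left i y))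
    have hq : Tendsto (fun k => qf i X (colMean i (f k)) y) atTop
        (𝓝 (X (i.insertNth (α := fun _ => ℝ) (1 / 2 * colH i E y) y) i -
          X (i.insertNth (α := fun _ => ℝ) (-1 / 2 * colH i E y) y) i)) := by
      unfold qf wpt
      exact ((hXc.tendsto _).comp (hH.const_mul _)).sub ((hXc.tendsto _).comp (hH.const_mul _))
    have hzero : X (i.insertNth (α := fun _ => ℝ) (1 / 2 * colH i E y) y) i -
          X (i.insertNth (α := fun _ => ℝ) (-1 / 2 * colH i E y) y) i = 0 := by
      rcases hends with h | h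
      · rw [h]; simp
      · rw [h, mul_one, mul_one]
        have h1 := hX.periodic (i.insertNth (α := fun _ => ℝ) (-1 / 2) y)
          (i.insertNth (α := fun _ => ℤ) 1 0)
        have h2 : (fun j => i.insertNth (α := fun _ => ℝ) (-1 / 2) y j +
            ((i.insertNth (α := fun _ => ℤ) 1 0 : Fin (n + 1) → ℤ) j : ℝ)) =
            i.insertNth (α := fun _ => ℝ) (1 / 2) y := by
          ext j
          refine Fin.succAboveCases i ?_ (fun j => ?_) j
          · simp; norm_num
          · simp
        rw [h2] at h1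
        rw [h1, sub_self]
    rw [hzero] at hq
    have hq' := hq.abs
    rw [abs_zero] at hq'
    refine squeeze_zero (fun k => mul_nonneg (abs_nonneg _) (le_max_left _ _)) (fun k => ?_) hq'
    apply mul_le_of_le_one_right (abs_nonneg _)
    apply max_le zero_le_one
    have := hTV0 k
    linarith only [this]

theorem continuous_qf {X : (Fin (n + 1) → ℝ) → (Fin (n + 1) → ℝ)} (hX : ContDiff ℝ 1 X)
    {H : (Fin n → ℝ) → ℝ} (hH : Continuous H) : Continuous (qf i X H) := by
  have hwc : ∀ σ : ℝ, Continuous fun y => wpt i H σ y := fun σ =>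
    (continuous_wpt i hH).comp (continuous_const.prodMk continuous_id)
  have hXj : ∀ σ j, Continuous fun y : Fin n → ℝ => X (wpt i H σ y) j := fun σ j =>
    (continuous_apply j).comp (hX.continuous.comp (hwc σ))
  exact (hXj _ _).sub (hXj _ _)

theorem continuous_pf {X : (Fin (n + 1) → ℝ) → (Fin (n + 1) → ℝ)} (hX : ContDiff ℝ 1 X)
    {H : (Fin n → ℝ) → ℝ} (hH : Continuous H) (j : Fin n) :
    Continuous (fun y => pf i X H y j) := by
  have hwc : ∀ σ : ℝ, Continuous fun y => wpt i H σ y := fun σ =>
    (continuous_wpt i hH).comp (continuous_const.prodMk continuous_id)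
  have hXj : ∀ σ j, Continuous fun y : Fin n → ℝ => X (wpt i H σ y) j := fun σ j =>
    (continuous_apply j).comp (hX.continuous.comp (hwc σ))
  exact ((hXj _ _).add (hXj _ _)).div_const _

theorem continuous_colTV {f : (Fin (n + 1) → ℝ) → ℝ} (hf : ContDiff ℝ 1 f) :
    Continuous (colTV i f) := continuous_colMean i (continuous_partial hf i).abs

/-- the smooth inequality -/
theorem psi_le {f : (Fin (n + 1) → ℝ) → ℝ} (hf : ContDiff ℝ 1 f) (hfp : PerFun f)
    {X : (Fin (n + 1) → ℝ) → (Fin (n + 1) → ℝ)} (hX : TestField X) :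
    ∫ y in cube n, psi i X (colMean i f y) y ≤ (∫ x in cube (n + 1), gradNorm f x) +
      ∫ y in cube n, |qf i X (colMean i f) y| * max 0 (1 - colTV i f y / 2) := by
  have hHc := contDiff_colMean i hf
  have hHp := perFun_colMean i hfp
  rw [integral_psi i hX.contDiff hX.perFun hHc hHp, integral_colMean i (continuous_gradNorm hf)]
  have c1 : Continuous (colMean i (gradNorm f)) := continuous_colMean i (continuous_gradNorm hf)
  have cq := continuous_qf i hX.contDiff hHc.continuous
  have c2 : Continuous fun y => |qf i X (colMean i f) y| * max 0 (1 - colTV i f y / 2) :=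
    cq.abs.mul (continuous_const.max (continuous_const.sub ((continuous_colTV i hf).div_const _)))
  have c3 : Continuous fun y => ∑ j, fderiv ℝ (colMean i f) y (Pi.single j 1) *
      pf i X (colMean i f) y j :=
    continuous_finsetSum _ fun j _ => (continuous_partial hHc j).mul
      (continuous_pf i hX.contDiff hHc.continuous j)
  have c4 : Continuous fun y => qf i X (colMean i f) y -
      ∑ j, fderiv ℝ (colMean i f) y (Pi.single j 1) * pf i X (colMean i f) y j := cq.sub c3
  rw [← integral_add (integrableOn_cube c1) (integrableOn_cube c2)]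
  apply integral_mono (integrableOn_cube c4)
    ((integrableOn_cube c1).add (integrableOn_cube c2))
  intro y
  simp only [Pi.add_apply]
  have h1 := col_cs i hf y (pf i X (colMean i f) y) (qf i X (colMean i f) y) (qf_pf_le i hX y)
  set q := qf i X (colMean i f) y
  set T := colTV i f y
  have h2 : |q| * (1 - T / 2) ≤ |q| * max 0 (1 - T / 2) :=
    mul_le_mul_of_nonneg_left (le_max_right _ _) (abs_nonneg _)
  have h3 := le_abs_self q
  linarith only [h1, h2, h3]

/-- **Steiner symmetrization decreases perimeter.** -/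
theorem perimeter_steiner_le (hE : MeasurableSet E) (hp : IsPeriodic E) :
    perimeter (steiner i E) ≤ perimeter E := by
  by_cases htop : perimeter E = ⊤
  · rw [htop]; exact le_top
  conv_lhs => unfold perimeter
  apply iSup₂_le
  intro X hX
  set C := (perimeter E).toReal with hC
  rw [← ENNReal.ofReal_toReal htop]
  apply ENNReal.ofReal_le_ofReal
  rw [← hC, integral_divergence_steiner i hE hp hX]
  set f : ℕ → (Fin (n + 1) → ℝ) → ℝ := fun k => moll (bump (n + 1) k) E with hf
  have hfc : ∀ k, ContDiff ℝ 1 (f k) := fun k => (contDiff_moll _ hE).of_le one_le_two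
  have hfp : ∀ k, PerFun (f k) := fun k => perFun_moll _ hp
  have hf0 : ∀ k x, 0 ≤ f k x := fun k x => moll_nonneg _ _ _
  have hf1 : ∀ k x, f k x ≤ 1 := fun k x => moll_le_one _ hE _
  obtain ⟨K, hK⟩ := exists_bound_divergence hX
  have hK0 : 0 ≤ K := (abs_nonneg _).trans (hK 0)
  have hpsib : ∀ s, 0 ≤ s → s ≤ 1 → ∀ y, |psi i X s y| ≤ K := by
    intro s hs0 hs1 y
    have h := intervalIntegral.norm_integral_le_of_norm_le_const (a := (-1 / 2 : ℝ)) (b := 1 / 2)
      (C := K) (f := fun σ => s * divergence X (i.insertNth (α := fun _ => ℝ) (σ * s) y)) ?_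
    · rw [Real.norm_eq_abs] at h
      unfold psi
      refine h.trans (le_of_eq ?_)
      norm_num
    · intro σ _
      rw [Real.norm_eq_abs, abs_mul, abs_of_nonneg hs0]
      have := hK (i.insertNth (α := fun _ => ℝ) (σ * s) y)
      linarith only [mul_nonneg (sub_nonneg.2 hs0) (sub_nonneg.2 this), mul_nonneg (sub_nonneg.2 hK0) (sub_nonneg.2 hs1)]
  have hgood : ∀ᵐ y ∂(volume.restrict (cube n)), GoodCol i E y :=
    ae_restrict_of_ae (ae_goodCol i hE)
  have hlim1 : Tendsto (fun k => ∫ y in cube n, psi i X (colMean i (f k) y) y) atTop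
      (𝓝 (∫ y in cube n, psi i X (colH i E y) y)) := by
    apply tendsto_integral_of_dominated_convergence (fun _ => K)
    · intro k
      exact ((continuous_psi i hX.contDiff).comp
        ((continuous_colMean i (hfc k).continuous).prodMk continuous_id)).aestronglyMeasurable
    · exact integrable_const _
    · intro k
      filter_upwards with y
      rw [Real.norm_eq_abs]
      exact hpsib _ (colMean_nonneg i (hf0 k) y) (colMean_le_one i (hfc k).continuous (hf1 k) y) y
    · filter_upwards [hgood] with y hy
      have h1 : Continuous fun s : ℝ => psi i X s y :=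
        (continuous_psi i hX.contDiff).comp (continuous_id.prodMk continuous_const)
      exact (h1.tendsto _).comp (hy.tendsto_colMean hE)
  have hlim2 : Tendsto (fun k => ∫ y in cube n, |qf i X (colMean i (f k)) y| *
      max 0 (1 - colTV i (f k) y / 2)) atTop (𝓝 0) := by
    have h0 : ∫ y in cube n, (0 : ℝ) = 0 := by simp
    suffices hs : Tendsto (fun k => ∫ y in cube n, |qf i X (colMean i (f k)) y| *
      max 0 (1 - colTV i (f k) y / 2)) atTop (𝓝 (∫ y in cube n, (0 : ℝ))) by
      rw [h0] at hs
      exact hs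
    apply tendsto_integral_of_dominated_convergence (fun _ => (2 : ℝ))
    · intro k
      apply Continuous.aestronglyMeasurable
      exact (continuous_qf i hX.contDiff
        (continuous_colMean i (hfc k).continuous)).abs.mul
        (continuous_const.max (continuous_const.sub ((continuous_colTV i (hfc k)).div_const _)))
    · exact integrable_const _
    · intro k
      filter_upwards with y
      have hTV0 : 0 ≤ colTV i (f k) y := colMean_nonneg i (fun x => abs_nonneg _) y
      rw [Real.norm_eq_abs, abs_mul, abs_abs,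
        abs_of_nonneg (le_max_left (0 : ℝ) (1 - colTV i (f k) y / 2))]
      have h1 := abs_qf_le i hX (colMean i (f k)) y
      have h2 : max 0 (1 - colTV i (f k) y / 2) ≤ 1 := max_le zero_le_one (by linarith)
      have h3 : 0 ≤ max 0 (1 - colTV i (f k) y / 2) := le_max_left _ _
      nlinarith only [abs_nonneg (qf i X (colMean i (f k)) y), h1, h2, h3]
    · filter_upwards [hgood] with y hy
      exact hy.tendsto_error hE hp hX
  have hlim3 : Tendsto (fun k => C + ∫ y in cube n, |qf i X (colMean i (f k)) y| *
      max 0 (1 - colTV i (f k) y / 2)) atTop (𝓝 C) := by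
    simpa using hlim2.const_add C
  refine le_of_tendsto_of_tendsto' hlim1 hlim3 (fun k => ?_)
  refine (psi_le i (hfc k) (hfp k) hX).trans ?_
  gcongr
  exact integral_gradNorm_moll_le _ hE hp
    (fun X hX => integral_divergence_le_of_perimeter htop hX)

end

end Vale.Agent.P232
end
end

section

section

open MeasureTheory Set Filter Topology ContinuousLinearMap
open scoped Pointwise Convolution

namespace Vale.Agent.P232

/-- A position-dependent calibration of the interval `[c, c + 1]`. -/
structure Calib (c K : ℝ) (a a' b : ℝ → ℝ) : Prop where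
  cont : ContinuousOn a (Icc c (c + 1))
  per : a (c + 1) = a c
  deriv : ∀ t ∈ Ioo c (c + 1), HasDerivWithinAt a (a' t) (Ioi t) t
  meas : Measurable a'
  bdd : ∀ t, |a' t| ≤ K
  contb : Continuous b
  nonneg : ∀ t, 0 ≤ b t
  le_one : ∀ t ∈ Icc c (c + 1), a t ^ 2 + b t ^ 2 ≤ 1

theorem Calib.intervalIntegrable {c K : ℝ} {a a' b : ℝ → ℝ} (h : Calib c K a a' b)
    {g : ℝ → ℝ} (hg : Continuous g) (p q : ℝ) :
    IntervalIntegrable (fun t => a' t * g t) volume p q := by
  rw [intervalIntegrable_iff]
  have h1 : IntegrableOn g (uIoc p q) :=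
    (hg.intervalIntegrable p q).def'
  refine Integrable.bdd_mul h1 h.meas.aestronglyMeasurable ?_ (c := K)
  filter_upwards with t
  exact h.bdd t

/-- Linear slicing inequality with position-dependent weights, for smooth functions. -/
theorem linslice_smooth {n : ℕ} (i : Fin (n + 1)) {f : (Fin (n + 1) → ℝ) → ℝ}
    (hf : ContDiff ℝ 1 f) (hp : PerFun f) {c K : ℝ} {a a' b : ℝ → ℝ} (h : Calib c K a a' b) :
    |∫ t in c..(c + 1), a' t * sliceMean i f t| +
      ∫ t in c..(c + 1), b t * sliceTV i f t ≤ ∫ x in cube (n + 1), gradNorm f x := by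
  have hc1 : c ≤ c + 1 := by linarith
  have hwc : Continuous (sliceMean i f) := continuous_sliceMean i hf.continuous
  have hdc := continuous_deriv_sliceMean i hf
  have hTV := continuous_sliceTV i hf
  set m' := sliceMean i (fun x => fderiv ℝ f x (Pi.single i 1)) with hm'
  have hai : IntervalIntegrable (fun t => a t * m' t) volume c (c + 1) := by
    apply ContinuousOn.intervalIntegrable
    rw [uIcc_of_le hc1]
    exact h.cont.mul hdc.continuousOn
  have h1 : ∫ t in c..(c + 1), a' t * sliceMean i f t = - ∫ t in c..(c + 1), a t * m' t := by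
    have h2 : ∫ t in c..(c + 1), (a' t * sliceMean i f t + a t * m' t) =
        a (c + 1) * sliceMean i f (c + 1) - a c * sliceMean i f c := by
      apply intervalIntegral.integral_eq_sub_of_hasDeriv_right_of_le hc1
        (f := fun t => a t * sliceMean i f t)
      · exact h.cont.mul hwc.continuousOn
      · intro t ht
        exact (h.deriv t ht).mul (hasDerivAt_sliceMean i hf t).hasDerivWithinAt
      · exact (h.intervalIntegrable hwc _ _).add hai
    have h3 : a (c + 1) * sliceMean i f (c + 1) - a c * sliceMean i f c = 0 := by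
      rw [h.per, sliceMean_add_one i hp c, sub_self]
    rw [h3, intervalIntegral.integral_add (h.intervalIntegrable hwc _ _) hai] at h2
    linarith
  rw [h1, abs_neg, integral_sliceMean i (continuous_gradNorm hf)]
  have hper : ∀ t, sliceMean i (gradNorm f) (t + 1) = sliceMean i (gradNorm f) t :=
    sliceMean_add_one i hp.gradNorm
  rw [← integral_Ico_eq hper c]
  have h4 : |∫ t in c..(c + 1), a t * m' t| ≤ ∫ t in c..(c + 1), |a t| * |m' t| := by
    refine (intervalIntegral.abs_integral_le_integral_abs hc1).trans (le_of_eq ?_)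
    apply intervalIntegral.integral_congr
    intro t _
    exact abs_mul _ _
  have hai2 : IntervalIntegrable (fun t => |a t| * |m' t|) volume c (c + 1) := by
    apply ContinuousOn.intervalIntegrable
    rw [uIcc_of_le hc1]
    exact h.cont.abs.mul hdc.abs.continuousOn
  have hbi : IntervalIntegrable (fun t => b t * sliceTV i f t) volume c (c + 1) :=
    (h.contb.mul hTV).intervalIntegrable _ _
  calc _ ≤ (∫ t in c..(c + 1), |a t| * |m' t|) +
        ∫ t in c..(c + 1), b t * sliceTV i f t := by gcongr
    _ = ∫ t in c..(c + 1), (|a t| * |m' t| + b t * sliceTV i f t) := by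
        rw [intervalIntegral.integral_add hai2 hbi]
    _ ≤ ∫ t in c..(c + 1), sliceMean i (gradNorm f) t := by
        apply intervalIntegral.integral_mono_on hc1 (hai2.add hbi)
        · exact (continuous_sliceMean i (continuous_gradNorm hf)).intervalIntegrable _ _
        · intro t ht
          exact sliceMean_gradNorm_ge i hf t (abs_nonneg _) (by rw [sq_abs]; exact h.le_one t ht)

theorem norm_sliceMean_moll_le {n : ℕ} (i : Fin (n + 1)) {E : Set (Fin (n + 1) → ℝ)}
    (hE : MeasurableSet E) (k : ℕ) (t : ℝ) :
    ‖sliceMean i (moll (bump (n + 1) k) E) t‖ ≤ 1 := by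
  unfold sliceMean
  refine (norm_integral_le_of_norm_le_const (C := 1) ?_).trans ?_
  · filter_upwards with y
    rw [Real.norm_eq_abs, abs_of_nonneg (moll_nonneg _ _ _)]
    exact moll_le_one _ hE _
  · simp [Measure.real]

/-- Linear slicing inequality with position-dependent weights. -/
theorem linslice {n : ℕ} (i : Fin (n + 1)) {E : Set (Fin (n + 1) → ℝ)}
    (hE : MeasurableSet E) (hp : IsPeriodic E) {c K : ℝ} {a a' b : ℝ → ℝ}
    (h : Calib c K a a' b) :
    ENNReal.ofReal |∫ t in c..(c + 1), a' t * sv i E t| +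
      ∫⁻ t in Ioc c (c + 1), ENNReal.ofReal (b t) * perimeter (slice i E t) ≤
      perimeter E := by
  have hc1 : c ≤ c + 1 := by linarith
  by_cases htop : perimeter E = ⊤
  · rw [htop]; exact le_top
  set f : ℕ → (Fin (n + 1) → ℝ) → ℝ := fun k => moll (bump (n + 1) k) E with hf
  have hfc : ∀ k, ContDiff ℝ 1 (f k) := fun k => (contDiff_moll _ hE).of_le one_le_two
  have hfp : ∀ k, PerFun (f k) := fun k => perFun_moll _ hp
  set C := (perimeter E).toReal with hC
  set S : ℕ → ℝ := fun k => |∫ t in c..(c + 1), a' t * sliceMean i (f k) t| with hS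
  set S' : ℝ := |∫ t in c..(c + 1), a' t * sv i E t| with hS'
  have hSlim : Tendsto S atTop (𝓝 S') := by
    apply Tendsto.abs
    apply intervalIntegral.tendsto_integral_filter_of_dominated_convergence (fun _ => K)
    · filter_upwards with k
      exact (h.meas.mul (continuous_sliceMean i (hfc k).continuous).measurable).aestronglyMeasurable
    · filter_upwards with k
      filter_upwards with t _
      rw [norm_mul]
      have h1 : ‖a' t‖ ≤ K := h.bdd t
      have h2 : ‖sliceMean i (f k) t‖ ≤ 1 := norm_sliceMean_moll_le i hE k t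
      calc ‖a' t‖ * ‖sliceMean i (f k) t‖ ≤ K * 1 := by
            gcongr
            exact (norm_nonneg _).trans h1
        _ = K := mul_one K
    · exact intervalIntegrable_const
    · filter_upwards [ae_goodPt i hE] with t ht _
      exact (ht.tendsto_sliceMean hE).const_mul _
  have hmain : ∀ k, S k + ∫ t in c..(c + 1), b t * sliceTV i (f k) t ≤ C := by
    intro k
    refine (linslice_smooth i (hfc k) (hfp k) h).trans ?_
    exact integral_gradNorm_moll_le _ hE hp
      (fun X hX => integral_divergence_le_of_perimeter htop hX)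
  have hint0 : ∀ k, 0 ≤ ∫ t in c..(c + 1), b t * sliceTV i (f k) t :=
    fun k => intervalIntegral.integral_nonneg hc1
      fun t _ => mul_nonneg (h.nonneg _) (sliceTV_nonneg _ _ _)
  have hcont : ∀ k, Continuous (fun t => b t * sliceTV i (f k) t) := fun k =>
    h.contb.mul (continuous_sliceTV i (hfc k))
  have hbk : ∀ k, ∫⁻ t in Ioc c (c + 1), ENNReal.ofReal (b t) *
      ENNReal.ofReal (sliceTV i (f k) t) ≤ ENNReal.ofReal (C - S k) := by
    intro k
    have e1 : ∀ t, ENNReal.ofReal (b t) * ENNReal.ofReal (sliceTV i (f k) t) =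
        ENNReal.ofReal (b t * sliceTV i (f k) t) := fun t =>
      (ENNReal.ofReal_mul (h.nonneg _)).symm
    simp_rw [e1]
    rw [← ofReal_integral_eq_lintegral_ofReal]
    · apply ENNReal.ofReal_le_ofReal
      have := hmain k
      rw [intervalIntegral.integral_of_le hc1] at this
      linarith
    · have := ((hcont k).intervalIntegrable (μ := volume) c (c + 1))
      rwa [intervalIntegrable_iff_integrableOn_Ioc_of_le hc1] at this
    · filter_upwards with t
      exact mul_nonneg (h.nonneg _) (sliceTV_nonneg _ _ _)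
  have hB : ∫⁻ t in Ioc c (c + 1), ENNReal.ofReal (b t) * perimeter (slice i E t) ≤
      ENNReal.ofReal (C - S') := by
    have h1 : ∫⁻ t in Ioc c (c + 1), ENNReal.ofReal (b t) * perimeter (slice i E t) ≤
        ∫⁻ t in Ioc c (c + 1), liminf (fun k => ENNReal.ofReal (b t) *
          ENNReal.ofReal (sliceTV i (f k) t)) atTop := by
      apply lintegral_mono_ae
      filter_upwards [ae_restrict_of_ae (ae_goodPt i hE)] with t ht
      rw [ENNReal.liminf_const_mul_of_ne_top (ENNReal.ofReal_ne_top)]
      gcongr
      exact ht.perimeter_le_liminf hE hp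
    refine h1.trans ?_
    refine (lintegral_liminf_le (fun k => ?_)).trans ?_
    · exact (ENNReal.measurable_ofReal.comp h.contb.measurable).mul
        (ENNReal.measurable_ofReal.comp (continuous_sliceTV i (hfc k)).measurable)
    · have h2 : Tendsto (fun k => ENNReal.ofReal (C - S k)) atTop (𝓝 (ENNReal.ofReal (C - S'))) :=
        ENNReal.tendsto_ofReal (tendsto_const_nhds.sub hSlim)
      rw [← h2.liminf_eq]
      exact liminf_le_liminf (Eventually.of_forall fun k => hbk k)
  have hS'C : S' ≤ C := by
    apply le_of_tendsto hSlim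
    filter_upwards with k
    linarith [hmain k, hint0 k]
  have hS'0 : 0 ≤ S' := abs_nonneg _
  calc _ ≤ ENNReal.ofReal S' + ENNReal.ofReal (C - S') := by gcongr
    _ = ENNReal.ofReal C := by
        rw [← ENNReal.ofReal_add hS'0 (by linarith)]
        congr 1
        ring
    _ = perimeter E := ENNReal.ofReal_toReal htop

end Vale.Agent.P232
end
end

section

section

open MeasureTheory Set Filter Topology
open scoped Pointwise

namespace Vale.Agent.P232

/-- The hat function: slope `s / T` on `[z - T, z + T]`, then back linearly. -/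
noncomputable def hatA (z T s : ℝ) (t : ℝ) : ℝ :=
  if t ≤ z + T then s * (t - z) / T else s - 2 * s * (t - z - T) / (1 - 2 * T)

noncomputable def hatA' (z T s : ℝ) (t : ℝ) : ℝ :=
  if t < z + T then s / T else - (2 * s / (1 - 2 * T))

noncomputable def hatB (z T s : ℝ) (t : ℝ) : ℝ :=
  Real.sqrt (max 0 (1 - (s * (t - z) / T) ^ 2))

theorem hat_calib {z T s : ℝ} (hT : 0 < T) (hT2 : T < 1 / 2) (hs : 0 ≤ s) (hs1 : s ≤ 1) :
    Calib (z - T) (max |s / T| |2 * s / (1 - 2 * T)|) (hatA z T s) (hatA' z T s)
      (hatB z T s) where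
  cont := by
    apply Continuous.continuousOn
    unfold hatA
    apply Continuous.if_le
    · fun_prop
    · fun_prop
    · fun_prop
    · fun_prop
    · intro t ht
      rw [ht]
      field_simp
      ring
  per := by
    unfold hatA
    have h1 : ¬ (z - T + 1 ≤ z + T) := by linarith only [hT2]
    have h2 : z - T ≤ z + T := by linarith only [hT]
    rw [if_neg h1, if_pos h2]
    have h3 : 1 - 2 * T ≠ 0 := by linarith only [hT2]
    field_simp
    ring
  deriv := by
    intro t _
    unfold hatA'
    by_cases ht : t < z + T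
    · rw [if_pos ht]
      have h1 : HasDerivAt (fun t => s * (t - z) / T) (s / T) t := by
        have := (((hasDerivAt_id t).sub_const z).const_mul s).div_const T
        simpa using this
      have h2 : hatA z T s =ᶠ[𝓝 t] (fun t => s * (t - z) / T) := by
        filter_upwards [gt_mem_nhds ht] with u hu
        unfold hatA
        rw [if_pos hu.le]
      exact (h1.congr_of_eventuallyEq h2).hasDerivWithinAt
    · rw [if_neg ht]
      push Not at ht
      have h1 : HasDerivAt (fun t => s - 2 * s * (t - z - T) / (1 - 2 * T))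
          (- (2 * s / (1 - 2 * T))) t := by
        have := ((((hasDerivAt_id t).sub_const z).sub_const T).const_mul (2 * s)).div_const
          (1 - 2 * T)
        have := this.const_sub s
        simpa using this
      refine h1.hasDerivWithinAt.congr (fun u hu => ?_) ?_
      · unfold hatA
        have : ¬ (u ≤ z + T) := by
          have : t < u := hu
          linarith only [ht, this]
        rw [if_neg this]
      · unfold hatA
        rcases ht.eq_or_lt with h | h
        · rw [if_pos h.symm.le, ← h]
          have h3 : 1 - 2 * T ≠ 0 := by linarith only [hT2]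
          field_simp
          ring
        · rw [if_neg (not_le.mpr h)]
  meas := by
    unfold hatA'
    exact Measurable.ite measurableSet_Iio measurable_const measurable_const
  bdd := by
    intro t
    unfold hatA'
    split_ifs
    · exact le_max_left _ _
    · rw [abs_neg]; exact le_max_right _ _
  contb := by unfold hatB; fun_prop
  nonneg := fun t => Real.sqrt_nonneg _
  le_one := by
    intro t ht
    unfold hatB
    rw [Real.sq_sqrt (le_max_left _ _)]
    have h12 : 0 < 1 - 2 * T := by linarith only [hT2]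
    by_cases h : t ≤ z + T
    · have e : hatA z T s t = s * (t - z) / T := by unfold hatA; rw [if_pos h]
      rw [e]
      have h1 : |t - z| ≤ T := abs_le.mpr ⟨by linarith only [ht.1], by linarith only [h]⟩
      have h2 : (s * (t - z) / T) ^ 2 ≤ 1 := by
        rw [sq_le_one_iff_abs_le_one, abs_div, abs_mul, abs_of_nonneg hs, abs_of_pos hT,
          div_le_one hT]
        have := abs_nonneg (t - z)
        (by_contra nlg; linarith only [nlg, mul_nonneg (sub_nonneg.2 hs) (sub_nonneg.2 h1), mul_nonneg (le_of_lt (sub_pos.2 hT)) (sub_nonneg.2 hs1), mul_pos (sub_pos.2 (not_le.1 nlg)) (sub_pos.2 hT2), mul_pos (sub_pos.2 (not_le.1 nlg)) (sub_pos.2 hT)])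
      rw [max_eq_right (by linarith only [h2])]
      linarith only []
    · have e : hatA z T s t = s - 2 * s * (t - z - T) / (1 - 2 * T) := by
        unfold hatA; rw [if_neg h]
      push Not at h
      rw [e]
      set r := (t - z - T) / (1 - 2 * T) with hr
      have hr0 : 0 ≤ r := div_nonneg (by linarith only [h]) h12.le
      have hr1 : r ≤ 1 := by
        rw [hr, div_le_one h12]; linarith only [ht.2]
      have e2 : s - 2 * s * (t - z - T) / (1 - 2 * T) = s * (1 - 2 * r) := by
        rw [hr]; ring
      rw [e2]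
      have h3 : (s * (1 - 2 * r)) ^ 2 ≤ s ^ 2 := by
        rw [mul_pow]
        have : (1 - 2 * r) ^ 2 ≤ 1 := by nlinarith only [hT, hT2, hr0, hr1]
        linarith only [mul_nonneg (sq_nonneg s) (sub_nonneg.2 this)]
      have h4 : s ^ 2 ≤ (s * (t - z) / T) ^ 2 := by
        apply pow_le_pow_left₀ hs
        rw [le_div_iff₀ hT]
        nlinarith only [hT, hT2, hs, h]
      have h5 : max 0 (1 - (s * (t - z) / T) ^ 2) ≤ 1 - s ^ 2 := by
        apply max_le
        · nlinarith only [hT, hT2, hs, hs1]
        · linarith only [h4]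
      linarith only [h3, h5]

theorem hatB_eq {z T s t : ℝ} (hT : 0 < T) (hs : 0 ≤ s) (hs1 : s ≤ 1)
    (ht : t ∈ Icc (z - T) (z + T)) :
    hatB z T s t = Real.sqrt (1 - (s * (t - z) / T) ^ 2) := by
  unfold hatB
  have h1 : |t - z| ≤ T := abs_le.mpr ⟨by linarith only [ht.1], by linarith only [ht.2]⟩
  have h2 : (s * (t - z) / T) ^ 2 ≤ 1 := by
    rw [sq_le_one_iff_abs_le_one, abs_div, abs_mul, abs_of_nonneg hs, abs_of_pos hT,
      div_le_one hT]
    have := abs_nonneg (t - z)
    linarith only [mul_nonneg (sub_nonneg.2 hs) (sub_nonneg.2 h1), mul_nonneg (le_of_lt (sub_pos.2 hT)) (sub_nonneg.2 hs1)]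
  rw [max_eq_right (by linarith only [h2])]

/-- `∫₀¹ √(1 - s² x²) dx`. -/
noncomputable def arcA (s : ℝ) : ℝ := ∫ x in (0 : ℝ)..1, Real.sqrt (1 - (s * x) ^ 2)

theorem integral_hatB {z T s : ℝ} (hT : 0 < T) (hs : 0 ≤ s) (hs1 : s ≤ 1) :
    ∫ t in (z - T)..(z + T), hatB z T s t = 2 * T * arcA s := by
  have h1 : ∫ t in (z - T)..(z + T), hatB z T s t =
      ∫ t in (z - T)..(z + T), Real.sqrt (1 - (s * ((t - z) / T)) ^ 2) := by
    apply intervalIntegral.integral_congr
    intro t ht
    rw [uIcc_of_le (by linarith only [hT])] at ht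
    simp only
    rw [hatB_eq hT hs hs1 ht, mul_div_assoc]
  rw [h1]
  have h2 : ∫ t in (z - T)..(z + T), Real.sqrt (1 - (s * ((t - z) / T)) ^ 2) =
      ∫ t in (-T)..T, Real.sqrt (1 - (s * (t / T)) ^ 2) := by
    have := intervalIntegral.integral_comp_sub_right
      (fun t => Real.sqrt (1 - (s * (t / T)) ^ 2)) z (a := z - T) (b := z + T)
    rw [this]
    congr 1 <;> ring
  rw [h2]
  have h3 : ∫ t in (-T)..T, Real.sqrt (1 - (s * (t / T)) ^ 2) =
      T * ∫ t in (-1 : ℝ)..1, Real.sqrt (1 - (s * t) ^ 2) := by
    have := intervalIntegral.integral_comp_div (fun t => Real.sqrt (1 - (s * t) ^ 2))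
      (a := -T) (b := T) hT.ne'
    rw [this, smul_eq_mul, neg_div, div_self hT.ne']
  rw [h3]
  have hc : Continuous (fun t => Real.sqrt (1 - (s * t) ^ 2)) := by fun_prop
  have h4 : ∫ t in (-1 : ℝ)..1, Real.sqrt (1 - (s * t) ^ 2) = 2 * arcA s := by
    rw [← intervalIntegral.integral_add_adjacent_intervals
      (hc.intervalIntegrable (-1) 0) (hc.intervalIntegrable 0 1)]
    have h5 : ∫ t in (-1 : ℝ)..0, Real.sqrt (1 - (s * t) ^ 2) = arcA s := by
      have := intervalIntegral.integral_comp_neg (fun t => Real.sqrt (1 - (s * t) ^ 2))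
        (a := (-1 : ℝ)) (b := 0)
      simp only [neg_neg, neg_zero] at this
      unfold arcA
      rw [← this]
      apply intervalIntegral.integral_congr
      intro t _
      simp only
      congr 2
      ring
    rw [h5]
    unfold arcA
    ring
  rw [h4]
  ring

theorem arcA_one : arcA 1 = Real.pi / 4 := by
  have h := integral_sqrt_one_sub_sq
  have hc : Continuous (fun t : ℝ => Real.sqrt (1 - t ^ 2)) := by fun_prop
  rw [← intervalIntegral.integral_add_adjacent_intervals
    (hc.intervalIntegrable (-1) 0) (hc.intervalIntegrable 0 1)] at h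
  have h5 : ∫ t in (-1 : ℝ)..0, Real.sqrt (1 - t ^ 2) = ∫ t in (0 : ℝ)..1, Real.sqrt (1 - t ^ 2) := by
    have := intervalIntegral.integral_comp_neg (fun t => Real.sqrt (1 - t ^ 2))
      (a := (-1 : ℝ)) (b := 0)
    simp only [neg_neg, neg_zero, even_two, Even.neg_pow] at this
    exact this
  rw [h5] at h
  unfold arcA
  simp only [one_mul]
  linarith only [h]

theorem arcA_nonneg (s : ℝ) : 0 ≤ arcA s :=
  intervalIntegral.integral_nonneg zero_le_one fun _ _ => Real.sqrt_nonneg _

theorem hatB_le_one (z T s t : ℝ) : hatB z T s t ≤ 1 := by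
  unfold hatB
  rw [Real.sqrt_le_one]
  apply max_le zero_le_one
  linarith only [sq_nonneg (s * (t - z) / T)]

/-- The hat bound for two-dimensional sets. -/
theorem hat_bound (i : Fin 2) {F : Set (Fin 2 → ℝ)}
    (hF : MeasurableSet F) (hp : IsPeriodic F) {z T T' s : ℝ} (hT : 0 < T) (hT2 : T < 1 / 2)
    (hT' : 0 ≤ T') (hTT : T' ≤ T) (hs : 0 ≤ s) (hs1 : s ≤ 1)
    (hk : ∀ᵐ t ∂volume.restrict (Ioc (z - T') (z + T')), 0 < sv i F t ∧ sv i F t < 1) :
    ENNReal.ofReal (|s / T * (∫ t in (z - T)..(z + T), sv i F t) -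
      2 * s / (1 - 2 * T) * ∫ t in (z + T)..(z - T + 1), sv i F t| +
      (4 * T * arcA s - 4 * (T - T'))) ≤ perimeter F := by
  have hcal := hat_calib (z := z) hT hT2 hs hs1
  have key := linslice i hF hp hcal
  have hi := fun p q => intervalIntegrable_sv i hF p q
  have e1 : ∫ t in (z - T)..(z - T + 1), hatA' z T s t * sv i F t =
      s / T * (∫ t in (z - T)..(z + T), sv i F t) -
      2 * s / (1 - 2 * T) * ∫ t in (z + T)..(z - T + 1), sv i F t := by
    have hint : ∀ p q, IntervalIntegrable (fun t => hatA' z T s t * sv i F t) volume p q := by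
      intro p q
      rw [intervalIntegrable_iff]
      refine Integrable.bdd_mul (hi p q).def' hcal.meas.aestronglyMeasurable ?_
        (c := max |s / T| |2 * s / (1 - 2 * T)|)
      filter_upwards with t
      exact hcal.bdd t
    rw [← intervalIntegral.integral_add_adjacent_intervals (hint (z - T) (z + T))
      (hint (z + T) (z - T + 1))]
    congr 1
    · rw [← intervalIntegral.integral_const_mul]
      apply intervalIntegral.integral_congr_ae
      have : ∀ᵐ t : ℝ, t ≠ z + T := by
        have := (measure_singleton (μ := (volume : Measure ℝ)) (z + T))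
        exact compl_mem_ae_iff.mpr this
      filter_upwards [this] with t ht1 ht
      rw [uIoc_of_le (by linarith only [hT])] at ht
      unfold hatA'
      rw [if_pos (lt_of_le_of_ne ht.2 ht1)]
    · rw [← intervalIntegral.integral_const_mul, ← intervalIntegral.integral_neg]
      apply intervalIntegral.integral_congr
      intro t ht
      rw [uIcc_of_le (by linarith only [hT2])] at ht
      unfold hatA'
      simp only
      rw [if_neg (by linarith only [ht.1])]
      ring
  rw [e1] at key
  refine le_trans ?_ key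
  refine ENNReal.ofReal_add_le.trans ?_
  gcongr
  have hIab : ∀ p q, IntervalIntegrable (hatB z T s) volume p q := fun p q =>
    hcal.contb.intervalIntegrable p q
  have h2 : ENNReal.ofReal (4 * T * arcA s - 4 * (T - T')) ≤
      ∫⁻ t in Ioc (z - T') (z + T'), ENNReal.ofReal (hatB z T s t * 2) := by
    rw [← ofReal_integral_eq_lintegral_ofReal]
    · apply ENNReal.ofReal_le_ofReal
      rw [← intervalIntegral.integral_of_le (by linarith only [hT']), intervalIntegral.integral_mul_const]
      have h3 := integral_hatB (z := z) hT hs hs1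
      rw [← intervalIntegral.integral_add_adjacent_intervals (hIab (z - T) (z - T'))
        (hIab (z - T') (z + T)), ← intervalIntegral.integral_add_adjacent_intervals
        (hIab (z - T') (z + T')) (hIab (z + T') (z + T))] at h3
      have h4 : ∫ t in (z - T)..(z - T'), hatB z T s t ≤ T - T' := by
        refine (intervalIntegral.integral_mono_on (by linarith only [hTT]) (hIab _ _)
          intervalIntegrable_const (fun t _ => hatB_le_one z T s t)).trans (le_of_eq ?_)
        rw [intervalIntegral.integral_const, smul_eq_mul]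
        ring
      have h5 : ∫ t in (z + T')..(z + T), hatB z T s t ≤ T - T' := by
        refine (intervalIntegral.integral_mono_on (by linarith only [hTT]) (hIab _ _)
          intervalIntegrable_const (fun t _ => hatB_le_one z T s t)).trans (le_of_eq ?_)
        rw [intervalIntegral.integral_const, smul_eq_mul]
        ring
      linarith only [h3, h4, h5]
    · have hc : Continuous (fun t => hatB z T s t * 2) := hcal.contb.mul continuous_const
      have := hc.intervalIntegrable (μ := volume) (z - T') (z + T')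
      rwa [intervalIntegrable_iff_integrableOn_Ioc_of_le (by linarith only [hT'])] at this
    · filter_upwards with t
      exact mul_nonneg (hcal.nonneg t) (by norm_num)
  refine h2.trans ?_
  have h3 : Ioc (z - T') (z + T') ⊆ Ioc (z - T) (z - T + 1) :=
    Ioc_subset_Ioc (by linarith) (by linarith)
  refine le_trans ?_ (lintegral_mono_set h3)
  apply lintegral_mono_ae
  filter_upwards [hk] with t ht
  rw [ENNReal.ofReal_mul (hcal.nonneg t)]
  gcongr
  have := two_le_perimeter_one (measurableSet_slice i hF t) (isPeriodic_slice i hp t)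
    ht.1 ht.2
  simpa using this

end Vale.Agent.P232
end
end

section

section

open MeasureTheory Set Filter Topology
open scoped Pointwise

namespace Vale.Agent.P232.Far2D

/-- Distance to the nearest integer. -/
noncomputable def nd (t : ℝ) : ℝ := |t - round t|

theorem nd_nonneg (t : ℝ) : 0 ≤ nd t := abs_nonneg _

theorem nd_le_half (t : ℝ) : nd t ≤ 1 / 2 := abs_sub_round t

theorem nd_add_int (t : ℝ) (k : ℤ) : nd (t + k) = nd t := by
  unfold nd
  rw [round_add_intCast]
  push_cast
  congr 1
  ring

theorem nd_of_abs_lt {t : ℝ} (h : |t| < 1 / 2) : nd t = |t| := by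
  unfold nd
  have : round t = 0 := by
    rw [round_eq, Int.floor_eq_zero_iff]
    rw [abs_lt] at h
    constructor <;> linarith only [h.1, h.2]
  rw [this]
  simp

theorem nd_of_mem {t : ℝ} (h0 : 0 ≤ t) (h1 : t ≤ 1 / 2) : nd t = t := by
  rcases h1.eq_or_lt with h | h
  · unfold nd
    have : round t = 1 := by
      rw [round_eq, h]
      norm_num
    rw [this, h]
    norm_num
  · rw [nd_of_abs_lt (by rw [abs_of_nonneg h0]; exact h), abs_of_nonneg h0]

theorem nd_one_sub {t : ℝ} (h0 : 1 / 2 ≤ t) (h1 : t ≤ 1) : nd t = 1 - t := by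
  unfold nd
  have : round t = 1 := by
    rw [round_eq, Int.floor_eq_iff]
    push_cast
    constructor <;> linarith
  rw [this]
  push_cast
  rw [abs_of_nonpos (by linarith)]
  ring

theorem isPeriodic {n : ℕ} {E : Set (Fin n → ℝ)} (h : IsDown E) : IsPeriodic E := by
  have key : ∀ (x : Fin n → ℝ) (k : Fin n → ℤ), x ∈ E → (fun i => x i + (k i : ℝ)) ∈ E := by
    intro x k hx
    refine h x _ (fun i => ?_) hx
    exact (nd_add_int (x i) (k i)).le
  intro x k
  constructor
  · intro hx
    have := key _ (fun i => - k i) hx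
    simpa using this
  · exact key x k

theorem isDown_slice {n : ℕ} (i : Fin (n + 1)) {E : Set (Fin (n + 1) → ℝ)} (h : IsDown E)
    (t : ℝ) : IsDown (slice i E t) := by
  intro x y hxy hx
  refine h _ _ (fun j => ?_) hx
  refine Fin.succAboveCases i ?_ (fun j => ?_) j
  · simp
  · simpa using hxy j

theorem slice_mono {n : ℕ} (i : Fin (n + 1)) {E : Set (Fin (n + 1) → ℝ)} (h : IsDown E)
    {t t' : ℝ} (ht : nd t' ≤ nd t) : slice i E t ⊆ slice i E t' := by
  intro y hy
  refine h _ _ (fun j => ?_) hy
  refine Fin.succAboveCases i ?_ (fun j => ?_) j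
  · simpa [nd] using ht
  · simp

theorem sv_anti {n : ℕ} (i : Fin (n + 1)) {E : Set (Fin (n + 1) → ℝ)} (h : IsDown E)
    {t t' : ℝ} (ht : nd t' ≤ nd t) : sv i E t ≤ sv i E t' := by
  unfold sv vol
  apply ENNReal.toReal_mono
  · exact ((measure_mono inter_subset_right).trans_lt (by rw [volume_cube]; simp)).ne
  · exact measure_mono (inter_subset_inter_left _ (slice_mono i h ht))

theorem volume_fin_one (s : Set ℝ) (G : Set (Fin 1 → ℝ)) (hG : G = {x | x 0 ∈ s}) :
    volume G = volume s := by
  have hmp := volume_preserving_funUnique (Fin 1) ℝ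
  have := hmp.measure_preimage_equiv s
  rw [← this, hG]
  rfl

/-- The one-dimensional reference set has measure `2 s`. -/
theorem vol_ref {s : ℝ} (h0 : 0 ≤ s) (h1 : s ≤ 1 / 2) :
    volume ({x : Fin 1 → ℝ | nd (x 0) ≤ s} ∩ cube 1) = ENNReal.ofReal (2 * s) := by
  have h2 : volume ({x : Fin 1 → ℝ | nd (x 0) ≤ s} ∩ cube 1) = volume ({t : ℝ | nd t ≤ s} ∩ Ico 0 1) := by
    apply volume_fin_one
    ext x
    simp [cube]
  rw [h2]
  rcases h1.eq_or_lt with h | h
  · have : {t : ℝ | nd t ≤ s} ∩ Ico 0 1 = Ico 0 1 := by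
      apply inter_eq_right.mpr
      intro t _
      simp only [mem_ofPred_eq]
      rw [h]
      exact nd_le_half t
    rw [this, Real.volume_Ico, h]
    norm_num
  · have : {t : ℝ | nd t ≤ s} ∩ Ico 0 1 = Icc 0 s ∪ Ico (1 - s) 1 := by
      ext t
      simp only [mem_inter_iff, mem_ofPred_eq, mem_Ico, mem_union, mem_Icc]
      constructor
      · rintro ⟨ht, ht0, ht1⟩
        by_cases hc : t ≤ 1 / 2
        · left
          rw [nd_of_mem ht0 hc] at ht
          exact ⟨ht0, ht⟩
        · right
          rw [nd_one_sub (by linarith only [hc]) ht1.le] at ht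
          exact ⟨by linarith only [ht], ht1⟩
      · rintro (⟨ht0, ht1⟩ | ⟨ht0, ht1⟩)
        · refine ⟨?_, ht0, by linarith only [h1, ht1]⟩
          rw [nd_of_mem ht0 (by linarith only [h1, ht1])]
          exact ht1
        · refine ⟨?_, by linarith, ht1⟩
          rw [nd_one_sub (by linarith only [h, ht0]) ht1.le]
          linarith only [ht0]
    rw [this, measure_union _ measurableSet_Ico, Real.volume_Icc, Real.volume_Ico,
      ← ENNReal.ofReal_add (by linarith only [h0]) (by linarith only [h0])]
    · congr 1; ring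
    · rw [Set.disjoint_left]
      intro t ht ht2
      linarith only [ht.2, ht2.1, h]

theorem vol_ge_of_mem {G : Set (Fin 1 → ℝ)} (hG : IsDown G) {y : Fin 1 → ℝ} (hy : y ∈ G) :
    2 * nd (y 0) ≤ vol G := by
  have h1 : {x : Fin 1 → ℝ | nd (x 0) ≤ nd (y 0)} ∩ cube 1 ⊆ G ∩ cube 1 := by
    apply inter_subset_inter_left
    intro x hx
    refine hG y x (fun i => ?_) hy
    rw [Subsingleton.elim i 0]
    exact hx
  have h2 := measure_mono (μ := volume) h1
  rw [vol_ref (nd_nonneg _) (nd_le_half _)] at h2
  unfold vol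
  have h3 : volume (G ∩ cube 1) ≠ ⊤ :=
    ((measure_mono inter_subset_right).trans_lt (by rw [volume_cube]; simp)).ne
  exact (ENNReal.ofReal_le_iff_le_toReal h3).mp h2

theorem vol_le_of_not_mem {G : Set (Fin 1 → ℝ)} (hG : IsDown G) {y : Fin 1 → ℝ} (hy : y ∉ G) :
    vol G ≤ 2 * nd (y 0) := by
  have h1 : G ∩ cube 1 ⊆ {x : Fin 1 → ℝ | nd (x 0) ≤ nd (y 0)} ∩ cube 1 := by
    apply inter_subset_inter_left
    intro x hx
    simp only [mem_ofPred_eq]
    by_contra hc
    push Not at hc
    apply hy
    refine hG x y (fun i => ?_) hx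
    rw [Subsingleton.elim i 0]
    exact hc.le
  have h2 := measure_mono (μ := volume) h1
  rw [vol_ref (nd_nonneg _) (nd_le_half _)] at h2
  unfold vol
  exact ENNReal.toReal_le_of_le_ofReal (by have := nd_nonneg (y 0); linarith only [this]) h2

/-- The point of the plane with coordinate `t` in position `i` and `s` in the other. -/
def pt (i : Fin 2) (t s : ℝ) : Fin 2 → ℝ := i.insertNth (α := fun _ => ℝ) t (fun _ => s)

theorem pt_swap (i : Fin 2) (t s : ℝ) : pt (i.succAbove 0) s t = pt i t s := by
  unfold pt
  ext j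
  fin_cases i <;> fin_cases j <;> rfl

theorem sv_ge_of_mem (i : Fin 2) {F : Set (Fin 2 → ℝ)} (h : IsDown F) {t s : ℝ}
    (hm : pt i t s ∈ F) : 2 * nd s ≤ sv i F t :=
  vol_ge_of_mem (isDown_slice i h t) (y := fun _ => s) hm

theorem sv_le_of_not_mem (i : Fin 2) {F : Set (Fin 2 → ℝ)} (h : IsDown F) {t s : ℝ}
    (hm : pt i t s ∉ F) : sv i F t ≤ 2 * nd s :=
  vol_le_of_not_mem (isDown_slice i h t) (y := fun _ => s) hm

theorem sv_ge_of_mem' (i : Fin 2) {F : Set (Fin 2 → ℝ)} (h : IsDown F) {t s : ℝ}
    (hm : pt i t s ∈ F) : 2 * nd t ≤ sv (i.succAbove 0) F s := by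
  rw [← pt_swap] at hm
  exact sv_ge_of_mem _ h hm

theorem sv_le_of_not_mem' (i : Fin 2) {F : Set (Fin 2 → ℝ)} (h : IsDown F) {t s : ℝ}
    (hm : pt i t s ∉ F) : sv (i.succAbove 0) F s ≤ 2 * nd t := by
  rw [← pt_swap] at hm
  exact sv_le_of_not_mem _ h hm

theorem far_nonneg {n : ℕ} (i : Fin (n + 1)) (E : Set (Fin (n + 1) → ℝ)) : 0 ≤ far i E := by
  apply Real.sInf_nonneg
  rintro _ ⟨t, _, rfl⟩
  exact vol_nonneg _

theorem far_le_of_mem {n : ℕ} (i : Fin (n + 1)) (E : Set (Fin (n + 1) → ℝ)) {t : ℝ}
    (ht : t ∈ Ioo (0 : ℝ) (1 / 2)) : far i E ≤ sv i E t := by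
  apply csInf_le
  · refine ⟨0, ?_⟩
    rintro _ ⟨t, _, rfl⟩
    exact vol_nonneg _
  · exact ⟨t, ht, rfl⟩

theorem far_le {n : ℕ} (i : Fin (n + 1)) {E : Set (Fin (n + 1) → ℝ)} (h : IsDown E) {t : ℝ}
    (ht : nd t < 1 / 2) : far i E ≤ sv i E t := by
  obtain ⟨u, hu1, hu2⟩ := exists_between ht
  have h0 : 0 < u := (nd_nonneg t).trans_lt hu1
  refine (far_le_of_mem i E ⟨h0, hu2⟩).trans (sv_anti i h ?_)
  rw [nd_of_mem h0.le hu2.le]
  exact hu1.le

theorem exists_sv_lt {n : ℕ} (i : Fin (n + 1)) (E : Set (Fin (n + 1) → ℝ)) {ε : ℝ} (hε : 0 < ε) :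
    ∃ t ∈ Ioo (0 : ℝ) (1 / 2), sv i E t < far i E + ε := by
  have hne : (sv i E '' Ioo 0 (1 / 2)).Nonempty := ⟨_, ⟨1 / 4, by norm_num, rfl⟩⟩
  obtain ⟨_, ⟨t, ht, rfl⟩, h⟩ := Real.lt_sInf_add_pos hne hε
  exact ⟨t, ht, h⟩

/-- If the other far width is `y`, the slices at distance more than `y / 2` are not full. -/
theorem sv_lt_one (i : Fin 2) {F : Set (Fin 2 → ℝ)} (h : IsDown F) {t : ℝ}
    (ht : far (i.succAbove 0) F < 2 * nd t) : sv i F t < 1 := by
  obtain ⟨s, hs, hs2⟩ := exists_sv_lt (i.succAbove 0) F (sub_pos.mpr ht)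
  have hm : pt i t s ∉ F := by
    intro hm
    have := sv_ge_of_mem' i h hm
    linarith
  have := sv_le_of_not_mem i h hm
  rw [nd_of_mem hs.1.le hs.2.le] at this
  linarith [hs.2]

/-- If the other far width is `y`, the slices at distance less than `y / 2` are full. -/
theorem sv_eq_one (i : Fin 2) {F : Set (Fin 2 → ℝ)} (h : IsDown F) {t : ℝ}
    (ht : 2 * nd t < far (i.succAbove 0) F) : sv i F t = 1 := by
  apply le_antisymm (vol_le_one _)
  apply le_of_forall_pos_le_add
  intro ε hε
  set s : ℝ := max (1 / 4) (1 / 2 - ε / 2) with hs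
  have hs0 : 0 < s := lt_of_lt_of_le (by norm_num) (le_max_left _ _)
  have hs1 : s < 1 / 2 := max_lt (by norm_num) (by linarith only [hε])
  have hs2 : 1 / 2 - ε / 2 ≤ s := le_max_right _ _
  have hm : pt i t s ∈ F := by
    by_contra hm
    have h1 := sv_le_of_not_mem' i h hm
    have h2 := far_le_of_mem (i.succAbove 0) F ⟨hs0, hs1⟩
    linarith only [ht, h1, h2]
  have := sv_ge_of_mem i h hm
  rw [nd_of_mem hs0.le hs1.le] at this
  change (1 : ℝ) ≤ sv i F t + ε
  linarith only [hs2, this]

end Vale.Agent.P232.Far2D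
end
end

section

section

open MeasureTheory Set Filter Topology
open scoped Pointwise

namespace Vale.Agent.P232.Far2D

theorem ofReal_le_of_forall {X : ℝ} {P : ENNReal}
    (h : ∀ δ > 0, ENNReal.ofReal (X - δ) ≤ P) : ENNReal.ofReal X ≤ P := by
  have h1 : Tendsto (fun n : ℕ => ENNReal.ofReal (X - 1 / ((n : ℝ) + 1))) atTop
      (𝓝 (ENNReal.ofReal (X - 0))) :=
    ENNReal.tendsto_ofReal (tendsto_const_nhds.sub tendsto_one_div_add_atTop_nhds_zero_nat)
  rw [sub_zero] at h1
  exact le_of_tendsto' h1 (fun n => h _ (by positivity))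

theorem integral_period {n : ℕ} (i : Fin (n + 1)) {E : Set (Fin (n + 1) → ℝ)}
    (hE : MeasurableSet E) (hp : IsPeriodic E) (c : ℝ) :
    ∫ t in c..(c + 1), sv i E t = vol E := by
  rw [integral_Ico_eq (sv_add_one i hp) c, vol_eq_integral_sv i hE]

theorem ae_ne (c : ℝ) : ∀ᵐ t : ℝ, t ≠ c :=
  compl_mem_ae_iff.mpr (measure_singleton (μ := (volume : Measure ℝ)) c)

theorem integral_sv_split {n : ℕ} (i : Fin (n + 1)) {E : Set (Fin (n + 1) → ℝ)}
    (hE : MeasurableSet E) (hp : IsPeriodic E) (z T : ℝ) :
    ∫ t in (z - T)..(z + T), sv i E t =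
      vol E - ∫ t in (z + T)..(z - T + 1), sv i E t := by
  rw [← integral_period i hE hp (z - T), ← intervalIntegral.integral_add_adjacent_intervals
    (intervalIntegrable_sv i hE (z - T) (z + T)) (intervalIntegrable_sv i hE (z + T) (z - T + 1))]
  ring

/-- Corner bound: both far walls are touched. -/
theorem corner_bound (i : Fin 2) {F : Set (Fin 2 → ℝ)} (hF : MeasurableSet F) (h : IsDown F)
    (hi : 0 < far i F) (ho : 0 < far (i.succAbove 0) F) (ho1 : far (i.succAbove 0) F < 1) :
    ENNReal.ofReal (2 * ((1 - vol F) / (1 - far (i.succAbove 0) F) +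
      Real.pi * (1 - far (i.succAbove 0) F) / 4)) ≤ perimeter F := by
  set y := far (i.succAbove 0) F with hy
  set T : ℝ := (1 - y) / 2 with hT
  have hT0 : 0 < T := by rw [hT]; linarith only [ho1]
  have hT1 : T < 1 / 2 := by rw [hT]; linarith only [ho]
  have hp := isPeriodic h
  have hndL : ∀ t, y / 2 ≤ t → t ≤ 1 / 2 → nd t = t := fun t h1 h2 =>
    nd_of_mem (by linarith only [ho, h1]) h2
  have key := hat_bound i hF hp (z := 1 / 2) (T := T) (T' := T) (s := 1) hT0 hT1 hT0.le le_rfl
    zero_le_one le_rfl (by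
      rw [ae_restrict_iff' measurableSet_Ioc]
      filter_upwards [ae_ne (1 / 2), ae_ne (1 / 2 + T)] with t ht1 ht2 ht
      have ht3 : t < 1 / 2 + T := lt_of_le_of_ne ht.2 ht2
      have ht4 : 1 / 2 - T < t := ht.1
      have hnd : nd t < 1 / 2 ∧ y < 2 * nd t := by
        rcases lt_or_gt_of_ne ht1 with hc | hc
        · rw [nd_of_mem (by linarith only [ho, hT, ht4]) hc.le]
          constructor
          · exact hc
          · linarith only [hT, ht4]
        · rw [nd_one_sub hc.le (by linarith only [ho, hT, ht3])]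
          constructor
          · linarith only [hc]
          · linarith only [hT, ht3]
      exact ⟨hi.trans_le (far_le i h hnd.1), sv_lt_one i h hnd.2⟩)
  have e1 : ∫ t in (1 / 2 + T)..(1 / 2 - T + 1), sv i F t = y := by
    have : ∫ t in (1 / 2 + T)..(1 / 2 - T + 1), sv i F t =
        ∫ t in (1 / 2 + T)..(1 / 2 - T + 1), (1 : ℝ) := by
      apply intervalIntegral.integral_congr_ae
      filter_upwards [ae_ne (1 / 2 - T + 1)] with t ht1 ht
      rw [uIoc_of_le (by linarith only [ho, hT])] at ht
      have ht2 : t < 1 / 2 - T + 1 := lt_of_le_of_ne ht.2 ht1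
      apply sv_eq_one i h
      have e2 : nd t = |t - 1| := by
        rw [← nd_of_abs_lt (t := t - 1)]
        · have := nd_add_int (t - 1) 1
          rw [← this]
          congr 1
          push_cast
          ring
        · rw [abs_lt]
          constructor <;> linarith [ht.1]
      rw [e2, ← hy]
      have : |t - 1| < y / 2 := by
        rw [abs_lt]
        constructor <;> linarith [ht.1]
      linarith only [this]
    rw [this, intervalIntegral.integral_const, smul_eq_mul, hT]
    ring
  rw [integral_sv_split i hF hp, e1, arcA_one] at key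
  refine le_trans (ENNReal.ofReal_le_ofReal ?_) key
  have h12 : 1 - 2 * T = y := by rw [hT]; ring
  rw [h12]
  have e3 : 1 / T * (vol F - y) - 2 * 1 / y * y = - ((1 - vol F) / T) := by
    have hTn : T ≠ 0 := hT0.ne'
    have hyn : y ≠ 0 := ho.ne'
    field_simp
    rw [← h12]
    ring
  rw [e3, abs_neg, abs_of_nonneg (div_nonneg (by linarith only [vol_le_one F]) hT0.le)]
  have e4 : (1 - vol F) / T = 2 * ((1 - vol F) / (1 - y)) := by
    rw [hT]
    have : 1 - y ≠ 0 := by linarith only [ho1]
    field_simp
  rw [e4, hT]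
  apply le_of_eq
  ring

/-- Both far walls are touched: the bound by the complementary disc. -/
theorem disc_compl_bound (i : Fin 2) {F : Set (Fin 2 → ℝ)} (hF : MeasurableSet F)
    (h : IsDown F) (hi : 0 < far i F) (ho : 0 < far (i.succAbove 0) F) :
    ENNReal.ofReal (2 * Real.sqrt (Real.pi * (1 - vol F))) ≤ perimeter F := by
  have hv1 := vol_le_one F
  set y := far (i.succAbove 0) F with hy
  by_cases ho1 : y < 1
  · refine le_trans (ENNReal.ofReal_le_ofReal ?_) (corner_bound i hF h hi ho ho1)
    rw [← hy]
    set T : ℝ := 1 - y with hT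
    have hT0 : 0 < T := by rw [hT]; linarith
    have hpi := Real.pi_pos
    have h1 : 0 ≤ (1 - vol F) / T + Real.pi * T / 4 := by
      have : 0 ≤ (1 - vol F) / T := div_nonneg (by linarith) hT0.le
      positivity
    have h2 : Real.sqrt (Real.pi * (1 - vol F)) ≤ (1 - vol F) / T + Real.pi * T / 4 := by
      apply Real.sqrt_le_iff.mpr
      refine ⟨h1, ?_⟩
      have e : Real.pi * (1 - vol F) = 4 * ((1 - vol F) / T) * (Real.pi * T / 4) := by
        field_simp
      rw [e]
      linarith only [sq_nonneg ((1 - vol F) / T - Real.pi * T / 4)]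
    linarith only [h2]
  · -- the set is full
    push Not at ho1
    have h1 : vol F = 1 := by
      rw [← integral_period i hF (isPeriodic h) (-(1 / 2))]
      have : ∫ t in (-(1 / 2) : ℝ)..(-(1 / 2) + 1), sv i F t =
          ∫ t in (-(1 / 2) : ℝ)..(-(1 / 2) + 1), (1 : ℝ) := by
        apply intervalIntegral.integral_congr_ae
        filter_upwards [ae_ne (1 / 2)] with t ht1 ht
        rw [uIoc_of_le (by linarith)] at ht
        apply sv_eq_one i h
        have ht2 : t < 1 / 2 := lt_of_le_of_ne (by linarith only [ht.2]) ht1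
        have h3 : |t| < 1 / 2 := by rw [abs_lt]; exact ⟨by linarith only [ht.1], ht2⟩
        rw [nd_of_abs_lt h3, ← hy]
        linarith
      rw [this, intervalIntegral.integral_const]
      norm_num
    rw [h1]
    simp

/-- Arc bound: `F` spans direction `i` but not the other one. -/
theorem arc_bound (i : Fin 2) {F : Set (Fin 2 → ℝ)} (hF : MeasurableSet F) (h : IsDown F)
    (hi : 0 < far i F) (ho : far (i.succAbove 0) F = 0) {s : ℝ} (hs : 0 ≤ s) (hs1 : s ≤ 1) :
    ENNReal.ofReal (2 * (arcA s + s * (vol F - far i F))) ≤ perimeter F := by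
  have hp := isPeriodic h
  have harc : arcA s ≤ 1 := by
    unfold arcA
    have h1 : ∫ x in (0 : ℝ)..1, Real.sqrt (1 - (s * x) ^ 2) ≤ ∫ x in (0 : ℝ)..1, (1 : ℝ) := by
      apply intervalIntegral.integral_mono_on zero_le_one
      · apply Continuous.intervalIntegrable
        fun_prop
      · exact intervalIntegrable_const
      · intro x _
        rw [Real.sqrt_le_one]
        linarith only [sq_nonneg (s * x)]
    simpa using h1
  apply ofReal_le_of_forall
  intro δ hδ
  obtain ⟨t0, ht0, ht0'⟩ := exists_sv_lt i F (show 0 < δ / 4 by linarith)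
  set T : ℝ := max t0 (1 / 2 - δ / 16) with hT
  have hT0 : 0 < T := lt_of_lt_of_le ht0.1 (le_max_left _ _)
  have hT1 : T < 1 / 2 := max_lt ht0.2 (by linarith only [hδ])
  have hT2 : 1 / 2 - δ / 16 ≤ T := le_max_right _ _
  have key := hat_bound i hF hp (z := 0) (T := T) (T' := T) (s := s) hT0 hT1 hT0.le le_rfl
    hs hs1 (by
      rw [ae_restrict_iff' measurableSet_Ioc]
      filter_upwards [ae_ne 0] with t ht1 ht
      have h3 : |t| < 1 / 2 := by rw [abs_lt]; constructor <;> linarith only [ht.1, ht.2, hT1]
      have h4 := nd_of_abs_lt h3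
      refine ⟨hi.trans_le (far_le i h (by rw [h4]; exact h3)), sv_lt_one i h ?_⟩
      rw [ho, h4]
      have := abs_pos.mpr ht1
      linarith only [this])
  refine le_trans (ENNReal.ofReal_le_ofReal ?_) key
  have hI0 : 0 ≤ ∫ t in (0 - T)..(0 + T), sv i F t :=
    intervalIntegral.integral_nonneg (by linarith only [hT0]) fun t _ => sv_nonneg i F t
  have hJ : ∫ t in (0 + T)..(0 - T + 1), sv i F t ≤ (1 - 2 * T) * (far i F + δ / 4) := by
    have : ∫ t in (0 + T)..(0 - T + 1), sv i F t ≤
        ∫ t in (0 + T)..(0 - T + 1), (far i F + δ / 4) := by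
      apply intervalIntegral.integral_mono_on (by linarith only [hT1]) (intervalIntegrable_sv i hF _ _)
        intervalIntegrable_const
      intro t ht
      refine (sv_anti i h (t := t) (t' := t0) ?_).trans ht0'.le
      rw [nd_of_mem ht0.1.le ht0.2.le]
      have h5 : t0 ≤ T := le_max_left _ _
      by_cases hc : t ≤ 1 / 2
      · rw [nd_of_mem (by linarith only [ht.1, hT0]) hc]; linarith only [ht.1, h5]
      · rw [nd_one_sub (by linarith only [hc]) (by linarith only [ht.2, hT0])]; linarith only [ht.2, h5]
    refine this.trans (le_of_eq ?_)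
    rw [intervalIntegral.integral_const, smul_eq_mul]
    ring
  have hJ1 : ∫ t in (0 + T)..(0 - T + 1), sv i F t ≤ 1 - 2 * T := by
    have : ∫ t in (0 + T)..(0 - T + 1), sv i F t ≤ ∫ t in (0 + T)..(0 - T + 1), (1 : ℝ) :=
      intervalIntegral.integral_mono_on (by linarith only [hT1]) (intervalIntegrable_sv i hF _ _)
        intervalIntegrable_const fun t _ => sv_le_one i F t
    refine this.trans (le_of_eq ?_)
    rw [intervalIntegral.integral_const, smul_eq_mul]
    ring
  have hsplit := integral_sv_split i hF hp 0 T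
  set I := ∫ t in (0 - T)..(0 + T), sv i F t with hIdef
  set J := ∫ t in (0 + T)..(0 - T + 1), sv i F t with hJdef
  have h12 : 0 < 1 - 2 * T := by linarith only [hT1]
  have e1 : 2 * s * I ≤ s / T * I := by
    apply mul_le_mul_of_nonneg_right _ hI0
    rw [le_div_iff₀ hT0]
    nlinarith only [hs, hT1]
  have e2 : 2 * s / (1 - 2 * T) * J ≤ 2 * s * (far i F + δ / 4) := by
    rw [div_mul_eq_mul_div, div_le_iff₀ h12]
    nlinarith only [hs, hJ]
  have e3 := le_abs_self (s / T * I - 2 * s / (1 - 2 * T) * J)
  have hfar := far_nonneg i F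
  have e4 : 2 * s * (vol F - (1 - 2 * T)) ≤ 2 * s * I := by
    apply mul_le_mul_of_nonneg_left _ (by linarith only [hs])
    linarith only [hJ1, hsplit]
  have harc0 := arcA_nonneg s
  have e5 : s * δ ≤ δ := by nlinarith only [hs1, hδ]
  have e6 : s * (1 - 2 * T) ≤ 1 - 2 * T := by nlinarith only [hs1, hT1]
  have e7 : (1 - 2 * T) * arcA s ≤ 1 - 2 * T := by nlinarith only [harc, hT1]
  linarith only [e7, e6, e5, e4, e3, e2, e1, hT2]

theorem amgm {v T : ℝ} (hv : 0 ≤ v) (hT : 0 < T) :
    2 * Real.sqrt (Real.pi * v) ≤ v / T + Real.pi * T := by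
  have hpi := Real.pi_pos
  have h1 : 0 ≤ v / T := div_nonneg hv hT.le
  have h2 : Real.sqrt (Real.pi * v) ≤ (v / T + Real.pi * T) / 2 := by
    apply Real.sqrt_le_iff.mpr
    refine ⟨by positivity, ?_⟩
    have e : Real.pi * v = (v / T) * (Real.pi * T) := by field_simp
    rw [e]
    linarith only [sq_nonneg (v / T - Real.pi * T)]
  linarith only [h2]

/-- No far wall is touched: the disc bound. -/
theorem disc_bound (i : Fin 2) {F : Set (Fin 2 → ℝ)} (hF : MeasurableSet F) (h : IsDown F)
    (hi : far i F = 0) (ho : far (i.succAbove 0) F = 0) :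
    ENNReal.ofReal (2 * Real.sqrt (Real.pi * vol F)) ≤ perimeter F := by
  have hp := isPeriodic h
  have hv0 := vol_nonneg F
  have hpi := Real.pi_pos
  set S : Set ℝ := {t | t ∈ Icc (0 : ℝ) (1 / 2) ∧ 0 < sv i F t} with hS
  have hnd2 : ∀ t, nd (nd t) = nd t := fun t => nd_of_mem (nd_nonneg t) (nd_le_half t)
  have hsvnd : ∀ t, sv i F t = sv i F (nd t) := fun t =>
    le_antisymm (sv_anti i h (by rw [hnd2])) (sv_anti i h (by rw [hnd2]))
  rcases S.eq_empty_or_nonempty with hSe | hSne
  · -- volume zero
    have hz : ∀ t, sv i F t = 0 := by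
      intro t
      by_contra hc
      have h1 : 0 < sv i F t := lt_of_le_of_ne (sv_nonneg i F t) (Ne.symm hc)
      have h2 : nd t ∈ S := ⟨⟨nd_nonneg t, nd_le_half t⟩, by rw [← hsvnd]; exact h1⟩
      rw [hSe] at h2
      exact h2
    have h3 : vol F = 0 := by
      rw [← integral_period i hF hp 0]
      simp [hz]
    rw [h3]
    simp
  have hbdd : BddAbove S := ⟨1 / 2, fun t ht => ht.1.2⟩
  set T0 := sSup S with hT0
  have hT00 : 0 ≤ T0 := by
    obtain ⟨u, hu⟩ := hSne
    exact hu.1.1.trans (le_csSup hbdd hu)
  have hT01 : T0 ≤ 1 / 2 := csSup_le hSne fun t ht => ht.1.2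
  have hpos : ∀ t, nd t < T0 → 0 < sv i F t := by
    intro t ht
    obtain ⟨u, hu, hu2⟩ := exists_lt_of_lt_csSup hSne ht
    refine hu.2.trans_le (sv_anti i h ?_)
    rw [nd_of_mem hu.1.1 hu.1.2]
    exact hu2.le
  have hzero : ∀ t, T0 < nd t → sv i F t = 0 := by
    intro t ht
    by_contra hc
    have h1 : 0 < sv i F t := lt_of_le_of_ne (sv_nonneg i F t) (Ne.symm hc)
    have h2 : nd t ∈ S := ⟨⟨nd_nonneg t, nd_le_half t⟩, by rw [← hsvnd]; exact h1⟩
    have := le_csSup hbdd h2
    linarith
  have hhk : ∀ T' : ℝ, 0 ≤ T' → T' ≤ T0 → T' < 1 / 2 →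
      ∀ᵐ t ∂volume.restrict (Ioc (0 - T') (0 + T')), 0 < sv i F t ∧ sv i F t < 1 := by
    intro T' h1 h2 h3
    rw [ae_restrict_iff' measurableSet_Ioc]
    filter_upwards [ae_ne 0, ae_ne T'] with t ht1 ht2 ht
    have ht3 : t < T' := lt_of_le_of_ne (by linarith only [ht.2]) ht2
    have h4 : |t| < T' := by rw [abs_lt]; exact ⟨by linarith [ht.1], ht3⟩
    have h5 := nd_of_abs_lt (h4.trans h3)
    refine ⟨hpos t (by rw [h5]; linarith), sv_lt_one i h ?_⟩
    rw [ho, h5]
    have := abs_pos.mpr ht1
    linarith only [this]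
  apply ofReal_le_of_forall
  intro δ hδ
  rcases hT01.lt_or_eq with hc | hc
  · -- the set does not reach the far wall
    set T : ℝ := min (T0 + δ / 4) ((T0 + 1 / 2) / 2) with hT
    have hTT0 : T0 < T := lt_min (by linarith only [hδ]) (by linarith only [hc])
    have hT0' : 0 < T := by linarith only [hT00, hTT0]
    have hT1 : T < 1 / 2 := lt_of_le_of_lt (min_le_right _ _) (by linarith only [hc])
    have hT2 : T ≤ T0 + δ / 4 := min_le_left _ _
    have key := hat_bound i hF hp (z := 0) (T := T) (T' := T0) (s := 1) hT0' hT1 hT00 hTT0.le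
      zero_le_one le_rfl (hhk T0 hT00 le_rfl hc)
    refine le_trans (ENNReal.ofReal_le_ofReal ?_) key
    have hJ : ∫ t in (0 + T)..(0 - T + 1), sv i F t = 0 := by
      have : ∫ t in (0 + T)..(0 - T + 1), sv i F t = ∫ t in (0 + T)..(0 - T + 1), (0 : ℝ) := by
        apply intervalIntegral.integral_congr
        intro t ht
        rw [uIcc_of_le (by linarith only [hT1])] at ht
        apply hzero
        by_cases hc : t ≤ 1 / 2
        · rw [nd_of_mem (by linarith only [ht.1, hT00, hTT0]) hc]; linarith only [ht.1, hTT0]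
        · rw [nd_one_sub (by linarith only [hc]) (by linarith only [ht.2, hT00, hTT0])]; linarith only [ht.2, hTT0]
      rw [this]
      simp
    have hsplit := integral_sv_split i hF hp 0 T
    rw [hJ, sub_zero] at hsplit
    rw [hJ, hsplit, arcA_one]
    have h1 := amgm hv0 hT0'
    have h2 := le_abs_self (1 / T * vol F - 2 * 1 / (1 - 2 * T) * 0)
    have h3 : 1 / T * vol F = vol F / T := by ring
    rw [h3] at h2 ⊢
    have h4 : 4 * T * (Real.pi / 4) = Real.pi * T := by ring
    rw [h4]
    linarith only [hT2, h1, h2]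
  · -- the set reaches the far wall
    obtain ⟨t0, ht0, ht0'⟩ := exists_sv_lt i F (show 0 < δ / 6 by linarith)
    rw [hi, zero_add] at ht0'
    set T : ℝ := max t0 (1 / 4) with hT
    have hT0' : 0 < T := lt_of_lt_of_le (by norm_num) (le_max_right _ _)
    have hT4 : 1 / 4 ≤ T := le_max_right _ _
    have hT1 : T < 1 / 2 := max_lt ht0.2 (by norm_num)
    have key := hat_bound i hF hp (z := 0) (T := T) (T' := T) (s := 1) hT0' hT1 hT0'.le le_rfl
      zero_le_one le_rfl (hhk T hT0'.le (by rw [hc]; exact hT1.le) hT1)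
    refine le_trans (ENNReal.ofReal_le_ofReal ?_) key
    have hJ : ∫ t in (0 + T)..(0 - T + 1), sv i F t ≤ (1 - 2 * T) * (δ / 6) := by
      have : ∫ t in (0 + T)..(0 - T + 1), sv i F t ≤
          ∫ t in (0 + T)..(0 - T + 1), (δ / 6) := by
        apply intervalIntegral.integral_mono_on (by linarith only [hT1]) (intervalIntegrable_sv i hF _ _)
          intervalIntegrable_const
        intro t ht
        refine (sv_anti i h (t := t) (t' := t0) ?_).trans ht0'.le
        rw [nd_of_mem ht0.1.le ht0.2.le]
        have h5 : t0 ≤ T := le_max_left _ _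
        by_cases hc : t ≤ 1 / 2
        · rw [nd_of_mem (by linarith only [ht.1, hT0']) hc]; linarith only [ht.1, h5]
        · rw [nd_one_sub (by linarith only [hc]) (by linarith only [ht.2, hT0'])]; linarith only [ht.2, h5]
      refine this.trans (le_of_eq ?_)
      rw [intervalIntegral.integral_const, smul_eq_mul]
      ring
    have hsplit := integral_sv_split i hF hp 0 T
    rw [hsplit, arcA_one]
    set J := ∫ t in (0 + T)..(0 - T + 1), sv i F t with hJdef
    have h12 : 0 < 1 - 2 * T := by linarith only [hT1]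
    have e2 : 2 * 1 / (1 - 2 * T) * J ≤ 2 * (δ / 6) := by
      rw [div_mul_eq_mul_div, div_le_iff₀ h12]
      linarith only [hJ]
    have e3 : 1 / T * J ≤ 4 * (δ / 6) := by
      rw [one_div, inv_mul_eq_div, div_le_iff₀ hT0']
      nlinarith only [hδ, hT0', hT4, hJ]
    have e4 := le_abs_self (1 / T * (vol F - J) - 2 * 1 / (1 - 2 * T) * J)
    have h1 := amgm hv0 hT0'
    have e5 : 1 / T * (vol F - J) = vol F / T - 1 / T * J := by ring
    rw [e5] at e4 ⊢
    have h4 : 4 * T * (Real.pi / 4) = Real.pi * T := by ring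
    rw [h4]
    linarith only [e2, e3, e4, h1]

end Vale.Agent.P232.Far2D
end
end

section

section

open MeasureTheory Set Filter Topology ContinuousLinearMap
open scoped Pointwise Convolution

namespace Vale.Agent.P232

/-- The slicing inequality with a lower bound `g` for the weighted perimeters of the slices. -/
theorem slicing_gen {n : ℕ} (i : Fin (n + 1)) {E : Set (Fin (n + 1) → ℝ)}
    (hE : MeasurableSet E) (hp : IsPeriodic E) {α β : ℝ → ℝ} (hα : Continuous α)
    (hβ : Continuous β) (hα0 : ∀ u, 0 ≤ α u) (hβ0 : ∀ u, 0 ≤ β u)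
    (hαβ : ∀ u, α u ^ 2 + β u ^ 2 ≤ 1) {m M : ℝ} (hm : EssBd (sv i E) m M)
    {g : ℝ → ℝ} (hg : Integrable g mu)
    (hb : ∀ᵐ t ∂mu, ENNReal.ofReal (g t) ≤
        ENNReal.ofReal (β (sv i E t)) * perimeter (slice i E t)) :
    ENNReal.ofReal (2 * (prim α M - prim α m) + ∫ t, g t ∂mu) ≤ perimeter E := by
  refine le_trans ?_ (slicing_ess i hE hp hα hβ hα0 hβ0 hαβ hm)
  refine ENNReal.ofReal_add_le.trans ?_
  gcongr
  have h1 : ENNReal.ofReal (∫ t, g t ∂mu) ≤ ∫⁻ t, ENNReal.ofReal (g t) ∂mu := by
    have h2 : ∫ t, g t ∂mu ≤ ∫ t, max (g t) 0 ∂mu :=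
      integral_mono hg (hg.pos_part) (fun t => le_max_left _ _)
    refine (ENNReal.ofReal_le_ofReal h2).trans ?_
    rw [ofReal_integral_eq_lintegral_ofReal hg.pos_part
      (Eventually.of_forall fun t => le_max_right _ _)]
    apply lintegral_mono
    intro t
    simp only
    rw [ENNReal.ofReal_max, ENNReal.ofReal_zero, max_eq_left zero_le]
  exact h1.trans (lintegral_mono_ae hb)

theorem integrable_sv {n : ℕ} (i : Fin (n + 1)) {E : Set (Fin (n + 1) → ℝ)}
    (hE : MeasurableSet E) : Integrable (sv i E) mu := by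
  have := intervalIntegrable_sv i hE 0 1
  rw [intervalIntegrable_iff_integrableOn_Ico_of_le zero_le_one] at this
  exact this

theorem integrable_slack {n : ℕ} (i : Fin (n + 1)) {E : Set (Fin (n + 1) → ℝ)}
    (hE : MeasurableSet E) {B : Set ℝ} (hB : MeasurableSet B) (F H D : ℝ) :
    Integrable (fun t => F + H * sv i E t + B.indicator (fun _ => D) t) mu :=
  ((integrable_const F).add ((integrable_sv i hE).const_mul H)).add
    ((integrable_const D).indicator hB)

theorem integral_slack {n : ℕ} (i : Fin (n + 1)) {E : Set (Fin (n + 1) → ℝ)}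
    (hE : MeasurableSet E) {B : Set ℝ} (hB : MeasurableSet B) (F H D : ℝ) :
    ∫ t, (F + H * sv i E t + B.indicator (fun _ => D) t) ∂mu =
      F + H * vol E + D * (mu B).toReal := by
  rw [integral_add, integral_add (integrable_const _) ((integrable_sv i hE).const_mul H),
    integral_const_mul, integral_indicator hB, ← vol_eq_integral_sv i hE]
  · simp [Measure.real, mul_comm]
  · exact (integrable_const F).add ((integrable_sv i hE).const_mul H)
  · exact (integrable_const D).indicator hB

/-- `slicing_affine` with a slack `D` on a set `B` of heights. -/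
theorem slicing_affine_slack {n : ℕ} (i : Fin (n + 1)) {E : Set (Fin (n + 1) → ℝ)}
    (hE : MeasurableSet E) (hp : IsPeriodic E) {α β : ℝ → ℝ} (hα : Continuous α)
    (hβ : Continuous β) (hα0 : ∀ u, 0 ≤ α u) (hβ0 : ∀ u, 0 ≤ β u)
    (hαβ : ∀ u, α u ^ 2 + β u ^ 2 ≤ 1) {m M : ℝ} (hm : EssBd (sv i E) m M)
    {F H D : ℝ} {B : Set ℝ} (hB : MeasurableSet B)
    (hb : ∀ᵐ t ∂mu, ENNReal.ofReal (F + H * sv i E t + B.indicator (fun _ => D) t) ≤
        ENNReal.ofReal (β (sv i E t)) * perimeter (slice i E t)) :
    ENNReal.ofReal (2 * (prim α M - prim α m) + F + H * vol E + D * (mu B).toReal) ≤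
      perimeter E := by
  have h := slicing_gen i hE hp hα hβ hα0 hβ0 hαβ hm (integrable_slack i hE hB F H D) hb
  rw [integral_slack i hE hB F H D] at h
  refine le_trans (le_of_eq ?_) h
  congr 1
  ring

/-- The line bound with slack: the general form. -/
theorem line_bound_slack' {n : ℕ} (i : Fin (n + 1)) {E : Set (Fin (n + 1) → ℝ)}
    (hE : MeasurableSet E) (hp : IsPeriodic E) {I : ℝ → ℝ}
    {m M F H D : ℝ} {B : Set ℝ} (hB : MeasurableSet B)
    (hm : EssBd (sv i E) m M) (hmM : m ≤ M)
    (h0 : ∀ u ∈ Icc m M, 0 ≤ F + H * u) (h1 : ∀ u ∈ Icc m M, F + H * u ≤ I u)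
    (hc : ContinuousOn (fun u => (F + H * u) / I u) (Icc m M))
    (hb : ∀ᵐ t ∂mu, sv i E t ∈ Icc m M →
      ENNReal.ofReal (F + H * sv i E t + B.indicator (fun _ => D) t) ≤
        ENNReal.ofReal ((F + H * sv i E t) / I (sv i E t)) * perimeter (slice i E t)) :
    ENNReal.ofReal (2 * (∫ u in m..M, Real.sqrt (1 - ((F + H * u) / I u) ^ 2)) + F + H * vol E +
      D * (mu B).toReal) ≤ perimeter E := by
  set q : ℝ → ℝ := fun u => max m (min M u) with hq
  have hqm : ∀ u, q u ∈ Icc m M := fun u =>
    ⟨le_max_left _ _, max_le hmM (min_le_left _ _)⟩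
  have hqe : ∀ u ∈ Icc m M, q u = u := fun u hu => by
    rw [hq]; simp only; rw [min_eq_right hu.2, max_eq_right hu.1]
  have hqc : Continuous q := by rw [hq]; fun_prop
  set b0 : ℝ → ℝ := fun u => (F + H * u) / I u with hb0
  set β : ℝ → ℝ := fun u => b0 (q u) with hβ
  have hβc : Continuous β := hc.comp_continuous hqc hqm
  have hI0 : ∀ u ∈ Icc m M, 0 ≤ I u := fun u hu => (h0 u hu).trans (h1 u hu)
  have hβ0 : ∀ u, 0 ≤ β u := fun u => div_nonneg (h0 _ (hqm u)) (hI0 _ (hqm u))
  have hβ1 : ∀ u, β u ≤ 1 := fun u => div_le_one_of_le₀ (h1 _ (hqm u)) (hI0 _ (hqm u))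
  have key := slicing_affine_slack i hE hp (α := fun u => Real.sqrt (1 - β u ^ 2)) (β := β)
    (by fun_prop) hβc (fun _ => Real.sqrt_nonneg _) hβ0 (fun u => by
      rw [Real.sq_sqrt]
      · linarith
      · have := hβ0 u; have := hβ1 u; nlinarith) hm (F := F) (H := H) (D := D) hB (by
      filter_upwards [hm.lower, hm.upper, hb] with t h2 h3 h4
      have hu : sv i E t ∈ Icc m M := ⟨h2, h3⟩
      refine (h4 hu).trans (le_of_eq ?_)
      rw [hβ]
      simp only
      rw [hqe _ hu])
  refine le_trans (le_of_eq ?_) key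
  congr 1
  have hαc : Continuous (fun u => Real.sqrt (1 - β u ^ 2)) := by fun_prop
  have h5 : prim (fun u => Real.sqrt (1 - β u ^ 2)) M - prim (fun u => Real.sqrt (1 - β u ^ 2)) m =
      ∫ u in m..M, Real.sqrt (1 - ((F + H * u) / I u) ^ 2) := by
    unfold prim
    rw [intervalIntegral.integral_interval_sub_left (hαc.intervalIntegrable _ _)
      (hαc.intervalIntegrable _ _)]
    apply intervalIntegral.integral_congr
    intro u hu
    rw [uIcc_of_le hmM] at hu
    simp only [hβ, hb0]
    rw [hqe u hu]
  rw [h5]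

end Vale.Agent.P232
end
end

section

section

open MeasureTheory Set

namespace Vale.Agent.P232

theorem sqrt_interp {s x0 z0 x1 z1 : ℝ} (a0 : z0 ^ 2 ≤ 1 - (s * x0) ^ 2)
    (a1 : z1 ^ 2 ≤ 1 - (s * x1) ^ 2) {t : ℝ} (ht0 : 0 ≤ t) (ht1 : t ≤ 1) :
    (1 - t) * z0 + t * z1 ≤ Real.sqrt (1 - (s * ((1 - t) * x0 + t * x1)) ^ 2) := by
  have ht2 : 0 ≤ 1 - t := by linarith
  apply Real.le_sqrt_of_sq_le
  have k1 : 0 ≤ t * (1 - t) * (z1 - z0) ^ 2 := by positivity
  have k2 : 0 ≤ t * (1 - t) * (s * x1 - s * x0) ^ 2 := by positivity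
  have k3 := mul_le_mul_of_nonneg_left a0 ht2
  have k4 := mul_le_mul_of_nonneg_left a1 ht0
  linarith only [k1, k2, k3, k4]

theorem integral_sqrt_ge {s x0 z0 x1 z1 : ℝ}
    (a0 : z0 ^ 2 ≤ 1 - (s * x0) ^ 2) (a1 : z1 ^ 2 ≤ 1 - (s * x1) ^ 2) (hx : x0 < x1) :
    (x1 - x0) * (z0 + z1) / 2 ≤ ∫ x in x0..x1, Real.sqrt (1 - (s * x) ^ 2) := by
  have hx' : 0 < x1 - x0 := sub_pos.2 hx
  have e : (∫ u in x0..x1, ((1 - (u - x0) / (x1 - x0)) * z0 + ((u - x0) / (x1 - x0)) * z1)) =
      (x1 - x0) * (z0 + z1) / 2 := by
    have e1 : (fun u : ℝ => ((1 - (u - x0) / (x1 - x0)) * z0 + ((u - x0) / (x1 - x0)) * z1)) =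
        fun u => (z0 - x0 * ((z1 - z0) / (x1 - x0))) + ((z1 - z0) / (x1 - x0)) * u := by
      ext u
      field_simp
      ring
    rw [e1, intervalIntegral.integral_add (by simp) (by apply Continuous.intervalIntegrable; fun_prop),
      intervalIntegral.integral_const, intervalIntegral.integral_const_mul, integral_id,
      smul_eq_mul]
    field_simp
    ring
  rw [← e]
  apply intervalIntegral.integral_mono_on hx.le
  · apply Continuous.intervalIntegrable
    fun_prop
  · apply Continuous.intervalIntegrable
    fun_prop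
  · intro u hu
    have h1' : 0 ≤ (u - x0) / (x1 - x0) := div_nonneg (by linarith only [hu.1]) hx'.le
    have h2' : (u - x0) / (x1 - x0) ≤ 1 := by
      rw [div_le_one hx']; linarith only [hu.2]
    have := sqrt_interp a0 a1 h1' h2'
    have e3 : (1 - (u - x0) / (x1 - x0)) * x0 + (u - x0) / (x1 - x0) * x1 = u := by
      field_simp
      ring
    rw [e3] at this
    exact this

/-- Check of a table of lower bounds `z` of `sqrt (1 - (s x) ^ 2)`. -/
def arcOK (s δ : ℚ) : ℚ → ℚ → List ℚ → Bool
  | x, z, [] => decide (0 ≤ z) && decide (z ^ 2 ≤ 1 - (s * x) ^ 2) && decide (x = 1)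
  | x, z, w :: L => decide (0 ≤ z) && decide (z ^ 2 ≤ 1 - (s * x) ^ 2) && arcOK s δ (x + δ) w L

/-- The trapezoidal sum. -/
def arcSum (δ : ℚ) : ℚ → List ℚ → ℚ
  | _, [] => 0
  | z, w :: L => δ * (z + w) / 2 + arcSum δ w L

theorem arc_sound {s δ : ℚ} (hδ : 0 < δ) (L : List ℚ) (x z : ℚ) (h : arcOK s δ x z L = true) :
    0 ≤ z ∧ z ^ 2 ≤ 1 - (s * x) ^ 2 ∧ ((arcSum δ z L : ℚ) : ℝ) ≤
      ∫ u in (x : ℝ)..1, Real.sqrt (1 - ((s : ℝ) * u) ^ 2) := by
  induction L generalizing x z with
  | nil =>
    simp only [arcOK, Bool.and_eq_true, decide_eq_true_eq] at h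
    obtain ⟨⟨h1, h2⟩, h3⟩ := h
    refine ⟨h1, h2, ?_⟩
    rw [h3]
    simp [arcSum]
  | cons w L ih =>
    simp only [arcOK, Bool.and_eq_true, decide_eq_true_eq] at h
    obtain ⟨⟨h1, h2⟩, h3⟩ := h
    obtain ⟨k1, k2, k3⟩ := ih _ _ h3
    refine ⟨h1, h2, ?_⟩
    have hint : ∀ a b : ℝ, IntervalIntegrable (fun u : ℝ => Real.sqrt (1 - ((s : ℝ) * u) ^ 2))
        volume a b := fun a b => by
      apply Continuous.intervalIntegrable
      fun_prop
    rw [← intervalIntegral.integral_add_adjacent_intervals (b := ((x + δ : ℚ) : ℝ))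
      (hint _ _) (hint _ _)]
    have hδ' : (0 : ℝ) < δ := by exact_mod_cast hδ
    have := integral_sqrt_ge (s := (s : ℝ)) (x0 := (x : ℝ)) (z0 := (z : ℝ))
      (x1 := ((x + δ : ℚ) : ℝ)) (z1 := (w : ℝ))
      (by exact_mod_cast h2) (by exact_mod_cast k2) (by push_cast; linarith only [hδ'])
    simp only [arcSum]
    push_cast at this ⊢
    push_cast at k3
    have e : ((x : ℝ) + δ - x) * (z + w) / 2 = (δ : ℝ) * (z + w) / 2 := by ring
    rw [e] at this
    linarith only [this, k3]

theorem arcA_ge {s A : ℚ} (δ z : ℚ) (L : List ℚ)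
    (h : (decide (0 < δ) && arcOK s δ 0 z L && decide (A ≤ arcSum δ z L)) = true) :
    (A : ℝ) ≤ arcA (s : ℝ) := by
  simp only [Bool.and_eq_true, decide_eq_true_eq] at h
  obtain ⟨⟨h1, h2⟩, h3⟩ := h
  obtain ⟨_, _, k3⟩ := arc_sound h1 L 0 z h2
  have h3' : (A : ℝ) ≤ ((arcSum δ z L : ℚ) : ℝ) := by exact_mod_cast h3
  unfold arcA
  refine h3'.trans ?_
  simpa using k3

/-- Rational numbers with denominator `10 ^ 6`. -/
def d6 (z : ℤ) : ℚ := mkRat z 1000000

end Vale.Agent.P232
end
end

section

section

namespace Vale.Agent.P232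

theorem arc60 : ((d 93623 : ℚ) : ℝ) ≤ arcA ((d 60000 : ℚ) : ℝ) :=
  arcA_ge (mkRat 1 50) (d6 1000000) ([999927, 999711, 999351, 998847, 998198, 997404, 996465, 995381, 994150, 992773, 991249, 989577, 987757, 985786, 983666, 981394, 978970, 976393, 973661, 970772, 967727, 964522, 961157, 957630, 953939, 950082, 946057, 941861, 937494, 932952, 928232, 923333, 918250, 912981, 907524, 901873, 896026, 889979, 883728, 877268, 870595, 863703, 856588, 849244, 841665, 833844, 825774, 817449, 808860, 800000].map d6) (by decide +kernel)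

theorem arc70 : ((d 91090 : ℚ) : ℝ) ≤ arcA ((d 70000 : ℚ) : ℝ) :=
  arcA_ge (mkRat 1 50) (d6 1000000) ([999901, 999607, 999117, 998430, 997546, 996465, 995186, 993708, 992030, 990151, 988070, 985786, 983298, 980603, 977701, 974589, 971265, 967727, 963973, 960000, 955805, 951386, 946739, 941861, 936749, 931398, 925805, 919965, 913873, 907524, 900912, 894033, 886879, 879445, 871722, 863703, 855380, 846744, 837785, 828492, 818855, 808860, 798496, 787746, 776595, 765025, 753017, 740551, 727601, 714142].map d6) (by decide +kernel)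

theorem arc80 : ((d 87953 : ℚ) : ℝ) ≤ arcA ((d 80000 : ℚ) : ℝ) :=
  arcA_ge (mkRat 1 64) (d6 1000000) ([999921, 999687, 999296, 998749, 998044, 997183, 996164, 994987, 993651, 992156, 990501, 988685, 986708, 984568, 982264, 979795, 977161, 974358, 971387, 968245, 964931, 961444, 957780, 953939, 949917, 945714, 941325, 936749, 931983, 927024, 921869, 916515, 910957, 905193, 899218, 893028, 886619, 879985, 873122, 866025, 858687, 851102, 843263, 835164, 826797, 818153, 809224, 800000, 790470, 780624, 770450, 759934, 749061, 737817, 726184, 714142, 701672, 688748, 675347, 661437, 646988, 631961, 616314, 600000].map d6) (by decide +kernel)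

theorem arc87 : ((d 85294 : ℚ) : ℝ) ≤ arcA ((d 87000 : ℚ) : ℝ) :=
  arcA_ge (mkRat 1 80) (d6 1000000) ([999940, 999763, 999467, 999053, 998520, 997868, 997098, 996208, 995198, 994069, 992819, 991448, 989956, 988342, 986605, 984745, 982762, 980653, 978420, 976060, 973573, 970957, 968213, 965338, 962332, 959193, 955920, 952512, 948967, 945283, 941459, 937494, 933385, 929131, 924729, 920178, 915474, 910617, 905603, 900430, 895095, 889595, 883926, 878087, 872073, 865881, 859506, 852945, 846193, 839247, 832100, 824748, 817185, 809405, 801402, 793170, 784700, 775986, 767018, 757788, 748287, 738503, 728425, 718041, 707338, 696300, 684912, 673156, 661012, 648458, 635470, 622021, 608080, 593613, 578580, 562936, 546628, 529596, 511765, 493051].map d6) (by decide +kernel)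

theorem arc15 : ((d 99621 : ℚ) : ℝ) ≤ arcA ((d 15000 : ℚ) : ℝ) :=
  arcA_ge (mkRat 1 10) (d6 1000000) ([999887, 999549, 998986, 998198, 997183, 995941, 994472, 992773, 990845, 988685].map d6) (by decide +kernel)

theorem arc30 : ((d 98477 : ℚ) : ℝ) ≤ arcA ((d 30000 : ℚ) : ℝ) :=
  arcA_ge (mkRat 1 20) (d6 1000000) ([999887, 999549, 998986, 998198, 997183, 995941, 994472, 992773, 990845, 988685, 986293, 983666, 980803, 977701, 974358, 970772, 966941, 962860, 958527, 953939].map d6) (by decide +kernel)

theorem arc45 : ((d 96512 : ℚ) : ℝ) ≤ arcA ((d 45000 : ℚ) : ℝ) :=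
  arcA_ge (mkRat 1 32) (d6 1000000) ([999901, 999604, 999109, 998416, 997525, 996434, 995143, 993651, 991958, 990062, 987963, 985658, 983147, 980428, 977499, 974358, 971004, 967433, 963644, 959634, 955400, 950940, 946249, 941325, 936164, 930762, 925114, 919217, 913065, 906654, 899976, 893028].map d6) (by decide +kernel)

theorem arc10 : ((d 99831 : ℚ) : ℝ) ≤ arcA ((d 10000 : ℚ) : ℝ) :=
  arcA_ge (mkRat 1 8) (d6 1000000) ([999921, 999687, 999296, 998749, 998044, 997183, 996164, 994987].map d6) (by decide +kernel)

theorem arc25 : ((d 98946 : ℚ) : ℝ) ≤ arcA ((d 25000 : ℚ) : ℝ) :=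
  arcA_ge (mkRat 1 16) (d6 1000000) ([999877, 999511, 998900, 998044, 996943, 995595, 994000, 992156, 990062, 987717, 985118, 982264, 979152, 975780, 972146, 968245].map d6) (by decide +kernel)

theorem arc40 : ((d 97263 : ℚ) : ℝ) ≤ arcA ((d 40000 : ℚ) : ℝ) :=
  arcA_ge (mkRat 1 32) (d6 1000000) ([999921, 999687, 999296, 998749, 998044, 997183, 996164, 994987, 993651, 992156, 990501, 988685, 986708, 984568, 982264, 979795, 977161, 974358, 971387, 968245, 964931, 961444, 957780, 953939, 949917, 945714, 941325, 936749, 931983, 927024, 921869, 916515].map d6) (by decide +kernel)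

end Vale.Agent.P232
end
end

section

section

/-! A faster version of the checker of `Check`, with natural numbers. -/

namespace Vale.Agent.P232

theorem dq_eq (z : ℤ) : d z = (z : ℚ) / 100000 := by
  rw [d, Rat.mkRat_eq_div]
  norm_num

/-- The line, scaled. -/
def wN (c lp ln x : ℕ) : ℕ := c * 100000 + lp * x - ln * x

/-- The square. -/
def sqN (x : ℕ) : ℕ := x * x

/-- Check of a node, second part. -/
def nodeN' (w2 u x : ℕ) : Bool :=
  Nat.ble w2 (u * 10000000000) && Nat.ble (1000000 * w2) (314159200000 * (x * u)) &&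
    Nat.ble (1000000 * w2) (314159200000 * ((100000 - x) * u))

/-- Check of a node. -/
def nodeN (c lp ln x s : ℕ) : Bool :=
  Nat.ble 1 x && Nat.ble x 99999 && Nat.ble s 100000 &&
    Nat.ble (ln * x) (c * 100000 + lp * x) &&
    nodeN' (sqN (wN c lp ln x)) (10000000000 - sqN s) x

theorem wN_cast {c lp ln x : ℕ} (h : ln * x ≤ c * 100000 + lp * x) :
    ((wN c lp ln x : ℕ) : ℚ) = c * 100000 + (((lp : ℤ) - ln : ℤ) : ℚ) * x := by
  rw [wN, Nat.cast_sub h]
  push_cast
  ring

theorem uN_cast {s : ℕ} (h : s ≤ 100000) :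
    ((10000000000 - sqN s : ℕ) : ℚ) = 10000000000 - (s : ℚ) ^ 2 := by
  have : sqN s ≤ 10000000000 := by
    unfold sqN
    nlinarith
  rw [Nat.cast_sub this, sqN]
  push_cast
  ring

theorem nodeN_sound {c lp ln x s : ℕ} (h : nodeN c lp ln x s = true) :
    nodeOK (d c) (d ((lp : ℤ) - ln)) (d x, d s) = true := by
  simp only [nodeN, nodeN', Bool.and_eq_true, Nat.ble_eq] at h
  obtain ⟨⟨⟨⟨h1, h2⟩, h3⟩, h4⟩, ⟨h5, h6⟩, h7⟩ := h
  have hx : x ≤ 100000 := by omega
  have q1 : (1 : ℚ) ≤ x := by exact_mod_cast h1
  have q2 : (x : ℚ) ≤ 99999 := by exact_mod_cast h2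
  have q3 : (0 : ℚ) ≤ s := Nat.cast_nonneg s
  have q4 := wN_cast h4
  have q5 : ((sqN (wN c lp ln x) : ℕ) : ℚ) ≤ ((10000000000 - sqN s : ℕ) : ℚ) * 10000000000 := by
    exact_mod_cast h5
  have q6 : 1000000 * ((sqN (wN c lp ln x) : ℕ) : ℚ) ≤
      314159200000 * (x * ((10000000000 - sqN s : ℕ) : ℚ)) := by
    exact_mod_cast h6
  have q7 : 1000000 * ((sqN (wN c lp ln x) : ℕ) : ℚ) ≤
      314159200000 * (((100000 - x : ℕ) : ℚ) * ((10000000000 - sqN s : ℕ) : ℚ)) := by
    exact_mod_cast h7
  have e1 : ((sqN (wN c lp ln x) : ℕ) : ℚ) = ((wN c lp ln x : ℕ) : ℚ) ^ 2 := by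
    rw [sqN]
    push_cast
    ring
  rw [uN_cast h3, e1] at q5 q6 q7
  rw [Nat.cast_sub hx] at q7
  push_cast at q7
  simp only [nodeOK, Bool.and_eq_true, decide_eq_true_eq, dq_eq, piL]
  rw [Int.cast_natCast, Int.cast_natCast, Int.cast_natCast]
  have e2 : (c : ℚ) / 100000 + (((lp : ℤ) - ln : ℤ) : ℚ) / 100000 * (x / 100000) =
      ((wN c lp ln x : ℕ) : ℚ) / 10000000000 := by
    rw [q4]
    ring
  rw [e2]
  generalize ((wN c lp ln x : ℕ) : ℚ) = w at *
  refine ⟨⟨⟨⟨⟨?_, ?_⟩, ?_⟩, ?_⟩, ?_⟩, ?_⟩ <;> linarith

/-- Check of a chain of nodes. -/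
def chainN (c lp ln : ℕ) : ℕ → ℕ → List (ℕ × ℕ) → Bool
  | x, s, [] => nodeN c lp ln x s
  | x, s, q :: L => nodeN c lp ln x s && Nat.ble (x + 1) q.1 && chainN c lp ln q.1 q.2 L

/-- The trapezoidal sum, scaled. -/
def trapN : ℕ → ℕ → List (ℕ × ℕ) → ℕ
  | _, _, [] => 0
  | x, s, q :: L => (q.1 - x) * (s + q.2) + trapN q.1 q.2 L

/-- The last node. -/
def lastN : ℕ → List (ℕ × ℕ) → ℕ
  | x, [] => x
  | _, q :: L => lastN q.1 L

/-- Conversion of nodes. -/
def dd (q : ℕ × ℕ) : ℚ × ℚ := (d q.1, d q.2)

theorem chainN_sound {c lp ln : ℕ} (L : List (ℕ × ℕ)) (x s : ℕ)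
    (h : chainN c lp ln x s L = true) :
    chainOK (d c) (d ((lp : ℤ) - ln)) (d x, d s) (L.map dd) = true ∧
      trap (d x, d s) (L.map dd) = (trapN x s L : ℚ) / 20000000000 := by
  induction L generalizing x s with
  | nil => exact ⟨nodeN_sound h, by simp [trap, trapN]⟩
  | cons q L ih =>
    simp only [chainN, Bool.and_eq_true, Nat.ble_eq] at h
    obtain ⟨⟨h1, h2⟩, h3⟩ := h
    obtain ⟨h4, h5⟩ := ih q.1 q.2 h3
    have h6 : x ≤ q.1 := by omega
    refine ⟨?_, ?_⟩
    · simp only [List.map_cons, chainOK, Bool.and_eq_true, decide_eq_true_eq, dd]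
      refine ⟨⟨nodeN_sound h1, ?_⟩, h4⟩
      rw [dq_eq, dq_eq, Int.cast_natCast, Int.cast_natCast]
      have : (x : ℚ) + 1 ≤ q.1 := by exact_mod_cast h2
      linarith only [this]
    · simp only [List.map_cons, trap, trapN, dd]
      rw [h5]
      simp only [dq_eq, Int.cast_natCast]
      push_cast [Nat.cast_sub h6]
      ring

theorem lastX_eq (L : List (ℕ × ℕ)) (x s : ℕ) :
    lastX (d x, d s) (L.map dd) = d (lastN x L) := by
  induction L generalizing x s with
  | nil => rfl
  | cons q L ih =>
    simp only [List.map_cons, lastX, lastN]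
    exact ih q.1 q.2

/-- Check of the line. -/
def lineN (c lp ln x : ℕ) : Bool :=
  Nat.ble x 100000 && Nat.ble (ln * x) (c * 100000 + lp * x) &&
    Nat.ble (wN c lp ln x) 10000000000 &&
    Nat.ble (sqN (wN c lp ln x)) (3141592000000000 * x) &&
    Nat.ble (sqN (wN c lp ln x)) (3141592000000000 * (100000 - x))

theorem lineN_sound {c lp ln x : ℕ} (h : lineN c lp ln x = true) :
    lineOK (d c) (d ((lp : ℤ) - ln)) (d x) = true := by
  simp only [lineN, Bool.and_eq_true, Nat.ble_eq] at h
  obtain ⟨⟨⟨⟨h0, h1⟩, h2⟩, h3⟩, h4⟩ := h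
  have q0 : (0 : ℚ) ≤ ((wN c lp ln x : ℕ) : ℚ) := Nat.cast_nonneg _
  have q1 := wN_cast h1
  have q2 : ((wN c lp ln x : ℕ) : ℚ) ≤ 10000000000 := by exact_mod_cast h2
  have q3 : ((sqN (wN c lp ln x) : ℕ) : ℚ) ≤ 3141592000000000 * x := by exact_mod_cast h3
  have q4 : ((sqN (wN c lp ln x) : ℕ) : ℚ) ≤ 3141592000000000 * ((100000 - x : ℕ) : ℚ) := by
    exact_mod_cast h4
  have e1 : ((sqN (wN c lp ln x) : ℕ) : ℚ) = ((wN c lp ln x : ℕ) : ℚ) ^ 2 := by
    rw [sqN]
    push_cast
    ring
  rw [e1] at q3 q4
  rw [Nat.cast_sub h0] at q4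
  push_cast at q4
  simp only [lineOK, Bool.and_eq_true, decide_eq_true_eq, dq_eq, piL]
  rw [Int.cast_natCast, Int.cast_natCast]
  have e2 : (c : ℚ) / 100000 + (((lp : ℤ) - ln : ℤ) : ℚ) / 100000 * (x / 100000) =
      ((wN c lp ln x : ℕ) : ℚ) / 10000000000 := by
    rw [q1]
    ring
  rw [e2]
  generalize ((wN c lp ln x : ℕ) : ℚ) = w at *
  refine ⟨⟨⟨?_, ?_⟩, ?_⟩, ?_⟩ <;> linarith

/-- Certificate for one cell. -/
structure CertN where
  /-- upper end for `M` -/
  b2 : ℕ
  /-- constant term of the line -/
  c : ℕ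
  /-- slope of the line, positive part -/
  lp : ℕ
  /-- slope of the line, negative part -/
  ln : ℕ
  /-- parameters of the comparison -/
  th : ℕ
  /-- parameters of the comparison -/
  r : ℕ
  /-- parameters of the comparison -/
  t : ℕ
  /-- first node -/
  x : ℕ
  /-- first node -/
  s : ℕ
  /-- other nodes -/
  L : List (ℕ × ℕ)

/-- Conversion of certificates. -/
def CertN.toQ (C : CertN) : Cert :=
  ⟨d C.b2, d C.c, d ((C.lp : ℤ) - C.ln), (d C.x, d C.s), C.L.map dd, d C.th, d C.r, d C.t⟩

/-- Base check for a cell. -/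
def baseN (a a2 b : ℕ) (C : CertN) : Bool :=
  lineN C.c C.lp C.ln a && lineN C.c C.lp C.ln C.b2 && Nat.beq C.x a2 &&
    Nat.beq (lastN C.x C.L) b && chainN C.c C.lp C.ln C.x C.s C.L

theorem baseN_sound {a a2 b : ℕ} {C : CertN} (h : baseN a a2 b C = true) :
    baseOK (d a) (d a2) (d b) C.toQ = true ∧
      trap C.toQ.p C.toQ.L = (trapN C.x C.s C.L : ℚ) / 20000000000 := by
  simp only [baseN, Bool.and_eq_true, Nat.beq_eq] at h
  obtain ⟨⟨⟨⟨h1, h2⟩, h3⟩, h4⟩, h5⟩ := h
  obtain ⟨h6, h7⟩ := chainN_sound _ _ _ h5
  refine ⟨?_, h7⟩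
  simp only [baseOK, Bool.and_eq_true]
  refine ⟨⟨⟨⟨lineN_sound h1, lineN_sound h2⟩, ?_⟩, ?_⟩, h6⟩
  · exact decide_eq_true (congrArg (fun n : ℕ => d n) h3)
  · exact decide_eq_true ((lastX_eq C.L C.x C.s).trans (congrArg (fun n : ℕ => d n) h4))

/-- Check all the cells over a strip. -/
def cellsN (fin : ℕ → ℕ → CertN → Bool) (B1 a a2 : ℕ) : ℕ → List CertN → Bool
  | b, [] => Nat.ble B1 b
  | b, C :: Cs => baseN a a2 b C && fin a (trapN C.x C.s C.L) C && cellsN fin B1 a a2 C.b2 Cs

/-- Check all strips. -/
def stripsN (fin : ℕ → ℕ → CertN → Bool) (A1 B0 B1 : ℕ) : ℕ → List (ℕ × List CertN) → Bool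
  | a, [] => Nat.ble A1 a
  | a, S :: Ss => cellsN fin B1 a S.1 B0 S.2 && stripsN fin A1 B0 B1 S.1 Ss

/-- Conversion of strips. -/
def toQs (Ss : List (ℕ × List CertN)) : List (ℚ × List Cert) :=
  Ss.map fun S => (d S.1, S.2.map CertN.toQ)

theorem d_le {a b : ℕ} (h : a ≤ b) : d a ≤ d b := by
  rw [dq_eq, dq_eq, Int.cast_natCast, Int.cast_natCast]
  have : (a : ℚ) ≤ b := by exact_mod_cast h
  linarith only [this]

theorem cellsN_sound {fin : ℕ → ℕ → CertN → Bool} {finQ : ℚ → ℚ → Cert → Bool}
    (hfin : ∀ (a : ℕ) (b : ℚ) (C : CertN) (T : ℕ), trap C.toQ.p C.toQ.L = (T : ℚ) / 20000000000 →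
      fin a T C = true → finQ (d a) b C.toQ = true)
    {B1 a a2 : ℕ} (Cs : List CertN) (b : ℕ) (h : cellsN fin B1 a a2 b Cs = true) :
    cellsOK finQ (d B1) (d a) (d a2) (d b) (Cs.map CertN.toQ) = true := by
  induction Cs generalizing b with
  | nil =>
    simp only [cellsN, Nat.ble_eq] at h
    simp only [List.map_nil, cellsOK, decide_eq_true_eq]
    exact d_le h
  | cons C Cs ih =>
    simp only [cellsN, Bool.and_eq_true] at h
    obtain ⟨⟨h1, h2⟩, h3⟩ := h
    obtain ⟨h4, h5⟩ := baseN_sound h1
    simp only [List.map_cons, cellsOK, Bool.and_eq_true]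
    exact ⟨⟨h4, hfin a _ C _ h5 h2⟩, ih C.b2 h3⟩

theorem stripsN_sound {fin : ℕ → ℕ → CertN → Bool} {finQ : ℚ → ℚ → Cert → Bool}
    (hfin : ∀ (a : ℕ) (b : ℚ) (C : CertN) (T : ℕ), trap C.toQ.p C.toQ.L = (T : ℚ) / 20000000000 →
      fin a T C = true → finQ (d a) b C.toQ = true)
    {A1 B0 B1 : ℕ} (Ss : List (ℕ × List CertN)) (a : ℕ)
    (h : stripsN fin A1 B0 B1 a Ss = true) :
    stripsOK finQ (d A1) (d B0) (d B1) (d a) (toQs Ss) = true := by
  induction Ss generalizing a with
  | nil =>
    simp only [stripsN, Nat.ble_eq] at h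
    simp only [toQs, List.map_nil, stripsOK, decide_eq_true_eq]
    exact d_le h
  | cons S Ss ih =>
    simp only [stripsN, Bool.and_eq_true] at h
    simp only [toQs, List.map_cons, stripsOK, Bool.and_eq_true]
    exact ⟨cellsN_sound hfin S.2 B0 h.1, ih S.1 h.2⟩

/-- Final check for the range of balls and tubes: one comparison. -/
def cmpLow (v T : ℕ) (C : CertN) : Bool :=
  Nat.ble (C.th * C.t * (12566372 * (C.r * sqN C.r) + 60000000000000000 * v) +
      (100000 - C.th) * 100000 * C.r * (942477900000 * v + 3000000 * sqN C.t) +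
      600000000000 * C.r * C.t * (C.ln * v))
    (300000000000 * C.r * C.t * (200000 * C.c + 2 * C.lp * v + T))

/-- Final check for the range of balls and tubes. -/
def finLowN (V1 a T : ℕ) (C : CertN) : Bool :=
  Nat.ble 1 C.r && Nat.ble 1 C.t && Nat.ble C.th 100000 && cmpLow a T C && cmpLow V1 T C

theorem cmpLow_sound {v T : ℕ} {C : CertN} (hr : 1 ≤ C.r) (ht : 1 ≤ C.t) (hth : C.th ≤ 100000)
    (h : cmpLow v T C = true) :
    d C.th * (2 * piU / 3 * d C.r ^ 2 + d v / d C.r) +
      (1 - d C.th) * ((piU * d v / d C.t + d C.t) / 2) ≤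
      d C.c + d ((C.lp : ℤ) - C.ln) * d v + (T : ℚ) / 20000000000 := by
  simp only [cmpLow, Nat.ble_eq, sqN] at h
  have h' : (C.th : ℚ) * C.t * (12566372 * (C.r * (C.r * C.r)) + 60000000000000000 * v) +
      (((100000 - C.th : ℕ) : ℚ)) * 100000 * C.r * (942477900000 * v + 3000000 * (C.t * C.t)) +
      600000000000 * C.r * C.t * (C.ln * v) ≤
    300000000000 * C.r * C.t * (200000 * C.c + 2 * C.lp * v + T) := by exact_mod_cast h
  rw [Nat.cast_sub hth] at h'
  have hr' : (1 : ℚ) ≤ C.r := by exact_mod_cast hr
  have ht' : (1 : ℚ) ≤ C.t := by exact_mod_cast ht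
  have hr0 : (0 : ℚ) < C.r := by linarith only [hr']
  have ht0 : (0 : ℚ) < C.t := by linarith only [ht']
  simp only [dq_eq, Int.cast_natCast, piU]
  rw [← sub_nonneg]
  have e : (C.c : ℚ) / 100000 + (((C.lp : ℤ) - C.ln : ℤ) : ℚ) / 100000 * (v / 100000) +
      (T : ℚ) / 20000000000 - ((C.th : ℚ) / 100000 * (2 * (3141593 / 1000000) / 3 *
        ((C.r : ℚ) / 100000) ^ 2 + (v : ℚ) / 100000 / ((C.r : ℚ) / 100000)) +
      (1 - (C.th : ℚ) / 100000) * ((3141593 / 1000000 * ((v : ℚ) / 100000) /
        ((C.t : ℚ) / 100000) + (C.t : ℚ) / 100000) / 2)) =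
      (300000000000 * C.r * C.t * (200000 * C.c + 2 * C.lp * v + T) -
      ((C.th : ℚ) * C.t * (12566372 * (C.r * (C.r * C.r)) + 60000000000000000 * v) +
      (((100000 : ℕ) : ℚ) - C.th) * 100000 * C.r * (942477900000 * v + 3000000 * (C.t * C.t)) +
      600000000000 * C.r * C.t * (C.ln * v))) / (6000000000000000000000 * C.r * C.t) := by
    push_cast
    field_simp
    ring
  rw [e]
  apply div_nonneg (by linarith only [h']) (by positivity)

theorem finLowN_sound (V1 : ℕ) (a : ℕ) (b : ℚ) (C : CertN) (T : ℕ)
    (hT : trap C.toQ.p C.toQ.L = (T : ℚ) / 20000000000) (h : finLowN V1 a T C = true) :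
    finLow (d V1) (d a) b C.toQ = true := by
  simp only [finLowN, Bool.and_eq_true, Nat.ble_eq] at h
  obtain ⟨⟨⟨⟨h1, h2⟩, h3⟩, h4⟩, h5⟩ := h
  have k1 := cmpLow_sound h1 h2 h3 h4
  have k2 := cmpLow_sound h1 h2 h3 h5
  have h1' : (1 : ℚ) ≤ C.r := by exact_mod_cast h1
  have h2' : (1 : ℚ) ≤ C.t := by exact_mod_cast h2
  have h3' : (C.th : ℚ) ≤ 100000 := by exact_mod_cast h3
  have h4' : (0 : ℚ) ≤ C.th := Nat.cast_nonneg _
  simp only [finLow, Bool.and_eq_true, decide_eq_true_eq]
  rw [hT]
  refine ⟨⟨⟨⟨⟨?_, ?_⟩, ?_⟩, ?_⟩, k1⟩, k2⟩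
  · simp only [CertN.toQ, dq_eq, Int.cast_natCast]; linarith only [h1']
  · simp only [CertN.toQ, dq_eq, Int.cast_natCast]; linarith only [h2']
  · simp only [CertN.toQ, dq_eq, Int.cast_natCast]; linarith only [h4']
  · simp only [CertN.toQ, dq_eq, Int.cast_natCast]; linarith only [h3']

/-- Final check for the range of slabs: one comparison. -/
def cmpSlab (v T : ℕ) (C : CertN) : Bool :=
  Nat.ble (20000000000 + 2 * C.ln * v) (200000 * C.c + 2 * C.lp * v + T)

/-- Final check for the range of slabs. -/
def finSlabN (V0 V1 a T : ℕ) (C : CertN) : Bool :=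
  (cmpSlab V0 T C || (Nat.ble V0 a && cmpSlab a T C)) &&
  (cmpSlab V1 T C || (Nat.ble C.b2 V1 && cmpSlab C.b2 T C))

theorem cmpSlab_sound {v T : ℕ} {C : CertN} (h : cmpSlab v T C = true) :
    1 ≤ d C.c + d ((C.lp : ℤ) - C.ln) * d v + (T : ℚ) / 20000000000 := by
  simp only [cmpSlab, Nat.ble_eq] at h
  have h' : (20000000000 : ℚ) + 2 * C.ln * v ≤ 200000 * C.c + 2 * C.lp * v + T := by
    exact_mod_cast h
  simp only [dq_eq, Int.cast_natCast]
  push_cast
  linarith only [h']

theorem finSlabN_sound (V0 V1 : ℕ) (a : ℕ) (b : ℚ) (C : CertN) (T : ℕ)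
    (hT : trap C.toQ.p C.toQ.L = (T : ℚ) / 20000000000) (h : finSlabN V0 V1 a T C = true) :
    finSlab (d V0) (d V1) (d a) b C.toQ = true := by
  simp only [finSlabN, Bool.and_eq_true, Bool.or_eq_true, Nat.ble_eq] at h
  simp only [finSlab, Bool.and_eq_true, Bool.or_eq_true, decide_eq_true_eq]
  rw [hT]
  refine ⟨?_, ?_⟩
  · rcases h.1 with h1 | ⟨h1, h2⟩
    · exact Or.inl (cmpSlab_sound h1)
    · exact Or.inr ⟨d_le h1, cmpSlab_sound h2⟩
  · rcases h.2 with h1 | ⟨h1, h2⟩
    · exact Or.inl (cmpSlab_sound h1)
    · exact Or.inr ⟨d_le h1, cmpSlab_sound h2⟩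

theorem d_zero : d 0 = 0 := by rw [dq_eq]; norm_num

theorem d_one : d 100000 = 1 := by rw [dq_eq]; norm_num

/-- A certificate from integers. -/
def mkN (b2 c lp ln th r t : ℕ) (p : ℕ × ℕ) (L : List (ℕ × ℕ)) : CertN :=
  ⟨b2, c, lp, ln, th, r, t, p.1, p.2, L⟩

end Vale.Agent.P232
end
end

section

section

open MeasureTheory Set Filter Topology ContinuousLinearMap
open scoped Pointwise Convolution

namespace Vale.Agent.P232

theorem ennreal_liminf_add_le (u v : ℕ → ENNReal) :
    liminf u atTop + liminf v atTop ≤ liminf (fun k => u k + v k) atTop := by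
  rw [liminf_eq_iSup_iInf_of_nat, liminf_eq_iSup_iInf_of_nat, liminf_eq_iSup_iInf_of_nat]
  have hm : ∀ w : ℕ → ENNReal, Monotone (fun n => ⨅ i, ⨅ (_ : i ≥ n), w i) := by
    intro w a b hab
    exact le_iInf₂ fun i hi => iInf₂_le i (hab.trans hi)
  rw [ENNReal.iSup_add_iSup_of_monotone (hm u) (hm v)]
  apply iSup_mono
  intro n
  exact le_iInf₂ fun i hi => add_le_add (iInf₂_le i hi) (iInf₂_le i hi)

/-- Slicing with a different calibration on each arc, smooth version. -/
theorem slicing_pieces_smooth {n : ℕ} (i : Fin (n + 1)) {f : (Fin (n + 1) → ℝ) → ℝ}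
    (hf : ContDiff ℝ 1 f) (hp : PerFun f) {α β : ℕ → ℝ → ℝ} (hα : ∀ j, Continuous (α j))
    (hβ : ∀ j, Continuous (β j)) (hα0 : ∀ j u, 0 ≤ α j u)
    (hαβ : ∀ j u, α j u ^ 2 + β j u ^ 2 ≤ 1)
    {s : ℕ → ℝ} (hs : Monotone s) {N : ℕ} (hN : s N = s 0 + 1) :
    ∑ j ∈ Finset.range N,
        |prim (α j) (sliceMean i f (s (j + 1))) - prim (α j) (sliceMean i f (s j))| +
      ∑ j ∈ Finset.range N, ∫ t in (s j)..(s (j + 1)), β j (sliceMean i f t) * sliceTV i f t ≤
      ∫ x in cube (n + 1), gradNorm f x := by
  have hwc : Continuous (sliceMean i f) := continuous_sliceMean i hf.continuous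
  have hdc := continuous_deriv_sliceMean i hf
  have hTV := continuous_sliceTV i hf
  have hgc := continuous_sliceMean i (continuous_gradNorm hf)
  rw [integral_sliceMean i (continuous_gradNorm hf)]
  have hper : ∀ t, sliceMean i (gradNorm f) (t + 1) = sliceMean i (gradNorm f) t :=
    sliceMean_add_one i hp.gradNorm
  rw [← integral_Ico_eq hper (s 0), ← hN, ← intervalIntegral.sum_integral_adjacent_intervals
    (a := s) (n := N) (fun k _ => hgc.intervalIntegrable _ _), ← Finset.sum_add_distrib]
  apply Finset.sum_le_sum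
  intro j _
  have hj : s j ≤ s (j + 1) := hs (Nat.le_succ j)
  have h1 := path_piece (hα j) (hα0 j) (hasDerivAt_sliceMean i hf) hdc hj
  refine (add_le_add_left h1 _).trans ?_
  have hi1 : IntervalIntegrable (fun t => α j (sliceMean i f t) *
      |sliceMean i (fun x => (fderiv ℝ f x) (Pi.single i 1)) t|) volume (s j) (s (j + 1)) :=
    (((hα j).comp hwc).mul hdc.abs).intervalIntegrable _ _
  have hi2 : IntervalIntegrable (fun t => β j (sliceMean i f t) * sliceTV i f t)
      volume (s j) (s (j + 1)) :=
    (((hβ j).comp hwc).mul hTV).intervalIntegrable _ _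
  rw [← intervalIntegral.integral_add hi1 hi2]
  apply intervalIntegral.integral_mono_on hj
  · exact hi1.add hi2
  · exact hgc.intervalIntegrable _ _
  · intro t _
    exact sliceMean_gradNorm_ge i hf t (hα0 _ _) (hαβ _ _)

/-- Slicing with a different calibration on each arc. -/
theorem slicing_pieces {n : ℕ} (i : Fin (n + 1)) {E : Set (Fin (n + 1) → ℝ)}
    (hE : MeasurableSet E) (hp : IsPeriodic E) {α β : ℕ → ℝ → ℝ} (hα : ∀ j, Continuous (α j))
    (hβ : ∀ j, Continuous (β j)) (hα0 : ∀ j u, 0 ≤ α j u) (hβ0 : ∀ j u, 0 ≤ β j u)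
    (hαβ : ∀ j u, α j u ^ 2 + β j u ^ 2 ≤ 1)
    {s : ℕ → ℝ} (hs : Monotone s) {N : ℕ} (hN : s N = s 0 + 1) (hgood : ∀ j, GoodPt i E (s j)) :
    ENNReal.ofReal (∑ j ∈ Finset.range N,
        |prim (α j) (sv i E (s (j + 1))) - prim (α j) (sv i E (s j))|) +
      ∑ j ∈ Finset.range N, ∫⁻ t in Ioc (s j) (s (j + 1)),
        ENNReal.ofReal (β j (sv i E t)) * perimeter (slice i E t) ≤ perimeter E := by
  by_cases htop : perimeter E = ⊤
  · rw [htop]; exact le_top
  set f : ℕ → (Fin (n + 1) → ℝ) → ℝ := fun k => moll (bump (n + 1) k) E with hf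
  have hfc : ∀ k, ContDiff ℝ 1 (f k) := fun k => (contDiff_moll _ hE).of_le one_le_two
  have hfp : ∀ k, PerFun (f k) := fun k => perFun_moll _ hp
  set C := (perimeter E).toReal with hC
  set S : ℕ → ℝ := fun k => ∑ j ∈ Finset.range N,
    |prim (α j) (sliceMean i (f k) (s (j + 1))) - prim (α j) (sliceMean i (f k) (s j))| with hS
  set S' : ℝ := ∑ j ∈ Finset.range N,
    |prim (α j) (sv i E (s (j + 1))) - prim (α j) (sv i E (s j))| with hS'
  have hSlim : Tendsto S atTop (𝓝 S') := by
    apply tendsto_finsetSum
    intro j _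
    apply Tendsto.abs
    apply Tendsto.sub
    · exact ((continuous_prim (hα j)).tendsto _).comp ((hgood (j + 1)).tendsto_sliceMean hE)
    · exact ((continuous_prim (hα j)).tendsto _).comp ((hgood j).tendsto_sliceMean hE)
  have hmain : ∀ k, S k + ∑ j ∈ Finset.range N, ∫ t in (s j)..(s (j + 1)),
      β j (sliceMean i (f k) t) * sliceTV i (f k) t ≤ C := by
    intro k
    refine (slicing_pieces_smooth i (hfc k) (hfp k) hα hβ hα0 hαβ hs hN).trans ?_
    exact integral_gradNorm_moll_le _ hE hp
      (fun X hX => integral_divergence_le_of_perimeter htop hX)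
  have hcont : ∀ k j, Continuous (fun t => β j (sliceMean i (f k) t) * sliceTV i (f k) t) :=
    fun k j => ((hβ j).comp (continuous_sliceMean i (hfc k).continuous)).mul
      (continuous_sliceTV i (hfc k))
  have hnn : ∀ k j t, 0 ≤ β j (sliceMean i (f k) t) * sliceTV i (f k) t := fun k j t =>
    mul_nonneg (hβ0 _ _) (sliceTV_nonneg _ _ _)
  have hint0 : ∀ k, 0 ≤ ∑ j ∈ Finset.range N, ∫ t in (s j)..(s (j + 1)),
      β j (sliceMean i (f k) t) * sliceTV i (f k) t :=
    fun k => Finset.sum_nonneg fun j _ =>
      intervalIntegral.integral_nonneg (hs (Nat.le_succ j)) fun t _ => hnn k j t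
  have hb : ∀ k, ∑ j ∈ Finset.range N, ∫⁻ t in Ioc (s j) (s (j + 1)),
      ENNReal.ofReal (β j (sliceMean i (f k) t)) *
      ENNReal.ofReal (sliceTV i (f k) t) ≤ ENNReal.ofReal (C - S k) := by
    intro k
    have e1 : ∀ j t, ENNReal.ofReal (β j (sliceMean i (f k) t)) *
        ENNReal.ofReal (sliceTV i (f k) t) =
        ENNReal.ofReal (β j (sliceMean i (f k) t) * sliceTV i (f k) t) := fun j t =>
      (ENNReal.ofReal_mul (hβ0 _ _)).symm
    simp_rw [e1]
    have e2 : ∀ j ∈ Finset.range N, ∫⁻ t in Ioc (s j) (s (j + 1)),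
        ENNReal.ofReal (β j (sliceMean i (f k) t) * sliceTV i (f k) t) =
        ENNReal.ofReal (∫ t in (s j)..(s (j + 1)),
          β j (sliceMean i (f k) t) * sliceTV i (f k) t) := by
      intro j _
      rw [intervalIntegral.integral_of_le (hs (Nat.le_succ j)),
        ← ofReal_integral_eq_lintegral_ofReal]
      · have := (hcont k j).intervalIntegrable (μ := volume) (s j) (s (j + 1))
        rwa [intervalIntegrable_iff_integrableOn_Ioc_of_le (hs (Nat.le_succ j))] at this
      · filter_upwards with t
        exact hnn k j t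
    rw [Finset.sum_congr rfl e2, ← ENNReal.ofReal_sum_of_nonneg]
    · apply ENNReal.ofReal_le_ofReal
      linarith [hmain k]
    · intro j _
      exact intervalIntegral.integral_nonneg (hs (Nat.le_succ j)) fun t _ => hnn k j t
  have hB : ∑ j ∈ Finset.range N, ∫⁻ t in Ioc (s j) (s (j + 1)),
      ENNReal.ofReal (β j (sv i E t)) * perimeter (slice i E t) ≤
      ENNReal.ofReal (C - S') := by
    have h1 : ∀ j, ∫⁻ t in Ioc (s j) (s (j + 1)), ENNReal.ofReal (β j (sv i E t)) *
        perimeter (slice i E t) ≤
        liminf (fun k => ∫⁻ t in Ioc (s j) (s (j + 1)),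
          ENNReal.ofReal (β j (sliceMean i (f k) t)) *
            ENNReal.ofReal (sliceTV i (f k) t)) atTop := by
      intro j
      have h1' : ∫⁻ t in Ioc (s j) (s (j + 1)), ENNReal.ofReal (β j (sv i E t)) *
          perimeter (slice i E t) ≤
          ∫⁻ t in Ioc (s j) (s (j + 1)),
            liminf (fun k => ENNReal.ofReal (β j (sliceMean i (f k) t)) *
            ENNReal.ofReal (sliceTV i (f k) t)) atTop := by
        apply lintegral_mono_ae
        filter_upwards [ae_restrict_of_ae (ae_goodPt i hE)] with t ht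
        have e1 : Tendsto (fun k => ENNReal.ofReal (β j (sliceMean i (f k) t))) atTop
            (𝓝 (ENNReal.ofReal (β j (sv i E t)))) :=
          ENNReal.tendsto_ofReal (((hβ j).tendsto _).comp (ht.tendsto_sliceMean hE))
        rw [← e1.liminf_eq]
        refine le_trans ?_ ENNReal.le_liminf_mul
        gcongr
        exact ht.perimeter_le_liminf hE hp
      refine h1'.trans ?_
      refine (lintegral_liminf_le (fun k => ?_))
      exact (ENNReal.measurable_ofReal.comp ((hβ j).comp
          (continuous_sliceMean i (hfc k).continuous)).measurable).mul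
        (ENNReal.measurable_ofReal.comp (continuous_sliceTV i (hfc k)).measurable)
    have hsum : ∀ (u : ℕ → ℕ → ENNReal) (m : ℕ),
        ∑ j ∈ Finset.range m, liminf (fun k => u j k) atTop ≤
          liminf (fun k => ∑ j ∈ Finset.range m, u j k) atTop := by
      intro u m
      induction m with
      | zero => simp
      | succ m ih =>
        rw [Finset.sum_range_succ]
        simp_rw [Finset.sum_range_succ]
        refine (add_le_add_left ih _).trans ?_
        exact ennreal_liminf_add_le _ _
    refine (Finset.sum_le_sum fun j _ => h1 j).trans ?_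
    refine (hsum _ N).trans ?_
    have h2 : Tendsto (fun k => ENNReal.ofReal (C - S k)) atTop (𝓝 (ENNReal.ofReal (C - S'))) :=
      ENNReal.tendsto_ofReal (tendsto_const_nhds.sub hSlim)
    rw [← h2.liminf_eq]
    exact liminf_le_liminf (Eventually.of_forall fun k => hb k)
  have hS'C : S' ≤ C := by
    apply le_of_tendsto hSlim
    filter_upwards with k
    linarith [hmain k, hint0 k]
  have hS'0 : 0 ≤ S' := Finset.sum_nonneg fun j _ => abs_nonneg _
  calc _ ≤ ENNReal.ofReal S' + ENNReal.ofReal (C - S') := by gcongr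
    _ = ENNReal.ofReal C := by
        rw [← ENNReal.ofReal_add hS'0 (by linarith)]
        congr 1
        ring
    _ = perimeter E := ENNReal.ofReal_toReal htop

/-- A property invariant under integer translations which holds almost everywhere on the unit
interval holds almost everywhere. -/
theorem ae_of_mu {p : ℝ → Prop} (hp : ∀ (t : ℝ) (k : ℤ), p (t + k) ↔ p t)
    (h : ∀ᵐ t ∂mu, p t) : ∀ᵐ t : ℝ, p t := by
  have h0 : volume ({t : ℝ | ¬ p t} ∩ Ico 0 1) = 0 := by
    have h1 : mu {t : ℝ | ¬ p t} = 0 := h
    have h2 := Measure.le_restrict_apply (μ := volume) (Ico (0 : ℝ) 1) {t : ℝ | ¬ p t}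
    exact le_antisymm (h2.trans h1.le) bot_le
  have h3 : {t : ℝ | ¬ p t} = ⋃ k : ℤ, (fun t : ℝ => t + k) '' ({t : ℝ | ¬ p t} ∩ Ico 0 1) := by
    ext t
    simp only [mem_iUnion, mem_image, mem_inter_iff]
    constructor
    · intro ht
      refine ⟨⌊t⌋, Int.fract t, ⟨?_, Int.fract_nonneg t, Int.fract_lt_one t⟩,
        Int.fract_add_floor t⟩
      change ¬ p (Int.fract t)
      rw [← hp _ ⌊t⌋, Int.fract_add_floor]
      exact ht
    · rintro ⟨k, x, ⟨hx, _⟩, rfl⟩
      change ¬ p _
      rw [hp]
      exact hx
  change volume {t : ℝ | ¬ p t} = 0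
  rw [h3, measure_iUnion_null_iff]
  intro k
  rw [image_add_right, measure_preimage_add_right]
  exact h0

/-- Two comparable calibrations. -/
structure CalPair {n : ℕ} (i : Fin (n + 1)) (E : Set (Fin (n + 1) → ℝ)) (H ε : ℝ)
    (α β : Bool → ℝ → ℝ) : Prop where
  contα : ∀ b, Continuous (α b)
  contβ : ∀ b, Continuous (β b)
  α0 : ∀ b u, 0 ≤ α b u
  β0 : ∀ b u, 0 ≤ β b u
  le1 : ∀ b u, α b u ^ 2 + β b u ^ 2 ≤ 1
  mono : ∀ u, α false u ≤ α true u
  low0 : ∀ᵐ t ∂mu, ENNReal.ofReal (H * sv i E t) ≤
    ENNReal.ofReal (β false (sv i E t)) * perimeter (slice i E t)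
  low1 : ∀ᵐ t ∂mu, ENNReal.ofReal (max (H * sv i E t - ε) 0) ≤
    ENNReal.ofReal (β true (sv i E t)) * perimeter (slice i E t)

/-- The lower bound for the weighted perimeter of the slices. -/
noncomputable def cw (H ε : ℝ) (b : Bool) (u : ℝ) : ℝ :=
  if b then max (H * u - ε) 0 else H * u

theorem continuous_cw (H ε : ℝ) (b : Bool) : Continuous (cw H ε b) := by
  unfold cw
  cases b <;> simp <;> fun_prop

theorem cw_ge {H ε : ℝ} (b : Bool) (u : ℝ) : H * u - (if b then ε else 0) ≤ cw H ε b u := by
  unfold cw
  cases b <;> simp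

theorem cw_nonneg {H ε : ℝ} (hH : 0 ≤ H) (b : Bool) {u : ℝ} (hu : 0 ≤ u) :
    0 ≤ cw H ε b u := by
  unfold cw
  cases b
  · simpa using mul_nonneg hH hu
  · simp

theorem CalPair.low {n : ℕ} {i : Fin (n + 1)} {E : Set (Fin (n + 1) → ℝ)} {H ε : ℝ}
    {α β : Bool → ℝ → ℝ} (h : CalPair i E H ε α β) (hp : IsPeriodic E) (b : Bool) :
    ∀ᵐ t : ℝ, ENNReal.ofReal (cw H ε b (sv i E t)) ≤
      ENNReal.ofReal (β b (sv i E t)) * perimeter (slice i E t) := by
  apply ae_of_mu
  · intro t k
    have hs : slice i E (t + k) = slice i E t := by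
      have h : Function.Periodic (slice i E) 1 := slice_add_one i hp
      have := h.int_mul k t
      simpa using this
    rw [sv_add_int i hp, hs]
  · cases b
    · simpa [cw] using h.low0
    · simpa [cw] using h.low1

theorem intervalIntegrable_cw {n : ℕ} (i : Fin (n + 1)) {E : Set (Fin (n + 1) → ℝ)}
    (hE : MeasurableSet E) (H ε : ℝ) (b : Bool) (p q : ℝ) :
    IntervalIntegrable (fun t => cw H ε b (sv i E t)) volume p q := by
  obtain ⟨C, hC⟩ := (isCompact_Icc (a := (0 : ℝ)) (b := 1)).exists_bound_of_continuousOn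
    (continuous_cw H ε b).continuousOn
  have hci : IntervalIntegrable (fun _ : ℝ => C) volume p q := intervalIntegrable_const
  rw [intervalIntegrable_iff] at hci ⊢
  refine Integrable.mono' (g := fun _ => C) hci ?_ ?_
  · exact ((continuous_cw H ε b).measurable.comp (measurable_sv i hE)).aestronglyMeasurable
  · filter_upwards with t
    exact hC _ ⟨sv_nonneg _ _ _, sv_le_one _ _ _⟩

theorem CalPair.three_pieces {n : ℕ} {i : Fin (n + 1)} {E : Set (Fin (n + 1) → ℝ)} {H ε : ℝ}
    {α β : Bool → ℝ → ℝ} (h : CalPair i E H ε α β) (hE : MeasurableSet E) (hp : IsPeriodic E)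
    (hH : 0 ≤ H) {M : ℝ} (hM0 : 0 ≤ M)
    (hP : perimeter E ≤ ENNReal.ofReal (2 * prim (α false) M + H * vol E))
    {x0 x1 x2 : ℝ} (g0 : GoodPt i E x0) (g1 : GoodPt i E x1) (g2 : GoodPt i E x2)
    (h01 : x0 ≤ x1) (h12 : x1 ≤ x2) (h23 : x2 ≤ x0 + 1) (c0 c1 c2 : Bool) :
    |prim (α c0) (sv i E x1) - prim (α c0) (sv i E x0)| +
      |prim (α c1) (sv i E x2) - prim (α c1) (sv i E x1)| +
      |prim (α c2) (sv i E x0) - prim (α c2) (sv i E x2)| ≤
      2 * prim (α false) M + ((if c0 then ε else 0) * (x1 - x0) +
        (if c1 then ε else 0) * (x2 - x1) + (if c2 then ε else 0) * (x0 + 1 - x2)) := by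
  set s : ℕ → ℝ := fun j => if j = 0 then x0 else if j = 1 then x1 else if j = 2 then x2
    else x0 + 1 with hs
  set c : ℕ → Bool := fun j => if j = 0 then c0 else if j = 1 then c1 else c2 with hc
  have hmono : Monotone s := by
    apply monotone_nat_of_le_succ
    intro j
    rcases j with _ | _ | _ | j
    · simpa [hs] using h01
    · simpa [hs] using h12
    · simpa [hs] using h23
    · simp [hs]
  have hgood : ∀ j, GoodPt i E (s j) := by
    intro j
    rcases j with _ | _ | _ | j
    · simpa [hs] using g0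
    · simpa [hs] using g1
    · simpa [hs] using g2
    · simpa [hs] using (goodPt_iff_add_one i hp x0).mpr g0
  have key := slicing_pieces i hE hp (α := fun j => α (c j)) (β := fun j => β (c j))
    (fun j => h.contα _) (fun j => h.contβ _) (fun j => h.α0 _) (fun j => h.β0 _)
    (fun j => h.le1 _) hmono (N := 3) (by simp [hs]) hgood
  have e1 : ∑ j ∈ Finset.range 3, |prim (α (c j)) (sv i E (s (j + 1))) -
      prim (α (c j)) (sv i E (s j))| =
      |prim (α c0) (sv i E x1) - prim (α c0) (sv i E x0)| +
      |prim (α c1) (sv i E x2) - prim (α c1) (sv i E x1)| +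
      |prim (α c2) (sv i E x0) - prim (α c2) (sv i E x2)| := by
    rw [Finset.sum_range_succ, Finset.sum_range_succ, Finset.sum_range_one]
    simp only [hs, hc]
    norm_num
    rw [sv_add_one i hp]
  rw [e1] at key
  set S := |prim (α c0) (sv i E x1) - prim (α c0) (sv i E x0)| +
      |prim (α c1) (sv i E x2) - prim (α c1) (sv i E x1)| +
      |prim (α c2) (sv i E x0) - prim (α c2) (sv i E x2)| with hS
  have hS0 : 0 ≤ S := by (clear * -; positivity)
  have hl : ∀ j, ENNReal.ofReal (∫ t in (s j)..(s (j + 1)), cw H ε (c j) (sv i E t)) ≤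
      ∫⁻ t in Ioc (s j) (s (j + 1)), ENNReal.ofReal (β (c j) (sv i E t)) *
        perimeter (slice i E t) := by
    intro j
    rw [intervalIntegral.integral_of_le (hmono (Nat.le_succ j)),
      ofReal_integral_eq_lintegral_ofReal]
    · apply lintegral_mono_ae
      filter_upwards [ae_restrict_of_ae (h.low hp (c j))] with t ht
      exact ht
    · have := intervalIntegrable_cw i hE H ε (c j) (s j) (s (j + 1))
      rwa [intervalIntegrable_iff_integrableOn_Ioc_of_le (hmono (Nat.le_succ j))] at this
    · filter_upwards with t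
      exact cw_nonneg hH _ (sv_nonneg _ _ _)
  have hi0 : ∀ j, 0 ≤ ∫ t in (s j)..(s (j + 1)), cw H ε (c j) (sv i E t) := fun j =>
    intervalIntegral.integral_nonneg (hmono (Nat.le_succ j))
      fun t _ => cw_nonneg hH _ (sv_nonneg _ _ _)
  have h2 : ENNReal.ofReal (S + ∑ j ∈ Finset.range 3,
      ∫ t in (s j)..(s (j + 1)), cw H ε (c j) (sv i E t)) ≤
      ENNReal.ofReal (2 * prim (α false) M + H * vol E) := by
    rw [ENNReal.ofReal_add hS0 (Finset.sum_nonneg fun j _ => hi0 j),
      ENNReal.ofReal_sum_of_nonneg (fun j _ => hi0 j)]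
    refine le_trans ?_ (key.trans hP)
    gcongr with j _
    exact hl j
  have hprim0 : 0 ≤ prim (α false) M :=
    intervalIntegral.integral_nonneg hM0 fun u _ => h.α0 _ _
  have h3 := (ENNReal.ofReal_le_ofReal_iff (by
    have := vol_nonneg E
    positivity)).mp h2
  have h4 : ∀ j, (∫ t in (s j)..(s (j + 1)), H * sv i E t) - (if c j then ε else 0) *
      (s (j + 1) - s j) ≤ ∫ t in (s j)..(s (j + 1)), cw H ε (c j) (sv i E t) := by
    intro j
    have hv := intervalIntegrable_sv i hE (s j) (s (j + 1))
    have h5 : ∫ t in (s j)..(s (j + 1)), (H * sv i E t - (if c j then ε else 0)) =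
        (∫ t in (s j)..(s (j + 1)), H * sv i E t) - (if c j then ε else 0) *
      (s (j + 1) - s j) := by
      rw [intervalIntegral.integral_sub (hv.const_mul H) intervalIntegrable_const,
        intervalIntegral.integral_const, smul_eq_mul]
      ring
    rw [← h5]
    apply intervalIntegral.integral_mono_on (hmono (Nat.le_succ j))
      ((hv.const_mul H).sub intervalIntegrable_const) (intervalIntegrable_cw i hE H ε (c j) _ _)
    intro t _
    exact cw_ge _ _
  have h6 : ∑ j ∈ Finset.range 3, ∫ t in (s j)..(s (j + 1)), H * sv i E t = H * vol E := by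
    rw [intervalIntegral.sum_integral_adjacent_intervals
      (fun k _ => (intervalIntegrable_sv i hE _ _).const_mul H)]
    have : s 3 = s 0 + 1 := by simp [hs]
    rw [this, integral_Ico_eq (g := fun t => H * sv i E t)
      (fun t => by simp only [sv_add_one i hp]), integral_const_mul, ← vol_eq_integral_sv i hE]
  have h7 := Finset.sum_le_sum (s := Finset.range 3) (fun j _ => h4 j)
  rw [Finset.sum_sub_distrib, h6] at h7
  have h8 : ∑ j ∈ Finset.range 3, (if c j then ε else 0) * (s (j + 1) - s j) =
      ((if c0 then ε else 0) * (x1 - x0) +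
        (if c1 then ε else 0) * (x2 - x1) + (if c2 then ε else 0) * (x0 + 1 - x2)) := by
    rw [Finset.sum_range_succ, Finset.sum_range_succ, Finset.sum_range_one]
    simp only [hs, hc]
    norm_num
  rw [h8] at h7
  linarith only [h3, h7]

end Vale.Agent.P232
end
end

section

section

open MeasureTheory Set Filter Topology ContinuousLinearMap
open scoped Pointwise Convolution

namespace Vale.Agent.P232

theorem prim_le_self {α : ℝ → ℝ} (hα : Continuous α) (h1 : ∀ u, α u ≤ 1) {u : ℝ} (hu : 0 ≤ u) :
    prim α u ≤ u := by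
  unfold prim
  have h : ∫ x in (0 : ℝ)..u, α x ≤ ∫ _ in (0 : ℝ)..u, (1 : ℝ) :=
    intervalIntegral.integral_mono_on hu (hα.intervalIntegrable _ _) intervalIntegrable_const
      (fun x _ => h1 x)
  simpa using h

/-- The difference of the two primitives. -/
noncomputable def dprim (α : Bool → ℝ → ℝ) (u : ℝ) : ℝ := prim (α true) u - prim (α false) u

section
variable {n : ℕ} {i : Fin (n + 1)} {E : Set (Fin (n + 1) → ℝ)} {H ε : ℝ}
  {α β : Bool → ℝ → ℝ}

theorem CalPair.hasDerivAt_dprim (h : CalPair i E H ε α β) (u : ℝ) :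
    HasDerivAt (dprim α) (α true u - α false u) u :=
  (hasDerivAt_prim (h.contα true) u).sub (hasDerivAt_prim (h.contα false) u)

theorem CalPair.continuous_dprim (h : CalPair i E H ε α β) : Continuous (dprim α) :=
  continuous_iff_continuousAt.mpr fun u => (h.hasDerivAt_dprim u).continuousAt

theorem CalPair.monotone_dprim (h : CalPair i E H ε α β) : Monotone (dprim α) :=
  monotone_of_deriv_nonneg (fun u => (h.hasDerivAt_dprim u).differentiableAt)
    (fun u => by rw [(h.hasDerivAt_dprim u).deriv]; linarith [h.mono u])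

theorem dprim_zero (α : Bool → ℝ → ℝ) : dprim α 0 = 0 := by simp [dprim, prim]

theorem CalPair.alpha_le_one (h : CalPair i E H ε α β) (b : Bool) (u : ℝ) : α b u ≤ 1 := by
  have h1 := h.le1 b u
  have h2 := sq_nonneg (β b u)
  have h3 := h.α0 b u
  nlinarith

theorem CalPair.arc (h : CalPair i E H ε α β) (hE : MeasurableSet E) (hp : IsPeriodic E)
    (hH : 0 ≤ H) (hε : 0 ≤ ε) {M : ℝ} (hM0 : 0 ≤ M)
    (hP : perimeter E ≤ ENNReal.ofReal (2 * prim (α false) M + H * vol E))
    {a q p : ℝ} (ga : GoodPt i E a) (gq : GoodPt i E q) (gp : GoodPt i E p)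
    (haq : a ≤ q) (hqa : q ≤ a + 1) (hap : a ≤ p) (hpa : p ≤ a + 1) :
    dprim α (sv i E q) - dprim α (sv i E a) ≤
        ε * (q - a) + 2 * (prim (α false) M - prim (α false) (sv i E q)) + 2 * sv i E p ∧
      dprim α (sv i E q) - dprim α (sv i E a) ≤
        ε * (a + 1 - q) + 2 * (prim (α false) M - prim (α false) (sv i E q)) +
          2 * sv i E p := by
  have hp0 : prim (α false) (sv i E p) ≤ sv i E p :=
    prim_le_self (h.contα _) (h.alpha_le_one _) (sv_nonneg _ _ _)
  have hp1 : prim (α true) (sv i E p) ≤ sv i E p :=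
    prim_le_self (h.contα _) (h.alpha_le_one _) (sv_nonneg _ _ _)
  have hDa : 0 ≤ dprim α (sv i E a) := by
    rw [← dprim_zero α]
    exact h.monotone_dprim (sv_nonneg _ _ _)
  have key := @CalPair.three_pieces _ _ _ _ _ _ _ h hE hp hH M hM0 hP
  rcases le_total p q with hpq | hqp
  · constructor
    · have h1 := key ga gp gq hap hpq hqa false true false
      have a1 := neg_abs_le (prim (α false) (sv i E p) - prim (α false) (sv i E a))
      have a2 := le_abs_self (prim (α true) (sv i E q) - prim (α true) (sv i E p))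
      have a3 := neg_abs_le (prim (α false) (sv i E a) - prim (α false) (sv i E q))
      have a4 : ε * (q - p) ≤ ε * (q - a) := mul_le_mul_of_nonneg_left (by linarith) hε
      simp only [if_true, Bool.false_eq_true, if_false] at h1
      unfold dprim at hDa ⊢
      linarith only [hp0, hp1, hDa, a1, a2, a3, a4, h1]
    · have h1 := key ga gp gq hap hpq hqa false false true
      have a1 := neg_abs_le (prim (α false) (sv i E p) - prim (α false) (sv i E a))
      have a2 := le_abs_self (prim (α false) (sv i E q) - prim (α false) (sv i E p))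
      have a3 := neg_abs_le (prim (α true) (sv i E a) - prim (α true) (sv i E q))
      simp only [if_true, Bool.false_eq_true, if_false] at h1
      unfold dprim
      linarith only [hp0, a1, a2, a3, h1]
  · constructor
    · have h1 := key ga gq gp haq hqp hpa true false false
      have a1 := le_abs_self (prim (α true) (sv i E q) - prim (α true) (sv i E a))
      have a2 := neg_abs_le (prim (α false) (sv i E p) - prim (α false) (sv i E q))
      have a3 := le_abs_self (prim (α false) (sv i E a) - prim (α false) (sv i E p))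
      simp only [if_true, Bool.false_eq_true, if_false] at h1
      unfold dprim
      linarith
    · have h1 := key ga gq gp haq hqp hpa false true false
      have a1 := le_abs_self (prim (α false) (sv i E q) - prim (α false) (sv i E a))
      have a2 := neg_abs_le (prim (α true) (sv i E p) - prim (α true) (sv i E q))
      have a3 := le_abs_self (prim (α false) (sv i E a) - prim (α false) (sv i E p))
      have a4 : ε * (p - q) ≤ ε * (a + 1 - q) := mul_le_mul_of_nonneg_left (by linarith) hε
      simp only [if_true, Bool.false_eq_true, if_false] at h1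
      unfold dprim at hDa ⊢
      linarith only [hp0, hp1, hDa, a1, a2, a3, a4, h1]

end

/-- The location of the maximum of the slice volumes. -/
theorem exists_peak {n : ℕ} (i : Fin (n + 1)) {E : Set (Fin (n + 1) → ℝ)}
    (hE : MeasurableSet E) (hp : IsPeriodic E) {M : ℝ} (hM0 : 0 ≤ M)
    (hm : EssBd (sv i E) 0 M) : ∃ z : ℝ, ∀ (H ε : ℝ) (α β : Bool → ℝ → ℝ),
      CalPair i E H ε α β → 0 ≤ H → 0 ≤ ε →
      perimeter E ≤ ENNReal.ofReal (2 * prim (α false) M + H * vol E) →
      ∀ a, GoodPt i E a → a < z → z < a + 1 →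
        dprim α M - dprim α (sv i E a) ≤ ε * (z - a) ∧
        dprim α M - dprim α (sv i E a) ≤ ε * (a + 1 - z) := by
  have hgood := ae_restrict_of_ae (s := Ico (0 : ℝ) 1) (ae_goodPt i hE)
  have hq : ∀ k : ℕ, ∃ q, M - 1 / ((k : ℝ) + 1) < sv i E q ∧ sv i E q ≤ M ∧ GoodPt i E q ∧
      q ∈ Ico (0 : ℝ) 1 := by
    intro k
    obtain ⟨q, h1, h2, h3, h4⟩ := ((hm.sup (1 / ((k : ℝ) + 1)) (by positivity)).and_eventually
      (hm.upper.and (hgood.and ae_mu_mem))).exists
    exact ⟨q, h1, h2, h3, h4⟩
  have hpp : ∀ k : ℕ, ∃ q, sv i E q < 0 + 1 / ((k : ℝ) + 1) ∧ GoodPt i E q := by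
    intro k
    obtain ⟨q, h1, h3⟩ := ((hm.inf (1 / ((k : ℝ) + 1)) (by positivity)).and_eventually
      hgood).exists
    exact ⟨q, h1, h3⟩
  choose q hq1 hq2 hq3 hq4 using hq
  choose p hp1 hp2 using hpp
  obtain ⟨z, hz, φ, hφ, hlim⟩ := isCompact_Icc.tendsto_subseq
    (fun k => Ico_subset_Icc_self (hq4 k))
  refine ⟨z, fun H ε α β hc hH hε hP a ga haz hza => ?_⟩
  have t0 : Tendsto (fun k : ℕ => 1 / ((k : ℝ) + 1)) atTop (𝓝 0) :=
    tendsto_one_div_add_atTop_nhds_zero_nat
  have tq : Tendsto (fun k => sv i E (q (φ k))) atTop (𝓝 M) := by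
    have t1 : Tendsto (fun k => M - 1 / ((φ k : ℝ) + 1)) atTop (𝓝 M) := by
      have := (t0.comp hφ.tendsto_atTop).const_sub M
      simpa using this
    exact tendsto_of_tendsto_of_tendsto_of_le_of_le t1 tendsto_const_nhds
      (fun k => (hq1 (φ k)).le) (fun k => hq2 (φ k))
  have tp : Tendsto (fun k => sv i E (p k)) atTop (𝓝 0) := by
    refine tendsto_of_tendsto_of_tendsto_of_le_of_le tendsto_const_nhds t0
      (fun k => sv_nonneg _ _ _) (fun k => ?_)
    have := (hp1 k).le
    simpa using this
  -- translate `p k` into `[a, a + 1]`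
  have hp' : ∀ k, ∃ p', GoodPt i E p' ∧ sv i E p' = sv i E (p k) ∧ a ≤ p' ∧ p' ≤ a + 1 := by
    intro k
    refine ⟨a + Int.fract (p k - a), ?_, ?_, ?_, ?_⟩
    · have e1 : a + Int.fract (p k - a) = p k + ((-⌊p k - a⌋ : ℤ) : ℝ) := by
        rw [Int.fract]; push_cast; ring
      rw [e1]; exact (goodPt_add_int i hp _ _).mpr (hp2 k)
    · have e1 : a + Int.fract (p k - a) = p k + ((-⌊p k - a⌋ : ℤ) : ℝ) := by
        rw [Int.fract]; push_cast; ring
      rw [e1]; exact sv_add_int i hp _ _
    · have := Int.fract_nonneg (p k - a); linarith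
    · have := (Int.fract_lt_one (p k - a)).le; linarith
  choose p' hg' hs' ha' hb' using hp'
  have hev : ∀ᶠ k in atTop, a < q (φ k) ∧ q (φ k) < a + 1 :=
    (hlim.eventually (lt_mem_nhds haz)).and (hlim.eventually (gt_mem_nhds hza))
  have tD : Tendsto (fun k => dprim α (sv i E (q (φ k))) - dprim α (sv i E a)) atTop
      (𝓝 (dprim α M - dprim α (sv i E a))) :=
    ((hc.continuous_dprim.tendsto M).comp tq).sub_const _
  have tA : Tendsto (fun k => 2 * (prim (α false) M - prim (α false) (sv i E (q (φ k)))) +
      2 * sv i E (p' k)) atTop (𝓝 0) := by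
    have h1 : Tendsto (fun k => prim (α false) (sv i E (q (φ k)))) atTop
        (𝓝 (prim (α false) M)) := ((continuous_prim (hc.contα false)).tendsto M).comp tq
    have h2 := ((tendsto_const_nhds (x := prim (α false) M)).sub h1).const_mul 2
    have h3 := tp.const_mul 2
    simp_rw [hs']
    have h4 := h2.add h3
    simpa using h4
  constructor
  · have tR : Tendsto (fun k => ε * (q (φ k) - a) +
        (2 * (prim (α false) M - prim (α false) (sv i E (q (φ k)))) + 2 * sv i E (p' k))) atTop
        (𝓝 (ε * (z - a) + 0)) := ((hlim.sub_const a).const_mul ε).add tA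
    rw [add_zero] at tR
    apply le_of_tendsto_of_tendsto tD tR
    filter_upwards [hev] with k hk
    have := (hc.arc hE hp hH hε hM0 hP ga (hq3 (φ k)) (hg' k) hk.1.le hk.2.le (ha' k) (hb' k)).1
    linarith
  · have tR : Tendsto (fun k => ε * (a + 1 - q (φ k)) +
        (2 * (prim (α false) M - prim (α false) (sv i E (q (φ k)))) + 2 * sv i E (p' k))) atTop
        (𝓝 (ε * (a + 1 - z) + 0)) := ((hlim.const_sub (a + 1)).const_mul ε).add tA
    rw [add_zero] at tR
    apply le_of_tendsto_of_tendsto tD tR
    filter_upwards [hev] with k hk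
    have := (hc.arc hE hp hH hε hM0 hP ga (hq3 (φ k)) (hg' k) hk.1.le hk.2.le (ha' k) (hb' k)).2
    linarith

/-- Lower bound for the difference of the primitives. -/
theorem CalPair.dprim_ge {n : ℕ} {i : Fin (n + 1)} {E : Set (Fin (n + 1) → ℝ)} {H ε : ℝ}
    {α β : Bool → ℝ → ℝ} (h : CalPair i E H ε α β)
    (hα : ∀ b u, α b u = Real.sqrt (1 - β b u ^ 2)) {u M K : ℝ} (huM : u ≤ M) (hε : 0 ≤ ε)
    (hK0 : 0 ≤ K) {β' : ℝ → ℝ} (hd : ∀ x ∈ Ioo u M, HasDerivAt (β true) (β' x) x)
    (hb : ∀ x ∈ Ioo u M, β true x ≤ β false x ∧ β false x ≤ 1 ∧ β true x < 1)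
    (hK : ∀ x ∈ Ioo u M, ε * β' x ≤ K * (β false x - β true x)) :
    ε * (α true u - α true M) ≤ K * (dprim α M - dprim α u) := by
  set Ψ : ℝ → ℝ := fun x => K * dprim α x + ε * α true x with hΨ
  have hcont : ContinuousOn Ψ (Icc u M) :=
    ((continuous_const.mul h.continuous_dprim).add
      (continuous_const.mul (h.contα true))).continuousOn
  have hder : ∀ x ∈ Ioo u M, ∃ d, HasDerivAt Ψ d x ∧ 0 ≤ d := by
    intro x hx
    obtain ⟨h1, h2, h3⟩ := hb x hx
    have h0 := h.β0 true x
    have hpos : 0 < 1 - β true x ^ 2 := by nlinarith only [h1, h2, h3, h0]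
    have hsq : HasDerivAt (fun y => Real.sqrt (1 - β true y ^ 2))
        (-(2 * β true x * β' x) / (2 * Real.sqrt (1 - β true x ^ 2))) x := by
      have h4 : HasDerivAt (fun y => 1 - β true y ^ 2) (-(2 * β true x * β' x)) x := by
        have := ((hd x hx).pow 2).const_sub 1
        refine this.congr_deriv ?_
        push_cast
        ring
      exact h4.sqrt hpos.ne'
    have hα' : α true = fun y => Real.sqrt (1 - β true y ^ 2) := by
      ext y; exact hα true y
    have h5 : HasDerivAt (α true)
        (-(2 * β true x * β' x) / (2 * Real.sqrt (1 - β true x ^ 2))) x := by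
      rw [hα']; exact hsq
    refine ⟨_, ((h.hasDerivAt_dprim x).const_mul K).add (h5.const_mul ε), ?_⟩
    set s1 := Real.sqrt (1 - β true x ^ 2) with hs1
    have hs1pos : 0 < s1 := Real.sqrt_pos.mpr hpos
    have hs1sq : s1 ^ 2 = 1 - β true x ^ 2 := Real.sq_sqrt hpos.le
    have ha0 : α false x ^ 2 ≤ 1 - β false x ^ 2 := by linarith [h.le1 false x]
    have ha0n := h.α0 false x
    have hb0n : 0 ≤ β false x := h0.trans h1
    -- Cauchy-Schwarz
    have hcs : α false x * s1 + β false x * β true x ≤ 1 := by
      have h6 : (α false x * s1 + β false x * β true x) ^ 2 ≤ 1 := by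
        have : (α false x * s1 + β false x * β true x) ^ 2 ≤
            (α false x ^ 2 + β false x ^ 2) * (s1 ^ 2 + β true x ^ 2) := by
          linarith only [sq_nonneg (α false x * β true x - β false x * s1)]
        have h7 : α false x ^ 2 + β false x ^ 2 ≤ 1 := h.le1 false x
        have h8 : s1 ^ 2 + β true x ^ 2 = 1 := by rw [hs1sq]; ring
        rw [h8, mul_one] at this
        linarith
      linarith only [sq_nonneg (α false x * s1 + β false x * β true x - 1), h6]
    have h9 : -(2 * β true x * β' x) / (2 * s1) = -(β true x * β' x) / s1 := by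
      field_simp
    rw [h9, hα true x, ← hs1]
    have h10 : K * (s1 - α false x) + ε * (-(β true x * β' x) / s1) =
        (K * (s1 ^ 2 - α false x * s1) - β true x * (ε * β' x)) / s1 := by
      field_simp
      ring
    rw [h10]
    apply div_nonneg _ hs1pos.le
    have h11 := mul_le_mul_of_nonneg_left (hK x hx) h0
    have h12 : K * (s1 ^ 2 - α false x * s1) ≥ K * (β true x * (β false x - β true x)) := by
      apply mul_le_mul_of_nonneg_left _ hK0
      rw [hs1sq]
      linarith only [hcs]
    linarith only [h11, h12]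
  have hmono : MonotoneOn Ψ (Icc u M) := by
    apply monotoneOn_of_deriv_nonneg (convex_Icc u M) hcont
    · intro x hx
      rw [interior_Icc] at hx
      obtain ⟨d, hd, _⟩ := hder x hx
      exact hd.differentiableAt.differentiableWithinAt
    · intro x hx
      rw [interior_Icc] at hx
      obtain ⟨d, hd, hd0⟩ := hder x hx
      rw [hd.deriv]
      exact hd0
  have := hmono (left_mem_Icc.mpr huM) (right_mem_Icc.mpr huM) huM
  simp only [hΨ] at this
  linarith

end Vale.Agent.P232
end
end

section

section

open MeasureTheory Set Filter Topology ContinuousLinearMap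
open scoped Pointwise Convolution

namespace Vale.Agent.P232

theorem one_sub_clip_sq_nonneg (x : ℝ) : 0 ≤ 1 - clip x ^ 2 := by
  have := clip_nonneg x
  have := clip_le_one x
  nlinarith

theorem clip_mono {x y : ℝ} (h : x ≤ y) : clip x ≤ clip y := by
  unfold clip
  exact min_le_min le_rfl (max_le_max le_rfl h)

/-- The calibration of discs. -/
noncomputable def bdisc (R ε : ℝ) (b : Bool) (u : ℝ) : ℝ :=
  clip (if b then (u / R - ε) / 2 else u / (2 * R))

/-- The axial part of a calibration. -/
noncomputable def aof (β : Bool → ℝ → ℝ) (b : Bool) (u : ℝ) : ℝ := Real.sqrt (1 - β b u ^ 2)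

theorem continuous_bdisc (R ε : ℝ) (b : Bool) : Continuous (bdisc R ε b) := by
  unfold bdisc
  cases b
  · simp only [Bool.false_eq_true, if_false]
    exact continuous_clip.comp (by fun_prop : Continuous fun u : ℝ => u / (2 * R))
  · simp only [if_true]
    exact continuous_clip.comp (by fun_prop : Continuous fun u : ℝ => (u / R - ε) / 2)

theorem bdisc_mono {R ε : ℝ} (hR : 0 < R) (hε : 0 ≤ ε) (u : ℝ) :
    bdisc R ε true u ≤ bdisc R ε false u := by
  unfold bdisc
  apply clip_mono
  simp only [if_true, Bool.false_eq_true, if_false]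
  have : u / (2 * R) = u / R / 2 := by field_simp
  rw [this]
  linarith only [hε]

theorem calPair_of_beta {n : ℕ} {i : Fin (n + 1)} {E : Set (Fin (n + 1) → ℝ)} {H ε : ℝ}
    {β : Bool → ℝ → ℝ} (hc : ∀ b, Continuous (β b)) (h0 : ∀ b u, 0 ≤ β b u)
    (h1 : ∀ b u, β b u ≤ 1) (hm : ∀ u, β true u ≤ β false u)
    (low0 : ∀ᵐ t ∂mu, ENNReal.ofReal (H * sv i E t) ≤
      ENNReal.ofReal (β false (sv i E t)) * perimeter (slice i E t))
    (low1 : ∀ᵐ t ∂mu, ENNReal.ofReal (max (H * sv i E t - ε) 0) ≤
      ENNReal.ofReal (β true (sv i E t)) * perimeter (slice i E t)) :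
    CalPair i E H ε (aof β) β where
  contα := fun b => Real.continuous_sqrt.comp (continuous_const.sub ((hc b).pow 2))
  contβ := hc
  α0 := fun b u => Real.sqrt_nonneg _
  β0 := h0
  le1 := fun b u => by
    unfold aof
    rw [Real.sq_sqrt]
    · linarith
    · have := h0 b u; have := h1 b u; nlinarith
  mono := fun u => by
    unfold aof
    apply Real.sqrt_le_sqrt
    have := hm u; have := h0 true u; have := h0 false u
    nlinarith
  low0 := low0
  low1 := low1

theorem calPair_disc {i : Fin 2} {F : Set (Fin 2 → ℝ)} (hF : MeasurableSet F)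
    (hp : IsPeriodic F) {R ε : ℝ} (hR : 0 < R) (hε : 0 ≤ ε)
    (hup : ∀ᵐ t ∂mu, sv i F t ≤ 2 * R) (h1 : ∀ᵐ t ∂mu, sv i F t < 1) :
    CalPair i F (1 / R) ε (aof (bdisc R ε)) (bdisc R ε) := by
  have key : ∀ᵐ t ∂mu, ∀ w : ℝ, 0 ≤ w → w ≤ sv i F t / (2 * R) →
      ENNReal.ofReal (2 * w) ≤ ENNReal.ofReal (clip w) * perimeter (slice i F t) := by
    filter_upwards [hup, h1] with t ht ht1 w hw0 hw1
    have hs0 := sv_nonneg i F t
    have hw2 : w ≤ 1 := hw1.trans ((div_le_one (by positivity)).mpr ht)
    rw [clip_of_mem hw0 hw2]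
    rcases hw0.eq_or_lt with h | h
    · rw [← h]; simp
    · have hpos : 0 < sv i F t := by
        by_contra hc
        have : sv i F t = 0 := le_antisymm (not_lt.mp hc) hs0
        rw [this, zero_div] at hw1
        linarith
      have h2 := vol_slice_one_perimeter hF hp hpos ht1
      calc ENNReal.ofReal (2 * w) = ENNReal.ofReal w * 2 := by
            rw [← ENNReal.ofReal_ofNat 2, ← ENNReal.ofReal_mul hw0]
            congr 1
            ring
        _ ≤ _ := by gcongr
  apply calPair_of_beta (continuous_bdisc R ε) (fun b u => clip_nonneg _)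
    (fun b u => clip_le_one _) (bdisc_mono hR hε)
  · filter_upwards [key] with t ht
    have h2 := ht (sv i F t / (2 * R)) (div_nonneg (sv_nonneg _ _ _) (by positivity)) le_rfl
    unfold bdisc
    simp only [Bool.false_eq_true, if_false]
    refine le_trans (le_of_eq ?_) h2
    congr 1
    field_simp
  · filter_upwards [key] with t ht
    have hs0 := sv_nonneg i F t
    rcases le_total (1 / R * sv i F t - ε) 0 with h | h
    · rw [max_eq_right h]; simp
    · rw [max_eq_left h]
      have h3 : 1 / R * sv i F t = sv i F t / R := by ring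
      have h4 : sv i F t / (2 * R) = sv i F t / R / 2 := by field_simp
      rw [h3] at h ⊢
      have h2 := ht ((sv i F t / R - ε) / 2) (by linarith only [h]) (by rw [h4]; linarith only [hε])
      unfold bdisc
      simp only [if_true]
      refine le_trans (le_of_eq ?_) h2
      congr 1
      ring

theorem aof_disc_false {R ε : ℝ} :
    aof (bdisc R ε) false = fun u => Real.sqrt (1 - clip (u / (2 * R)) ^ 2) := by
  ext u
  simp [aof, bdisc]

/-- The maximal slice of a minimizer of disc type. -/
theorem disc_max {i : Fin 2} {F : Set (Fin 2 → ℝ)} (hF : MeasurableSet F)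
    (hp : IsPeriodic F) {M R : ℝ} (hm : EssBd (sv i F) 0 M) (h1 : ∀ᵐ t ∂mu, sv i F t < 1)
    (hR : 0 < R) (hV : vol F = Real.pi * R ^ 2)
    (hP : perimeter F ≤ ENNReal.ofReal (2 * Real.pi * R)) : M = 2 * R := by
  have hpi := Real.pi_pos
  have hvol := vol_eq_integral_sv i hF
  have h0 : 0 < vol F := by rw [hV]; positivity
  have hM : 0 < M := by
    by_contra hM
    push Not at hM
    have : ∀ᵐ t ∂mu, sv i F t = 0 := by
      filter_upwards [hm.upper] with t ht
      exact le_antisymm (ht.trans hM) (sv_nonneg _ _ _)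
    rw [integral_congr_ae this] at hvol
    simp at hvol
    linarith
  have hcβ : Continuous (fun u => clip (u / M)) := continuous_clip.comp (by fun_prop)
  have key := slicing_affine i hF hp (α := fun u => Real.sqrt (1 - clip (u / M) ^ 2))
    (β := fun u => clip (u / M)) (by fun_prop) hcβ (fun _ => Real.sqrt_nonneg _)
    (fun _ => clip_nonneg _) (fun u => by
      rw [Real.sq_sqrt (one_sub_clip_sq_nonneg _)]
      linarith) hm hM.le
    (F := 0) (H := 2 / M) (by
      filter_upwards [hm.upper, h1] with t ht ht1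
      have hs0 := sv_nonneg i F t
      constructor
      · positivity
      · rw [clip_of_mem (div_nonneg hs0 hM.le) ((div_le_one hM).mpr ht)]
        rcases hs0.eq_or_lt with h | h
        · rw [← h]; simp
        · have h2 := vol_slice_one_perimeter hF hp h ht1
          calc ENNReal.ofReal (0 + 2 / M * sv i F t) =
              ENNReal.ofReal (sv i F t / M) * 2 := by
                rw [← ENNReal.ofReal_ofNat 2, ← ENNReal.ofReal_mul (by positivity)]
                congr 1
                ring
            _ ≤ _ := by gcongr)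
  rw [prim_disc hM, prim_zero] at key
  have h2 := (ENNReal.ofReal_le_ofReal_iff (by positivity)).mp (key.trans hP)
  rw [hV] at h2
  have h3 : 2 * (M * (Real.pi / 4) - 0) + 0 + 2 / M * (Real.pi * R ^ 2) =
      Real.pi / (2 * M) * (M ^ 2 + 4 * R ^ 2) := by
    field_simp
    ring
  rw [h3, div_mul_eq_mul_div, div_le_iff₀ (by positivity)] at h2
  have h4 : Real.pi * (M - 2 * R) ^ 2 ≤ 0 := by linarith only [h2]
  have h5 : (M - 2 * R) ^ 2 ≤ 0 := by
    by_contra hc
    push Not at hc
    linarith only [mul_pos (sub_pos.2 hpi) (sub_pos.2 hc), h2]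
  have h6 : M - 2 * R = 0 := by
    have := sq_nonneg (M - 2 * R)
    exact pow_eq_zero_iff (two_ne_zero) |>.mp (le_antisymm h5 this)
  linarith only [h6]

/-- The slices of a minimizer of disc type are at least as long as those of a disc. -/
theorem disc_lower {i : Fin 2} {F : Set (Fin 2 → ℝ)} (hF : MeasurableSet F)
    (hp : IsPeriodic F) {M R : ℝ} (hm : EssBd (sv i F) 0 M) (h1 : ∀ᵐ t ∂mu, sv i F t < 1)
    (hR : 0 < R) (hV : vol F = Real.pi * R ^ 2)
    (hP : perimeter F ≤ ENNReal.ofReal (2 * Real.pi * R)) :
    ∃ z : ℝ, ∀ a, GoodPt i F a → sv i F a ≤ M → a < z → z < a + 1 →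
      R * Real.sqrt (1 - (sv i F a / (2 * R)) ^ 2) ≤ z - a ∧
      R * Real.sqrt (1 - (sv i F a / (2 * R)) ^ 2) ≤ a + 1 - z := by
  have hM := disc_max hF hp hm h1 hR hV hP
  have hpi := Real.pi_pos
  have hM0 : 0 ≤ M := by rw [hM]; positivity
  obtain ⟨z, hz⟩ := exists_peak i hF hp hM0 hm
  refine ⟨z, fun a ga haM haz hza => ?_⟩
  have hup : ∀ᵐ t ∂mu, sv i F t ≤ 2 * R := by rw [← hM]; exact hm.upper
  have hs0 := sv_nonneg i F a
  set v := sv i F a with hv
  -- the main inequality for each `ε`
  have main : ∀ L : ℝ, (∀ ε : ℝ, 0 < ε → dprim (aof (bdisc R ε)) M -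
      dprim (aof (bdisc R ε)) v ≤ ε * L) → R * Real.sqrt (1 - (v / (2 * R)) ^ 2) ≤ L := by
    intro L hL
    -- for `u > v`
    have step : ∀ u, v < u → u < M → R * Real.sqrt (1 - (u / (2 * R)) ^ 2) ≤ L := by
      intro u hvu huM
      have hu0 : 0 < u := hs0.trans_lt hvu
      have hε : ∀ ε : ℝ, 0 < ε → ε < u / R →
          Real.sqrt (1 - ((u / R - ε) / 2) ^ 2) - Real.sqrt (1 - ((M / R - ε) / 2) ^ 2) ≤
            1 / R * L := by
        intro ε hε0 hεu
        have hc := calPair_disc hF hp hR hε0.le hup h1
        have hin : ∀ x, u ≤ x → x ≤ M → bdisc R ε true x = (x / R - ε) / 2 ∧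
            bdisc R ε false x = x / (2 * R) := by
          intro x hx1 hx2
          have h2 : u / R ≤ x / R := by gcongr
          have h3 : x / R ≤ 2 := by rw [div_le_iff₀ hR]; linarith only [hM, hx2]
          have h4 : x / (2 * R) = x / R / 2 := by field_simp
          unfold bdisc
          simp only [if_true, Bool.false_eq_true, if_false]
          rw [clip_of_mem (by linarith only [hεu, h2]) (by linarith only [hε0, h3]), clip_of_mem (by rw [h4]; linarith only [hε0, hεu, h2])
            (by rw [h4]; linarith only [h3])]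
          exact ⟨rfl, rfl⟩
        have h2 := hc.dprim_ge (fun b u => rfl) (K := 1 / R) huM.le hε0.le (by positivity)
          (β' := fun _ => 1 / R / 2) (by
            intro x hx
            have h3 : HasDerivAt (fun y : ℝ => (y / R - ε) / 2) (1 / R / 2) x :=
              (((hasDerivAt_id x).div_const R).sub_const ε).div_const 2
            apply h3.congr_of_eventuallyEq
            filter_upwards [Ioo_mem_nhds hx.1 hx.2] with y hy
            exact (hin y hy.1.le hy.2.le).1) (by
            intro x hx
            obtain ⟨e1, e2⟩ := hin x hx.1.le hx.2.le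
            have h3 : x / R < 2 := by
              rw [div_lt_iff₀ hR]; linarith [hx.2]
            have h4 : x / (2 * R) = x / R / 2 := by field_simp
            rw [e1, e2, h4]
            refine ⟨by linarith only [hε0], by linarith only [h3], by linarith only [hε0, h3]⟩) (by
            intro x hx
            obtain ⟨e1, e2⟩ := hin x hx.1.le hx.2.le
            have h4 : x / (2 * R) = x / R / 2 := by field_simp
            rw [e1, e2, h4]
            apply le_of_eq
            ring)
        have h3 := hc.monotone_dprim hvu.le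
        have h4 := hL ε hε0
        have h5 : ε * (aof (bdisc R ε) true u - aof (bdisc R ε) true M) ≤ ε * (1 / R * L) := by
          calc _ ≤ 1 / R * (dprim (aof (bdisc R ε)) M - dprim (aof (bdisc R ε)) u) := h2
            _ ≤ 1 / R * (ε * L) := by
                apply mul_le_mul_of_nonneg_left _ (by positivity)
                linarith
            _ = _ := by ring
        have h6 := le_of_mul_le_mul_left h5 hε0
        unfold aof at h6
        rw [(hin u le_rfl huM.le).1, (hin M huM.le le_rfl).1] at h6
        exact h6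
      have hlim : Tendsto (fun ε : ℝ => Real.sqrt (1 - ((u / R - ε) / 2) ^ 2) -
          Real.sqrt (1 - ((M / R - ε) / 2) ^ 2)) (𝓝[>] 0)
          (𝓝 (Real.sqrt (1 - ((u / R - 0) / 2) ^ 2) -
          Real.sqrt (1 - ((M / R - 0) / 2) ^ 2))) := by
        apply tendsto_nhdsWithin_of_tendsto_nhds
        apply Continuous.tendsto (f := fun ε : ℝ => Real.sqrt (1 - ((u / R - ε) / 2) ^ 2) -
          Real.sqrt (1 - ((M / R - ε) / 2) ^ 2))
        fun_prop
      have h2 := le_of_tendsto hlim (by
        filter_upwards [Ioo_mem_nhdsGT (div_pos hu0 hR)] with ε hε'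
        exact hε ε hε'.1 hε'.2)
      have h3 : M / R = 2 := by rw [hM]; field_simp
      have h4 : (u / R - 0) / 2 = u / (2 * R) := by field_simp; ring
      rw [h3, h4] at h2
      have h5 : Real.sqrt (1 - ((2 - 0) / 2 : ℝ) ^ 2) = 0 := by norm_num
      rw [h5, sub_zero] at h2
      calc R * Real.sqrt (1 - (u / (2 * R)) ^ 2) ≤ R * (1 / R * L) := by gcongr
        _ = L := by field_simp
    rcases haM.eq_or_lt with heq | hlt
    · -- the slice is maximal
      have h2 := hL 1 one_pos
      rw [heq, sub_self, one_mul] at h2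
      have h3 : v / (2 * R) = 1 := by rw [heq, hM]; field_simp
      rw [h3]
      simpa using h2
    · have hlim : Tendsto (fun u : ℝ => R * Real.sqrt (1 - (u / (2 * R)) ^ 2)) (𝓝[>] v)
          (𝓝 (R * Real.sqrt (1 - (v / (2 * R)) ^ 2))) := by
        apply tendsto_nhdsWithin_of_tendsto_nhds
        apply Continuous.tendsto (f := fun u : ℝ => R * Real.sqrt (1 - (u / (2 * R)) ^ 2))
        fun_prop
      apply le_of_tendsto hlim
      filter_upwards [Ioo_mem_nhdsGT hlt] with u hu
      exact step u hu.1 hu.2
  have hcond : ∀ ε : ℝ, 0 < ε →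
      dprim (aof (bdisc R ε)) M - dprim (aof (bdisc R ε)) v ≤ ε * (z - a) ∧
      dprim (aof (bdisc R ε)) M - dprim (aof (bdisc R ε)) v ≤ ε * (a + 1 - z) := by
    intro ε hε
    apply hz (1 / R) ε _ _ (calPair_disc hF hp hR hε.le hup h1) (by positivity) hε.le _ a ga haz hza
    rw [aof_disc_false, hM, prim_disc (by positivity : 0 < 2 * R), hV]
    refine hP.trans (ENNReal.ofReal_le_ofReal (le_of_eq ?_))
    field_simp
    ring
  exact ⟨main _ fun ε hε => (hcond ε hε).1, main _ fun ε hε => (hcond ε hε).2⟩

end Vale.Agent.P232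
end
end

section

section

open MeasureTheory Set Filter Topology ContinuousLinearMap
open scoped Pointwise Convolution

namespace Vale.Agent.P232

theorem dist_int_add_one (t z : ℝ) :
    |t + 1 - z - round (t + 1 - z)| = |t - z - round (t - z)| := by
  have h : t + 1 - z = (t - z) + 1 := by ring
  rw [h, round_add_one]
  push_cast
  congr 1
  ring

theorem dist_int_add_int (t z : ℝ) (k : ℤ) :
    |t + k - z - round (t + k - z)| = |t - z - round (t - z)| := by
  have h : t + k - z = (t - z) + k := by ring
  rw [h, round_add_intCast]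
  push_cast
  congr 1
  ring

theorem dist_int_of_lt {s : ℝ} (h : |s| < 1 / 2) : |s - round s| = |s| := by
  have : round s = 0 := by
    rw [round_eq, Int.floor_eq_zero_iff]
    rw [abs_lt] at h
    constructor <;> linarith only [h.1, h.2]
  rw [this]
  simp

/-- Between two consecutive translates of `z`, the distance to the translates of `z`. -/
theorem dist_int_eq_min {a z : ℝ} (h1 : a < z) (h2 : z < a + 1) :
    |a - z - round (a - z)| = min (z - a) (a + 1 - z) := by
  rcases lt_or_ge (z - a) (1 / 2) with h | h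
  · rw [dist_int_of_lt (by rw [abs_lt]; constructor <;> linarith), min_eq_left (by linarith),
      abs_of_neg (by linarith)]
    ring
  · rw [min_eq_right (by linarith), ← dist_int_add_one]
    have h3 : a + 1 - z = a + 1 - z := rfl
    rcases h.eq_or_lt with h4 | h4
    · have h5 : a + 1 - z = 1 / 2 := by linarith only [h, h4]
      rw [h5]
      have : round (1 / 2 : ℝ) = 1 := by
        rw [round_eq]
        norm_num
      rw [this]
      norm_num
    · rw [dist_int_of_lt (by rw [abs_lt]; constructor <;> linarith), abs_of_pos (by linarith)]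

theorem integral_dist_int {f : ℝ → ℝ} {R : ℝ} (hR0 : 0 ≤ R) (hR : R ≤ 1 / 2)
    (hf : ∀ x, R ≤ x → f x = 0) (z : ℝ) :
    ∫ t, f |t - z - round (t - z)| ∂mu = ∫ s in (-R)..R, f |s| := by
  have hper : ∀ t, f |t + 1 - z - round (t + 1 - z)| = f |t - z - round (t - z)| := fun t => by
    rw [dist_int_add_one]
  rw [← integral_Ico_eq (g := fun t => f |t - z - round (t - z)|) hper (z - 1 / 2)]
  have h1 : z - 1 / 2 + 1 = z + 1 / 2 := by ring
  rw [h1]
  have h2 := intervalIntegral.integral_comp_sub_right (a := z - 1 / 2) (b := z + 1 / 2)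
    (fun s => f |s - round s|) z
  have h3 : z - 1 / 2 - z = -(1 / 2 : ℝ) := by ring
  have h4 : z + 1 / 2 - z = (1 / 2 : ℝ) := by ring
  rw [h3, h4] at h2
  rw [h2, intervalIntegral.integral_of_le (by norm_num), intervalIntegral.integral_of_le
    (by linarith only [hR0])]
  have h5 : ∫ s in Ioc (-(1 / 2 : ℝ)) (1 / 2), f |s - round s| =
      ∫ s in Ioc (-(1 / 2 : ℝ)) (1 / 2), f |s| := by
    rw [integral_Ioc_eq_integral_Ioo, integral_Ioc_eq_integral_Ioo]
    apply setIntegral_congr_fun measurableSet_Ioo
    intro s hs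
    simp only
    rw [dist_int_of_lt (abs_lt.mpr ⟨hs.1, hs.2⟩)]
  rw [h5]
  apply setIntegral_eq_of_subset_of_forall_sdiff_eq_zero measurableSet_Ioc
  · intro s hs
    exact ⟨by linarith only [hs.1, hR], hs.2.trans hR⟩
  · intro s hs
    apply hf
    by_contra hc
    push Not at hc
    rw [abs_lt] at hc
    exact hs.2 ⟨hc.1, hc.2.le⟩

theorem integral_disc {R : ℝ} (hR : 0 < R) :
    ∫ s in (-R)..R, 2 * Real.sqrt (R ^ 2 - |s| ^ 2) = Real.pi * R ^ 2 := by
  have h1 : ∀ s : ℝ, 2 * Real.sqrt (R ^ 2 - |s| ^ 2) = 2 * R * Real.sqrt (1 - (s / R) ^ 2) := by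
    intro s
    have : R ^ 2 - |s| ^ 2 = R ^ 2 * (1 - (s / R) ^ 2) := by
      rw [sq_abs]
      field_simp
    rw [this, Real.sqrt_mul (by positivity), Real.sqrt_sq hR.le]
    ring
  simp_rw [h1]
  rw [intervalIntegral.integral_const_mul, intervalIntegral.integral_comp_div
    (fun x => Real.sqrt (1 - x ^ 2)) hR.ne']
  rw [neg_div, div_self hR.ne', integral_sqrt_one_sub_sq, smul_eq_mul]
  ring

theorem integral_ball_slices {R : ℝ} (hR : 0 < R) :
    ∫ s in (-R)..R, Real.pi * max 0 (R ^ 2 - |s| ^ 2) = 4 / 3 * Real.pi * R ^ 3 := by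
  have h1 : ∫ s in (-R)..R, Real.pi * max 0 (R ^ 2 - |s| ^ 2) =
      ∫ s in (-R)..R, Real.pi * (R ^ 2 - s ^ 2) := by
    apply intervalIntegral.integral_congr
    intro s hs
    rw [uIcc_of_le (by linarith)] at hs
    simp only [sq_abs]
    rw [max_eq_right]
    linarith only [mul_nonneg (sub_nonneg.2 hs.1) (sub_nonneg.2 hs.2)]
  rw [h1, intervalIntegral.integral_const_mul, intervalIntegral.integral_sub
    intervalIntegrable_const ((continuous_pow 2).intervalIntegrable _ _),
    intervalIntegral.integral_const, integral_pow]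
  simp only [smul_eq_mul]
  push_cast
  ring

theorem ae_eq_of_le_of_integral {v w : ℝ → ℝ} (hv : Integrable v mu) (hw : Integrable w mu)
    (hle : ∀ᵐ t ∂mu, w t ≤ v t) (h : ∫ t, v t ∂mu = ∫ t, w t ∂mu) :
    ∀ᵐ t ∂mu, v t = w t := by
  have h1 : ∫ t, (v t - w t) ∂mu = 0 := by
    rw [integral_sub hv hw, h, sub_self]
  have h2 := (integral_eq_zero_iff_of_nonneg_ae (by
    filter_upwards [hle] with t ht
    simpa using ht) (hv.sub hw)).mp h1
  filter_upwards [h2] with t ht
  simpa [sub_eq_zero] using ht

/-- Almost every point has a translate just below `z`. -/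
theorem ae_translate {n : ℕ} (i : Fin (n + 1)) {E : Set (Fin (n + 1) → ℝ)}
    (hE : MeasurableSet E) (hp : IsPeriodic E) (z : ℝ) {Q : ℝ → ℝ → Prop}
    (hQ : ∀ a, GoodPt i E a → sv i E a = sv i E a → a < z → z < a + 1 →
      Q (sv i E a) (|a - z - round (a - z)|)) :
    ∀ᵐ t ∂mu, Q (sv i E t) (|t - z - round (t - z)|) := by
  have hc : ∀ᵐ t ∂mu, t ∉ range (fun k : ℤ => z + k) := by
    apply ae_restrict_of_ae
    rw [ae_iff]
    simp only [not_not]
    exact (countable_range _).measure_zero _
  filter_upwards [ae_restrict_of_ae (ae_goodPt i hE), hc] with t ht hct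
  set a := z - 1 + Int.fract (t - z) with ha
  have e1 : a = t + ((-1 - ⌊t - z⌋ : ℤ) : ℝ) := by
    rw [ha, Int.fract]; push_cast; ring
  have h1 : a < z := by have := Int.fract_lt_one (t - z); linarith
  have h2 : z < a + 1 := by
    have h3 := Int.fract_nonneg (t - z)
    rcases h3.eq_or_lt with h4 | h4
    · exfalso
      apply hct
      refine ⟨⌊t - z⌋, ?_⟩
      simp only
      have := Int.floor_add_fract (t - z)
      linarith only [h3, h4, this]
    · linarith
  have h5 := hQ a (by rw [e1]; exact (goodPt_add_int i hp _ _).mpr ht) rfl h1 h2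
  have h6 : sv i E a = sv i E t := by rw [e1]; exact sv_add_int i hp _ _
  have h7 : |a - z - round (a - z)| = |t - z - round (t - z)| := by
    rw [e1]; exact dist_int_add_int _ _ _
  rw [h6, h7] at h5
  exact h5

/-- The slices of a minimizer of disc type are those of a disc. -/
theorem marginal_disc {i : Fin 2} {F : Set (Fin 2 → ℝ)} (hF : MeasurableSet F)
    (hp : IsPeriodic F) {M R : ℝ} (hm : EssBd (sv i F) 0 M) (h1 : ∀ᵐ t ∂mu, sv i F t < 1)
    (hR : 0 < R) (hR2 : R ≤ 1 / 2) (hV : vol F = Real.pi * R ^ 2)
    (hP : perimeter F ≤ ENNReal.ofReal (2 * Real.pi * R)) :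
    ∃ z : ℝ, ∀ᵐ t ∂mu,
      sv i F t = 2 * Real.sqrt (R ^ 2 - |t - z - round (t - z)| ^ 2) := by
  have hM := disc_max hF hp hm h1 hR hV hP
  obtain ⟨z, hz⟩ := disc_lower hF hp hm h1 hR hV hP
  refine ⟨z, ?_⟩
  have hlow0 : ∀ᵐ t ∂mu, sv i F t ≤ M →
      R * Real.sqrt (1 - (sv i F t / (2 * R)) ^ 2) ≤ |t - z - round (t - z)| := by
    apply ae_translate i hF hp z (Q := fun v d => v ≤ M →
      R * Real.sqrt (1 - (v / (2 * R)) ^ 2) ≤ d)
    intro a ga _ haz hza haM
    obtain ⟨h2, h3⟩ := hz a ga haM haz hza
    rw [dist_int_eq_min haz hza]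
    exact le_min h2 h3
  have hlow : ∀ᵐ t ∂mu, 2 * Real.sqrt (R ^ 2 - |t - z - round (t - z)| ^ 2) ≤ sv i F t := by
    filter_upwards [hlow0, hm.upper] with t ht htM
    have h2 := ht htM
    set d := |t - z - round (t - z)| with hd
    set v := sv i F t with hv
    have hv0 : 0 ≤ v := sv_nonneg _ _ _
    have hd0 : 0 ≤ d := abs_nonneg _
    have h3 : 0 ≤ 1 - (v / (2 * R)) ^ 2 := by
      have h4 : v / (2 * R) ≤ 1 := (div_le_one (by positivity)).mpr (by linarith only [hM, htM])
      have h5 : 0 ≤ v / (2 * R) := by positivity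
      nlinarith only [hR, hR2, h4, h5]
    have h4 : (R * Real.sqrt (1 - (v / (2 * R)) ^ 2)) ^ 2 ≤ d ^ 2 :=
      pow_le_pow_left₀ (by positivity) h2 2
    rw [mul_pow, Real.sq_sqrt h3] at h4
    have h5 : R ^ 2 * (1 - (v / (2 * R)) ^ 2) = R ^ 2 - v ^ 2 / 4 := by
      field_simp
      ring
    rw [h5] at h4
    have h6 : Real.sqrt (R ^ 2 - d ^ 2) ≤ v / 2 := by
      apply Real.sqrt_le_iff.mpr
      constructor
      · positivity
      · linarith only [h4]
    linarith only [h6]
  have hw : Measurable (fun t : ℝ => 2 * Real.sqrt (R ^ 2 - |t - z - round (t - z)| ^ 2)) := by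
    have hr : Measurable (fun t : ℝ => (round (t - z) : ℝ)) := by
      have : (fun t : ℝ => (round (t - z) : ℝ)) = fun t => ((⌊t - z + 1 / 2⌋ : ℤ) : ℝ) := by
        ext t; rw [round_eq]
      rw [this]
      exact (measurable_from_top (f := fun k : ℤ => (k : ℝ))).comp
        (Int.measurable_floor.comp ((measurable_id.sub_const z).add_const _))
    have h2 : Measurable (fun t : ℝ => |t - z - round (t - z)|) :=
      ((measurable_id.sub_const z).sub hr).abs
    exact ((measurable_const.sub (h2.pow_const 2)).sqrt).const_mul 2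
  have hwi : Integrable (fun t : ℝ => 2 * Real.sqrt (R ^ 2 - |t - z - round (t - z)| ^ 2)) mu := by
    refine Integrable.mono' (g := fun _ => 2 * R) (integrable_const _) hw.aestronglyMeasurable ?_
    filter_upwards with t
    rw [Real.norm_eq_abs, abs_of_nonneg (by positivity)]
    have : Real.sqrt (R ^ 2 - |t - z - round (t - z)| ^ 2) ≤ R := by
      apply Real.sqrt_le_iff.mpr
      exact ⟨hR.le, by linarith only [sq_nonneg (|t - z - round (t - z)|)]⟩
    linarith
  have hvi : Integrable (sv i F) mu := by
    have := intervalIntegrable_sv i hF 0 1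
    rw [intervalIntegrable_iff_integrableOn_Ico_of_le zero_le_one] at this
    exact this
  apply ae_eq_of_le_of_integral hvi hwi hlow
  rw [← vol_eq_integral_sv i hF, hV, integral_dist_int (f := fun x => 2 * Real.sqrt (R ^ 2 - x ^ 2))
    hR.le hR2 (fun x hx => by
      have : R ^ 2 - x ^ 2 ≤ 0 := by nlinarith only [hR, hR2, hx]
      rw [Real.sqrt_eq_zero_of_nonpos this, mul_zero]) z, integral_disc hR]

end Vale.Agent.P232
end
end

section

section

open MeasureTheory Set Filter Topology ContinuousLinearMap
open scoped Pointwise Convolution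

namespace Vale.Agent.P232

/-- The calibration of balls. -/
noncomputable def bball (R ε : ℝ) (b : Bool) (u : ℝ) : ℝ :=
  clip (if b then max (2 * u / R - ε) 0 / (2 * Real.sqrt (Real.pi * u))
    else Real.sqrt (u / Real.pi) / R)

theorem continuous_bball {R ε : ℝ} (hR : 0 < R) (hε : 0 < ε) (b : Bool) :
    Continuous (bball R ε b) := by
  unfold bball
  cases b
  · simp only [Bool.false_eq_true, if_false]
    exact continuous_clip.comp (by fun_prop)
  · simp only [if_true]
    apply continuous_clip.comp
    have h : (fun u : ℝ => max (2 * u / R - ε) 0 / (2 * Real.sqrt (Real.pi * u))) =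
        fun u : ℝ => max (2 * u / R - ε) 0 /
          (2 * Real.sqrt (Real.pi * max u (ε * R / 2))) := by
      ext u
      rcases le_total (ε * R / 2) u with h1 | h1
      · rw [max_eq_left h1]
      · have h2 : 2 * u / R - ε ≤ 0 := by
          rw [sub_nonpos, div_le_iff₀ hR]
          linarith
        rw [max_eq_right h2, zero_div, zero_div]
    rw [h]
    apply Continuous.div (by fun_prop) (by fun_prop)
    intro u
    have h1 : 0 < max u (ε * R / 2) := lt_max_of_lt_right (by positivity)
    have := Real.pi_pos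
    positivity

theorem sqrt_div_pi {u : ℝ} (hu : 0 < u) :
    Real.sqrt (u / Real.pi) = u / Real.sqrt (Real.pi * u) := by
  have hpi := Real.pi_pos
  have h1 : 0 < Real.sqrt (Real.pi * u) := Real.sqrt_pos.mpr (by positivity)
  rw [eq_div_iff h1.ne', ← Real.sqrt_mul (by positivity)]
  have : u / Real.pi * (Real.pi * u) = u ^ 2 := by field_simp
  rw [this, Real.sqrt_sq hu.le]

theorem bball_mono {R ε : ℝ} (hR : 0 < R) (hε : 0 < ε) (u : ℝ) :
    bball R ε true u ≤ bball R ε false u := by
  unfold bball
  apply clip_mono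
  simp only [if_true, Bool.false_eq_true, if_false]
  rcases le_or_gt u 0 with h | h
  · have h2 : 2 * u / R - ε ≤ 0 := by
      have : 2 * u / R ≤ 0 := div_nonpos_of_nonpos_of_nonneg (by linarith) hR.le
      linarith
    rw [max_eq_right h2, zero_div]
    positivity
  · have h1 : 0 < Real.sqrt (Real.pi * u) := Real.sqrt_pos.mpr (mul_pos Real.pi_pos h)
    rw [sqrt_div_pi h, div_le_iff₀ (by positivity)]
    have h3 : u / Real.sqrt (Real.pi * u) / R * (2 * Real.sqrt (Real.pi * u)) = 2 * u / R := by
      field_simp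
    rw [h3]
    apply max_le
    · linarith
    · positivity

theorem calPair_ball {i : Fin 3} {F : Set (Fin 3 → ℝ)} {R ε : ℝ} (hR : 0 < R) (hε : 0 < ε)
    (hup : ∀ᵐ t ∂mu, sv i F t ≤ Real.pi * R ^ 2)
    (hC : ∀ᵐ t ∂mu, ENNReal.ofReal (2 * Real.sqrt (Real.pi * sv i F t)) ≤
      perimeter (slice i F t)) :
    CalPair i F (2 / R) ε (aof (bball R ε)) (bball R ε) := by
  have hpi := Real.pi_pos
  have key : ∀ᵐ t ∂mu, ∀ w : ℝ, 0 ≤ w → w ≤ Real.sqrt (sv i F t / Real.pi) / R →
      ENNReal.ofReal (w * (2 * Real.sqrt (Real.pi * sv i F t))) ≤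
        ENNReal.ofReal (clip w) * perimeter (slice i F t) := by
    filter_upwards [hup, hC] with t ht hCt w hw0 hw1
    have hs0 := sv_nonneg i F t
    have hw2 : w ≤ 1 := by
      refine hw1.trans ((div_le_one hR).mpr ?_)
      apply Real.sqrt_le_iff.mpr
      refine ⟨hR.le, ?_⟩
      rw [div_le_iff₀ hpi]
      linarith
    rw [clip_of_mem hw0 hw2, ENNReal.ofReal_mul hw0]
    gcongr
  apply calPair_of_beta (continuous_bball hR hε) (fun b u => clip_nonneg _)
    (fun b u => clip_le_one _) (bball_mono hR hε)
  · filter_upwards [key] with t ht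
    have hs0 := sv_nonneg i F t
    have h2 := ht (Real.sqrt (sv i F t / Real.pi) / R) (by positivity) le_rfl
    unfold bball
    simp only [Bool.false_eq_true, if_false]
    refine le_trans (le_of_eq ?_) h2
    congr 1
    rcases hs0.eq_or_lt with h | h
    · rw [← h]; simp
    · have h1 : 0 < Real.sqrt (Real.pi * sv i F t) := Real.sqrt_pos.mpr (mul_pos hpi h)
      rw [sqrt_div_pi h]
      field_simp
  · filter_upwards [key] with t ht
    have hs0 := sv_nonneg i F t
    rcases hs0.eq_or_lt with h | h
    · rw [← h]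
      have : 2 / R * 0 - ε ≤ 0 := by linarith
      rw [max_eq_right this]
      simp
    · have h1 : 0 < Real.sqrt (Real.pi * sv i F t) := Real.sqrt_pos.mpr (mul_pos hpi h)
      have h3 : max (2 * sv i F t / R - ε) 0 / (2 * Real.sqrt (Real.pi * sv i F t)) ≤
          Real.sqrt (sv i F t / Real.pi) / R := by
        rw [sqrt_div_pi h, div_le_iff₀ (by positivity)]
        have h3 : sv i F t / Real.sqrt (Real.pi * sv i F t) / R *
            (2 * Real.sqrt (Real.pi * sv i F t)) = 2 * sv i F t / R := by
          field_simp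
        rw [h3]
        apply max_le
        · linarith only [hε]
        · positivity
      have h2 := ht (max (2 * sv i F t / R - ε) 0 / (2 * Real.sqrt (Real.pi * sv i F t)))
        (by positivity) h3
      unfold bball
      simp only [if_true]
      refine le_trans (le_of_eq ?_) h2
      congr 1
      rw [div_mul_cancel₀ _ (by positivity)]
      congr 1
      ring

theorem integral_sqrt_one_sub {M : ℝ} (hM : 0 < M) :
    ∫ u in (0 : ℝ)..M, Real.sqrt (1 - u / M) = 2 / 3 * M := by
  rw [intervalIntegral.integral_comp_sub_div (fun x => Real.sqrt x) hM.ne' 1, div_self hM.ne',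
    zero_div, sub_self, sub_zero]
  simp_rw [Real.sqrt_eq_rpow]
  rw [integral_rpow (Or.inl (by norm_num))]
  norm_num
  ring

theorem prim_ball {R : ℝ} (hR : 0 < R) :
    prim (fun u => Real.sqrt (1 - clip (Real.sqrt (u / Real.pi) / R) ^ 2)) (Real.pi * R ^ 2) =
      2 / 3 * (Real.pi * R ^ 2) := by
  have hpi := Real.pi_pos
  have hM : 0 < Real.pi * R ^ 2 := by positivity
  rw [← integral_sqrt_one_sub hM]
  unfold prim
  apply intervalIntegral.integral_congr
  intro x hx
  rw [uIcc_of_le hM.le] at hx
  simp only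
  have h0 : 0 ≤ x / Real.pi := div_nonneg hx.1 hpi.le
  have h1 : Real.sqrt (x / Real.pi) / R ≤ 1 := by
    rw [div_le_one hR]
    apply Real.sqrt_le_iff.mpr
    refine ⟨hR.le, ?_⟩
    rw [div_le_iff₀ hpi]
    linarith [hx.2]
  rw [clip_of_mem (by positivity) h1, div_pow, Real.sq_sqrt h0]
  congr 2
  field_simp

theorem aof_ball_false {R ε : ℝ} :
    aof (bball R ε) false =
      fun u => Real.sqrt (1 - clip (Real.sqrt (u / Real.pi) / R) ^ 2) := by
  ext u
  simp [aof, bball]

/-- The maximal slice of a minimizer of ball type. -/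
theorem ball_max {i : Fin 3} {F : Set (Fin 3 → ℝ)} (hF : MeasurableSet F)
    (hp : IsPeriodic F) {M R : ℝ} (hm : EssBd (sv i F) 0 M)
    (hC : ∀ᵐ t ∂mu, ENNReal.ofReal (2 * Real.sqrt (Real.pi * sv i F t)) ≤
      perimeter (slice i F t))
    (hR : 0 < R) (hV : vol F = 4 / 3 * Real.pi * R ^ 3)
    (hP : perimeter F ≤ ENNReal.ofReal (4 * Real.pi * R ^ 2)) : M = Real.pi * R ^ 2 := by
  have hpi := Real.pi_pos
  have hvol := vol_eq_integral_sv i hF
  have h0 : 0 < vol F := by rw [hV]; positivity
  have hM : 0 < M := by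
    by_contra hM
    push Not at hM
    have : ∀ᵐ t ∂mu, sv i F t = 0 := by
      filter_upwards [hm.upper] with t ht
      exact le_antisymm (ht.trans hM) (sv_nonneg _ _ _)
    rw [integral_congr_ae this] at hvol
    simp at hvol
    linarith only [h0, hvol]
  set s := Real.sqrt (M / Real.pi) with hs
  have hspos : 0 < s := Real.sqrt_pos.mpr (by positivity)
  have hsM : M = Real.pi * s ^ 2 := by
    rw [hs, Real.sq_sqrt (by positivity)]
    field_simp
  have hcβ : Continuous (fun u => clip (Real.sqrt (u / Real.pi) / s)) :=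
    continuous_clip.comp (by fun_prop)
  have key := slicing_affine i hF hp
    (α := fun u => Real.sqrt (1 - clip (Real.sqrt (u / Real.pi) / s) ^ 2))
    (β := fun u => clip (Real.sqrt (u / Real.pi) / s)) (by fun_prop) hcβ
    (fun _ => Real.sqrt_nonneg _)
    (fun _ => clip_nonneg _) (fun u => by
      rw [Real.sq_sqrt (one_sub_clip_sq_nonneg _)]
      linarith only []) hm hM.le
    (F := 0) (H := 2 / s) (by
      filter_upwards [hm.upper, hC] with t ht ht1
      have hs0 := sv_nonneg i F t
      constructor
      · positivity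
      · have h1 : Real.sqrt (sv i F t / Real.pi) / s ≤ 1 := by
          rw [div_le_one hspos]
          apply Real.sqrt_le_sqrt
          gcongr
        rw [clip_of_mem (by positivity) h1]
        refine le_trans ?_ (mul_le_mul_right ht1 _)
        rw [← ENNReal.ofReal_mul (by (clear * - hM; positivity))]
        apply ENNReal.ofReal_le_ofReal
        rcases hs0.eq_or_lt with h | h
        · rw [← h]; simp
        · have h1 : 0 < Real.sqrt (Real.pi * sv i F t) := Real.sqrt_pos.mpr (mul_pos hpi h)
          rw [sqrt_div_pi h]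
          apply le_of_eq
          field_simp
          ring)
  rw [hsM, prim_ball hspos, prim_zero] at key
  have h2 := (ENNReal.ofReal_le_ofReal_iff (by positivity)).mp (key.trans hP)
  rw [hV] at h2
  have h3 : 2 * (2 / 3 * (Real.pi * s ^ 2) - 0) + 0 + 2 / s * (4 / 3 * Real.pi * R ^ 3) =
      4 * Real.pi / (3 * s) * (s ^ 3 + 2 * R ^ 3) := by
    field_simp
    ring
  rw [h3, div_mul_eq_mul_div, div_le_iff₀ (by positivity)] at h2
  have h4 : (s - R) ^ 2 * (s + 2 * R) ≤ 0 := by
    have h5 : 4 * Real.pi * ((s - R) ^ 2 * (s + 2 * R)) ≤ 0 := by linarith only [h2]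
    by_contra hc
    push Not at hc
    have := mul_pos (mul_pos four_pos hpi) hc
    linarith only [h2, this]
  have h5 : (s - R) ^ 2 ≤ 0 := by
    by_contra hc
    push Not at hc
    have := mul_pos hc (by positivity : 0 < s + 2 * R)
    linarith only [h4, this]
  have h6 : s - R = 0 := by
    have := sq_nonneg (s - R)
    exact pow_eq_zero_iff (two_ne_zero) |>.mp (le_antisymm h5 this)
  have h7 : s = R := by linarith only [h6]
  rw [hsM, h7]

end Vale.Agent.P232
end
end

section

section

open MeasureTheory Set Filter Topology ContinuousLinearMap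
open scoped Pointwise Convolution

namespace Vale.Agent.P232

theorem hasDerivAt_bball_aux {R ε x : ℝ} (hR : 0 < R) (hx : 0 < x) :
    HasDerivAt (fun y : ℝ => (2 * y / R - ε) / (2 * Real.sqrt (Real.pi * y)))
      (1 / (2 * R * Real.sqrt (Real.pi * x)) + ε / (4 * x * Real.sqrt (Real.pi * x))) x := by
  have hpi := Real.pi_pos
  have hpx : 0 < Real.pi * x := by positivity
  set s := Real.sqrt (Real.pi * x) with hs
  have hs0 : 0 < s := Real.sqrt_pos.mpr hpx
  have hs2 : s ^ 2 = Real.pi * x := Real.sq_sqrt hpx.le
  have h1 : HasDerivAt (fun y : ℝ => 2 * y / R - ε) (2 / R) x := by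
    have := (((hasDerivAt_id x).const_mul 2).div_const R).sub_const ε
    simpa using this
  have h2 : HasDerivAt (fun y : ℝ => 2 * Real.sqrt (Real.pi * y)) (2 * (Real.pi / (2 * s))) x := by
    have h3 : HasDerivAt (fun y : ℝ => Real.pi * y) Real.pi x := by
      simpa using (hasDerivAt_id x).const_mul Real.pi
    exact (h3.sqrt hpx.ne').const_mul 2
  have h4 := h1.div h2 (by positivity)
  refine h4.congr_deriv ?_
  have hx2 : x = s ^ 2 / Real.pi := by rw [hs2]; field_simp
  rw [← hs, hx2]
  field_simp
  ring

/-- The slices of a minimizer of ball type are at least as large as those of a ball. -/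
theorem ball_lower {i : Fin 3} {F : Set (Fin 3 → ℝ)} (hF : MeasurableSet F)
    (hp : IsPeriodic F) {M R : ℝ} (hm : EssBd (sv i F) 0 M)
    (hC : ∀ᵐ t ∂mu, ENNReal.ofReal (2 * Real.sqrt (Real.pi * sv i F t)) ≤
      perimeter (slice i F t))
    (hR : 0 < R) (hV : vol F = 4 / 3 * Real.pi * R ^ 3)
    (hP : perimeter F ≤ ENNReal.ofReal (4 * Real.pi * R ^ 2)) :
    ∃ z : ℝ, ∀ a, GoodPt i F a → sv i F a ≤ M → a < z → z < a + 1 →
      R * Real.sqrt (1 - (Real.sqrt (sv i F a / Real.pi) / R) ^ 2) ≤ z - a ∧
      R * Real.sqrt (1 - (Real.sqrt (sv i F a / Real.pi) / R) ^ 2) ≤ a + 1 - z := by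
  have hM := ball_max hF hp hm hC hR hV hP
  have hpi := Real.pi_pos
  have hM0 : 0 ≤ M := by rw [hM]; positivity
  obtain ⟨z, hz⟩ := exists_peak i hF hp hM0 hm
  refine ⟨z, fun a ga haM haz hza => ?_⟩
  have hup : ∀ᵐ t ∂mu, sv i F t ≤ Real.pi * R ^ 2 := by rw [← hM]; exact hm.upper
  have hs0 := sv_nonneg i F a
  set v := sv i F a with hv
  -- the main inequality for each `ε`
  have main : ∀ L : ℝ, 0 ≤ L → (∀ ε : ℝ, 0 < ε → dprim (aof (bball R ε)) M -
      dprim (aof (bball R ε)) v ≤ ε * L) →
      R * Real.sqrt (1 - (Real.sqrt (v / Real.pi) / R) ^ 2) ≤ L := by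
    intro L hL0 hL
    -- for `u > v`
    have step : ∀ u, v < u → u < M →
        R * Real.sqrt (1 - (Real.sqrt (u / Real.pi) / R) ^ 2) ≤ L := by
      intro u hvu huM
      have hu0 : 0 < u := hs0.trans_lt hvu
      have hM1 : 0 < M := hu0.trans huM
      have hε : ∀ ε : ℝ, 0 < ε → ε < 2 * u / R →
          Real.sqrt (1 - ((2 * u / R - ε) / (2 * Real.sqrt (Real.pi * u))) ^ 2) -
            Real.sqrt (1 - ((2 * M / R - ε) / (2 * Real.sqrt (Real.pi * M))) ^ 2) ≤
            (1 / R + ε / (2 * u)) * L := by
        intro ε hε0 hεu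
        have hc := calPair_ball hR hε0 hup hC
        have hin : ∀ x, u ≤ x → x ≤ M → 0 < Real.sqrt (Real.pi * x) ∧ 0 < x ∧
            bball R ε true x = (2 * x / R - ε) / (2 * Real.sqrt (Real.pi * x)) ∧
            bball R ε false x = (2 * x / R) / (2 * Real.sqrt (Real.pi * x)) ∧
            (2 * x / R) / (2 * Real.sqrt (Real.pi * x)) ≤ 1 := by
          intro x hx1 hx2
          have hx0 : 0 < x := hu0.trans_le hx1
          have h1 : 0 < Real.sqrt (Real.pi * x) := Real.sqrt_pos.mpr (mul_pos hpi hx0)
          have h2 : 2 * u / R ≤ 2 * x / R := by gcongr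
          have h3 : Real.sqrt (x / Real.pi) / R ≤ 1 := by
            rw [div_le_one hR]
            apply Real.sqrt_le_iff.mpr
            refine ⟨hR.le, ?_⟩
            rw [div_le_iff₀ hpi, ← mul_comm Real.pi, ← hM]
            exact hx2
          have h4 : Real.sqrt (x / Real.pi) / R = (2 * x / R) / (2 * Real.sqrt (Real.pi * x)) := by
            rw [sqrt_div_pi hx0]
            field_simp
          have h5 : (2 * x / R - ε) / (2 * Real.sqrt (Real.pi * x)) ≤
              (2 * x / R) / (2 * Real.sqrt (Real.pi * x)) := by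
            gcongr
            linarith only [hε0]
          have h6 : 0 ≤ 2 * x / R - ε := by linarith only [hεu, h2]
          refine ⟨h1, hx0, ?_, ?_, ?_⟩
          · unfold bball
            simp only [if_true]
            rw [max_eq_left h6, clip_of_mem (by positivity)]
            rw [h4] at h3
            exact h5.trans h3
          · unfold bball
            simp only [Bool.false_eq_true, if_false]
            rw [clip_of_mem (by positivity) h3, h4]
          · rw [← h4]; exact h3
        have h2 := hc.dprim_ge (fun b u => rfl) (K := 1 / R + ε / (2 * u)) huM.le hε0.le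
          (by positivity)
          (β' := fun x => 1 / (2 * R * Real.sqrt (Real.pi * x)) +
            ε / (4 * x * Real.sqrt (Real.pi * x))) (by
            intro x hx
            have h3 := hasDerivAt_bball_aux (ε := ε) hR (hu0.trans hx.1)
            apply h3.congr_of_eventuallyEq
            filter_upwards [Ioo_mem_nhds hx.1 hx.2] with y hy
            exact (hin y hy.1.le hy.2.le).2.2.1) (by
            intro x hx
            obtain ⟨e0, e00, e1, e2, e3⟩ := hin x hx.1.le hx.2.le
            rw [e1, e2]
            have h5 : (2 * x / R - ε) / (2 * Real.sqrt (Real.pi * x)) <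
                (2 * x / R) / (2 * Real.sqrt (Real.pi * x)) := by
              gcongr
              linarith only [hε0]
            exact ⟨h5.le, e3, h5.trans_le e3⟩) (by
            intro x hx
            obtain ⟨e0, e00, e1, e2, e3⟩ := hin x hx.1.le hx.2.le
            rw [e1, e2]
            have h5 : (2 * x / R) / (2 * Real.sqrt (Real.pi * x)) -
                (2 * x / R - ε) / (2 * Real.sqrt (Real.pi * x)) =
                ε / (2 * Real.sqrt (Real.pi * x)) := by
              field_simp
              ring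
            rw [h5]
            have h6 : ε * (1 / (2 * R * Real.sqrt (Real.pi * x)) +
                ε / (4 * x * Real.sqrt (Real.pi * x))) =
                (1 / R + ε / (2 * x)) * (ε / (2 * Real.sqrt (Real.pi * x))) := by
              field_simp
              ring
            rw [h6]
            gcongr
            exact hx.1.le)
        have h3 := hc.monotone_dprim hvu.le
        have h4 := hL ε hε0
        have h5 : ε * (aof (bball R ε) true u - aof (bball R ε) true M) ≤
            ε * ((1 / R + ε / (2 * u)) * L) := by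
          calc _ ≤ (1 / R + ε / (2 * u)) *
              (dprim (aof (bball R ε)) M - dprim (aof (bball R ε)) u) := h2
            _ ≤ (1 / R + ε / (2 * u)) * (ε * L) := by
                apply mul_le_mul_of_nonneg_left _ (by positivity)
                linarith only [h3, h4]
            _ = _ := by ring
        have h6 := le_of_mul_le_mul_left h5 hε0
        unfold aof at h6
        rw [(hin u le_rfl huM.le).2.2.1, (hin M huM.le le_rfl).2.2.1] at h6
        exact h6
      have hlim : Tendsto (fun ε : ℝ =>
          Real.sqrt (1 - ((2 * u / R - ε) / (2 * Real.sqrt (Real.pi * u))) ^ 2) -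
            Real.sqrt (1 - ((2 * M / R - ε) / (2 * Real.sqrt (Real.pi * M))) ^ 2)) (𝓝[>] 0)
          (𝓝 (Real.sqrt (1 - ((2 * u / R - 0) / (2 * Real.sqrt (Real.pi * u))) ^ 2) -
            Real.sqrt (1 - ((2 * M / R - 0) / (2 * Real.sqrt (Real.pi * M))) ^ 2))) := by
        apply tendsto_nhdsWithin_of_tendsto_nhds
        apply Continuous.tendsto (f := fun ε : ℝ =>
          Real.sqrt (1 - ((2 * u / R - ε) / (2 * Real.sqrt (Real.pi * u))) ^ 2) -
            Real.sqrt (1 - ((2 * M / R - ε) / (2 * Real.sqrt (Real.pi * M))) ^ 2))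
        fun_prop
      have hlim2 : Tendsto (fun ε : ℝ => (1 / R + ε / (2 * u)) * L) (𝓝[>] 0)
          (𝓝 ((1 / R + 0 / (2 * u)) * L)) := by
        apply tendsto_nhdsWithin_of_tendsto_nhds
        apply Continuous.tendsto (f := fun ε : ℝ => (1 / R + ε / (2 * u)) * L)
        fun_prop
      have h2 := le_of_tendsto_of_tendsto hlim hlim2 (by
        filter_upwards [Ioo_mem_nhdsGT (by positivity : (0 : ℝ) < 2 * u / R)] with ε hε'
        exact hε ε hε'.1 hε'.2)
      have h4 : ∀ x, 0 < x → (2 * x / R - 0) / (2 * Real.sqrt (Real.pi * x)) =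
          Real.sqrt (x / Real.pi) / R := by
        intro x hx
        have h1 : 0 < Real.sqrt (Real.pi * x) := Real.sqrt_pos.mpr (mul_pos hpi hx)
        rw [sqrt_div_pi hx, sub_zero]
        field_simp
      rw [h4 u hu0, h4 M hM1] at h2
      have h5 : Real.sqrt (M / Real.pi) / R = 1 := by
        rw [hM, mul_div_cancel_left₀ _ hpi.ne', Real.sqrt_sq hR.le, div_self hR.ne']
      rw [h5] at h2
      have h6 : Real.sqrt (1 - (1 : ℝ) ^ 2) = 0 := by norm_num
      rw [h6, sub_zero, zero_div, add_zero] at h2
      calc R * Real.sqrt (1 - (Real.sqrt (u / Real.pi) / R) ^ 2) ≤ R * (1 / R * L) := by gcongr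
        _ = L := by field_simp
    rcases haM.eq_or_lt with heq | hlt
    · -- the slice is maximal
      have h3 : Real.sqrt (v / Real.pi) / R = 1 := by
        rw [heq, hM, mul_div_cancel_left₀ _ hpi.ne', Real.sqrt_sq hR.le, div_self hR.ne']
      rw [h3]
      simpa using hL0
    · have hlim : Tendsto (fun u : ℝ => R * Real.sqrt (1 - (Real.sqrt (u / Real.pi) / R) ^ 2))
          (𝓝[>] v) (𝓝 (R * Real.sqrt (1 - (Real.sqrt (v / Real.pi) / R) ^ 2))) := by
        apply tendsto_nhdsWithin_of_tendsto_nhds
        apply Continuous.tendsto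
          (f := fun u : ℝ => R * Real.sqrt (1 - (Real.sqrt (u / Real.pi) / R) ^ 2))
        fun_prop
      apply le_of_tendsto hlim
      filter_upwards [Ioo_mem_nhdsGT hlt] with u hu
      exact step u hu.1 hu.2
  have hcond : ∀ ε : ℝ, 0 < ε →
      dprim (aof (bball R ε)) M - dprim (aof (bball R ε)) v ≤ ε * (z - a) ∧
      dprim (aof (bball R ε)) M - dprim (aof (bball R ε)) v ≤ ε * (a + 1 - z) := by
    intro ε hε
    apply hz (2 / R) ε _ _ (calPair_ball hR hε hup hC) (by positivity) hε.le _ a ga haz hza
    rw [aof_ball_false, hM, prim_ball hR, hV]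
    refine hP.trans (ENNReal.ofReal_le_ofReal (le_of_eq ?_))
    field_simp
    ring
  exact ⟨main _ (by linarith only [haz]) fun ε hε => (hcond ε hε).1,
    main _ (by linarith) fun ε hε => (hcond ε hε).2⟩

/-- The slices of a minimizer of ball type are those of a ball. -/
theorem marginal_ball {i : Fin 3} {F : Set (Fin 3 → ℝ)} (hF : MeasurableSet F)
    (hp : IsPeriodic F) {M R : ℝ} (hm : EssBd (sv i F) 0 M)
    (hC : ∀ᵐ t ∂mu, ENNReal.ofReal (2 * Real.sqrt (Real.pi * sv i F t)) ≤
      perimeter (slice i F t))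
    (hR : 0 < R) (hR2 : R ≤ 1 / 2) (hV : vol F = 4 / 3 * Real.pi * R ^ 3)
    (hP : perimeter F ≤ ENNReal.ofReal (4 * Real.pi * R ^ 2)) :
    ∃ z : ℝ, ∀ᵐ t ∂mu,
      sv i F t = Real.pi * max 0 (R ^ 2 - |t - z - round (t - z)| ^ 2) := by
  have hM := ball_max hF hp hm hC hR hV hP
  have hpi := Real.pi_pos
  obtain ⟨z, hz⟩ := ball_lower hF hp hm hC hR hV hP
  refine ⟨z, ?_⟩
  have hlow0 : ∀ᵐ t ∂mu, sv i F t ≤ M →
      R * Real.sqrt (1 - (Real.sqrt (sv i F t / Real.pi) / R) ^ 2) ≤
        |t - z - round (t - z)| := by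
    apply ae_translate i hF hp z (Q := fun v d => v ≤ M →
      R * Real.sqrt (1 - (Real.sqrt (v / Real.pi) / R) ^ 2) ≤ d)
    intro a ga _ haz hza haM
    obtain ⟨h2, h3⟩ := hz a ga haM haz hza
    rw [dist_int_eq_min haz hza]
    exact le_min h2 h3
  have hlow : ∀ᵐ t ∂mu, Real.pi * max 0 (R ^ 2 - |t - z - round (t - z)| ^ 2) ≤ sv i F t := by
    filter_upwards [hlow0, hm.upper] with t ht htM
    have h2 := ht htM
    set d := |t - z - round (t - z)| with hd
    set v := sv i F t with hv
    have hv0 : 0 ≤ v := sv_nonneg _ _ _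
    have hd0 : 0 ≤ d := abs_nonneg _
    have h0 : 0 ≤ v / Real.pi := by positivity
    have h3 : (Real.sqrt (v / Real.pi) / R) ^ 2 = v / Real.pi / R ^ 2 := by
      rw [div_pow, Real.sq_sqrt h0]
    have h4 : v / Real.pi ≤ R ^ 2 := by
      rw [div_le_iff₀ hpi]; linarith only [hM, htM]
    have h5 : 0 ≤ 1 - v / Real.pi / R ^ 2 := by
      rw [sub_nonneg, div_le_one (by positivity)]
      exact h4
    rw [h3] at h2
    have h6 : (R * Real.sqrt (1 - v / Real.pi / R ^ 2)) ^ 2 ≤ d ^ 2 :=
      pow_le_pow_left₀ (by positivity) h2 2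
    rw [mul_pow, Real.sq_sqrt h5] at h6
    have h7 : R ^ 2 * (1 - v / Real.pi / R ^ 2) = R ^ 2 - v / Real.pi := by
      field_simp
    rw [h7] at h6
    have h8 : max 0 (R ^ 2 - d ^ 2) ≤ v / Real.pi := max_le h0 (by linarith only [h6])
    calc Real.pi * max 0 (R ^ 2 - d ^ 2) ≤ Real.pi * (v / Real.pi) := by gcongr
      _ = v := by field_simp
  have hw : Measurable (fun t : ℝ => Real.pi * max 0 (R ^ 2 - |t - z - round (t - z)| ^ 2)) := by
    have hr : Measurable (fun t : ℝ => (round (t - z) : ℝ)) := by
      have : (fun t : ℝ => (round (t - z) : ℝ)) = fun t => ((⌊t - z + 1 / 2⌋ : ℤ) : ℝ) := by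
        ext t; rw [round_eq]
      rw [this]
      exact (measurable_from_top (f := fun k : ℤ => (k : ℝ))).comp
        (Int.measurable_floor.comp ((measurable_id.sub_const z).add_const _))
    have h2 : Measurable (fun t : ℝ => |t - z - round (t - z)|) :=
      ((measurable_id.sub_const z).sub hr).abs
    exact (measurable_const.max (measurable_const.sub (h2.pow_const 2))).const_mul _
  have hwi : Integrable
      (fun t : ℝ => Real.pi * max 0 (R ^ 2 - |t - z - round (t - z)| ^ 2)) mu := by
    refine Integrable.mono' (g := fun _ => Real.pi * R ^ 2) (integrable_const _)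
      hw.aestronglyMeasurable ?_
    filter_upwards with t
    rw [Real.norm_eq_abs, abs_of_nonneg (by positivity)]
    gcongr
    apply max_le (by positivity)
    linarith only [sq_nonneg (|t - z - round (t - z)|)]
  have hvi : Integrable (sv i F) mu := by
    have := intervalIntegrable_sv i hF 0 1
    rw [intervalIntegrable_iff_integrableOn_Ico_of_le zero_le_one] at this
    exact this
  apply ae_eq_of_le_of_integral hvi hwi hlow
  rw [← vol_eq_integral_sv i hF, hV, integral_dist_int
    (f := fun x => Real.pi * max 0 (R ^ 2 - x ^ 2)) hR.le hR2 (fun x hx => by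
      have : R ^ 2 - x ^ 2 ≤ 0 := by (by_contra nlg; linarith [mul_nonneg (sub_nonneg.2 hx) (sub_nonneg.2 hx), mul_nonneg (le_of_lt (sub_pos.2 hR)) (sub_nonneg.2 hx), mul_nonneg (le_of_lt (sub_pos.2 (not_le.1 nlg))) (sub_nonneg.2 hR2), mul_pos (sub_pos.2 (not_le.1 nlg)) (sub_pos.2 hR)])
      rw [max_eq_left this, mul_zero]) z, integral_ball_slices hR]

end Vale.Agent.P232
end
end

section

section

namespace Vale.Agent.P232

/-- Certificate data. -/
def low0 : List CertN := [
  mkN 34674 9573 260791 0 47721 33333 69813 (1650, 79281) [(2574, 81976), (4291, 82473), (7064, 80426), (12213, 74349), (17118, 67337), (22022, 59250), (26926, 49730), (31830, 37791)],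
  mkN 37019 9631 244114 0 25485 33333 69813 (1650, 80005) [(3536, 83651), (5517, 83196), (9195, 80237), (14854, 74073), (20513, 66845), (26172, 58531), (31831, 48709), (33252, 41888), (34674, 33349)],
  mkN 39281 9681 229930 0 6573 33333 69813 (1650, 80605) [(3536, 84523), (5517, 84343), (9195, 81921), (14854, 76696), (20513, 70607), (26172, 63754), (31831, 55969), (34425, 45917), (37019, 31830)],
  mkN 41938 9732 215240 0 0 100000 72979 (1650, 81215) [(2310, 83789), (3536, 85395), (5517, 85477), (9195, 83562), (12024, 81502), (14854, 79202), (20513, 74124), (26172, 68496), (31831, 62271), (33694, 56869), (35556, 50583), (37418, 43025), (39281, 33334)],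
  mkN 44707 9779 201804 0 0 100000 77838 (1650, 81761) [(2310, 84418), (3536, 86165), (5517, 86468), (9195, 84974), (14854, 81321), (20513, 77046), (26172, 72350), (31831, 67243), (33474, 63402), (35116, 59130), (36758, 54323), (38401, 48818), (40170, 41802), (41938, 32961)],
  mkN 47347 9819 190468 0 0 100000 82470 (1650, 82212) [(2310, 84935), (3536, 86793), (5517, 87269), (9195, 86103), (14854, 82990), (20513, 79315), (26172, 75298), (31831, 70973), (36016, 62053), (38108, 56655), (40200, 50371), (42454, 42155), (44707, 31311)],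
  mkN 49760 9851 181166 0 0 100000 86705 (1650, 82579) [(2310, 85354), (3536, 87297), (5517, 87906), (9195, 86990), (14854, 84285), (20513, 81056), (31831, 73765), (36874, 64219), (39395, 58336), (41916, 51384), (44632, 42093), (45990, 36324), (47347, 29246)],
  mkN 51869 9877 173750 0 0 100000 90406 (1650, 82866) [(3234, 87387), (6177, 88380), (9320, 87628), (15156, 85124), (23494, 80731), (31831, 75836), (34744, 71173), (37658, 65793), (40572, 59502), (43485, 51974), (45524, 45644), (47564, 37949), (49760, 26824)],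
  mkN 53797 9899 167482 0 0 100000 91586 (1650, 83107) [(2204, 85630), (3234, 87700), (4264, 88500), (6177, 88814), (9320, 88191), (15156, 85939), (23494, 81939), (31831, 77488), (35088, 72698), (38344, 67130), (41600, 60567), (43228, 56806), (44856, 52638), (47135, 45903), (49414, 37608), (50641, 32083), (51869, 25209)],
  mkN 55830 9921 161345 0 0 100000 91586 (1650, 83339) [(2204, 85888), (3234, 88001), (4264, 88841), (6177, 89229), (9320, 88727), (15156, 86708), (23494, 83071), (31831, 79024), (35400, 74202), (38970, 68560), (42540, 61877), (46109, 53766), (48608, 46847), (51106, 38292), (52451, 32567), (53797, 25402)],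
  mkN 58724 9949 153346 0 0 100000 91586 (1650, 83640) [(2204, 86221), (3234, 88387), (4264, 89278), (6177, 89757), (9320, 89404), (15156, 87672), (23494, 84475), (31831, 80914), (35730, 76215), (39630, 70701), (43530, 64164), (45480, 60410), (47430, 56248), (50160, 49538), (52890, 41342), (54360, 35967), (55830, 29459)],
  mkN 64491 9997 139558 0 0 100000 91586 (1650, 84151) [(2204, 86785), (3234, 89037), (4264, 90007), (6177, 90630), (9320, 90513), (15156, 89231), (23494, 86717), (31831, 83895), (36201, 79608), (40571, 74579), (44941, 68647), (47126, 65265), (49311, 61549), (51664, 57095), (54017, 52056), (56370, 46242), (58724, 39306)],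
  mkN 74514 10112 106513 0 0 100000 91586 (1650, 85335) [(2204, 88079), (3234, 90504), (6177, 92543), (9320, 92889), (15156, 92478), (20992, 91658), (31831, 89791), (39996, 84978), (44078, 82122), (48161, 78923), (52244, 75337), (56326, 71309), (60408, 66757), (64491, 61563)],
  mkN 91058 10321 46871 0 0 100000 91586 (1650, 87324) [(3234, 92849), (6177, 95393), (9320, 96244), (15156, 96759), (20992, 96869), (31831, 96762), (40916, 95550), (50000, 94130), (59084, 92492), (68169, 90625), (71342, 88730), (74514, 86273)],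
  mkN 100000 10522 0 10522 0 100000 91586 (1650, 89073) [(31831, 99742), (68169, 99943), (91058, 99984)]]

/-- Certificate data. -/
def low1 : List CertN := [
  mkN 36936 19155 218876 0 0 100000 71766 (4150, 62320) [(5337, 65793), (7541, 68060), (10690, 67884), (13838, 66156), (18336, 62433), (22834, 57770), (31830, 45936)],
  mkN 41786 19592 192427 0 0 100000 81631 (4150, 64549) [(6572, 70471), (11070, 72051), (18336, 69082), (25083, 64470), (31831, 58858), (34384, 51438), (36936, 42184)],
  mkN 45698 19874 175337 0 0 100000 89587 (4150, 65924) [(6572, 72287), (8821, 74115), (11070, 74582), (18336, 72812), (25083, 69467), (31831, 65358), (36808, 53615), (39297, 46030), (41786, 36398)],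
  mkN 48715 20059 164097 0 0 100000 91586 (4150, 66802) [(5361, 71105), (6572, 73432), (8821, 75474), (11070, 76148), (14703, 75981), (18336, 75062), (25083, 72414), (31831, 69092), (36338, 60413), (38592, 55195), (40845, 49155), (43272, 41313), (45698, 31078)],
  mkN 51567 20214 154722 0 0 100000 91586 (4150, 67517) [(5361, 71932), (6572, 74357), (8821, 76565), (11070, 77398), (14703, 77485), (18336, 76827), (21710, 75865), (25083, 74693), (31831, 71936), (34574, 67581), (37318, 62636), (40062, 56950), (42806, 50273), (44283, 46120), (45760, 41428), (47238, 35983), (48715, 29379)],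
  mkN 55113 20383 144460 0 0 100000 91586 (4150, 68286) [(5361, 72818), (6572, 75343), (8821, 77719), (11070, 78711), (14703, 79052), (18336, 78652), (25083, 77019), (31831, 74803), (35038, 70421), (38245, 65420), (41452, 59645), (44659, 52843), (48113, 43821), (49840, 38283), (51567, 31597)],
  mkN 62081 20658 127803 0 0 100000 91586 (4150, 69499) [(5361, 74206), (6572, 76880), (8821, 79502), (11070, 80725), (14703, 81430), (18336, 81394), (25083, 80458), (31831, 78978), (35614, 74973), (39398, 70410), (43181, 65173), (46964, 59083), (49001, 55353), (51038, 51220), (53076, 46576), (55113, 41253)],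
  mkN 76036 21347 86037 0 0 100000 91586 (4150, 72372) [(5361, 77451), (6572, 80428), (8821, 83537), (11070, 85203), (14703, 86589), (18336, 87221), (25083, 87529), (31831, 87321), (39394, 83357), (46956, 78659), (54518, 73086), (62081, 66415)],
  mkN 98412 22774 0 446 0 100000 91586 (4150, 77642) [(5361, 83228), (6572, 86570), (8821, 90193), (11070, 92277), (14703, 94252), (18336, 95425), (25083, 96686), (31831, 97405), (68169, 97442), (76036, 96599)],
  mkN 100000 23149 0 23149 0 100000 91586 (4150, 78891) [(31831, 98747), (68169, 99728), (98412, 99986)]]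

/-- Certificate data. -/
def low2 : List CertN := [
  mkN 38000 28274 188751 0 0 100000 83221 (6650, 44965) [(8192, 50668), (9735, 53708), (12599, 56160), (15463, 56597), (19554, 55530), (23646, 53336), (31830, 46834)],
  mkN 42406 29176 167013 0 0 100000 91586 (6650, 47253) [(8192, 53506), (9735, 57010), (12599, 60238), (15463, 61422), (18328, 61581), (21192, 61136), (26512, 59346), (31831, 56749), (34916, 48429), (36458, 43453), (38000, 37651)],
  mkN 45603 29711 154132 0 0 100000 91586 (6650, 48543) [(8853, 56932), (10899, 60682), (12945, 62730), (16250, 64239), (19555, 64567), (25693, 63624), (31831, 61602), (35268, 54149), (38705, 44870), (42406, 31004)],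
  mkN 48731 30159 143317 0 0 100000 91586 (6650, 49596) [(7752, 54833), (8853, 58302), (10899, 62284), (12945, 64540), (16250, 66364), (19555, 67002), (22624, 67003), (25693, 66645), (31831, 65250), (36307, 56958), (38545, 52026), (40783, 46353), (43193, 39046), (45603, 29609)],
  mkN 53083 30688 130571 0 0 100000 91586 (6650, 50797) [(7752, 56226), (8853, 59854), (10899, 64087), (12945, 66564), (16250, 68720), (19555, 69677), (22624, 69973), (25693, 69914), (31831, 69137), (34578, 65182), (37324, 60762), (40070, 55764), (42816, 50016), (45774, 42635), (47252, 38274), (48731, 33232)],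
  mkN 63843 31665 107035 0 0 100000 91586 (6650, 52918) [(7752, 58672), (8853, 62564), (10899, 67205), (12945, 70033), (16250, 72702), (19555, 74142), (22624, 74877), (25693, 75254), (31831, 75358), (37144, 69992), (42457, 63672), (45114, 60062), (47770, 56079), (50426, 51633), (53083, 46592)],
  mkN 87800 34827 30845 0 0 100000 91586 (6650, 59077) [(7752, 65667), (8853, 70201), (10899, 75767), (12945, 79337), (14598, 81407), (16250, 83012), (19555, 85337), (22624, 86839), (25693, 87952), (31831, 89480), (47837, 86842), (55840, 85385), (63843, 83831)],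
  mkN 100000 37670 0 37670 0 100000 91586 (6650, 63882) [(31831, 96646), (68169, 99278), (87800, 99724)]]

/-- Certificate data. -/
def low3 : List CertN := [
  mkN 37202 33889 177706 0 0 100000 88393 (9150, 35370) [(11928, 43615), (14508, 46775), (17088, 48052), (20774, 48147), (24459, 47040), (31830, 42638)],
  mkN 40561 35060 160103 0 0 100000 91586 (9150, 37467) [(10539, 43058), (11928, 46615), (14508, 50456), (17088, 52369), (20774, 53367), (24460, 53208), (31831, 50991), (34516, 42919), (37202, 32353)],
  mkN 42931 35755 149645 0 0 100000 91586 (9150, 38654) [(10539, 44511), (11928, 48289), (13218, 50723), (14508, 52485), (17088, 54719), (19668, 55881), (22248, 56380), (27040, 56225), (31831, 55193), (34668, 48169), (37506, 39470), (39034, 33652), (40561, 26399)],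
  mkN 44874 36261 142038 0 0 100000 91586 (9150, 39489) [(10539, 45530), (11928, 49460), (13218, 52018), (14508, 53894), (17088, 56342), (19668, 57706), (22248, 58405), (27040, 58624), (31831, 57983), (35438, 50010), (37242, 45284), (39046, 39840), (40988, 32766), (42931, 23334)],
  mkN 46860 36728 135023 0 0 100000 91586 (9150, 40239) [(10539, 46444), (11928, 50506), (14508, 55148), (17088, 57779), (19668, 59316), (22248, 60181), (27040, 60710), (31831, 60388), (36070, 51976), (38190, 46949), (40309, 41120), (42592, 33457), (43733, 28751), (44874, 23003)],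
  mkN 49710 37322 126086 0 0 100000 91586 (9150, 41175) [(10539, 47579), (11928, 51801), (14508, 56691), (17088, 59538), (19668, 61274), (22248, 62333), (27040, 63215), (31831, 63249), (36716, 54848), (39158, 49839), (41600, 44053), (44230, 36527), (45545, 31981), (46860, 26568)],
  mkN 56334 38440 109276 0 0 100000 91586 (9150, 42867) [(10539, 49621), (11928, 54122), (14508, 59434), (17088, 62640), (19668, 64705), (22248, 66076), (27040, 67517), (31831, 68105), (36300, 62444), (40770, 55788), (43005, 51971), (45240, 47725), (47475, 42924), (49710, 37354)],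
  mkN 76233 41817 58495 0 0 100000 91586 (9150, 47538) [(10539, 55195), (11928, 60385), (14508, 66694), (17088, 70705), (19668, 73474), (22248, 75488), (27040, 78037), (31831, 79670), (44082, 73687), (50208, 70231), (56334, 66404)],
  mkN 100000 48963 0 48963 0 100000 91586 (9150, 55824) [(31831, 94265), (68169, 98778), (76233, 99089)]]

/-- Certificate data. -/
def low4 : List CertN := [
  mkN 36404 38041 170196 0 0 100000 91586 (10950, 25728) [(13508, 34967), (15883, 38905), (18258, 40888), (25044, 41590), (31830, 38681)],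
  mkN 39184 39483 154442 0 0 100000 91586 (10950, 27476) [(13508, 37668), (15883, 42283), (18258, 44877), (21651, 46714), (25044, 47277), (31831, 46285), (34118, 38777), (36404, 28988)],
  mkN 41133 40344 145030 0 0 100000 91586 (10950, 28469) [(12229, 34924), (13508, 39182), (15883, 44155), (18258, 47064), (21651, 49321), (25044, 50295), (28438, 50490), (31831, 50162), (34220, 43644), (36610, 35623), (39184, 23611)],
  mkN 42676 40955 138356 0 0 100000 91586 (10950, 29148) [(12229, 35800), (13508, 40213), (15883, 45424), (18258, 48538), (20634, 50476), (23009, 51674), (27420, 52676), (31831, 52686), (34854, 45247), (37877, 35831), (39505, 29295), (41133, 20553)],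
  mkN 44180 41498 132415 0 0 100000 91586 (10950, 29743) [(12229, 36562), (13508, 41108), (14696, 44177), (15883, 46520), (18258, 49804), (20634, 51900), (23009, 53247), (27420, 54519), (31831, 54801), (35356, 46909), (37118, 42225), (38880, 36804), (40778, 29679), (41727, 25284), (42676, 19863)],
  mkN 45973 42088 125968 0 0 100000 91586 (10950, 30370) [(12229, 37367), (13508, 42051), (15883, 47670), (18258, 51130), (20634, 53384), (23009, 54882), (27420, 56422), (31831, 56970), (35844, 48879), (37851, 44064), (39858, 38488), (42019, 31168), (44180, 21136)],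
  mkN 49291 43041 115555 0 0 100000 91586 (10950, 31354) [(12229, 38625), (13508, 43522), (14696, 46867), (15883, 49456), (18258, 53178), (20634, 55667), (23009, 57383), (27420, 59310), (31831, 60234), (34129, 56544), (36427, 52461), (38725, 47884), (41023, 42657), (43498, 35974), (44736, 32017), (45973, 27427)],
  mkN 60027 45272 91171 0 0 100000 91586 (10950, 33536) [(12229, 41400), (13508, 46746), (14696, 50440), (15883, 53334), (18258, 57585), (20634, 60536), (23009, 62675), (27420, 65326), (31831, 66937), (36196, 62237), (40561, 56873), (44926, 50637), (49291, 43150)],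
  mkN 93450 54510 0 9789 0 100000 91586 (10950, 41217) [(12229, 51008), (13508, 57738), (14696, 62445), (15883, 66181), (18258, 71790), (20634, 75826), (23009, 78880), (27420, 82957), (31831, 85782), (60027, 87376)],
  mkN 100000 59014 0 59014 0 100000 91586 (10950, 44405) [(31831, 91551), (68169, 98219), (93450, 99636)]]

/-- Certificate data. -/
def low5 : List CertN := [
  mkN 35871 37951 172977 0 0 100000 90810 (12250, 30192) [(14649, 36000), (19103, 40018), (25466, 39939), (31830, 36728)],
  mkN 38299 42096 151187 0 0 100000 91586 (12250, 21269) [(14649, 32123), (16876, 37121), (19103, 40070), (22285, 42376), (25467, 43364), (31831, 43131), (33851, 36054), (35871, 26848)],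
  mkN 39914 43019 142757 0 0 100000 91586 (12250, 22066) [(13450, 28950), (14649, 33448), (16876, 38794), (19103, 42041), (22285, 44736), (25467, 46099), (31831, 46635), (33933, 40434), (36035, 32818), (38299, 21353)],
  mkN 41137 43653 136973 0 0 100000 91586 (12250, 22590) [(13450, 29672), (14649, 34321), (16876, 39892), (19103, 43328), (22285, 46268), (25467, 47862), (28649, 48634), (31831, 48856), (34458, 41785), (37085, 32852), (38500, 26635), (39914, 18229)],
  mkN 42221 44173 132225 0 0 100000 91586 (12250, 23014) [(13450, 30253), (14649, 35021), (16876, 40768), (19103, 44353), (22285, 47480), (25467, 49249), (28649, 50192), (31831, 50586), (34856, 43045), (36368, 38574), (37880, 33392), (38938, 29144), (39997, 24073), (41137, 16872)],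
  mkN 43286 44650 127870 0 0 100000 91586 (12250, 23396) [(13450, 30775), (14649, 35649), (16876, 41552), (19103, 45267), (22285, 48557), (25467, 50477), (28649, 51567), (31831, 52105), (35208, 44262), (36896, 39591), (38584, 34152), (40948, 24269), (42221, 16448)],
  mkN 44775 45266 122241 0 0 100000 91586 (12250, 23883) [(13450, 31438), (14649, 36445), (15762, 39871), (16876, 42542), (19103, 46416), (21330, 49041), (23558, 50874), (27694, 52962), (31831, 53984), (35554, 46123), (37416, 41452), (39277, 36043), (40580, 31613), (41883, 26356), (43286, 18995)],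
  mkN 47627 46307 112736 0 0 100000 91586 (12250, 24678) [(13450, 32520), (14649, 37741), (15762, 41333), (16876, 44150), (19103, 48276), (21330, 51123), (23558, 53161), (27694, 55601), (31831, 56960), (33934, 53377), (36038, 49420), (38142, 44992), (40245, 39940), (42510, 33473), (44775, 25154)],
  mkN 57079 48836 89636 0 0 100000 91586 (12250, 26509) [(13450, 34999), (14649, 40697), (15762, 44651), (16876, 47782), (19103, 52446), (21330, 55754), (23558, 58208), (25626, 59961), (27694, 61349), (31831, 63357), (35780, 58770), (39729, 53559), (43678, 47521), (47627, 40284)],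
  mkN 91459 59583 0 8511 0 100000 91586 (12250, 33093) [(13450, 43794), (14649, 51042), (16876, 60189), (19103, 66354), (21330, 70852), (23558, 74300), (27694, 78968), (31831, 82251), (57079, 83696)],
  mkN 100000 65863 0 65863 0 100000 91586 (12250, 36339) [(31831, 89354), (68169, 97777), (91459, 99408)]]

/-- Certificate data. -/
def low6 : List CertN := [
  mkN 35472 39166 171498 0 0 100000 91586 (13250, 28254) [(16502, 34929), (19753, 37452), (25792, 37631), (31830, 34784)],
  mkN 37663 43735 149389 0 0 100000 91586 (13250, 17444) [(15526, 28569), (17640, 33704), (19753, 36811), (22772, 39361), (25792, 40593), (31831, 40825), (33652, 34097), (35472, 25377)],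
  mkN 39051 44683 141652 0 0 100000 91586 (13250, 18106) [(14388, 25189), (15526, 29758), (17640, 35229), (19753, 38620), (22772, 41536), (25792, 43118), (31831, 44056), (33726, 38102), (35622, 30788), (37663, 19734)],
  mkN 40053 45308 136547 0 0 100000 91586 (13250, 18533) [(14388, 25807), (15526, 30518), (17640, 36197), (19753, 39763), (22772, 42900), (25792, 44690), (31831, 46037), (34178, 39245), (36524, 30670), (37788, 24681), (39051, 16490)],
  mkN 40805 45749 132951 0 0 100000 91586 (13250, 18823) [(14388, 26229), (15526, 31037), (17640, 36859), (19753, 40542), (22772, 43829), (25792, 45756), (28812, 46845), (31831, 47369), (34503, 40069), (37175, 30691), (39046, 21501), (40053, 14107)],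
  mkN 41548 46162 129579 0 0 100000 91586 (13250, 19094) [(14388, 26620), (15526, 31518), (16583, 34862), (17640, 37469), (19753, 41259), (22772, 44679), (25792, 46729), (28812, 47936), (31831, 48577), (34748, 41045), (36206, 36559), (37664, 31326), (38685, 26987), (39706, 21720), (40805, 13846)],
  mkN 42282 46550 126412 0 0 100000 91586 (13250, 19344) [(14388, 26982), (15526, 31961), (17640, 38031), (19753, 41919), (22772, 45459), (25792, 47619), (28812, 48931), (31831, 49677), (34989, 41939), (36568, 37316), (38147, 31909), (39252, 27413), (40358, 21922), (41548, 13594)],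
  mkN 43233 47025 122532 0 0 100000 91586 (13250, 19649) [(14388, 27420), (15526, 32497), (16583, 35979), (17640, 38708), (19753, 42711), (22772, 46393), (25792, 48682), (28812, 50117), (31831, 50981), (35228, 43193), (36926, 38549), (38624, 33132), (39813, 28647), (41002, 23225), (42282, 15226)],
  mkN 44834 47763 116512 0 0 100000 91586 (13250, 20105) [(14388, 28080), (15526, 33305), (16583, 36901), (17640, 39729), (19753, 43903), (22772, 47795), (25792, 50272), (28812, 51883), (31831, 52919), (35536, 45269), (37389, 40738), (39242, 35505), (41238, 28642), (42236, 24417), (43233, 19224)],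
  mkN 48652 49260 104291 0 0 100000 91586 (13250, 21007) [(14388, 29376), (15526, 34886), (17640, 41714), (19753, 46209), (22772, 50489), (25792, 53308), (28812, 55237), (31831, 56576), (36057, 49544), (38170, 45463), (40283, 40859), (42558, 35082), (44834, 27938)],
  mkN 68340 53803 67205 0 0 100000 91586 (13250, 23524) [(14388, 32970), (15526, 39244), (17640, 47126), (19753, 52434), (21866, 56300), (23980, 59252), (27906, 63205), (31831, 65921), (40242, 58852), (44447, 54760), (48652, 50177)],
  mkN 100000 70696 0 70696 0 100000 91586 (13250, 31052) [(31831, 87621), (68169, 97435), (68340, 97449)]]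

/-- Certificate data. -/
def low7 : List CertN := [
  mkN 35206 40002 170419 0 0 100000 91586 (13950, 26818) [(17079, 33149), (20208, 35657), (26019, 36016), (31830, 33426)],
  mkN 37279 44953 147662 0 0 100000 91586 (13950, 13965) [(14717, 19547), (16140, 25859), (18174, 31201), (20208, 34476), (23114, 37244), (26020, 38681), (28926, 39279), (31831, 39296), (33518, 32861), (35206, 24553)],
  mkN 38553 45938 140227 0 0 100000 91586 (13950, 14513) [(14717, 20336), (16140, 26961), (18174, 32640), (20208, 36195), (23114, 39321), (26020, 41095), (31831, 42384), (33602, 36611), (35372, 29534), (37279, 18819)],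
  mkN 39442 46568 135468 0 0 100000 91586 (13950, 14858) [(14717, 20829), (16140, 27645), (18174, 33527), (20208, 37250), (23114, 40586), (26020, 42556), (31831, 44225), (34016, 37632), (36200, 29312), (37729, 21421), (38553, 15477)],
  mkN 40083 46997 132232 0 0 100000 91586 (13950, 15081) [(14717, 21152), (16140, 28096), (18174, 34113), (20208, 37945), (23114, 41419), (26020, 43514), (28926, 44757), (31831, 45424), (34304, 38340), (36778, 29241), (38510, 20291), (39442, 12995)],
  mkN 40718 47402 129175 0 0 100000 91586 (13950, 15292) [(14717, 21455), (16140, 28517), (17157, 31967), (18174, 34657), (20208, 38590), (23114, 42188), (26020, 44397), (28926, 45748), (31831, 46521), (34513, 39228), (35854, 34888), (37195, 29825), (38134, 25622), (39072, 20514), (40083, 12786)],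
  mkN 41231 47716 126806 0 0 100000 91586 (13950, 15452) [(14717, 21686), (16140, 28837), (18174, 35072), (20208, 39081), (23114, 42772), (26020, 45065), (28926, 46497), (31831, 47349), (34720, 39789), (36164, 35268), (37608, 29964), (39630, 20050), (40718, 11393)],
  mkN 41854 48082 124045 0 0 100000 91586 (13950, 15636) [(14717, 21951), (16140, 29206), (17157, 32764), (18174, 35548), (20208, 39643), (23114, 43441), (26020, 45829), (28926, 47351), (31831, 48291), (34886, 40669), (36414, 36112), (37941, 30777), (39010, 26327), (40080, 20864), (41231, 12409)],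
  mkN 42698 48553 120489 0 0 100000 91586 (13950, 15873) [(14717, 22290), (16140, 29675), (18174, 36152), (20208, 40355), (23114, 44284), (26020, 46791), (28926, 48423), (31831, 49470), (35088, 41831), (36717, 37275), (38346, 31958), (39486, 27552), (40626, 22207), (41854, 14229)],
  mkN 44202 49329 114635 0 0 100000 91586 (13950, 16251) [(14717, 22833), (16140, 30428), (18174, 37120), (20208, 41494), (23114, 45630), (26020, 48320), (28926, 50123), (31831, 51334), (35363, 43861), (37129, 39444), (38895, 34347), (40796, 27670), (41747, 23557), (42698, 18489)],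
  mkN 48063 51013 101921 0 0 100000 91586 (13950, 17052) [(14717, 23977), (16140, 32001), (17157, 35981), (18174, 39130), (20208, 43848), (23114, 48394), (26020, 51440), (28926, 53571), (31831, 55092), (35852, 48315), (37862, 44400), (39872, 40001), (42037, 34507), (44202, 27779)],
  mkN 68888 56338 61731 0 0 100000 91586 (13950, 19349) [(14717, 27249), (16140, 36476), (18174, 44793), (20208, 50411), (23114, 55987), (26020, 59896), (28926, 62788), (31831, 65006), (39947, 58646), (44005, 55020), (48063, 51016)],
  mkN 100000 74372 0 74372 0 100000 91586 (13950, 25585) [(31831, 86195), (68169, 97157), (68888, 97222)]]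

/-- Certificate data. -/
def low8 : List CertN := [
  mkN 35073 40581 169414 0 0 100000 91586 (14450, 25989) [(17492, 32068), (20533, 34560), (26182, 35059), (31830, 32686)],
  mkN 36897 45653 147293 0 0 100000 91586 (14450, 11406) [(16579, 23930), (18556, 29367), (20533, 32713), (23358, 35578), (26182, 37110), (31831, 37904), (35073, 23025)],
  mkN 38179 46740 139500 0 0 100000 91586 (14450, 11900) [(15195, 18205), (16579, 25054), (18556, 30856), (20533, 34503), (23358, 37750), (26182, 39639), (29006, 40681), (31831, 41142), (33478, 35617), (35124, 28883), (36010, 24414), (36897, 18829)],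
  mkN 38953 47342 135181 0 0 100000 91586 (14450, 12171) [(15195, 18624), (16579, 25657), (18556, 31650), (20533, 35453), (23358, 38895), (26182, 40963), (31831, 42813), (33894, 36347), (35957, 28174), (37401, 20381), (38179, 14434)],
  mkN 39599 47817 131777 0 0 100000 91586 (14450, 12373) [(15195, 18943), (16579, 26119), (17568, 29575), (18556, 32259), (20533, 36180), (23358, 39768), (26182, 41970), (29006, 43313), (31831, 44075), (34146, 37224), (36460, 28465), (38080, 19911), (38953, 13025)],
  mkN 40120 48183 129153 0 0 100000 91586 (14450, 12529) [(15195, 19187), (16579, 26470), (18556, 32720), (20533, 36729), (23358, 40427), (26182, 42727), (29006, 44164), (31831, 45018), (34356, 37863), (35618, 33604), (36880, 28627), (37764, 24484), (38647, 19417), (39599, 11588)],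
  mkN 40637 48532 126651 0 0 100000 91586 (14450, 12675) [(15195, 19417), (15887, 23592), (16579, 26800), (17568, 30369), (18556, 33152), (20533, 37245), (23358, 41043), (26182, 43434), (29006, 44957), (31831, 45894), (34525, 38579), (35872, 34215), (37219, 29106), (38162, 24844), (39105, 19607), (40120, 11432)],
  mkN 41150 48866 124262 0 0 100000 91586 (14450, 12805) [(15195, 19628), (16579, 27107), (17568, 30729), (18556, 33557), (20533, 37727), (23358, 41619), (26182, 44095), (29006, 45697), (31831, 46711), (34693, 39247), (36124, 34786), (37555, 29555), (38556, 25185), (39558, 19793), (40637, 11274)],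
  mkN 41774 49254 121476 0 0 100000 91586 (14450, 12971) [(15195, 19881), (16579, 27468), (17568, 31149), (18556, 34027), (20533, 38284), (23358, 42283), (26182, 44853), (29006, 46543), (31831, 47643), (34860, 40116), (36374, 35623), (37888, 30363), (38948, 25979), (40008, 20605), (41150, 12294)],
  mkN 42733 49819 117428 0 0 100000 91586 (14450, 13196) [(15195, 20235), (16579, 27978), (18556, 34694), (20533, 39074), (23358, 43222), (26182, 45924), (29006, 47737), (31831, 48955), (35062, 41479), (36678, 37034), (38294, 31866), (39425, 27602), (40556, 22468), (41774, 14968)],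
  mkN 44795 50914 109578 0 0 100000 91586 (14450, 13627) [(15195, 20909), (15887, 25441), (16579, 28941), (17568, 32863), (18556, 35948), (20533, 40557), (23358, 44977), (26182, 47917), (29006, 49949), (31831, 51375), (35374, 44251), (37146, 40077), (38917, 35310), (40825, 29175), (42733, 21139)],
  mkN 51524 53652 89954 0 0 100000 91586 (14450, 14642) [(15195, 22496), (15887, 27403), (16579, 31206), (17568, 35489), (18556, 38881), (20533, 44002), (23358, 49022), (26182, 52474), (29006, 54968), (31831, 56825), (35072, 52353), (38313, 47281), (41554, 41391), (44795, 34263)],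
  mkN 83732 65143 7579 0 0 100000 91586 (14450, 18304) [(15195, 28164), (16579, 39180), (18556, 49018), (20533, 55707), (23358, 62437), (26182, 67243), (29006, 70876), (31831, 73730), (51524, 72335)],
  mkN 100000 76932 0 76932 0 100000 91586 (14450, 21402) [(31831, 85144), (68169, 96955), (83732, 98455)]]

/-- Certificate data. -/
def low9 : List CertN := [
  mkN 34807 40763 170186 0 0 100000 91586 (14950, 25834) [(20858, 33538), (26344, 33869), (31830, 31423)],
  mkN 36638 46130 147032 0 0 100000 91586 (14950, 11067) [(15674, 16791), (17018, 23038), (18938, 28322), (20858, 31611), (23601, 34466), (26344, 36028), (31831, 36928), (34807, 23049)],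
  mkN 37801 47188 139709 0 0 100000 91586 (14950, 11539) [(15674, 17526), (17018, 24099), (18938, 29728), (20858, 33301), (23601, 36517), (26344, 38416), (31831, 39983), (33394, 34548), (34956, 27915), (36638, 17956)],
  mkN 38579 47839 135204 0 0 100000 91586 (14950, 11818) [(15674, 17962), (17018, 24728), (18938, 30557), (20858, 34294), (23601, 37714), (26344, 39801), (29088, 41053), (31831, 41732), (33771, 35468), (35711, 27579), (37070, 20100), (37801, 14470)],
  mkN 39108 48258 132304 0 0 100000 91586 (14950, 11995) [(15674, 18237), (17018, 25124), (18938, 31078), (20858, 34917), (23601, 38463), (26344, 40664), (29088, 42026), (31831, 42813), (34024, 36057), (36217, 27394), (37752, 18859), (38579, 11815)],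
  mkN 39514 48568 130161 0 0 100000 91586 (14950, 12120) [(15674, 18435), (17018, 25410), (18938, 31455), (20858, 35367), (23601, 39004), (26344, 41287), (29088, 42726), (31831, 43589), (34196, 36558), (35378, 32368), (36561, 27458), (38217, 18298), (39108, 10268)],
  mkN 39800 48780 128692 0 0 100000 91586 (14950, 12211) [(15674, 18573), (17018, 25607), (18938, 31713), (20858, 35674), (23601, 39371), (26344, 41709), (29088, 43200), (31831, 44113), (34328, 36863), (35576, 32523), (36825, 27407), (37699, 23099), (38573, 17704), (39514, 8578)],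
  mkN 40085 48987 127261 0 0 100000 91586 (14950, 12293) [(15674, 18703), (17018, 25795), (18938, 31960), (20858, 35969), (23601, 39724), (26344, 42114), (29088, 43654), (31831, 44615), (34421, 37279), (35716, 32881), (37011, 27697), (37918, 23324), (38824, 17845), (39458, 12610), (39800, 8514)],
  mkN 40369 49188 125867 0 0 100000 91586 (14950, 12380) [(15674, 18833), (17018, 25980), (17978, 29465), (18938, 32201), (20858, 36255), (23601, 40065), (26344, 42505), (29088, 44092), (31831, 45099), (34514, 37679), (35855, 33229), (37196, 27981), (38135, 23550), (39074, 17985), (39731, 12653), (40085, 8456)],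
  mkN 40652 49385 124507 0 0 100000 91586 (14950, 12453) [(15674, 18953), (17018, 26154), (18938, 32431), (20858, 36529), (23601, 40393), (26344, 42881), (29088, 44512), (31831, 45563), (34606, 38065), (35994, 33561), (37381, 28249), (38352, 23761), (39323, 18118), (40003, 12690), (40369, 8392)],
  mkN 40934 49576 123182 0 0 100000 91586 (14950, 12535) [(15674, 19076), (17018, 26328), (18938, 32657), (20858, 36797), (23601, 40712), (26344, 43245), (29088, 44919), (31831, 46011), (34698, 38437), (36132, 33884), (37565, 28511), (38568, 23969), (39572, 18244), (40274, 12730), (40652, 8336)],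
  mkN 41330 49839 121367 0 0 100000 91586 (14950, 12631) [(15674, 19232), (17018, 26556), (18938, 32958), (20858, 37156), (23601, 41140), (26344, 43734), (29088, 45466), (31831, 46613), (34790, 39044), (36269, 34507), (37748, 29164), (38784, 24666), (39819, 19063), (40544, 13779), (40934, 9792)],
  mkN 41952 50235 118622 0 0 100000 91586 (14950, 12795) [(15674, 19480), (17018, 26907), (17978, 30546), (18938, 33415), (20858, 37696), (23601, 41782), (26344, 44466), (29088, 46281), (31831, 47509), (34918, 39991), (36462, 35499), (38005, 30242), (39086, 25855), (40166, 20478), (41330, 12130)],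
  mkN 43135 50942 113730 0 0 100000 91586 (14950, 13068) [(15674, 19904), (17018, 27514), (18938, 34207), (20858, 38633), (23601, 42894), (26344, 45732), (29088, 47689), (31831, 49051), (35120, 41714), (36765, 37370), (38410, 32341), (39561, 28222), (40712, 23316), (41952, 16351)],
  mkN 46181 52519 102813 0 0 100000 91586 (14950, 13664) [(15674, 20823), (17018, 28823), (17978, 32771), (18938, 35905), (20858, 40637), (23601, 45258), (26344, 48408), (29088, 50649), (31831, 52280), (35505, 45551), (37342, 41654), (39179, 37257), (41157, 31726), (43135, 24833)],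
  mkN 61459 57348 69398 0 0 100000 91586 (14950, 15322) [(15674, 23391), (17018, 32465), (18938, 40598), (20858, 46126), (23601, 51661), (26344, 55576), (29088, 58493), (31831, 60742), (35418, 57340), (39006, 53606), (42594, 49468), (46181, 44813)],
  mkN 100000 78756 0 78756 0 100000 91586 (14950, 21150) [(31831, 84366), (61459, 95282)]]

/-- Certificate data. -/
def low10 : List CertN := [
  mkN 34674 41066 169964 0 0 100000 91586 (15300, 25321) [(21086, 32739), (26458, 33087), (31830, 30712)],
  mkN 36381 46580 146832 0 0 100000 91586 (15300, 9051) [(16009, 15270), (17325, 21692), (19206, 27053), (21086, 30389), (26458, 34926), (31831, 35940), (34674, 22253)],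
  mkN 37548 47714 139250 0 0 100000 91586 (15300, 9455) [(16009, 15981), (17325, 22760), (19206, 28488), (21086, 32124), (23772, 35418), (26458, 37392), (29144, 38533), (31831, 39100), (33310, 33845), (34788, 27458), (36381, 17956)],
  mkN 38329 48409 134598 0 0 100000 91586 (15300, 9707) [(16009, 16409), (17325, 23394), (19206, 29334), (21086, 33141), (23772, 36649), (26458, 38818), (29144, 40147), (31831, 40901), (33689, 34788), (35547, 27112), (36548, 21768), (37548, 14467)],
  mkN 38860 48856 131609 0 0 100000 91586 (15300, 9858) [(16009, 16674), (17325, 23790), (18266, 27203), (19206, 29862), (21086, 33775), (23772, 37414), (26458, 39701), (29144, 41143), (31831, 42008), (33943, 35390), (36055, 26922), (37533, 18611), (38329, 11807)],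
  mkN 39268 49186 129401 0 0 100000 91586 (15300, 9971) [(16009, 16868), (17325, 24078), (19206, 30246), (21086, 34236), (23772, 37968), (26458, 40340), (29144, 41861), (31831, 42804), (34116, 35903), (35258, 31796), (36400, 26993), (37200, 22982), (37999, 18052), (38860, 10270)],
  mkN 39555 49412 127891 0 0 100000 91586 (15300, 10043) [(16009, 16997), (17325, 24272), (19206, 30505), (21086, 34546), (23772, 38341), (26458, 40769), (29144, 42343), (31831, 43338), (34248, 36214), (35456, 31954), (36665, 26938), (37511, 22718), (38357, 17441), (39268, 8568)],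
  mkN 39841 49632 126422 0 0 100000 91586 (15300, 10111) [(16009, 17121), (17325, 24458), (19206, 30753), (21086, 34844), (23772, 38699), (26458, 41181), (29144, 42806), (31831, 43849), (34342, 36634), (35597, 32315), (36852, 27230), (37730, 22949), (38609, 17581), (39224, 12467), (39555, 8498)],
  mkN 40126 49846 124991 0 0 100000 91586 (15300, 10181) [(16009, 17243), (17325, 24640), (18266, 28205), (19206, 30995), (21086, 35133), (23772, 39045), (26458, 41578), (29144, 43251), (31831, 44341), (34434, 37044), (35736, 32670), (37038, 27514), (37949, 23169), (38860, 17719), (39498, 12505), (39841, 8434)],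
  mkN 40410 50054 123596 0 0 100000 91586 (15300, 10257) [(16009, 17366), (17325, 24819), (18266, 28414), (19206, 31230), (21086, 35414), (23772, 39381), (26458, 41962), (29144, 43681), (31831, 44814), (34527, 37436), (35875, 33011), (37223, 27792), (38166, 23391), (39110, 17858), (39770, 12559), (40126, 8381)],
  mkN 40693 50257 122238 0 0 100000 91586 (15300, 10324) [(16009, 17481), (17325, 24989), (19206, 31456), (21086, 35683), (23772, 39703), (26458, 42331), (29144, 44093), (31831, 45269), (34619, 37814), (36013, 33339), (37407, 28059), (38383, 23598), (39359, 17989), (40042, 12595), (40410, 8318)],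
  mkN 41090 50535 120381 0 0 100000 91586 (15300, 10409) [(16009, 17633), (17325, 25217), (19206, 31760), (21086, 36046), (23772, 40137), (26458, 42828), (29144, 44649), (31831, 45880), (34711, 38430), (36151, 33968), (37591, 28718), (38599, 24307), (39607, 18813), (40313, 13648), (40693, 9769)],
  mkN 41830 51030 117067 0 0 100000 91586 (15300, 10573) [(16009, 17911), (16667, 22282), (17325, 25626), (18266, 29361), (19206, 32298), (21086, 36687), (23772, 40902), (26458, 43701), (29144, 45622), (31831, 46949), (34840, 39620), (36344, 35261), (37849, 30175), (38902, 25960), (39956, 20835), (41090, 13140)],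
  mkN 43242 51904 111225 0 0 100000 91586 (15300, 10839) [(16009, 18379), (17325, 26322), (19206, 33219), (21086, 37783), (23772, 42206), (26458, 45186), (29144, 47272), (31831, 48757), (35080, 41632), (36705, 37434), (38330, 32601), (40080, 26287), (40955, 22411), (41830, 17653)],
  mkN 47279 53980 97336 0 0 100000 91586 (15300, 11469) [(16009, 19458), (17325, 27911), (18266, 32038), (19206, 35307), (21086, 40255), (23772, 45127), (26458, 48493), (29144, 50928), (31831, 52737), (35540, 46419), (39248, 38760), (41245, 33767), (43242, 27758)],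
  mkN 70887 61288 48453 0 0 100000 91586 (15300, 13435) [(16009, 22832), (16667, 28482), (17325, 32844), (18266, 37779), (19206, 41720), (21086, 47766), (23772, 53872), (26458, 58247), (29144, 61556), (31831, 64151), (39555, 59390), (47279, 53953)],
  mkN 100000 80578 0 80578 0 100000 91586 (15300, 17584) [(31831, 83563), (68169, 96654), (70887, 96944)]]

/-- Certificate data. -/
def low11 : List CertN := [
  mkN 34674 45109 158305 0 0 100000 91586 (15650, 8174) [(17632, 19337), (19472, 23964), (21313, 26735), (23942, 28961), (26571, 29945), (31830, 29663)],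
  mkN 36381 47070 145487 0 0 100000 91586 (15650, 8922) [(16344, 14973), (17632, 21275), (19472, 26582), (21313, 29923), (23942, 32888), (26572, 34583), (31831, 35779), (33252, 29829), (34674, 22149)],
  mkN 37424 48119 138628 0 0 100000 91586 (15650, 9303) [(16344, 15622), (17632, 22241), (19472, 27877), (21313, 31487), (23942, 34790), (26572, 36799), (31831, 38610), (33310, 33290), (34788, 26789), (36381, 16948)],
  mkN 38085 48735 134606 0 0 100000 91586 (15650, 9506) [(16344, 15983), (17632, 22783), (19472, 28603), (21313, 32362), (23942, 35850), (26572, 38027), (31831, 40160), (33648, 34042), (35466, 26319), (36739, 18950), (37424, 13312)],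
  mkN 38497 49100 132216 0 0 100000 91586 (15650, 9640) [(16344, 16202), (17632, 23105), (19472, 29029), (21313, 32873), (23942, 36466), (26572, 38738), (31831, 41050), (33864, 34463), (35896, 26002), (37319, 17585), (38085, 10431)],
  mkN 38787 49350 130583 0 0 100000 91586 (15650, 9722) [(16344, 16345), (17632, 23318), (19472, 29314), (21313, 33216), (23942, 36878), (26572, 39214), (29202, 40715), (31831, 41644), (33998, 34810), (36164, 25951), (37680, 16946), (38497, 8703)],
  mkN 39076 49593 128996 0 0 100000 91586 (15650, 9800) [(16344, 16483), (17632, 23523), (19472, 29588), (21313, 33544), (23942, 37274), (26572, 39669), (29202, 41227), (31831, 42212), (34092, 35278), (35222, 31139), (36352, 26277), (37144, 22188), (37935, 17096), (38787, 8632)],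
  mkN 39245 49732 128086 0 0 100000 91586 (15650, 9849) [(16344, 16564), (17632, 23642), (19472, 29745), (21313, 33732), (23942, 37499), (26572, 39929), (29202, 41518), (31831, 42534), (34186, 35413), (35363, 31142), (36540, 26097), (37364, 21821), (38188, 16403), (39076, 6586)],
  mkN 39414 49870 127188 0 0 100000 91586 (15650, 9886) [(16344, 16636), (17632, 23754), (19472, 29896), (21313, 33914), (23942, 37718), (26572, 40181), (29202, 41802), (31831, 42847), (34240, 35677), (36650, 26282), (37494, 21965), (38337, 16495), (38927, 11114), (39245, 6554)],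
  mkN 39582 50004 126308 0 0 100000 91586 (15650, 9939) [(16344, 16718), (17632, 23870), (19472, 30048), (21313, 34095), (23942, 37934), (26572, 40429), (29202, 42079), (31831, 43154), (34296, 35929), (35528, 31591), (36760, 26463), (37622, 22116), (38485, 16593), (39089, 11149), (39414, 6522)],
  mkN 39750 50137 125440 0 0 100000 91586 (15650, 9979) [(16344, 16790), (17632, 23980), (19472, 30194), (21313, 34270), (23942, 38144), (26572, 40670), (29202, 42350), (31831, 43452), (34350, 36179), (35610, 31808), (36869, 26642), (37750, 22261), (38632, 16692), (39250, 11187), (39582, 6497)],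
  mkN 39918 50268 124584 0 0 100000 91586 (15650, 10021) [(16344, 16863), (17632, 24088), (18552, 27586), (19472, 30338), (21313, 34441), (23942, 38350), (26572, 40906), (29202, 42614), (31831, 43744), (34404, 36425), (35691, 32025), (36978, 26818), (37879, 22398), (38780, 16782), (39410, 11237), (39750, 6475)],
  mkN 40085 50396 123745 0 0 100000 91586 (15650, 10068) [(16344, 16937), (17632, 24195), (18552, 27712), (19472, 30479), (21313, 34610), (23942, 38552), (26572, 41137), (29202, 42873), (31831, 44029), (34460, 36658), (35774, 32227), (37088, 26983), (38008, 22529), (38928, 16865), (39572, 11257), (39918, 6438)],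
  mkN 40252 50523 122916 0 0 100000 91586 (15650, 10107) [(16344, 17006), (17632, 24298), (19472, 30616), (21313, 34774), (23942, 38748), (26572, 41362), (29202, 43125), (31831, 44307), (34514, 36891), (35855, 32432), (37196, 27153), (38135, 22667), (39074, 16960), (39731, 11306), (40085, 6417)],
  mkN 40419 50648 122099 0 0 100000 91586 (15650, 10147) [(16344, 17075), (17632, 24400), (19472, 30752), (21313, 34936), (23942, 38941), (26572, 41584), (29202, 43372), (31831, 44579), (34568, 37120), (35936, 32633), (37305, 27315), (38263, 22797), (39221, 17046), (39891, 11343), (40252, 6395)],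
  mkN 40702 50856 120739 0 0 100000 91586 (15650, 10214) [(16344, 17190), (17632, 24570), (19472, 30975), (21313, 35203), (23942, 39261), (26572, 41949), (29202, 43780), (31831, 45028), (34622, 37609), (36018, 33154), (37413, 27903), (38390, 23466), (39367, 17886), (40051, 12519), (40419, 8269)],
  mkN 41099 51141 118881 0 0 100000 91586 (15650, 10294) [(16344, 17338), (17632, 24794), (19472, 31275), (21313, 35562), (23942, 39690), (26572, 42440), (29202, 44328), (31831, 45631), (34714, 38216), (36156, 33774), (37597, 28553), (38606, 24165), (39615, 18701), (40702, 9705)],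
  mkN 41839 51648 115566 0 0 100000 91586 (15650, 10455) [(16344, 17612), (17632, 25198), (19472, 31808), (21313, 36196), (23942, 40446), (26572, 43302), (29202, 45288), (31831, 46684), (34843, 39391), (36349, 35053), (37855, 29994), (38910, 25799), (39964, 20706), (41099, 13052)],
  mkN 43478 52676 108844 0 0 100000 91586 (15650, 10776) [(16344, 18154), (17632, 25995), (19472, 32859), (21313, 37445), (23942, 41929), (26572, 44988), (29202, 47161), (31831, 48732), (35084, 41760), (36710, 37672), (38336, 32987), (40088, 26916), (41839, 18808)],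
  mkN 48822 55331 91492 0 0 100000 91586 (15650, 11545) [(16344, 19473), (16988, 24250), (17632, 27936), (18552, 32093), (19472, 35407), (21313, 40459), (23942, 45485), (26572, 49007), (29202, 51594), (31831, 53549), (34742, 49097), (37654, 44037), (40566, 38128), (43478, 30888)],
  mkN 78131 66028 21578 0 0 100000 91586 (15650, 14228) [(16344, 24040), (17632, 34587), (19472, 44014), (21313, 50499), (23942, 57107), (26572, 61895), (29202, 65555), (31831, 68455), (48822, 64328)],
  mkN 100000 81853 0 81853 0 100000 91586 (15650, 17446) [(31831, 82985), (68169, 96546), (78131, 97640)]]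

/-- Certificate data. -/
def low12 : List CertN := [
  mkN 34541 45363 158179 0 0 100000 91586 (15900, 6783) [(16583, 12699), (17852, 18466), (21476, 25913), (26653, 29182), (31830, 28966)],
  mkN 36124 47277 145949 0 0 100000 91586 (15900, 7391) [(16583, 13878), (17852, 20286), (19664, 25611), (21476, 28954), (26654, 33627), (31831, 34841), (34541, 21373)],
  mkN 37171 48388 138848 0 0 100000 91586 (15900, 7728) [(16583, 14521), (17852, 21271), (19664, 26944), (21476, 30570), (24065, 33897), (26654, 35930), (31831, 37789), (34621, 26376), (36124, 16993)],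
  mkN 37834 49037 134699 0 0 100000 91586 (15900, 7921) [(16583, 14885), (17852, 21826), (19664, 27691), (21476, 31473), (24065, 34993), (26654, 37201), (31831, 39395), (33566, 33420), (35302, 25897), (37171, 13341)],
  mkN 38369 49534 131527 0 0 100000 91586 (15900, 8051) [(16583, 15150), (17852, 22235), (18758, 25609), (19664, 28245), (21476, 32142), (24065, 35802), (26654, 38137), (29242, 39639), (31831, 40570), (33782, 34209), (35733, 26104), (37099, 18203), (37834, 11845)],
  mkN 38660 49794 129863 0 0 100000 91586 (15900, 8131) [(16583, 15293), (17852, 22451), (19664, 28534), (21476, 32489), (24065, 36220), (26654, 38620), (29242, 40182), (31831, 41172), (33956, 34418), (36081, 25667), (37568, 16786), (38369, 8696)],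
  mkN 38949 50046 128253 0 0 100000 91586 (15900, 8200) [(16583, 15427), (17852, 22656), (19664, 28808), (21476, 32819), (24065, 36619), (26654, 39079), (29242, 40699), (31831, 41744), (34050, 34889), (35160, 30796), (36270, 25990), (37047, 21956), (37824, 16930), (38660, 8610)],
  mkN 39118 50191 127329 0 0 100000 91586 (15900, 8232) [(16583, 15499), (17852, 22770), (19664, 28963), (21476, 33006), (24065, 36844), (26654, 39339), (29242, 40990), (31831, 42067), (34144, 35023), (36458, 25807), (37268, 21579), (38077, 16230), (38949, 6563)],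
  mkN 39287 50333 126419 0 0 100000 91586 (15900, 8278) [(16583, 15578), (17852, 22886), (19664, 29118), (21476, 33191), (24065, 37067), (26654, 39594), (29242, 41277), (31831, 42384), (34200, 35284), (35384, 31026), (36568, 25996), (37397, 21732), (38226, 16328), (39118, 6545)],
  mkN 39455 50473 125526 0 0 100000 91586 (15900, 8312) [(16583, 15649), (17852, 22996), (19664, 29266), (21476, 33370), (24065, 37282), (26654, 39842), (29242, 41555), (31831, 42691), (34254, 35541), (35466, 31249), (36677, 26180), (37526, 21875), (38374, 16422), (38967, 11058), (39287, 6501)],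
  mkN 39623 50611 124647 0 0 100000 91586 (15900, 8342) [(16583, 15716), (17852, 23103), (19664, 29411), (21476, 33544), (24065, 37491), (26654, 40083), (29242, 41826), (31831, 42990), (34309, 35789), (35548, 31465), (36787, 26353), (37654, 22019), (38521, 16518), (39128, 11092), (39455, 6470)],
  mkN 39791 50746 123779 0 0 100000 91586 (15900, 8393) [(16583, 15794), (17852, 23215), (19664, 29558), (21476, 33719), (24065, 37701), (26654, 40323), (29242, 42094), (31831, 43286), (34364, 36035), (35630, 31682), (36896, 26533), (37782, 22166), (38669, 16614), (39289, 11140), (39623, 6462)],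
  mkN 39958 50880 122929 0 0 100000 91586 (15900, 8412) [(16583, 15854), (17852, 23314), (19664, 29694), (21476, 33884), (24065, 37900), (26654, 40552), (29242, 42351), (31831, 43569), (34418, 36272), (35712, 31885), (37005, 26699), (37910, 22297), (38816, 16697), (39450, 11158), (39791, 6404)],
  mkN 40125 51011 122090 0 0 100000 91586 (15900, 8452) [(16583, 15924), (17852, 23418), (19664, 29832), (21476, 34050), (24065, 38098), (26654, 40779), (29242, 42605), (31831, 43849), (34472, 36507), (35793, 32091), (37114, 26866), (38038, 22431), (38963, 16786), (39610, 11199), (39958, 6388)],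
  mkN 40409 51230 120690 0 0 100000 91586 (15900, 8512) [(16583, 16037), (17852, 23589), (19664, 30061), (21476, 34323), (24065, 38426), (26654, 41154), (29242, 43024), (31831, 44310), (34526, 37009), (35874, 32630), (37222, 27469), (38166, 23111), (39109, 17646), (39769, 12408), (40125, 8277)],
  mkN 40808 51529 118776 0 0 100000 91586 (15900, 8600) [(16583, 16193), (17852, 23823), (19664, 30371), (21476, 34694), (24065, 38869), (26654, 41662), (29242, 43590), (31831, 44932), (34619, 37634), (36013, 33268), (37407, 28138), (38382, 23836), (39358, 18484), (40409, 9733)],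
  mkN 41551 52063 115368 0 0 100000 91586 (15900, 8728) [(16583, 16454), (17852, 24224), (19664, 30909), (21476, 35339), (24065, 39640), (26654, 42543), (29242, 44573), (31831, 46011), (34748, 38835), (36207, 34570), (37666, 29604), (38687, 25495), (39708, 20513), (40808, 13068)],
  mkN 43198 53142 108471 0 0 100000 91586 (15900, 9008) [(16583, 16983), (17852, 25024), (18758, 28905), (19664, 31974), (21476, 36609), (24065, 41153), (26654, 44265), (29242, 46486), (31831, 48104), (34990, 41249), (36570, 37233), (38149, 32641), (39850, 26707), (41551, 18821)],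
  mkN 48458 55864 91080 0 0 100000 91586 (15900, 9659) [(16583, 18237), (17852, 26924), (19664, 34493), (21476, 39600), (24065, 44693), (26654, 48270), (29242, 50907), (31831, 52910), (34672, 48514), (37514, 43523), (40356, 37702), (43198, 30582)],
  mkN 78176 66943 20286 0 0 100000 91586 (15900, 11965) [(16583, 22622), (17852, 33490), (19664, 43075), (21476, 49650), (24065, 56359), (26654, 61227), (29242, 64954), (31831, 67914), (48458, 64077)],
  mkN 100000 83127 0 83127 0 100000 91586 (15900, 14687) [(31831, 82394), (68169, 96435), (78176, 97570)]]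

/-- Certificate data. -/
def low13 : List CertN := [
  mkN 34541 45664 157308 0 0 100000 91586 (16150, 6708) [(16822, 12500), (18071, 18181), (19854, 22803), (21638, 25594), (24186, 27884), (26734, 28955), (31830, 28887)],
  mkN 36124 47622 144995 0 0 100000 91586 (16150, 7318) [(16822, 13680), (18071, 20004), (19854, 25290), (21638, 28635), (24186, 31637), (26734, 33390), (31831, 34730), (34541, 21302)],
  mkN 37171 48756 137858 0 0 100000 91586 (16150, 7666) [(16822, 14327), (18071, 20991), (19854, 26623), (21638, 30250), (24186, 33605), (26734, 35684), (29282, 36953), (31831, 37660), (33226, 32531), (34621, 26284), (36124, 16933)],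
  mkN 37834 49419 133691 0 0 100000 91586 (16150, 7846) [(16822, 14684), (18071, 21539), (19854, 27365), (21638, 31147), (24186, 34694), (26734, 36947), (29282, 38381), (31831, 39252), (33566, 33297), (35302, 25799), (36517, 18684), (37171, 13287)],
  mkN 38248 49813 131214 0 0 100000 91586 (16150, 7953) [(16822, 14892), (18071, 21860), (19854, 27796), (21638, 31668), (24186, 35324), (26734, 37675), (29282, 39202), (31831, 40164), (33782, 33730), (35733, 25478), (37099, 17300), (37834, 10411)],
  mkN 38539 50081 129528 0 0 100000 91586 (16150, 8028) [(16822, 15034), (18071, 22076), (19854, 28087), (21638, 32017), (24186, 35746), (26734, 38161), (29282, 39750), (31831, 40771), (33916, 34085), (36002, 25425), (37462, 16646), (38248, 8676)],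
  mkN 38829 50341 127889 0 0 100000 91586 (16150, 8110) [(16822, 15176), (18071, 22287), (18962, 25692), (19854, 28368), (21638, 32355), (24186, 36152), (26734, 38629), (29282, 40275), (31831, 41352), (34011, 34562), (35101, 30512), (36191, 25759), (36954, 21772), (37717, 16810), (38539, 8615)],
  mkN 38998 50490 126954 0 0 100000 91586 (16150, 8144) [(16822, 15250), (18071, 22402), (19854, 28525), (21638, 32544), (24186, 36379), (26734, 38891), (29282, 40569), (31831, 41678), (34106, 34693), (35243, 30508), (36380, 25569), (37176, 21386), (37972, 16090), (38829, 6554)],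
  mkN 39167 50637 126032 0 0 100000 91586 (16150, 8177) [(16822, 15322), (18071, 22515), (19854, 28677), (21638, 32728), (24186, 36602), (26734, 39147), (29282, 40857), (31831, 41996), (34160, 34961), (35325, 30740), (36490, 25756), (37305, 21537), (38120, 16191), (38691, 10937), (38998, 6524)],
  mkN 39336 50781 125123 0 0 100000 91586 (16150, 8224) [(16822, 15401), (18071, 22631), (19854, 28831), (21638, 32912), (24186, 36822), (26734, 39400), (29282, 41140), (31831, 42308), (34215, 35221), (35407, 30970), (36599, 25948), (37434, 21689), (38268, 16297), (38852, 10994), (39167, 6509)],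
  mkN 39386 50824 124856 0 0 100000 91586 (16150, 8226) [(16822, 15418), (18071, 22661), (19854, 28873), (21638, 32963), (24186, 36884), (26734, 39472), (29282, 41222), (31831, 42398), (33660, 37131), (35490, 30810), (36475, 26715), (37460, 21799), (38679, 13259), (39106, 8357), (39336, 3539)],
  mkN 39436 50866 124591 0 0 100000 91586 (16150, 8240) [(16822, 15440), (18071, 22695), (19854, 28918), (21638, 33017), (24186, 36948), (26734, 39545), (29282, 41304), (31831, 42488), (33672, 37212), (35514, 30878), (36506, 26773), (37497, 21849), (38725, 13283), (39155, 8363), (39386, 3537)],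
  mkN 39486 50908 124327 0 0 100000 91586 (16150, 8251) [(16822, 15461), (18071, 22727), (19854, 28961), (21638, 33069), (24186, 37011), (26734, 39618), (29282, 41385), (31831, 42578), (33685, 37289), (35539, 30941), (36537, 26830), (37535, 21892), (38771, 13305), (39203, 8384), (39436, 3532)],
  mkN 39536 50950 124064 0 0 100000 91586 (16150, 8259) [(16822, 15481), (18071, 22759), (19854, 29004), (21638, 33121), (24186, 37073), (26734, 39689), (29282, 41465), (31831, 42666), (33697, 37367), (35563, 31008), (36568, 26886), (37572, 21940), (38816, 13336), (39252, 8387), (39486, 3523)],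
  mkN 39704 51089 123188 0 0 100000 91586 (16150, 8301) [(16822, 15554), (18071, 22868), (18962, 26381), (19854, 29150), (21638, 33295), (24186, 37282), (26734, 39928), (29282, 41733), (31831, 42962), (34335, 35764), (35587, 31443), (36839, 26334), (37716, 21997), (38592, 16497), (39206, 11063), (39536, 6437)],
  mkN 39872 51226 122325 0 0 100000 91586 (16150, 8341) [(16822, 15626), (18071, 22975), (19854, 29292), (21638, 33465), (24186, 37486), (26734, 40162), (29282, 41994), (31831, 43250), (34390, 36004), (35669, 31653), (36948, 26508), (37844, 22138), (38739, 16594), (39366, 11114), (39704, 6416)],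
  mkN 40039 51361 121479 0 0 100000 91586 (16150, 8368) [(16822, 15689), (18071, 23075), (19854, 29428), (21638, 33629), (24186, 37683), (26734, 40388), (29282, 42247), (31831, 43529), (34444, 36237), (35751, 31853), (37058, 26667), (37972, 22268), (38887, 16671), (39527, 11136), (39872, 6366)],
  mkN 40323 51585 120066 0 0 100000 91586 (16150, 8438) [(16822, 15807), (18071, 23250), (19854, 29659), (21638, 33905), (24186, 38014), (26734, 40766), (29282, 42669), (31831, 43992), (34498, 36742), (35832, 32396), (37166, 27274), (38100, 22953), (39033, 17536), (39687, 12340), (40039, 8260)],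
  mkN 40722 51892 118136 0 0 100000 91586 (16150, 8515) [(16822, 15958), (18071, 23481), (19854, 29968), (21638, 34275), (24186, 38457), (26734, 41273), (29282, 43235), (31831, 44614), (34591, 37366), (35971, 33032), (37351, 27941), (38317, 23670), (39283, 18363), (40323, 9704)],
  mkN 41466 52439 114698 0 0 100000 91586 (16150, 8649) [(16822, 16223), (18071, 23885), (19854, 30509), (21638, 34923), (24186, 39231), (26734, 42158), (29282, 44221), (31831, 45696), (34720, 38570), (36165, 34338), (37610, 29411), (38622, 25334), (39633, 20399), (40722, 13038)],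
  mkN 43115 53544 107748 0 0 100000 91586 (16150, 8927) [(16822, 16750), (18071, 24685), (19854, 31575), (21638, 36194), (24186, 40745), (26734, 43882), (29282, 46136), (31831, 47790), (34962, 40985), (36528, 37002), (38094, 32447), (39780, 26567), (41466, 18769)],
  mkN 48715 56467 89361 0 0 100000 91586 (16150, 9627) [(16822, 18073), (18071, 26681), (18962, 30873), (19854, 34219), (21638, 39333), (24186, 44457), (26734, 48079), (29282, 50766), (31831, 52820), (34652, 48534), (37473, 43685), (40294, 38059), (43115, 31240)],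
  mkN 80587 68852 11468 0 0 100000 91586 (16150, 12126) [(16822, 22803), (18071, 33756), (18962, 39134), (19854, 43458), (21638, 50145), (24186, 56992), (26734, 61981), (29282, 65816), (31831, 68872), (48715, 66774)],
  mkN 100000 84038 0 84038 0 100000 91586 (16150, 14605) [(31831, 81964), (68169, 96355), (80587, 97793)]]

/-- Certificate data. -/
def low14 : List CertN := [
  mkN 34408 45781 157576 0 0 100000 91586 (16330, 5599) [(16995, 11775), (18229, 17517), (21755, 24926), (26793, 28280), (31830, 28208)],
  mkN 35994 47815 144982 0 0 100000 91586 (16330, 6136) [(16995, 12943), (18229, 19361), (19992, 24676), (21755, 28035), (24274, 31057), (26793, 32831), (31831, 34215), (34408, 21322)],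
  mkN 37043 48990 137703 0 0 100000 91586 (16330, 6439) [(16995, 13578), (18229, 20351), (19992, 26026), (21755, 29675), (24274, 33060), (26793, 35168), (29312, 36466), (31831, 37202), (33184, 32166), (34537, 26045), (35994, 16939)],
  mkN 37707 49675 133461 0 0 100000 91586 (16330, 6604) [(16995, 13932), (18229, 20905), (19992, 26777), (21755, 30585), (24274, 34166), (26793, 36451), (29312, 37919), (31831, 38821), (33525, 32943), (35219, 25558), (36405, 18565), (37043, 13289)],
  mkN 38122 50082 130941 0 0 100000 91586 (16330, 6698) [(16995, 14138), (18229, 21226), (19992, 27213), (21755, 31112), (24274, 34804), (26793, 37189), (31831, 39746), (33740, 33388), (35650, 25239), (36987, 17180), (37707, 10417)],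
  mkN 38414 50360 129223 0 0 100000 91586 (16330, 6751) [(16995, 14271), (18229, 21439), (19992, 27503), (21755, 31463), (24274, 35230), (26793, 37682), (29312, 39306), (31831, 40361), (33876, 33741), (35920, 25183), (37351, 16519), (38122, 8682)],
  mkN 38704 50628 127562 0 0 100000 91586 (16330, 6818) [(16995, 14406), (18229, 21647), (19992, 27784), (21755, 31802), (24274, 35638), (26793, 38153), (29312, 39835), (31831, 40947), (33970, 34225), (35040, 30215), (36110, 25513), (36859, 21569), (37608, 16665), (38414, 8598)],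
  mkN 38874 50782 126607 0 0 100000 91586 (16330, 6857) [(16995, 14484), (18229, 21766), (19992, 27945), (21755, 31995), (24274, 35871), (26793, 38420), (29312, 40136), (31831, 41279), (34064, 34366), (35181, 30222), (36298, 25333), (37080, 21195), (37862, 15961), (38704, 6569)],
  mkN 39043 50933 125673 0 0 100000 91586 (16330, 6888) [(16995, 14556), (18229, 21880), (19992, 28099), (21755, 32182), (24274, 36096), (26793, 38679), (29312, 40427), (31831, 41601), (34120, 34629), (35264, 30452), (36409, 25518), (37210, 21342), (38011, 16056), (38874, 6521)],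
  mkN 39212 51082 124752 0 0 100000 91586 (16330, 6916) [(16995, 14626), (18229, 21991), (19992, 28250), (21755, 32364), (24274, 36316), (26793, 38932), (29312, 40711), (31831, 41914), (34175, 34889), (35347, 30677), (36519, 25703), (37340, 21486), (38160, 16149), (38734, 10906), (39043, 6493)],
  mkN 39381 51228 123844 0 0 100000 91586 (16330, 6962) [(16995, 14702), (18229, 22105), (19992, 28402), (21755, 32546), (24274, 36533), (26793, 39182), (29312, 40990), (31831, 42223), (34230, 35147), (35430, 30900), (36629, 25888), (37468, 21642), (38308, 16254), (38896, 10952), (39212, 6481)],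
  mkN 39549 51372 122955 0 0 100000 91586 (16330, 6986) [(16995, 14767), (18229, 22210), (19992, 28545), (21755, 32719), (24274, 36742), (26793, 39423), (29312, 41260), (31831, 42520), (34284, 35396), (35511, 31119), (36738, 26065), (37597, 21779), (38456, 16342), (39057, 10987), (39381, 6432)],
  mkN 39717 51513 122079 0 0 100000 91586 (16330, 7026) [(16995, 14839), (18229, 22318), (19992, 28689), (21755, 32891), (24274, 36949), (26793, 39660), (29312, 41525), (31831, 42812), (34340, 35635), (35594, 31328), (36848, 26237), (37726, 21917), (38604, 16433), (39218, 11029), (39549, 6415)],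
  mkN 40002 51749 120620 0 0 100000 91586 (16330, 7071) [(16995, 14948), (18229, 22491), (19992, 28923), (21755, 33173), (24274, 37288), (26793, 40048), (29312, 41960), (31831, 43291), (34394, 36155), (35676, 31882), (36957, 26855), (37854, 22618), (38751, 17309), (39379, 12241), (39717, 8291)],
  mkN 40403 52071 118626 0 0 100000 91586 (16330, 7142) [(16995, 15100), (18229, 22727), (19110, 26369), (19992, 29241), (21755, 33555), (24274, 37746), (26793, 40574), (29312, 42546), (31831, 43936), (34486, 36805), (35814, 32545), (37142, 27546), (38072, 23355), (39001, 18164), (40002, 9747)],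
  mkN 41035 52558 115613 0 0 100000 91586 (16330, 7239) [(16995, 15323), (18229, 23076), (19992, 29713), (21755, 34121), (24274, 38426), (26793, 41351), (29312, 43414), (31831, 44888), (34617, 37801), (36010, 33588), (37403, 28674), (38378, 24596), (39353, 19626), (40403, 12068)],
  mkN 42351 53496 109806 0 0 100000 91586 (16330, 7434) [(16995, 15748), (18229, 23738), (19992, 30602), (21755, 35187), (24274, 39698), (26793, 42803), (29312, 45029), (31831, 46657), (34822, 39813), (36318, 35791), (37814, 31170), (39424, 25149), (41035, 16939)],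
  mkN 46226 55780 95659 0 0 100000 91586 (16330, 7910) [(16995, 16748), (18229, 25279), (19992, 32662), (21755, 37642), (24274, 42614), (26793, 46110), (29312, 48687), (31831, 50641), (34461, 46090), (37091, 40883), (39721, 34726), (42351, 26976)],
  mkN 70934 64057 44408 0 0 100000 91586 (16330, 9393) [(16805, 17644), (17686, 26324), (18946, 34295), (20205, 39973), (22240, 46653), (24274, 51535), (28053, 57939), (31831, 62337), (39028, 58102), (46226, 53342)],
  mkN 100000 84948 0 84948 0 100000 91586 (16330, 12363) [(31831, 81526), (68169, 96274), (70934, 96604)]]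

/-- Certificate data. -/
def low15 : List CertN := [
  mkN 34408 45994 156956 0 0 100000 91586 (16510, 5569) [(17167, 11644), (18387, 17325), (20130, 21922), (21872, 24706), (26851, 28122), (31830, 28155)],
  mkN 35994 48062 144296 0 0 100000 91586 (16510, 6096) [(17167, 12808), (18387, 19167), (20130, 24456), (21872, 27813), (24362, 30857), (26852, 32665), (31831, 34137), (33120, 28499), (34408, 21271)],
  mkN 36918 49119 137820 0 0 100000 91586 (16510, 6367) [(17167, 13373), (18387, 20047), (20130, 25654), (21872, 29269), (24362, 32634), (26852, 34739), (31831, 36785), (34537, 25409), (35994, 15911)],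
  mkN 37584 49824 133502 0 0 100000 91586 (16510, 6536) [(17167, 13734), (18387, 20611), (20130, 26420), (21872, 30197), (24362, 33761), (26852, 36046), (31831, 38434), (33484, 32632), (35138, 25348), (36295, 18475), (36918, 13309)],
  mkN 37999 50242 130945 0 0 100000 91586 (16510, 6624) [(17167, 13938), (18387, 20934), (20130, 26860), (21872, 30729), (24362, 34407), (26852, 36794), (31831, 39371), (33700, 33078), (35570, 25021), (36879, 17064), (37584, 10413)],
  mkN 38291 50526 129204 0 0 100000 91586 (16510, 6696) [(17167, 14081), (18387, 21155), (20130, 27158), (21872, 31089), (24362, 34841), (26852, 37295), (29341, 38928), (31831, 39996), (33836, 33439), (35840, 24968), (37243, 16403), (37999, 8683)],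
  mkN 38582 50802 127514 0 0 100000 91586 (16510, 6758) [(17167, 14216), (18387, 21365), (20130, 27443), (21872, 31432), (24362, 35256), (26852, 37773), (29341, 39465), (31831, 40591), (33930, 33930), (34980, 29960), (36030, 25305), (36765, 21403), (37500, 16557), (38291, 8613)],
  mkN 38752 50960 126547 0 0 100000 91586 (16510, 6792) [(17167, 14291), (18387, 21484), (20130, 27604), (21872, 31626), (24362, 35490), (26852, 38043), (29341, 39769), (31831, 40927), (34025, 34068), (36219, 25117), (36987, 21019), (37755, 15838), (38582, 6563)],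
  mkN 38922 51115 125595 0 0 100000 91586 (16510, 6836) [(17167, 14371), (18387, 21603), (20130, 27764), (21872, 31818), (24362, 35721), (26852, 38308), (29341, 40066), (31831, 41255), (34080, 34343), (35205, 30200), (36330, 25311), (37117, 21176), (37904, 15945), (38752, 6545)],
  mkN 39091 51267 124663 0 0 100000 91586 (16510, 6874) [(17167, 14445), (18387, 21718), (20130, 27918), (21872, 32004), (24362, 35945), (26852, 38565), (29341, 40354), (31831, 41573), (34136, 34604), (35288, 30428), (36440, 25499), (37246, 21328), (38053, 16041), (38618, 10852), (38922, 6502)],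
  mkN 39260 51418 123744 0 0 100000 91586 (16510, 6888) [(17167, 14508), (18387, 21824), (20130, 28065), (21872, 32182), (24362, 36160), (26852, 38814), (29341, 40633), (31831, 41881), (34190, 34862), (35370, 30652), (36550, 25680), (37376, 21467), (38202, 16129), (38780, 10884), (39091, 6465)],
  mkN 39429 51566 122838 0 0 100000 91586 (16510, 6920) [(17167, 14578), (18387, 21933), (20130, 28212), (21872, 32359), (24362, 36374), (26852, 39059), (29341, 40908), (31831, 42184), (34246, 35111), (35453, 30870), (36660, 25860), (37505, 21613), (38350, 16228), (38942, 10923), (39260, 6443)],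
  mkN 39597 51710 121951 0 0 100000 91586 (16510, 6969) [(17167, 14654), (18387, 22044), (20130, 28359), (21872, 32535), (24362, 36584), (26852, 39300), (29341, 41177), (31831, 42481), (34300, 35361), (35535, 31086), (36770, 26035), (37634, 21754), (38498, 16323), (39103, 10969), (39429, 6414)],
  mkN 39883 51952 120471 0 0 100000 91586 (16510, 7015) [(17167, 14765), (18387, 22219), (19258, 25783), (20130, 28596), (21872, 32820), (24362, 36927), (26852, 39694), (29341, 41617), (31831, 42965), (34355, 35884), (35617, 31647), (36879, 26660), (37762, 22463), (38646, 17202), (39264, 12194), (39597, 8300)],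
  mkN 40285 52282 118449 0 0 100000 91586 (16510, 7090) [(17167, 14920), (18387, 22459), (19258, 26068), (20130, 28919), (21872, 33207), (24362, 37391), (26852, 40226), (29341, 42211), (31831, 43618), (34448, 36539), (35756, 32315), (37065, 27357), (37981, 23206), (38897, 18063), (39883, 9755)],
  mkN 40918 52780 115400 0 0 100000 91586 (16510, 7195) [(17167, 15148), (18387, 22814), (20130, 29396), (21872, 33781), (24362, 38078), (26852, 41011), (29341, 43087), (31831, 44580), (34578, 37548), (35952, 33368), (37326, 28495), (38288, 24452), (39249, 19535), (40285, 12070)],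
  mkN 42236 53739 109528 0 0 100000 91586 (16510, 7394) [(17167, 15577), (18387, 23481), (20130, 30293), (21872, 34855), (24362, 39361), (26852, 42475), (29341, 44716), (31831, 46363), (34784, 39571), (36261, 35583), (37738, 31003), (39328, 25040), (40918, 16934)],
  mkN 46231 56129 94895 0 0 100000 91586 (16510, 7864) [(17167, 16597), (17777, 21411), (18387, 25061), (19258, 29151), (20130, 32409), (21872, 37379), (24362, 42361), (26852, 45878), (29341, 48479), (31831, 50460), (34432, 45978), (37034, 40857), (39635, 34823), (42236, 27273)],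
  mkN 71567 64859 41433 0 0 100000 91586 (16510, 9410) [(17167, 19883), (18387, 30103), (20130, 39080), (21872, 45250), (24362, 51572), (26852, 56176), (29341, 59709), (31831, 62518), (39031, 58600), (46231, 54237)],
  mkN 100000 85604 0 85604 0 100000 91586 (16510, 12317) [(31831, 81207), (68169, 96215), (71567, 96626)]]

/-- Certificate data. -/
def low16 : List CertN := [
  mkN 34408 46208 156335 0 0 100000 91586 (16690, 5520) [(17339, 11507), (18545, 17131), (20267, 21700), (21989, 24486), (24449, 26817), (26909, 27963), (31830, 28099)],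
  mkN 35866 48152 144559 0 0 100000 91586 (16690, 6032) [(17339, 12598), (18545, 18849), (20267, 24060), (21989, 27377), (26910, 32186), (31831, 33654), (34408, 20425)],
  mkN 36792 49242 137959 0 0 100000 91586 (16690, 6290) [(17339, 13166), (18545, 19742), (20267, 25279), (21989, 28861), (24450, 32205), (26910, 34303), (31831, 36359), (34454, 25193), (35866, 15934)],
  mkN 37459 49967 133566 0 0 100000 91586 (16690, 6467) [(17339, 13535), (18545, 20317), (20267, 26059), (21989, 29806), (24450, 33353), (26910, 35635), (31831, 38039), (33444, 32309), (35056, 25133), (35924, 20148), (36792, 13322)],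
  mkN 37875 50396 130965 0 0 100000 91586 (16690, 6575) [(17339, 13751), (18545, 20651), (20267, 26511), (21989, 30351), (24450, 34013), (26910, 36398), (31831, 38995), (33660, 32768), (35489, 24807), (36770, 16956), (37459, 10433)],
  mkN 38167 50688 129200 0 0 100000 91586 (16690, 6628) [(17339, 13887), (18545, 20869), (20267, 26808), (21989, 30712), (24450, 34450), (26910, 36903), (29370, 38545), (31831, 39626), (33796, 33130), (35760, 24745), (37135, 16276), (37875, 8680)],
  mkN 38458 50971 127487 0 0 100000 91586 (16690, 6688) [(17339, 14022), (18545, 21080), (20267, 27096), (21989, 31059), (24450, 34869), (26910, 37387), (29370, 39089), (31831, 40228), (33890, 33627), (34920, 29694), (35949, 25089), (36670, 21229), (37391, 16438), (38167, 8606)],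
  mkN 38628 51132 126507 0 0 100000 91586 (16690, 6741) [(17339, 14107), (18545, 21206), (20267, 27263), (21989, 31259), (24450, 35109), (26910, 37663), (29370, 39398), (31831, 40570), (33985, 33769), (36139, 24899), (36892, 20846), (37646, 15719), (38458, 6568)],
  mkN 38798 51292 125542 0 0 100000 91586 (16690, 6763) [(17339, 14177), (18545, 21320), (20267, 27420), (21989, 31449), (24450, 35340), (26910, 37929), (29370, 39697), (31831, 40900), (34040, 34044), (35144, 29940), (36249, 25096), (37022, 20999), (37795, 15820), (38628, 6533)],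
  mkN 38967 51448 124597 0 0 100000 91586 (16690, 6798) [(17339, 14251), (18545, 21435), (20267, 27575), (21989, 31636), (24450, 35565), (26910, 38188), (29370, 39988), (31831, 41221), (34096, 34308), (35228, 30167), (36360, 25281), (37152, 21147), (37945, 15909), (38499, 10786), (38798, 6490)],
  mkN 39136 51601 123666 0 0 100000 91586 (16690, 6846) [(17339, 14330), (18545, 21552), (20267, 27731), (21989, 31822), (24450, 35788), (26910, 38444), (29370, 40274), (31831, 41537), (34150, 34574), (35310, 30399), (36469, 25474), (37281, 21301), (38093, 16016), (38661, 10832), (38967, 6478)],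
  mkN 39305 51753 122750 0 0 100000 91586 (16690, 6863) [(17339, 14393), (18545, 21658), (20267, 27876), (21989, 31999), (24450, 36002), (26910, 38690), (29370, 40550), (31831, 41841), (34205, 34826), (35392, 30620), (36579, 25652), (37410, 21443), (38241, 16109), (38823, 10862), (39136, 6439)],
  mkN 39473 51901 121852 0 0 100000 91586 (16690, 6901) [(17339, 14465), (18545, 21767), (20267, 28023), (21989, 32174), (24450, 36213), (26910, 38932), (29370, 40820), (31831, 42139), (34260, 35073), (35474, 30836), (36689, 25826), (37539, 21583), (38389, 16201), (38984, 10903), (39305, 6400)],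
  mkN 39641 52047 120967 0 0 100000 91586 (16690, 6935) [(17339, 14534), (18545, 21874), (20267, 28165), (21989, 32346), (24450, 36419), (26910, 39168), (29370, 41085), (31831, 42430), (34314, 35317), (36798, 26001), (37668, 21719), (38537, 16291), (39145, 10942), (39473, 6379)],
  mkN 39927 52291 119489 0 0 100000 91586 (16690, 6988) [(17339, 14647), (18545, 22049), (20267, 28402), (21989, 32630), (24450, 36759), (26910, 39559), (29370, 41521), (31831, 42910), (34370, 35833), (35639, 31600), (36908, 26619), (37796, 22425), (38684, 17174), (39641, 8267)],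
  mkN 40446 52719 116898 0 0 100000 91586 (16690, 7075) [(17339, 14840), (18545, 22351), (19406, 25957), (20267, 28809), (21989, 33120), (24450, 37347), (26910, 40232), (29370, 42272), (31831, 43735), (34462, 36744), (35778, 32583), (37093, 27724), (38014, 23676), (38935, 18714), (39927, 11002)],
  mkN 41426 53478 112300 0 0 100000 91586 (16690, 7237) [(17339, 15181), (18545, 22880), (20267, 29520), (21989, 33971), (24450, 38366), (26910, 41395), (29370, 43568), (31831, 45155), (34631, 38315), (36031, 34280), (37431, 29618), (38411, 25803), (39391, 21259), (40446, 14799)],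
  mkN 43876 55138 102246 0 0 100000 91586 (16690, 7572) [(17339, 15898), (18545, 23991), (19406, 27900), (20267, 31010), (21989, 35753), (24450, 40489), (26910, 43810), (29370, 46245), (31831, 48078), (34950, 41738), (36509, 38076), (38068, 33948), (39747, 28751), (41426, 22244)],
  mkN 55316 60114 72104 0 0 100000 91586 (16690, 8508) [(17339, 17878), (18545, 27038), (20267, 35065), (21989, 40565), (24450, 46166), (26910, 50206), (29370, 53273), (31831, 55678), (34842, 52294), (37854, 48577), (40865, 44447), (43876, 39772)],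
  mkN 100000 86260 0 86260 0 100000 91586 (16690, 12274) [(21989, 58693), (31831, 80884), (55316, 92273)]]

/-- Certificate data. -/
def low17 : List CertN := [
  mkN 34275 46225 156891 0 0 100000 91586 (16870, 5436) [(18703, 16765), (22106, 23963), (26968, 27349), (31830, 27428)],
  mkN 35736 48234 144856 0 0 100000 91586 (16870, 5949) [(17512, 12387), (18703, 18525), (20404, 23657), (22106, 26933), (26968, 31696), (31831, 33156), (34275, 20465)],
  mkN 36664 49357 138126 0 0 100000 91586 (16870, 6227) [(17512, 12973), (18703, 19441), (20404, 24905), (22106, 28452), (26968, 33862), (31831, 35925), (34369, 24980), (35736, 15962)],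
  mkN 37332 50103 133656 0 0 100000 91586 (16870, 6403) [(17512, 13347), (18703, 20024), (20404, 25698), (22106, 29413), (24537, 32940), (26968, 35219), (31831, 37636), (33402, 31985), (34972, 24920), (35818, 20018), (36664, 13336)],
  mkN 37749 50545 131009 0 0 100000 91586 (16870, 6500) [(17512, 13560), (18703, 20360), (20404, 26155), (22106, 29966), (24537, 33609), (26968, 35994), (31831, 38608), (33619, 32448), (35407, 24582), (36658, 16849), (37332, 10442)],
  mkN 38042 50845 129212 0 0 100000 91586 (16870, 6566) [(17512, 13704), (18703, 20585), (20404, 26460), (22106, 30335), (24537, 34056), (26968, 36509), (31831, 39251), (33754, 32824), (35678, 24527), (37024, 16167), (37749, 8695)],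
  mkN 38334 51136 127468 0 0 100000 91586 (16870, 6633) [(17512, 13844), (18703, 20802), (20404, 26753), (22106, 30689), (24537, 34483), (26968, 37002), (29400, 38713), (31831, 39864), (33850, 33324), (34859, 29434), (35868, 24877), (37281, 16331), (38042, 8624)],
  mkN 38504 51302 126475 0 0 100000 91586 (16870, 6664) [(17512, 13920), (18703, 20923), (20404, 26918), (22106, 30887), (24537, 34723), (26968, 37279), (29400, 39024), (31831, 40208), (33944, 33469), (36058, 24681), (36798, 20661), (37537, 15592), (38334, 6555)],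
  mkN 38674 51465 125497 0 0 100000 91586 (16870, 6705) [(17512, 13999), (18703, 21044), (20404, 27080), (22106, 31083), (24537, 34959), (26968, 37550), (29400, 39328), (31831, 40544), (34000, 33746), (35084, 29678), (36168, 24882), (36927, 20826), (37686, 15700), (38504, 6533)],
  mkN 38844 51626 124534 0 0 100000 91586 (16870, 6734) [(17512, 14072), (18703, 21159), (20404, 27238), (22106, 31273), (24537, 35188), (26968, 37813), (29400, 39624), (31831, 40871), (34055, 34017), (35167, 29914), (36279, 25073), (37058, 20973), (37836, 15795), (38674, 6503)],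
  mkN 39013 51783 123591 0 0 100000 91586 (16870, 6777) [(17512, 14149), (18703, 21276), (20404, 27393), (22106, 31460), (24537, 35413), (26968, 38071), (29400, 39912), (31831, 41189), (34110, 34282), (35250, 30143), (36389, 25262), (37187, 21126), (37985, 15892), (38844, 6466)],
  mkN 39182 51938 122662 0 0 100000 91586 (16870, 6811) [(17512, 14221), (18703, 21388), (20404, 27544), (22106, 31641), (24537, 35631), (26968, 38322), (29400, 40193), (31831, 41499), (34165, 34540), (35332, 30369), (36499, 25445), (37316, 21275), (38133, 15993), (38705, 10807), (39013, 6444)],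
  mkN 39351 52090 121748 0 0 100000 91586 (16870, 6855) [(17512, 14296), (18703, 21500), (20404, 27694), (22106, 31821), (24537, 35846), (26968, 38569), (29400, 40469), (31831, 41802), (34220, 34792), (35414, 30591), (36609, 25626), (37445, 21422), (38281, 16094), (39182, 6426)],
  mkN 39638 52345 120225 0 0 100000 91586 (16870, 6894) [(17512, 14405), (18703, 21676), (20404, 27935), (22106, 32111), (24537, 36196), (26968, 38971), (29400, 40919), (31831, 42298), (34275, 35327), (35497, 31160), (36719, 26260), (37574, 22139), (38430, 16982), (39029, 12080), (39351, 8302)],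
  mkN 40041 52691 118150 0 0 100000 91586 (16870, 6974) [(17512, 14565), (18703, 21922), (19554, 25464), (20404, 28265), (22106, 32508), (24537, 36671), (26968, 39515), (29400, 41526), (31831, 42965), (34368, 35995), (35637, 31838), (36906, 26966), (37794, 22891), (38682, 17851), (39638, 9752)],
  mkN 40676 53213 115022 0 0 100000 91586 (16870, 7085) [(17512, 14799), (18703, 22285), (20404, 28753), (22106, 33093), (24537, 37373), (26968, 40317), (29400, 42421), (31831, 43947), (34500, 37019), (35834, 32908), (37168, 28121), (39035, 19340), (40041, 12069)],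
  mkN 41999 54216 109010 0 0 100000 91586 (16870, 7299) [(17512, 15241), (18703, 22967), (20404, 29668), (22106, 34188), (24537, 38681), (26968, 41809), (29400, 44079), (31831, 45761), (34706, 39076), (37580, 30665), (39128, 24825), (40676, 16927)],
  mkN 46010 56705 94097 0 0 100000 91586 (16870, 7786) [(17512, 16277), (18703, 24567), (20404, 31809), (22106, 36743), (24537, 41716), (26968, 45252), (29400, 47887), (31831, 49905), (34373, 45500), (36915, 40479), (39457, 34574), (41999, 27217)],
  mkN 72082 66010 38347 0 0 100000 91586 (16870, 9380) [(17512, 19657), (18703, 29752), (20404, 38671), (22106, 44842), (24537, 51196), (26968, 55850), (29400, 59441), (31831, 62307), (38920, 58733), (46010, 54791)],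
  mkN 100000 86917 0 86917 0 100000 91586 (16870, 12225) [(31831, 80556), (68169, 96096), (72082, 96584)]]

/-- Certificate data. -/
def low18 : List CertN := [
  mkN 34275 46436 156276 0 0 100000 91586 (17050, 5392) [(17684, 11140), (18861, 16577), (22223, 23748), (27026, 27194), (31830, 27374)],
  mkN 35736 48477 144174 0 0 100000 91586 (17050, 5931) [(17684, 12268), (18861, 18347), (20542, 23450), (22223, 26724), (27027, 31537), (31831, 33083), (34275, 20421)],
  mkN 36664 49618 137414 0 0 100000 91586 (17050, 6192) [(17684, 12845), (18861, 19256), (20542, 24693), (22223, 28236), (24625, 31574), (27027, 33695), (31831, 35836), (34369, 24917), (35736, 15922)],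
  mkN 37332 50375 132928 0 0 100000 91586 (17050, 6362) [(17684, 13216), (18861, 19837), (20542, 25483), (22223, 29194), (24625, 32737), (27027, 35045), (29429, 36565), (31831, 37537), (33402, 31899), (34972, 24852), (35818, 19962), (36664, 13299)],
  mkN 37749 50822 130274 0 0 100000 91586 (17050, 6479) [(17684, 13439), (18861, 20178), (20542, 25943), (22223, 29748), (24625, 33408), (27027, 35819), (31831, 38505), (33619, 32361), (35407, 24516), (36658, 16805), (37332, 10417)],
  mkN 38042 51127 128471 0 0 100000 91586 (17050, 6530) [(17684, 13575), (18861, 20397), (20542, 26244), (22223, 30113), (24625, 33850), (27027, 36331), (29429, 38013), (31831, 39143), (33754, 32732), (35678, 24458), (37024, 16120), (37749, 8669)],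
  mkN 38334 51422 126723 0 0 100000 91586 (17050, 6593) [(17684, 13713), (18861, 20613), (20542, 26535), (22223, 30465), (24625, 34275), (27027, 36821), (29429, 38564), (31831, 39752), (33850, 33228), (34859, 29348), (35868, 24803), (37281, 16281), (38042, 8594)],
  mkN 38504 51590 125727 0 0 100000 91586 (17050, 6630) [(17684, 13791), (18861, 20735), (20542, 26700), (22223, 30664), (24625, 34515), (27027, 37097), (29429, 38874), (31831, 40094), (33944, 33373), (36058, 24609), (36798, 20600), (37537, 15546), (38334, 6535)],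
  mkN 38674 51755 124747 0 0 100000 91586 (17050, 6673) [(17684, 13871), (18861, 20856), (20542, 26863), (22223, 30860), (24625, 34750), (27027, 37367), (29429, 39177), (31831, 40428), (34000, 33648), (36168, 24809), (36927, 20764), (37686, 15654), (38504, 6514)],
  mkN 38844 51918 123782 0 0 100000 91586 (17050, 6704) [(17684, 13944), (18861, 20971), (20542, 27020), (22223, 31049), (24625, 34978), (27027, 37629), (29429, 39471), (31831, 40753), (34055, 33918), (35167, 29826), (36279, 24998), (37058, 20911), (37836, 15748), (38674, 6485)],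
  mkN 39013 52077 122837 0 0 100000 91586 (17050, 6747) [(17684, 14021), (18861, 21088), (20542, 27175), (22223, 31235), (24625, 35202), (27027, 37886), (29429, 39758), (31831, 41069), (34110, 34181), (35250, 30053), (36389, 25186), (37187, 21063), (37985, 15845), (38844, 6449)],
  mkN 39182 52234 121907 0 0 100000 91586 (17050, 6779) [(17684, 14092), (18861, 21198), (20542, 27325), (22223, 31415), (24625, 35419), (27027, 38135), (29429, 40037), (31831, 41376), (34165, 34436), (35332, 30277), (36499, 25367), (37316, 21209), (38133, 15943), (39013, 6421)],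
  mkN 39469 52495 120358 0 0 100000 91586 (17050, 6841) [(17684, 14213), (18861, 21384), (20542, 27574), (22223, 31715), (24625, 35778), (27027, 38547), (29429, 40497), (31831, 41883), (34220, 34982), (35414, 30861), (36609, 26014), (37445, 21941), (38281, 16855), (38867, 12023), (39182, 8315)],
  mkN 39873 52852 118245 0 0 100000 91586 (17050, 6906) [(17684, 14368), (18861, 21629), (20542, 27906), (22223, 32115), (24625, 36259), (27027, 39099), (29429, 41114), (31831, 42561), (34314, 35657), (35555, 31545), (36796, 26729), (37664, 22707), (38533, 17731), (39469, 9764)],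
  mkN 40510 53389 115058 0 0 100000 91586 (17050, 7031) [(17684, 14611), (18861, 22001), (20542, 28405), (22223, 32713), (24625, 36975), (27027, 39917), (29429, 42026), (31831, 43561), (34444, 36706), (35751, 32639), (37058, 27906), (38888, 19234), (39873, 12093)],
  mkN 41837 54421 108943 0 0 100000 91586 (17050, 7233) [(17684, 15053), (18861, 22689), (20542, 29331), (22223, 33822), (24625, 38301), (27027, 41430), (29429, 43708), (31831, 45402), (34652, 38785), (36062, 34911), (37472, 30472), (38991, 24710), (40510, 16945)],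
  mkN 45860 56971 93825 0 0 100000 91586 (17050, 7736) [(17684, 16103), (18861, 24309), (19702, 28305), (20542, 31497), (22223, 36406), (24625, 41371), (27027, 44912), (29429, 47558), (31831, 49592), (34332, 45237), (36834, 40276), (39336, 34451), (41837, 27218)],
  mkN 72215 66511 37273 0 0 100000 91586 (17050, 9362) [(17684, 19517), (18861, 29540), (20542, 38420), (22223, 44578), (24625, 50937), (27027, 55607), (29429, 59218), (31831, 62107), (38846, 58656), (45860, 54866)],
  mkN 100000 87573 0 87573 0 100000 91586 (17050, 12189) [(31831, 80225), (68169, 96036), (72215, 96549)]]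

/-- Certificate data. -/
def low19 : List CertN := [
  mkN 34275 46647 155660 0 0 100000 91586 (17300, 6289) [(17923, 11431), (19080, 16606), (20733, 20921), (22386, 23598), (24747, 25884), (27108, 27049), (31830, 27322)],
  mkN 35736 48722 143490 0 0 100000 91586 (17300, 6913) [(17923, 12600), (19080, 18401), (20733, 23366), (22386, 26585), (24748, 29565), (27109, 31389), (31831, 33005), (34275, 20370)],
  mkN 36664 49879 136701 0 0 100000 91586 (17300, 7247) [(17923, 13213), (19080, 19331), (20733, 24622), (22386, 28107), (24748, 31418), (27109, 33546), (31831, 35747), (33100, 30835), (34369, 24855), (35736, 15883)],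
  mkN 37208 50508 133012 0 0 100000 91586 (17300, 7417) [(17923, 13530), (19080, 19815), (20733, 25276), (22386, 28896), (24748, 32375), (27109, 34655), (31831, 37140), (33402, 31417), (34972, 24210), (36664, 12015)],
  mkN 37626 50969 130309 0 0 100000 91586 (17300, 7536) [(17923, 13757), (19080, 20162), (20733, 25743), (22386, 29459), (24748, 33056), (27109, 35442), (31831, 38123), (33578, 32052), (35326, 24302), (36549, 16700), (37208, 10432)],
  mkN 37919 51281 128480 0 0 100000 91586 (17300, 7615) [(17923, 13908), (19080, 20392), (20733, 26053), (22386, 29833), (24748, 33508), (27109, 35963), (29470, 37638), (31831, 38772), (33714, 32426), (35598, 24241), (36916, 16006), (37626, 8676)],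
  mkN 38090 51459 127436 0 0 100000 91586 (17300, 7661) [(17923, 13994), (19080, 20523), (20733, 26229), (22386, 30045), (24748, 33763), (27109, 36257), (31831, 39137), (33810, 32576), (35788, 24046), (37173, 15247), (37919, 6607)],
  mkN 38261 51634 126408 0 0 100000 91586 (17300, 7711) [(17923, 14081), (19080, 20653), (20733, 26402), (22386, 30253), (24748, 34013), (27109, 36544), (29470, 38291), (31831, 39493), (33865, 32873), (35899, 24257), (37323, 15360), (38090, 6587)],
  mkN 38431 51806 125403 0 0 100000 91586 (17300, 7744) [(17923, 14157), (19080, 20774), (20733, 26566), (22386, 30451), (24748, 34253), (27109, 36820), (29470, 38601), (31831, 39835), (33920, 33158), (36010, 24455), (36742, 20474), (37473, 15456), (38261, 6531)],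
  mkN 38601 51974 124414 0 0 100000 91586 (17300, 7798) [(17923, 14243), (19080, 20899), (20733, 26732), (22386, 30650), (24748, 34491), (27109, 37093), (29470, 38906), (31831, 40172), (33976, 33434), (35048, 29406), (36121, 24652), (36872, 20634), (37622, 15566), (38431, 6515)],
  mkN 38771 52141 123440 0 0 100000 91586 (17300, 7824) [(17923, 14313), (19080, 21013), (20733, 26888), (22386, 30838), (24748, 34719), (27109, 37355), (29470, 39200), (31831, 40496), (34032, 33701), (35132, 29635), (36232, 24839), (37002, 20784), (37772, 15656), (38601, 6476)],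
  mkN 38940 52303 122487 0 0 100000 91586 (17300, 7873) [(17923, 14394), (19080, 21132), (20733, 27045), (22386, 31026), (24748, 34944), (27109, 37613), (29470, 39489), (31831, 40814), (34086, 33968), (35214, 29867), (36342, 25028), (37132, 20931), (37921, 15753), (38771, 6439)],
  mkN 39109 52463 121549 0 0 100000 91586 (17300, 7912) [(17923, 14468), (19080, 21245), (20733, 27197), (22386, 31208), (24748, 35163), (27109, 37864), (29470, 39769), (31831, 41122), (34142, 34221), (35297, 30088), (36452, 25210), (37260, 21083), (38069, 15852), (38940, 6412)],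
  mkN 39278 52620 120625 0 0 100000 91586 (17300, 7961) [(17923, 14547), (19080, 21359), (20733, 27348), (22386, 31389), (24748, 35378), (27109, 38111), (29470, 40044), (31831, 41425), (34196, 34476), (35379, 30309), (36562, 25390), (37390, 21224), (38218, 15945), (39109, 6396)],
  mkN 39565 52883 119087 0 0 100000 91586 (17300, 8013) [(17923, 14661), (19080, 21538), (20733, 27590), (22386, 31680), (24748, 35729), (27109, 38513), (29470, 40494), (31831, 41919), (34252, 35006), (35462, 30877), (36672, 26023), (37519, 21941), (38366, 16839), (39278, 8263)],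
  mkN 39969 53241 116988 0 0 100000 91586 (17300, 8099) [(17923, 14824), (19080, 21785), (20733, 27921), (22386, 32077), (24748, 36204), (27109, 39056), (29470, 41100), (31831, 42584), (34344, 35676), (35601, 31557), (36858, 26733), (38618, 17709), (39565, 9711)],
  mkN 40722 53875 113267 0 0 100000 91586 (17300, 8260) [(17923, 15113), (19080, 22220), (20733, 28501), (22386, 32769), (24748, 37031), (27109, 40000), (29470, 42150), (31831, 43735), (34476, 36945), (37121, 28269), (38972, 19813), (39969, 13035)],
  mkN 42507 55229 105325 0 0 100000 91586 (17300, 8580) [(17923, 15707), (19080, 23116), (20733, 29693), (22386, 34192), (24748, 38725), (27109, 41928), (29470, 44289), (31831, 46071), (34720, 39663), (37610, 31702), (39166, 26296), (40722, 19302)],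
  mkN 49176 58957 83460 0 0 100000 91586 (17300, 9401) [(17923, 17230), (19080, 25408), (20733, 32730), (22386, 37797), (24748, 42988), (27109, 46744), (29470, 49595), (31831, 51824), (34500, 47956), (37169, 43633), (39838, 38705), (42507, 32898)],
  mkN 89687 77005 0 22395 0 100000 91586 (17300, 12641) [(17923, 23196), (19080, 34275), (19906, 39799), (20733, 44282), (22386, 51288), (24748, 58578), (27109, 63968), (29470, 68161), (31831, 71535), (40504, 73382), (49176, 75133)],
  mkN 100000 88230 0 88230 0 100000 91586 (17300, 14283) [(31831, 79890), (68169, 95975), (89687, 98714)]]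

/-- Certificate data. -/
def low20 : List CertN := [
  mkN 34142 46729 156026 0 0 100000 91586 (17550, 6167) [(19299, 16168), (22548, 22991), (27189, 26366), (31830, 26613)],
  mkN 35606 48888 143548 0 0 100000 91586 (17550, 6807) [(18162, 12339), (19299, 18013), (20924, 22891), (22548, 26065), (24869, 29017), (27190, 30837), (31831, 32472), (34142, 20394)],
  mkN 36536 50088 136608 0 0 100000 91586 (17550, 7152) [(18162, 12966), (19299, 18964), (20924, 24176), (22548, 27620), (24869, 30912), (27190, 33042), (31831, 35275), (33058, 30460), (34285, 24611), (35606, 15895)],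
  mkN 37081 50740 132844 0 0 100000 91586 (17550, 7312) [(18162, 13283), (19299, 19452), (20924, 24837), (22548, 28421), (24869, 31884), (27190, 34168), (31831, 36691), (33360, 31051), (34889, 23956), (36536, 12012)],
  mkN 37499 51215 130095 0 0 100000 91586 (17550, 7447) [(18162, 13520), (19299, 19808), (20924, 25314), (22548, 28995), (24869, 32577), (27190, 34968), (31831, 37689), (33538, 31688), (35244, 24046), (36438, 16561), (37081, 10421)],
  mkN 37793 51538 128228 0 0 100000 91586 (17550, 7531) [(18162, 13675), (19299, 20044), (20924, 25631), (22548, 29376), (24869, 33037), (27190, 35499), (31831, 38349), (33673, 32075), (35515, 23996), (36805, 15872), (37499, 8684)],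
  mkN 38086 51851 126421 0 0 100000 91586 (17550, 7604) [(18162, 13820), (19299, 20267), (20924, 25932), (22548, 29739), (24869, 33475), (27190, 36003), (29510, 37758), (31831, 38975), (33768, 32588), (35706, 24346), (37063, 16032), (37793, 8602)],
  mkN 38257 52029 125389 0 0 100000 91586 (17550, 7659) [(18162, 13909), (19299, 20398), (20924, 26105), (22548, 29947), (24869, 33724), (27190, 36289), (29510, 38078), (31831, 39328), (33864, 32733), (35897, 24150), (37320, 15289), (38086, 6559)],
  mkN 38427 52204 124380 0 0 100000 91586 (17550, 7695) [(18162, 13987), (19299, 20519), (20924, 26270), (22548, 30145), (24869, 33963), (27190, 36564), (29510, 38386), (31831, 39668), (33920, 33012), (36008, 24347), (37470, 15386), (38257, 6507)],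
  mkN 38597 52375 123388 0 0 100000 91586 (17550, 7749) [(18162, 14073), (19299, 20644), (20924, 26435), (22548, 30342), (24869, 34199), (27190, 36835), (29510, 38689), (31831, 40002), (33974, 33293), (36118, 24547), (36868, 20550), (37619, 15494), (38427, 6488)],
  mkN 38767 52545 122410 0 0 100000 91586 (17550, 7778) [(18162, 14143), (19299, 20758), (20924, 26590), (22548, 30530), (24869, 34426), (27190, 37096), (29510, 38981), (31831, 40324), (34030, 33558), (36229, 24733), (36998, 20699), (37768, 15593), (38597, 6452)],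
  mkN 38936 52710 121454 0 0 100000 91586 (17550, 7825) [(18162, 14223), (19299, 20875), (20924, 26746), (22548, 30717), (24869, 34650), (27190, 37352), (29510, 39268), (31831, 40638), (34085, 33819), (36339, 24920), (37128, 20844), (37917, 15688), (38767, 6414)],
  mkN 39224 52986 119859 0 0 100000 91586 (17550, 7892) [(18162, 14349), (19299, 21066), (20924, 27001), (22548, 31023), (24869, 35017), (27190, 37773), (29510, 39738), (31831, 41155), (34140, 34375), (35294, 30331), (36449, 25578), (37258, 21583), (38066, 16606), (38936, 8307)],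
  mkN 39630 53363 117680 0 0 100000 91586 (17550, 7984) [(18162, 14519), (19299, 21324), (20924, 27346), (22548, 31436), (24869, 35512), (27190, 38339), (29510, 40370), (31831, 41849), (34234, 35067), (35435, 31032), (36636, 26312), (38318, 17506), (39224, 9767)],
  mkN 40269 53929 114406 0 0 100000 91586 (17550, 8127) [(18162, 14775), (19299, 21708), (20924, 27858), (22548, 32047), (24869, 36242), (27190, 39174), (29510, 41299), (31831, 42868), (34366, 36127), (36900, 27498), (38674, 19020), (39630, 12076)],
  mkN 41718 55104 107617 0 0 100000 91586 (17550, 8395) [(18162, 15280), (19299, 22474), (20924, 28881), (22548, 33271), (24869, 37702), (27190, 40837), (29510, 43146), (31831, 44887), (34574, 38452), (37316, 30415), (38792, 24898), (40269, 17592)],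
  mkN 46317 58055 90560 0 0 100000 91586 (17550, 9048) [(18162, 16489), (19299, 24294), (20924, 31297), (22548, 36144), (24869, 41108), (27190, 44693), (29510, 47404), (31831, 49514), (34302, 45363), (36774, 40666), (39246, 35210), (41718, 28560)],
  mkN 76326 70053 21208 0 0 100000 91586 (17550, 11327) [(18162, 20672), (19299, 30536), (20924, 39480), (22548, 45761), (24869, 52319), (27190, 57185), (29510, 60979), (31831, 64040), (46317, 60165)],
  mkN 100000 89144 0 89144 0 100000 91586 (17550, 14211) [(31831, 79417), (68169, 95889), (76326, 96959)]]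

/-- Certificate data. -/
def low21 : List CertN := [
  mkN 34142 47019 155178 0 0 100000 91586 (17900, 7184) [(19607, 16218), (21192, 20248), (22776, 22793), (25039, 25006), (27303, 26169), (31830, 26540)],
  mkN 35477 49047 143622 0 0 100000 91586 (17900, 7899) [(19607, 17965), (21192, 22600), (22776, 25652), (27304, 30303), (31831, 31936), (34142, 19489)],
  mkN 36283 50131 137442 0 0 100000 91586 (17900, 8264) [(19607, 18834), (21192, 23760), (22776, 27052), (27304, 32280), (31831, 34445), (34201, 23754), (35477, 14849)],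
  mkN 36830 50816 133543 0 0 100000 91586 (17900, 8469) [(18497, 13640), (19607, 19355), (21192, 24457), (22776, 27892), (25040, 31237), (27304, 33458), (31831, 35925), (34725, 23544), (36283, 12065)],
  mkN 37250 51315 130696 0 0 100000 91586 (17900, 8634) [(18497, 13900), (19607, 19733), (21192, 24959), (22776, 28494), (25040, 31961), (27304, 34293), (31831, 36965), (33456, 31101), (35080, 23649), (36218, 16373), (36830, 10470)],
  mkN 37545 51654 128768 0 0 100000 91586 (17900, 8728) [(18497, 14064), (19607, 19979), (21192, 25287), (22776, 28889), (25040, 32438), (27304, 34842), (31831, 37648), (33592, 31498), (35353, 23591), (36586, 15667), (37250, 8708)],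
  mkN 37839 51981 126902 0 0 100000 91586 (17900, 8834) [(18497, 14231), (19607, 20220), (21192, 25606), (22776, 29270), (25040, 32895), (27304, 35367), (29568, 37094), (31831, 38299), (33688, 32029), (35545, 23955), (36845, 15836), (37545, 8636)],
  mkN 38010 52167 125841 0 0 100000 91586 (17900, 8893) [(18497, 14324), (19607, 20355), (21192, 25785), (22776, 29484), (25040, 33152), (27304, 35662), (29568, 37424), (31831, 38663), (33784, 32178), (35736, 23754), (37103, 15071), (37839, 6569)],
  mkN 38181 52350 124798 0 0 100000 91586 (17900, 8948) [(18497, 14414), (19607, 20487), (21192, 25959), (22776, 29692), (25040, 33402), (27304, 35949), (29568, 37745), (31831, 39016), (33839, 32473), (35847, 23963), (37253, 15180), (38010, 6542)],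
  mkN 38352 52530 123772 0 0 100000 91586 (17900, 9002) [(18497, 14501), (19607, 20615), (21192, 26129), (22776, 29896), (25040, 33646), (27304, 36228), (29568, 38058), (31831, 39360), (33894, 32761), (35958, 24166), (36680, 20243), (37403, 15288), (38181, 6517)],
  mkN 38522 52706 122769 0 0 100000 91586 (17900, 9054) [(18497, 14586), (19607, 20740), (21192, 26294), (22776, 30093), (25040, 33882), (27304, 36499), (29568, 38360), (31831, 39693), (33950, 33034), (36070, 24355), (36812, 20387), (37553, 15384), (38352, 6471)],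
  mkN 38692 52880 121782 0 0 100000 91586 (17900, 9093) [(18497, 14662), (19607, 20857), (21192, 26452), (22776, 30282), (25040, 34110), (27304, 36761), (29568, 38653), (31831, 40016), (34006, 33298), (36180, 24545), (36941, 20541), (37702, 15482), (38522, 6433)],
  mkN 38862 53050 120810 0 0 100000 91586 (17900, 9151) [(18497, 14749), (19607, 20979), (21192, 26612), (22776, 30473), (25040, 34337), (27304, 37020), (29568, 38943), (31831, 40333), (34061, 33563), (36291, 24732), (37072, 20687), (37852, 15579), (38692, 6418)],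
  mkN 39151 53334 119194 0 0 100000 91586 (17900, 9227) [(18497, 14879), (19607, 21173), (21192, 26870), (22776, 30782), (25040, 34707), (27304, 37443), (29568, 39415), (31831, 40852), (34116, 34122), (35258, 30109), (36401, 25394), (38001, 16502), (38862, 8297)],
  mkN 39557 53720 116995 0 0 100000 91586 (17900, 9336) [(18497, 15059), (19607, 21437), (21192, 27219), (22776, 31198), (25040, 35204), (27304, 38012), (29568, 40048), (31831, 41547), (34210, 34814), (35400, 30807), (36589, 26124), (38254, 17396), (39151, 9738)],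
  mkN 40315 54404 113099 0 0 100000 91586 (17900, 9524) [(18497, 15371), (19607, 21896), (21192, 27826), (22776, 31921), (25040, 36066), (27304, 38994), (29568, 41141), (31831, 42743), (34342, 36131), (36853, 27709), (38611, 19538), (39557, 13067)],
  mkN 41996 55768 105322 0 0 100000 91586 (17900, 9908) [(18497, 15987), (19607, 22790), (21192, 29001), (22776, 33316), (25040, 37723), (27304, 40877), (31831, 45019), (34588, 38726), (37346, 30914), (38830, 25611), (40315, 18738)],
  mkN 48158 59489 84119 0 0 100000 91586 (17900, 10858) [(18497, 17537), (19607, 25046), (21192, 31958), (22776, 36815), (25040, 41851), (27304, 45536), (29568, 48357), (31831, 50580), (36914, 42454), (39455, 37560), (41996, 31780)],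
  mkN 87659 77253 0 17098 0 100000 91586 (17900, 14542) [(18497, 23525), (19607, 33672), (21192, 43093), (22776, 49789), (25040, 56841), (27304, 62112), (29568, 66246), (31831, 69593), (48158, 72362)],
  mkN 100000 90058 0 90058 0 100000 91586 (17900, 16691) [(31831, 78937), (68169, 95803), (87659, 98394)]]

/-- Certificate data. -/
def low22 : List CertN := [
  mkN 34009 47198 155257 0 0 100000 91586 (18250, 7020) [(19914, 15693), (23003, 22077), (27416, 25397), (31830, 25787)],
  mkN 35347 49330 143350 0 0 100000 91586 (18250, 7752) [(19914, 17490), (21458, 22018), (23003, 25023), (27417, 29658), (31831, 31347), (34009, 19492)],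
  mkN 36280 50632 136074 0 0 100000 91586 (18250, 8179) [(18832, 13068), (19914, 18505), (21458, 23373), (23003, 26658), (25210, 29852), (27417, 31962), (29624, 33366), (31831, 34266), (34116, 24089), (35347, 15886)],
  mkN 36827 51336 132141 0 0 100000 91586 (18250, 8398) [(18832, 13425), (19914, 19029), (21458, 24071), (23003, 27497), (25210, 30866), (27417, 33134), (31831, 35733), (34723, 23418), (36280, 12005)],
  mkN 37247 51849 129272 0 0 100000 91586 (18250, 8562) [(18832, 13684), (19914, 19406), (21458, 24569), (23003, 28095), (25210, 31584), (27417, 33962), (31831, 36762), (33454, 30932), (35078, 23518), (36215, 16286), (36827, 10416)],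
  mkN 37542 52197 127331 0 0 100000 91586 (18250, 8658) [(18832, 13848), (19914, 19651), (21458, 24896), (23003, 28487), (25210, 32057), (27417, 34506), (31831, 37437), (33591, 31319), (35351, 23457), (36583, 15582), (37247, 8663)],
  mkN 37836 52533 125453 0 0 100000 91586 (18250, 8759) [(18832, 14012), (19914, 19889), (21458, 25211), (23003, 28865), (25210, 32510), (27417, 35026), (31831, 38079), (33687, 31843), (35543, 23815), (36842, 15746), (37542, 8587)],
  mkN 38129 52858 123636 0 0 100000 91586 (18250, 8858) [(18832, 14168), (19914, 20117), (21458, 25513), (23003, 29225), (25210, 32942), (27417, 35521), (29624, 37364), (31831, 38689), (33782, 32344), (35734, 24158), (37100, 15905), (37836, 8513)],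
  mkN 38420 53172 121883 0 0 100000 91586 (18250, 8946) [(18832, 14314), (19914, 20332), (21458, 25798), (23003, 29566), (25210, 33351), (27417, 35990), (29624, 37888), (31831, 39265), (33878, 32812), (35925, 24475), (37358, 16040), (38129, 8421)],
  mkN 38710 53476 120184 0 0 100000 91586 (18250, 9034) [(18832, 14457), (19914, 20540), (21458, 26073), (23003, 29894), (25210, 33743), (27417, 36439), (29624, 38388), (31831, 39815), (33972, 33265), (36114, 24787), (37613, 16189), (38420, 8351)],
  mkN 39119 53891 117868 0 0 100000 91586 (18250, 9145) [(18832, 14644), (19914, 20816), (21458, 26440), (23003, 30333), (25210, 34268), (27417, 37039), (29624, 39057), (31831, 40549), (34066, 33996), (36302, 25555), (37867, 17117), (38710, 9809)],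
  mkN 39763 54512 114396 0 0 100000 91586 (18250, 9325) [(18832, 14929), (19914, 21230), (21458, 26984), (23003, 30982), (25210, 35042), (27417, 37921), (31831, 41624), (34200, 35105), (36568, 26791), (38226, 18673), (39119, 12121)],
  mkN 41106 55697 107775 0 0 100000 91586 (18250, 9649) [(18832, 15453), (19914, 21993), (21458, 27989), (23003, 32176), (25210, 36463), (27417, 39538), (31831, 43583), (34409, 37304), (36987, 29467), (38375, 24087), (39763, 16958)],
  mkN 45293 58646 91302 0 0 100000 91586 (18250, 10400) [(18832, 16676), (19914, 23775), (21458, 30329), (23003, 34950), (25210, 39744), (27417, 43251), (29624, 45930), (31831, 48033), (36468, 39327), (38787, 33953), (41106, 27387)],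
  mkN 74486 70390 25694 0 0 100000 91586 (18250, 12975) [(18832, 20837), (19914, 29782), (21458, 38125), (23003, 44090), (25210, 50394), (27417, 55123), (29624, 58842), (31831, 61862), (45293, 57196)],
  mkN 100000 91339 0 91339 0 100000 91586 (18250, 16592) [(31831, 78250), (68169, 95680), (74486, 96552)]]

/-- Certificate data. -/
def low23 : List CertN := [
  mkN 33876 47361 155387 0 0 100000 91586 (18750, 8119) [(20352, 15574), (23328, 21479), (27579, 24625), (31830, 25009)],
  mkN 35217 49602 143106 0 0 100000 91586 (18750, 9052) [(20352, 17501), (21840, 21713), (23328, 24560), (25454, 27294), (27580, 29044), (31831, 30752), (33876, 19498)],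
  mkN 36026 50791 136593 0 0 100000 91586 (18750, 9502) [(20352, 18436), (23328, 26035), (25454, 29079), (27580, 31113), (31831, 33364), (34032, 23180), (35217, 14825)],
  mkN 36575 51537 132501 0 0 100000 91586 (18750, 9788) [(20352, 19005), (21840, 23687), (23328, 26923), (25454, 30145), (27580, 32341), (31831, 34896), (33194, 29598), (34558, 22967), (36026, 12046)],
  mkN 36996 52080 129525 0 0 100000 91586 (18750, 9985) [(20352, 19406), (21840, 24210), (23328, 27547), (25454, 30893), (27580, 33201), (31831, 35964), (33373, 30276), (34915, 23065), (35994, 16064), (36575, 10437)],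
  mkN 37292 52448 127511 0 0 100000 91586 (18750, 10109) [(20352, 19669), (21840, 24555), (23328, 27959), (25454, 31387), (27580, 33768), (31831, 36664), (33510, 30681), (35188, 23010), (36363, 15350), (36996, 8686)],
  mkN 37587 52803 125566 0 0 100000 91586 (18750, 10232) [(19311, 14630), (20352, 19922), (21840, 24886), (23328, 28352), (25454, 31857), (27580, 34307), (31831, 37327), (33606, 31222), (35381, 23375), (36623, 15515), (37292, 8605)],
  mkN 37759 53005 124459 0 0 100000 91586 (18750, 10302) [(19311, 14732), (20352, 20064), (21840, 25072), (23328, 28573), (25454, 32121), (27580, 34609), (31831, 37699), (33702, 31376), (35572, 23174), (36882, 14738), (37587, 6547)],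
  mkN 37930 53202 123378 0 0 100000 91586 (18750, 10374) [(19311, 14833), (20352, 20204), (21840, 25253), (23328, 28788), (25454, 32378), (27580, 34902), (31831, 38058), (33758, 31671), (35684, 23381), (37033, 14841), (37759, 6503)],
  mkN 38101 53396 122315 0 0 100000 91586 (18750, 10440) [(19311, 14929), (20352, 20339), (21840, 25429), (23328, 28997), (25454, 32627), (27580, 35187), (31831, 38407), (33813, 31962), (35795, 23586), (37183, 14948), (37930, 6476)],
  mkN 38393 53720 120542 0 0 100000 91586 (18750, 10544) [(19311, 15085), (20352, 20560), (21840, 25718), (23328, 29340), (25454, 33036), (27580, 35655), (29706, 37567), (31831, 38980), (33868, 32576), (35906, 24303), (37333, 15936), (38101, 8386)],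
  mkN 38683 54032 118831 0 0 100000 91586 (18750, 10652) [(19311, 15239), (20352, 20774), (21840, 25996), (23328, 29670), (25454, 33428), (27580, 36102), (31831, 39525), (33964, 33018), (36096, 24606), (37589, 16075), (38393, 8302)],
  mkN 39212 54579 115832 0 0 100000 91586 (18750, 10836) [(19311, 15504), (20352, 21144), (21840, 26475), (23328, 30238), (25454, 34103), (27580, 36870), (29706, 38918), (31831, 40459), (34058, 34037), (36285, 25821), (37844, 17736), (38683, 11061)],
  mkN 40211 55541 110563 0 0 100000 91586 (18750, 11142) [(19311, 15951), (20352, 21772), (21840, 27292), (23328, 31204), (25454, 35250), (27580, 38173), (31831, 42039), (34230, 35762), (36629, 27865), (37920, 22367), (39212, 14825)],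
  mkN 42711 57603 99263 0 0 100000 91586 (18750, 11783) [(19311, 16878), (20352, 23065), (21840, 28963), (23328, 33176), (25454, 37579), (27580, 40808), (31831, 45204), (34554, 39420), (37278, 32398), (40211, 22142)],
  mkN 56959 64271 62726 0 0 100000 91586 (18750, 13640) [(19311, 19564), (20352, 26795), (21840, 33756), (23328, 38793), (25454, 44148), (27580, 48172), (29706, 51334), (31831, 53889), (37271, 48140), (42711, 41324)],
  mkN 100000 92622 0 92622 0 100000 91586 (18750, 19635) [(31831, 77546), (56959, 91710)]]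

/-- Certificate data. -/
def low24 : List CertN := [
  mkN 33743 47672 155076 0 0 100000 91586 (19450, 9244) [(23783, 20769), (27806, 23738), (31830, 24173)],
  mkN 34957 49850 143460 0 0 100000 91586 (19450, 10303) [(20967, 17350), (23783, 23732), (27807, 27945), (31831, 29613), (33743, 18585)],
  mkN 35769 51134 136615 0 0 100000 91586 (19450, 10872) [(20967, 18376), (23783, 25306), (25795, 28174), (27807, 30128), (31831, 32358), (33863, 22672), (34957, 14854)],
  mkN 36320 51937 132331 0 0 100000 91586 (19450, 11220) [(20967, 18993), (22375, 23236), (23783, 26242), (25795, 29293), (27807, 31413), (31831, 33953), (34391, 22451), (35769, 12057)],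
  mkN 36743 52520 129220 0 0 100000 91586 (19450, 11468) [(20967, 19429), (22375, 23794), (23783, 26900), (25795, 30077), (27807, 32311), (31831, 35061), (33290, 29540), (34749, 22557), (35770, 15811), (36320, 10447)],
  mkN 37040 52914 127121 0 0 100000 91586 (19450, 11625) [(20967, 19713), (22375, 24159), (23783, 27332), (25795, 30592), (27807, 32899), (31831, 35785), (33428, 29955), (35024, 22495), (36141, 15077), (36743, 8685)],
  mkN 37213 53137 125930 0 0 100000 91586 (19450, 11719) [(20967, 19876), (22375, 24367), (23783, 27576), (25795, 30881), (27807, 33229), (31831, 36189), (33524, 30127), (35217, 22282), (36402, 14260), (37040, 6607)],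
  mkN 37386 53356 124761 0 0 100000 91586 (19450, 11809) [(20967, 20034), (22375, 24568), (23783, 27813), (25795, 31162), (27807, 33550), (31831, 36581), (33580, 30451), (35329, 22513), (36554, 14376), (37213, 6579)],
  mkN 37558 53570 123620 0 0 100000 91586 (19450, 11894) [(20967, 20186), (22375, 24761), (23783, 28042), (25795, 31433), (27807, 33858), (31831, 36959), (33636, 30762), (35442, 22726), (36706, 14480), (37386, 6529)],
  mkN 37730 53780 122500 0 0 100000 91586 (19450, 11977) [(20967, 20334), (22375, 24950), (23783, 28264), (25795, 31697), (27807, 34159), (31831, 37325), (33692, 31064), (35554, 22938), (36857, 14590), (37558, 6499)],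
  mkN 37902 53986 121400 0 0 100000 91586 (19450, 12061) [(20967, 20479), (22375, 25135), (23783, 28481), (25795, 31954), (27807, 34451), (31831, 37681), (33748, 31358), (35665, 23150), (37007, 14707), (37730, 6473)],
  mkN 38194 54328 119577 0 0 100000 91586 (19450, 12193) [(20208, 17186), (20967, 20715), (22375, 25436), (23783, 28835), (25795, 32373), (27807, 34928), (31831, 38262), (33804, 31976), (35777, 23871), (37158, 15696), (37902, 8358)],
  mkN 38606 54793 117096 0 0 100000 91586 (19450, 12375) [(20208, 17445), (20967, 21033), (22375, 25841), (23783, 29311), (25795, 32936), (27807, 35567), (31831, 39036), (33899, 32743), (35967, 24671), (37415, 16648), (38194, 9820)],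
  mkN 39255 55489 113389 0 0 100000 91586 (19450, 12628) [(20967, 21493), (22375, 26429), (23783, 30003), (25795, 33753), (27807, 36494), (31831, 40159), (34033, 33899), (36235, 25945), (37776, 18237), (38606, 12110)],
  mkN 40728 56913 105790 0 0 100000 91586 (19450, 13160) [(20967, 22420), (22375, 27603), (23783, 31378), (25795, 35370), (27807, 38322), (31831, 42355), (34244, 36400), (36657, 29033), (37956, 24042), (39255, 17589)],
  mkN 45752 60604 86107 0 0 100000 91586 (19450, 14422) [(20967, 24639), (22375, 30409), (23783, 34653), (25795, 39201), (27807, 42628), (31831, 47473), (36280, 39556), (38504, 34775), (40728, 29095)],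
  mkN 82428 77470 0 3848 0 100000 91586 (19450, 19154) [(20967, 32824), (22375, 40629), (23783, 46434), (25795, 52750), (27807, 57605), (31831, 64704), (45752, 65330)],
  mkN 100000 94460 0 94460 0 100000 91586 (19450, 22923) [(31831, 76508), (68169, 95372), (82428, 97472)]]

/-- Certificate data. -/
def low25 : List CertN := [
  mkN 33743 48461 152739 0 0 100000 91586 (20150, 9033) [(21581, 14877), (24238, 20093), (28034, 23226), (31830, 23991)],
  mkN 34957 50787 140781 0 0 100000 91586 (20150, 10124) [(21581, 16805), (24238, 23061), (28034, 27404), (31831, 29339), (33743, 18410)],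
  mkN 35769 52149 133776 0 0 100000 91586 (20150, 10718) [(21581, 17839), (24238, 24629), (28034, 29562), (31831, 32031), (33863, 22440), (34957, 14703)],
  mkN 36446 53185 128448 0 0 100000 91586 (20150, 11148) [(21581, 18585), (22910, 22751), (24238, 25753), (26136, 28867), (28034, 31094), (31831, 33920), (33111, 28957), (34391, 22828), (35769, 13165)],
  mkN 36992 53963 124450 0 0 100000 91586 (20150, 11453) [(21581, 19122), (22910, 23436), (24238, 26561), (26136, 29826), (28034, 32189), (31831, 35261), (33331, 29842), (34831, 23037), (36446, 11641)],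
  mkN 37534 54688 120720 0 0 100000 91586 (20150, 11739) [(21581, 19614), (24238, 27295), (26136, 30695), (28034, 33177), (31831, 36465), (33508, 30799), (35186, 23644), (36360, 16781), (36992, 11429)],
  mkN 38315 55661 115722 0 0 100000 91586 (20150, 12096) [(21581, 20244), (22910, 24865), (24238, 28240), (26136, 31813), (28034, 34447), (31831, 38005), (33684, 32297), (35538, 25147), (36536, 20187), (37534, 13415)],
  mkN 39689 57189 107866 0 0 100000 91586 (20150, 12650) [(21581, 21204), (22910, 26081), (24238, 29665), (26136, 33491), (28034, 36346), (31831, 40291), (33938, 34672), (36046, 27757), (38315, 17153)],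
  mkN 43858 60772 89442 0 0 100000 91586 (20150, 13866) [(21581, 23296), (22910, 28720), (24238, 32744), (26136, 37095), (28034, 40401), (31831, 45120), (35760, 37366), (37724, 32669), (39689, 27054)],
  mkN 76446 75489 13777 0 0 100000 91586 (20150, 17990) [(21581, 30326), (22910, 37503), (24238, 42889), (26136, 48803), (28034, 53390), (31831, 60167), (43858, 57902)],
  mkN 100000 97044 0 97044 0 100000 91586 (20150, 22681) [(31831, 74991), (68169, 95109), (76446, 96404)]]

/-- Certificate data. -/
def low26 : List CertN := [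
  mkN 33610 48968 151833 0 0 100000 91586 (21150, 10292) [(22458, 14837), (24888, 19330), (28359, 22233), (31830, 23089)],
  mkN 34697 51254 140488 0 0 100000 91586 (21150, 11559) [(22458, 16784), (24888, 22194), (28360, 26187), (31831, 28093), (33610, 17414)],
  mkN 35512 52756 133034 0 0 100000 91586 (21150, 12319) [(22458, 17945), (24888, 23881), (28360, 28469), (31831, 30912), (33694, 21864), (34697, 14692)],
  mkN 36191 53891 127403 0 0 100000 91586 (21150, 12860) [(22458, 18771), (24888, 25074), (26624, 27950), (28360, 30068), (31831, 32866), (34224, 22249), (35512, 13129)],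
  mkN 36864 54925 122273 0 0 100000 91586 (21150, 13333) [(22458, 19492), (24888, 26111), (26624, 29168), (28360, 31447), (31831, 34539), (33248, 29407), (34665, 23034), (36191, 12804)],
  mkN 37653 56035 116761 0 0 100000 91586 (21150, 13832) [(22458, 20243), (24888, 27182), (26624, 30420), (28360, 32861), (31831, 36242), (33466, 30887), (35102, 24228), (36864, 13549)],
  mkN 39041 57764 108183 0 0 100000 91586 (21150, 14562) [(22458, 21349), (24888, 28758), (26624, 32258), (28360, 34930), (31831, 38719), (33723, 33430), (35615, 26973), (37653, 17266)],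
  mkN 43136 61647 88910 0 0 100000 91586 (21150, 16090) [(22458, 23645), (24888, 31998), (26624, 36015), (28360, 39135), (31831, 43696), (35436, 36366), (37238, 31959), (39041, 26740)],
  mkN 77363 77884 8332 0 0 100000 91586 (21150, 21282) [(22458, 31374), (24888, 42699), (26624, 48256), (28360, 52652), (31831, 59278), (43136, 57976)],
  mkN 100000 99640 0 99640 0 100000 91586 (21150, 26647) [(31831, 73392), (68169, 94837), (77363, 96356)]]

/-- Certificate data. -/
def low27 : List CertN := [
  mkN 33344 49449 151602 0 0 100000 91586 (22450, 10871) [(25733, 17897), (31830, 21298)],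
  mkN 34435 52082 139152 0 0 100000 91586 (22450, 12510) [(25733, 21090), (28782, 24745), (31831, 26678), (33344, 17364)],
  mkN 35381 54039 129902 0 0 100000 91586 (22450, 13592) [(24092, 19461), (25733, 23165), (28782, 27486), (31831, 30018), (34435, 15631)],
  mkN 36314 55729 121910 0 0 100000 91586 (22450, 14467) [(24092, 20778), (25733, 24815), (28782, 29639), (31831, 32608), (34138, 22883), (35381, 15043)],
  mkN 37607 57755 112331 0 0 100000 91586 (22450, 15447) [(24092, 22249), (25733, 26648), (28782, 32012), (31831, 35435), (34745, 25155), (36314, 16985)],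
  mkN 40823 61639 93968 0 0 100000 91586 (22450, 17165) [(24092, 24812), (25733, 29827), (28782, 36080), (31831, 40231), (34719, 33381), (37607, 24399)],
  mkN 70783 75423 28796 0 0 100000 91586 (22450, 22189) [(24092, 32214), (25733, 38893), (28782, 47435), (31831, 53335), (40823, 48989)],
  mkN 100000 103378 0 103378 0 100000 91586 (22450, 29785) [(31831, 70948), (68169, 94430), (70783, 94900)]]

/-- Certificate data. -/
def low28 : List CertN := [
  mkN 33210 50559 148872 0 0 100000 91586 (24250, 11924) [(26903, 16908), (31830, 20161)],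
  mkN 34433 53970 133678 0 0 100000 91586 (24250, 14294) [(26903, 20747), (31831, 26147), (33210, 18012)],
  mkN 35763 56968 120323 0 0 100000 91586 (24250, 16087) [(26903, 23593), (29367, 27663), (31831, 30397), (34433, 17823)],
  mkN 38320 61321 100936 0 0 100000 91586 (24250, 18369) [(26903, 27168), (29367, 32117), (31831, 35596), (33797, 29871), (35763, 22574)],
  mkN 58592 74031 44321 0 0 100000 91586 (24250, 23782) [(26903, 35474), (29367, 42274), (31831, 47239), (38320, 41428)],
  mkN 100000 108293 0 108293 0 100000 91586 (24250, 34162) [(31831, 67455), (58592, 89382)]]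

/-- Certificate data. -/
def low29 : List CertN := [
  mkN 33344 53372 139837 0 0 100000 91586 (26701, 13814) [(31830, 20464)],
  mkN 36126 61316 107080 0 0 100000 91586 (26701, 19068) [(29266, 25745), (31831, 29978), (33344, 24227)],
  mkN 72077 84049 13334 0 0 100000 91586 (26701, 29153) [(29266, 39832), (31831, 46949), (36126, 45856)],
  mkN 100000 115225 0 115225 0 100000 91586 (26701, 38680) [(31831, 61889), (68169, 93031), (72077, 93914)]]

/-- Certificate data. -/
def lowN : List (ℕ × List CertN) := [
  (1650, low0),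
  (4150, low1),
  (6650, low2),
  (9150, low3),
  (10950, low4),
  (12250, low5),
  (13250, low6),
  (13950, low7),
  (14450, low8),
  (14950, low9),
  (15300, low10),
  (15650, low11),
  (15900, low12),
  (16150, low13),
  (16330, low14),
  (16510, low15),
  (16690, low16),
  (16870, low17),
  (17050, low18),
  (17300, low19),
  (17550, low20),
  (17900, low21),
  (18250, low22),
  (18750, low23),
  (19450, low24),
  (20150, low25),
  (21150, low26),
  (22450, low27),
  (24250, low28),
  (26701, low29)]

def low : List (ℚ × List Cert) := toQs lowN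

theorem low_ok : stripsOK (finLow (d 26700)) (d 26701) (d 31830) 1 (d 350) low = true := by
  have h := stripsN_sound (finLowN_sound 26700) (A1 := 26701) (B0 := 31830) (B1 := 100000)
    lowN 350 (by decide +kernel)
  rw [← d_one]
  exact h

end Vale.Agent.P232
end
end

section

section

namespace Vale.Agent.P232

/-- Certificate data. -/
def slabA0 : List CertN := [
  mkN 52603 0 190103 0 0 0 0 (200, 99884) [(16016, 90319), (31831, 79613), (35990, 72931)],
  mkN 65913 0 151715 0 0 0 0 (200, 99926) [(16016, 93949), (31831, 87566), (42217, 76796), (47410, 69471), (52603, 60256)],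
  mkN 75414 0 116537 0 0 0 0 (200, 99956) [(31831, 92865), (40352, 88253), (48872, 82196), (57392, 74341), (61652, 69555), (65913, 64029)],
  mkN 83544 0 86064 0 0 0 0 (200, 99976) [(31831, 96174), (40916, 93594), (50000, 90267), (59084, 86106), (68169, 80981), (71792, 75445), (73603, 71842), (75414, 67424)],
  mkN 91096 0 58058 0 0 0 0 (200, 99989) [(31831, 98277), (50000, 95693), (59084, 93932), (68169, 91834), (73166, 88654), (78163, 83655), (80854, 79601), (83544, 73819)],
  mkN 97197 0 30530 0 0 0 0 (200, 99997) [(31831, 99526), (50000, 98828), (68169, 97810), (73012, 97025), (77856, 95853), (83072, 93757), (85680, 92081), (88288, 89584), (91096, 85057)],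
  mkN 99725 0 9320 0 0 0 0 (200, 99999) [(31831, 99955), (68169, 99797), (82320, 99468), (89940, 98882), (94657, 97654), (97197, 95226)],
  mkN 99800 0 7942 0 0 0 0 (200, 99999) [(31831, 99968), (68169, 99853), (94992, 98174), (99725, 52337)]]

/-- Certificate data. -/
def slabAN : List (ℕ × List CertN) := [
  (200, slabA0)]

def slabA : List (ℚ × List Cert) := toQs slabAN

theorem slabA_ok : stripsOK (finSlab (d 36000) (d 50000)) (d 200) (d 35990) (d 99800) 0 slabA =
    true := by
  have h := stripsN_sound (finSlabN_sound 36000 50000) (A1 := 200) (B0 := 35990) (B1 := 99800)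
    slabAN 0 (by decide +kernel)
  rw [← d_zero]
  exact h

end Vale.Agent.P232
end
end

section

section

namespace Vale.Agent.P232

/-- Certificate data. -/
def slabB0 : List CertN := [
  mkN 50531 7560 182936 0 0 0 0 (3700, 90739) [(7146, 90020), (13546, 86846), (22688, 81379), (31831, 75310), (35990, 67916)],
  mkN 61198 7624 150945 0 0 0 0 (3700, 92189) [(10733, 91195), (21282, 87389), (31831, 83070), (36506, 77879), (41181, 71624), (45856, 63995), (50531, 54416)],
  mkN 70709 7676 124808 0 0 0 0 (3700, 93272) [(6162, 93702), (10733, 93183), (18117, 91587), (31831, 88050), (39172, 82464), (46514, 75363), (53856, 66265), (57527, 60694), (61198, 54171)],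
  mkN 78526 7736 94744 0 0 0 0 (3700, 94407) [(6162, 95121), (10733, 95127), (18117, 94395), (31831, 92542), (40916, 88530), (45458, 86132), (50000, 83445), (54542, 80438), (59084, 77074), (63626, 73304), (68169, 69061), (70709, 62700)],
  mkN 86233 7792 67228 0 0 0 0 (3700, 95346) [(6162, 96250), (10733, 96602), (18117, 96432), (31831, 95644), (40916, 93562), (50000, 91024), (59084, 87991), (68169, 84408), (70758, 81632), (73348, 78138), (75937, 73618), (78526, 67523)],
  mkN 93999 7850 37839 0 0 0 0 (3700, 96249) [(6162, 97285), (10733, 97873), (18117, 98081), (31831, 98001), (40916, 97239), (50000, 96350), (59084, 95328), (68169, 94170), (74040, 91775), (76976, 90053), (79911, 87757), (83072, 84250), (86233, 78812)],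
  mkN 99175 7910 8257 0 0 0 0 (3700, 97053) [(6162, 98152), (10733, 98846), (18117, 99219), (31831, 99443), (68169, 99079), (79082, 98400), (84958, 97614), (90835, 95787), (93999, 93259)],
  mkN 99991 7938 0 6258 0 0 0 (3700, 97411) [(6162, 98515), (10733, 99213), (18117, 99592), (31831, 99823), (68169, 99932), (94524, 99881), (99175, 99419)],
  mkN 100000 7942 0 7942 0 0 0 (3700, 97451) [(10733, 99251), (31831, 99853), (68169, 99968), (99991, 99999)]]

/-- Certificate data. -/
def slabB1 : List CertN := [
  mkN 46533 28400 153868 0 0 0 0 (10700, 63342) [(18096, 66600), (24964, 65637), (31831, 63345), (35990, 54602)],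
  mkN 53782 29224 131597 0 0 0 0 (10700, 66492) [(14398, 69784), (18096, 71076), (24964, 71320), (31831, 70306), (35506, 65052), (39182, 58936), (42858, 51658), (46533, 42626)],
  mkN 60956 29834 115108 0 0 0 0 (10700, 68663) [(12549, 70900), (14398, 72379), (18096, 74060), (21530, 74764), (24964, 75006), (31831, 74707), (37318, 68568), (40062, 65052), (42806, 61172), (45550, 56853), (48294, 51987), (51038, 46401), (53782, 39793)],
  mkN 70298 30621 93853 0 0 0 0 (10700, 71281) [(12549, 73757), (14398, 75457), (18096, 77548), (21530, 78616), (24964, 79214), (31831, 79626), (39112, 73938), (46394, 67080), (50035, 63097), (53675, 58647), (57316, 53612), (60956, 47810)],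
  mkN 81294 32063 54857 0 0 0 0 (10700, 75627) [(14398, 80433), (18096, 83057), (24964, 85617), (31831, 86875), (40916, 83838), (50000, 80378), (59084, 76439), (68169, 71941), (70298, 68222)],
  mkN 95555 33961 3566 0 0 0 0 (10700, 80569) [(14398, 85863), (18096, 88844), (21530, 90646), (24964, 91930), (31831, 93639), (68169, 93143), (74732, 91159), (78013, 89696), (81294, 87681)],
  mkN 100000 35403 0 35403 0 0 0 (10700, 83824) [(18096, 92309), (31831, 97044), (68169, 99363), (95555, 99911)]]

/-- Certificate data. -/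
def slabB2 : List CertN := [
  mkN 43785 44388 127011 0 0 0 0 (15700, 40125) [(21346, 48751), (26588, 51834), (31831, 52972), (35990, 43383)],
  mkN 48881 46202 110059 0 0 0 0 (15700, 42774) [(18523, 48789), (21346, 52503), (26588, 56410), (31831, 58317), (37808, 47842), (40796, 41236), (43785, 33019)],
  mkN 53519 47477 98138 0 0 0 0 (15700, 44525) [(18523, 50915), (21346, 54937), (23967, 57492), (26588, 59330), (31831, 61675), (37372, 54020), (40143, 49529), (42914, 44421), (45898, 37947), (48881, 29828)],
  mkN 60461 48942 84447 0 0 0 0 (15700, 46433) [(18523, 53217), (21346, 57553), (23967, 60361), (26588, 62431), (31831, 65199), (38880, 57557), (42404, 53078), (45928, 48000), (49724, 41608), (53519, 33737)],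
  mkN 73468 52298 53083 0 0 0 0 (15700, 50463) [(18523, 58020), (21346, 62949), (26588, 68700), (31831, 72194), (38988, 68351), (46146, 64052), (53304, 59200), (60461, 53646)],
  mkN 93017 59426 0 13534 0 0 0 (15700, 57818) [(18523, 66577), (21346, 72342), (26588, 79175), (31831, 83438), (68169, 86486), (73468, 84038)],
  mkN 100000 64925 0 64925 0 0 0 (15700, 62662) [(31831, 89672), (68169, 97841), (93017, 99530)]]

/-- Certificate data. -/
def slabB3 : List CertN := [
  mkN 42036 49120 121038 0 0 0 0 (19200, 36326) [(23621, 43152), (27726, 46390), (31831, 48144), (35990, 37551)],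
  mkN 45593 54595 99587 0 0 0 0 (19200, 31482) [(21410, 37834), (23621, 42148), (27726, 47344), (31831, 50529), (35148, 44409), (38464, 37007), (40250, 32185), (42036, 26381)],
  mkN 48085 55798 91924 0 0 0 0 (19200, 32505) [(21410, 39114), (23621, 43632), (25674, 46733), (27726, 49137), (31831, 52584), (36304, 45262), (40776, 36037), (43184, 29678), (45593, 21283)],
  mkN 50364 56746 85881 0 0 0 0 (19200, 33290) [(21410, 40092), (23621, 44761), (25674, 47983), (27726, 50494), (31831, 54130), (37114, 46330), (39755, 41705), (42396, 36358), (45240, 29341), (48085, 19692)],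
  mkN 53416 57838 78931 0 0 0 0 (19200, 34161) [(21410, 41178), (23621, 46014), (25674, 49366), (27726, 51993), (31831, 55832), (37854, 48018), (40866, 43394), (43877, 38068), (47120, 31132), (48742, 26912), (50364, 21818)],
  mkN 60919 59894 65834 0 0 0 0 (19200, 35744) [(21410, 43139), (23621, 48267), (25674, 51845), (27726, 54670), (31831, 58850), (35338, 55539), (38846, 51915), (42354, 47907), (45861, 43410), (49638, 37819), (53416, 31042)],
  mkN 79341 67681 16234 0 0 0 0 (19200, 41112) [(21410, 49721), (23621, 55748), (27726, 63390), (31831, 68506), (46375, 65905), (60919, 63109)],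
  mkN 98591 79547 0 59344 0 0 0 (19200, 47953) [(21410, 57944), (23621, 64910), (27726, 73687), (31831, 79502), (40916, 83340), (50000, 86674), (68169, 92042), (79341, 91521)],
  mkN 100000 83310 0 83310 0 0 0 (19200, 49878) [(31831, 82308), (68169, 96419), (98591, 99844)]]

/-- Certificate data. -/
def slabB4 : List CertN := [
  mkN 41162 53772 112307 0 0 0 0 (21000, 30490) [(24791, 38047), (31831, 44565), (35990, 33585)],
  mkN 44083 60431 89760 0 0 0 0 (21000, 21744) [(22896, 29708), (24791, 34957), (28311, 41409), (31831, 45591), (37896, 32861), (41162, 22749)],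
  mkN 46097 61721 83039 0 0 0 0 (21000, 22404) [(22896, 30635), (24791, 36079), (28311, 42809), (31831, 47212), (35813, 40436), (39795, 31927), (41939, 26052), (44083, 18214)],
  mkN 47830 62686 78012 0 0 0 0 (21000, 22884) [(22896, 31308), (24791, 36893), (26551, 40760), (28311, 43820), (31831, 48379), (36468, 41162), (38786, 36897), (41104, 31969), (42726, 27940), (44349, 23149), (46097, 16393)],
  mkN 49814 63657 72957 0 0 0 0 (21000, 23353) [(22896, 31967), (24791, 37688), (26551, 41659), (28311, 44807), (31831, 49516), (37030, 42171), (39630, 37826), (42230, 32802), (44050, 28694), (45870, 23816), (47830, 16953)],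
  mkN 53585 65193 64956 0 0 0 0 (21000, 24081) [(21948, 29076), (22896, 32983), (24791, 38911), (26551, 43037), (28311, 46317), (31831, 51249), (37676, 44272), (40598, 40200), (43520, 35565), (46667, 29641), (49814, 21999)],
  mkN 68939 69512 42458 0 0 0 0 (21000, 26011) [(22896, 35667), (24791, 42128), (28311, 50259), (31831, 55736), (37270, 52132), (42708, 48149), (48146, 43684), (53585, 38568)],
  mkN 91642 84668 0 36475 0 0 0 (21000, 31798) [(22896, 43622), (24791, 51542), (28311, 61531), (31831, 68283), (50000, 74746), (68169, 80147), (68939, 79807)],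
  mkN 100000 96120 0 96120 0 0 0 (21000, 35496) [(31831, 75542), (68169, 95204), (91642, 98763)]]

/-- Certificate data. -/
def slabB5 : List CertN := [
  mkN 40662 56130 107887 0 0 0 0 (22300, 28661) [(25636, 35820), (31831, 42601), (35990, 31350)],
  mkN 43144 63418 84790 0 0 0 0 (22300, 18046) [(23968, 26210), (25636, 31565), (28734, 38260), (31831, 42737), (37571, 30377), (40662, 20408)],
  mkN 44747 64619 79067 0 0 0 0 (22300, 18529) [(23968, 26924), (25636, 32443), (28734, 39368), (31831, 44026), (35508, 37520), (39184, 29334), (41164, 23637), (43144, 15876)],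
  mkN 45875 65373 75481 0 0 0 0 (22300, 18816) [(23968, 27355), (25636, 32975), (28734, 40041), (31831, 44807), (36028, 37832), (38127, 33696), (40226, 28889), (43165, 20123), (44747, 13022)],
  mkN 46876 65986 72561 0 0 0 0 (22300, 19052) [(23968, 27705), (25636, 33404), (27185, 37389), (28734, 40581), (31831, 45433), (36396, 38250), (38678, 33976), (40960, 28985), (42558, 24837), (44155, 19774), (45875, 12033)],
  mkN 47963 66600 69636 0 0 0 0 (22300, 19287) [(23968, 28050), (25636, 33828), (27185, 37872), (28734, 41113), (31831, 46050), (36720, 38789), (39165, 34465), (41610, 29416), (43322, 25219), (45033, 20099), (46876, 12284)],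
  mkN 49638 67455 65563 0 0 0 0 (22300, 19608) [(23134, 24641), (23968, 28524), (25636, 34409), (27185, 38532), (28734, 41842), (31831, 46891), (37074, 39746), (39696, 35515), (42317, 30611), (44152, 26581), (45987, 21752), (47963, 14784)],
  mkN 53815 69208 57218 0 0 0 0 (22300, 20242) [(23968, 29464), (25636, 35562), (27185, 39842), (28734, 43284), (31831, 48554), (37618, 42043), (40512, 38267), (43406, 33995), (46522, 28586), (49638, 21732)],
  mkN 71526 75672 26434 0 0 0 0 (22300, 22434) [(23968, 32686), (25636, 39490), (27185, 44285), (28734, 48158), (31831, 54124), (42823, 49319), (53815, 43800)],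
  mkN 95115 93138 0 56735 0 0 0 (22300, 27446) [(23134, 34512), (23968, 39973), (25636, 48274), (27185, 54113), (28734, 58821), (31831, 66054), (36374, 68873), (40916, 71488), (50000, 76189), (59084, 80286), (68169, 83868), (71526, 83138)],
  mkN 100000 102815 0 102815 0 0 0 (22300, 29839) [(31831, 71327), (68169, 94493), (95115, 99174)]]

/-- Certificate data. -/
def slabB6 : List CertN := [
  mkN 40287 57868 104579 0 0 0 0 (23300, 27593) [(27566, 36343), (31831, 41115), (35990, 29641)],
  mkN 42551 65751 80488 0 0 0 0 (23300, 15631) [(24345, 21824), (26286, 29217), (29058, 35999), (31831, 40636), (34579, 35245), (37327, 28694), (40287, 19006)],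
  mkN 43834 66820 75693 0 0 0 0 (23300, 15983) [(24345, 22321), (26286, 29898), (29058, 36866), (31831, 41649), (35315, 35330), (38799, 27346), (41238, 19730), (42551, 13907)],
  mkN 44761 67517 72569 0 0 0 0 (23300, 16205) [(24345, 22636), (26286, 30331), (29058, 37418), (31831, 42292), (35732, 35603), (37682, 31640), (39633, 27027), (40998, 23211), (42364, 18572), (43834, 11583)],
  mkN 45350 67931 70714 0 0 0 0 (23300, 16334) [(24345, 22820), (26286, 30584), (29058, 37740), (31831, 42668), (36034, 35695), (38135, 31534), (40236, 26650), (41706, 22555), (43177, 17464), (44761, 9119)],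
  mkN 45827 68250 69281 0 0 0 0 (23300, 16439) [(24345, 22965), (26286, 30781), (29058, 37990), (31831, 42958), (36224, 35867), (38421, 31622), (40618, 26624), (42156, 22412), (43694, 17131), (44770, 12084), (45350, 8130)],
  mkN 46300 68555 67915 0 0 0 0 (23300, 16532) [(24345, 23099), (26286, 30964), (27672, 34978), (29058, 38223), (31831, 43229), (36380, 36084), (38654, 31806), (40928, 26766), (42520, 22514), (44112, 17177), (45227, 12053), (45827, 8013)],
  mkN 46769 68845 66613 0 0 0 0 (23300, 16625) [(24345, 23228), (26286, 31140), (27672, 35180), (29058, 38446), (31831, 43488), (36534, 36293), (38885, 31983), (41236, 26901), (42882, 22611), (44528, 17218), (45680, 12029), (46300, 7908)],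
  mkN 47338 69182 65100 0 0 0 0 (23300, 16732) [(24345, 23378), (26286, 31343), (29058, 38703), (31831, 43786), (36686, 36592), (39114, 32284), (41541, 27216), (43240, 22948), (44939, 17609), (46128, 12534), (46769, 8610)],
  mkN 48313 69727 62660 0 0 0 0 (23300, 16893) [(24345, 23610), (26286, 31663), (27672, 35779), (29058, 39109), (31831, 44259), (36871, 37182), (39391, 32967), (41911, 28039), (43675, 23933), (45439, 18892), (47338, 11037)],
  mkN 50582 70848 57633 0 0 0 0 (23300, 17232) [(24345, 24088), (26286, 32316), (27672, 36526), (29058, 39936), (31831, 45217), (37188, 38526), (39866, 34598), (42544, 30084), (45428, 24192), (46870, 20574), (48313, 16119)],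
  mkN 60949 74295 42173 0 0 0 0 (23300, 18239) [(24345, 25503), (26286, 34239), (29058, 42359), (31831, 48014), (36518, 44211), (41206, 39951), (45894, 35067), (50582, 29248)],
  mkN 83318 87832 0 18531 0 0 0 (23300, 21718) [(24345, 30379), (26286, 40812), (29058, 50534), (31831, 57331), (60949, 64358)],
  mkN 100000 107722 0 107722 0 0 0 (23300, 25962) [(31831, 67879), (68169, 93937), (83318, 96870)]]

/-- Certificate data. -/
def slabB7 : List CertN := [
  mkN 40037 59309 101632 0 0 0 0 (24000, 26613) [(25958, 31556), (27916, 35127), (31831, 39981), (35990, 28386)],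
  mkN 42076 67632 76925 0 0 0 0 (24000, 13011) [(24959, 19604), (26741, 27193), (29286, 34127), (31831, 38913), (37165, 27230), (40037, 17647)],
  mkN 43369 68787 71969 0 0 0 0 (24000, 13310) [(24959, 20061), (26741, 27842), (28014, 31783), (29286, 34967), (31831, 39899), (35160, 33864), (38490, 26269), (40821, 19066), (42076, 13616)],
  mkN 44082 69362 69500 0 0 0 0 (24000, 13459) [(24959, 20287), (26741, 28161), (29286, 35378), (31831, 40380), (35581, 33866), (39331, 25488), (41956, 17132), (43369, 9953)],
  mkN 44568 69732 67912 0 0 0 0 (24000, 13553) [(24959, 20430), (26741, 28363), (29286, 35639), (31831, 40685), (35812, 33972), (37803, 29965), (39794, 25260), (42581, 16378), (44082, 8129)],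
  mkN 44943 70007 66735 0 0 0 0 (24000, 13616) [(24959, 20532), (26741, 28510), (29286, 35829), (31831, 40908), (35970, 34085), (38040, 30002), (40110, 25193), (41559, 21133), (43008, 16020), (44022, 11072), (44568, 7074)],
  mkN 45208 70195 65928 0 0 0 0 (24000, 13664) [(24959, 20604), (26741, 28611), (29286, 35960), (31831, 41062), (36092, 34145), (38223, 29997), (40354, 25096), (41846, 20938), (43337, 15659), (44381, 10430), (44943, 5913)],
  mkN 45472 70378 65143 0 0 0 0 (24000, 13709) [(24959, 20673), (26741, 28710), (29286, 36086), (31831, 41210), (36178, 34267), (38352, 30102), (40526, 25180), (42048, 21003), (43569, 15698), (44634, 10436), (45208, 5865)],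
  mkN 45735 70556 64379 0 0 0 0 (24000, 13753) [(24959, 20741), (26741, 28805), (28014, 32897), (29286, 36209), (31831, 41354), (36264, 34385), (38481, 30203), (40698, 25260), (42250, 21065), (43801, 15732), (44887, 10437), (45472, 5821)],
  mkN 45997 70729 63636 0 0 0 0 (24000, 13797) [(24959, 20807), (26741, 28898), (28014, 33004), (29286, 36329), (31831, 41493), (36350, 34498), (38610, 30300), (40869, 25339), (42450, 21128), (44032, 15766), (45139, 10438), (45735, 5778)],
  mkN 46258 70897 62913 0 0 0 0 (24000, 13843) [(24959, 20873), (26741, 28990), (28014, 33109), (29286, 36445), (31831, 41629), (36435, 34611), (38737, 30398), (41039, 25417), (42650, 21188), (44262, 15802), (45390, 10443), (45997, 5740)],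
  mkN 46623 71127 61928 0 0 0 0 (24000, 13895) [(24959, 20957), (26741, 29110), (28014, 33249), (29286, 36601), (31831, 41811), (36520, 34817), (38864, 30626), (41209, 25678), (42850, 21492), (44491, 16198), (45640, 11020), (46258, 6724)],
  mkN 47298 71533 60186 0 0 0 0 (24000, 13994) [(24959, 21108), (26741, 29323), (28014, 33496), (29286, 36876), (31831, 42132), (36638, 35242), (39042, 31131), (41446, 26306), (43128, 22264), (44811, 17238), (45989, 12529), (46623, 9007)],
  mkN 48685 72299 56898 0 0 0 0 (24000, 14181) [(24959, 21391), (26741, 29723), (28014, 33957), (29286, 37389), (31831, 42731), (36858, 36064), (39372, 32120), (41885, 27547), (43644, 23779), (45403, 19236), (47298, 12540)],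
  mkN 53441 74391 47920 0 0 0 0 (24000, 14677) [(24959, 22145), (26741, 30784), (28014, 35181), (29286, 38750), (31831, 44315), (37308, 38554), (40047, 35249), (42786, 31545), (45736, 26922), (48685, 21228)],
  mkN 75201 84340 5220 0 0 0 0 (24000, 16835) [(24959, 25413), (26741, 35358), (29286, 44562), (31831, 51026), (53441, 49075)],
  mkN 98888 106167 0 88461 0 0 0 (24000, 20781) [(24959, 31343), (26741, 43542), (29286, 54758), (31831, 62566), (40916, 71441), (50000, 78510), (59084, 84230), (68169, 88862), (75201, 89346)],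
  mkN 100000 111546 0 111546 0 0 0 (24000, 21638) [(31831, 64945), (68169, 93484), (98888, 99779)]]

/-- Certificate data. -/
def slabB8 : List CertN := [
  mkN 39788 60250 99904 0 0 0 0 (24500, 25950) [(28166, 34217), (31831, 39073), (35990, 27285)],
  mkN 41836 69113 73827 0 0 0 0 (24500, 10989) [(25398, 18016), (27066, 25779), (29448, 32827), (31831, 37720), (34417, 32643), (37003, 26476), (39788, 17327)],
  mkN 43021 70217 69228 0 0 0 0 (24500, 11221) [(25398, 18404), (27066, 26345), (29448, 33567), (31831, 38592), (35082, 32696), (38334, 25268), (40610, 18196), (41836, 12785)],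
  mkN 43738 70821 66713 0 0 0 0 (24500, 11343) [(25398, 18610), (27066, 26648), (29448, 33963), (31831, 39059), (35468, 32756), (37286, 29023), (39104, 24672), (41650, 16633), (43021, 9769)],
  mkN 44227 71208 65100 0 0 0 0 (24500, 11425) [(25398, 18744), (27066, 26841), (29448, 34215), (31831, 39355), (35701, 32853), (37636, 28978), (39571, 24434), (40926, 20620), (42280, 15872), (43738, 7975)],
  mkN 44604 71493 63909 0 0 0 0 (24500, 11492) [(25398, 18846), (27066, 26986), (29448, 34402), (31831, 39574), (35860, 32963), (37874, 29015), (39888, 24370), (41298, 20452), (42708, 15526), (43695, 10772), (44227, 6952)],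
  mkN 44870 71689 63095 0 0 0 0 (24500, 11526) [(25398, 18909), (27066, 27080), (29448, 34526), (31831, 39721), (35982, 33017), (38058, 29003), (40133, 24266), (41586, 20252), (43039, 15158), (44056, 10124), (44604, 5795)],
  mkN 45028 71803 62621 0 0 0 0 (24500, 11546) [(25398, 18946), (27066, 27135), (29448, 34598), (31831, 39806), (36068, 33025), (38187, 28955), (40306, 24138), (41790, 20035), (43273, 14784), (44311, 9465), (44870, 4447)],
  mkN 45185 71914 62156 0 0 0 0 (24500, 11575) [(25398, 18987), (27066, 27192), (29448, 34671), (31831, 39891), (36120, 33095), (38264, 29017), (40409, 24187), (41910, 20078), (43411, 14814), (44462, 9478), (45028, 4435)],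
  mkN 45342 72024 61699 0 0 0 0 (24500, 11594) [(25398, 19022), (27066, 27245), (28257, 31384), (29448, 34740), (31831, 39972), (36171, 33162), (38341, 29074), (40511, 24235), (42030, 20114), (43549, 14836), (44612, 9484), (45185, 4410)],
  mkN 45499 72132 61249 0 0 0 0 (24500, 11616) [(25398, 19058), (27066, 27298), (28257, 31446), (29448, 34809), (31831, 40053), (36222, 33229), (38418, 29131), (40613, 24282), (42150, 20151), (43687, 14859), (44763, 9487), (45342, 4391)],
  mkN 45655 72238 60807 0 0 0 0 (24500, 11639) [(25398, 19094), (27066, 27350), (28257, 31506), (29448, 34876), (31831, 40132), (36273, 33294), (38494, 29189), (40715, 24328), (42270, 20187), (43825, 14880), (44913, 9494), (45499, 4367)],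
  mkN 45917 72412 60081 0 0 0 0 (24500, 11676) [(25398, 19154), (27066, 27435), (28257, 31606), (29448, 34987), (31831, 40262), (36324, 33460), (38570, 29384), (40817, 24567), (42390, 20480), (43962, 15285), (45062, 10128), (45655, 5619)],
  mkN 46284 72650 59091 0 0 0 0 (24500, 11720) [(25398, 19231), (27066, 27549), (28257, 31738), (29448, 35136), (31831, 40437), (36409, 33660), (38698, 29605), (40987, 24824), (42590, 20781), (44192, 15677), (45313, 10699), (45917, 6587)],
  mkN 46963 73069 57344 0 0 0 0 (24500, 11807) [(25398, 19372), (27066, 27752), (29448, 35399), (31831, 40746), (36528, 34074), (38876, 30101), (41225, 25443), (42869, 21543), (44513, 16706), (45664, 12187), (46284, 8822)],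
  mkN 48565 73967 53604 0 0 0 0 (24500, 11981) [(25398, 19663), (27066, 28177), (28257, 32469), (29448, 35953), (31831, 41395), (36749, 35024), (39208, 31273), (41667, 26942), (43388, 23395), (45109, 19160), (46963, 13078)],
  mkN 54837 76583 42701 0 0 0 0 (24500, 12492) [(25398, 20500), (27066, 29386), (28257, 33872), (29448, 37518), (31831, 43225), (36014, 39282), (40198, 34804), (44382, 29549), (48565, 22992)],
  mkN 77444 88023 0 4964 0 0 0 (24500, 14484) [(25398, 23783), (27066, 34116), (29448, 43598), (31831, 50275), (54837, 52189)],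
  mkN 99868 112263 0 105964 0 0 0 (24500, 17982) [(25398, 29499), (27066, 42237), (28257, 48643), (29448, 53831), (31831, 61906), (36374, 67567), (40916, 72469), (45458, 76759), (50000, 80534), (54542, 83864), (59084, 86800), (63626, 89382), (68169, 91639), (77444, 93342)],
  mkN 100000 114252 0 114252 0 0 0 (24500, 18239) [(31831, 62721), (68169, 93152), (99868, 99972)]]

/-- Certificate data. -/
def slabB9 : List CertN := [
  mkN 39663 61025 98265 0 0 0 0 (24850, 25463) [(28340, 33594), (31831, 38471), (35990, 26624)],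
  mkN 41597 70152 71755 0 0 0 0 (24850, 9182) [(25705, 16732), (27293, 24668), (29562, 31810), (31831, 36775), (36922, 25684), (39663, 16602)],
  mkN 42787 71295 67086 0 0 0 0 (24850, 9391) [(25705, 17103), (27293, 25219), (29562, 32534), (31831, 37631), (35005, 31891), (38179, 24675), (40401, 17825), (41597, 12617)],
  mkN 43507 71918 64545 0 0 0 0 (24850, 9492) [(25705, 17295), (27293, 25509), (29562, 32918), (31831, 38085), (35392, 31940), (37172, 28304), (38952, 24071), (41445, 16263), (42787, 9633)],
  mkN 43998 72316 62919 0 0 0 0 (24850, 9564) [(25705, 17421), (27293, 25696), (29562, 33163), (31831, 38374), (35626, 32030), (37523, 28255), (39420, 23831), (40748, 20123), (42077, 15506), (43507, 7865)],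
  mkN 44376 72609 61723 0 0 0 0 (24850, 9613) [(25705, 17512), (27293, 25831), (29562, 33341), (31831, 38585), (35786, 32131), (37763, 28281), (39740, 23754), (41124, 19939), (42508, 15146), (43476, 10533), (43998, 6838)],
  mkN 44643 72810 60905 0 0 0 0 (24850, 9640) [(25705, 17570), (27293, 25921), (29562, 33461), (31831, 38726), (35908, 32182), (37946, 28269), (39985, 23651), (41412, 19741), (42839, 14784), (43838, 9892), (44376, 5703)],
  mkN 44909 73004 60111 0 0 0 0 (24850, 9678) [(25705, 17632), (27293, 26012), (28428, 30195), (29562, 33580), (31831, 38866), (35995, 32296), (38077, 28366), (40159, 23728), (41616, 19802), (43074, 14816), (44094, 9893), (44643, 5665)],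
  mkN 45067 73117 59649 0 0 0 0 (24850, 9699) [(25705, 17668), (27293, 26064), (29562, 33648), (31831, 38947), (36082, 32301), (38207, 28316), (40332, 23602), (41820, 19590), (43307, 14458), (44348, 9262), (44909, 4363)],
  mkN 45331 73303 58893 0 0 0 0 (24850, 9721) [(25705, 17720), (27293, 26146), (28428, 30352), (29562, 33757), (31831, 39076), (36132, 32468), (38283, 28512), (40434, 23843), (41940, 19886), (43445, 14864), (44499, 9889), (45067, 5578)],
  mkN 45594 73482 58159 0 0 0 0 (24850, 9760) [(25705, 17779), (27293, 26230), (29562, 33867), (31831, 39204), (36218, 32573), (38412, 28603), (40606, 23915), (42142, 19942), (43677, 14897), (44752, 9894), (45331, 5546)],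
  mkN 46069 73796 56878 0 0 0 0 (24850, 9810) [(25705, 17873), (27293, 26372), (28428, 30616), (29562, 34053), (31831, 39423), (36304, 32865), (38540, 28953), (40777, 24353), (42342, 20485), (43908, 15636), (45004, 10998), (45594, 7357)],
  mkN 46961 74350 54619 0 0 0 0 (24850, 9894) [(25705, 18036), (27293, 26617), (28428, 30905), (29562, 34377), (31831, 39806), (36458, 33383), (38772, 29573), (41086, 25130), (42706, 21435), (44325, 16910), (46069, 9862)],
  mkN 49288 75606 49492 0 0 0 0 (24850, 10098) [(25705, 18408), (27293, 27172), (28428, 31553), (29562, 35104), (31831, 40661), (36748, 34681), (39207, 31193), (41666, 27208), (44314, 22053), (46961, 15135)],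
  mkN 63389 80003 31546 0 0 0 0 (24850, 10773) [(25705, 19648), (27293, 29020), (29562, 37522), (31831, 43497), (36196, 40523), (40560, 37262), (44924, 33632), (49288, 29494)],
  mkN 86861 96958 0 37659 0 0 0 (24850, 13059) [(25705, 23816), (27293, 35176), (29562, 45482), (31831, 52725), (39720, 57236), (47610, 61273), (63389, 68252)],
  mkN 100000 116201 0 116201 0 0 0 (24850, 15234) [(31831, 61035), (68169, 92907), (86861, 97135)]]

/-- Certificate data. -/
def slabB10 : List CertN := [
  mkN 39663 68823 78604 0 0 0 0 (25100, 7455) [(25925, 15182), (27456, 22906), (29644, 29782), (31831, 34545), (33910, 29732), (35990, 23856)],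
  mkN 41597 71079 69526 0 0 0 0 (25100, 7788) [(25925, 15869), (27456, 23962), (29644, 31190), (31831, 36220), (34376, 31288), (36922, 25289), (39663, 16345)],
  mkN 42673 72122 65329 0 0 0 0 (25100, 7937) [(25925, 16177), (27456, 24434), (29644, 31818), (31831, 36965), (35005, 31254), (38179, 24053), (40401, 17166), (41597, 11837)],
  mkN 43394 72753 62789 0 0 0 0 (25100, 8029) [(25925, 16362), (27456, 24716), (29644, 32192), (31831, 37408), (35354, 31372), (37116, 27801), (38878, 23646), (41345, 15991), (42673, 9508)],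
  mkN 43886 73156 61166 0 0 0 0 (25100, 8090) [(25925, 16480), (27456, 24895), (29644, 32429), (31831, 37689), (35589, 31454), (37468, 27746), (39347, 23402), (40662, 19764), (41978, 15237), (43394, 7761)],
  mkN 44265 73453 59972 0 0 0 0 (25100, 8127) [(25925, 16563), (27456, 25024), (29644, 32601), (31831, 37892), (35749, 31550), (37708, 27768), (39667, 23323), (41038, 19580), (42409, 14881), (43369, 10356), (43886, 6744)],
  mkN 44533 73656 59155 0 0 0 0 (25100, 8156) [(25925, 16621), (27456, 25112), (29644, 32718), (31831, 38031), (35872, 31599), (37892, 27755), (39913, 23221), (41328, 19382), (42742, 14521), (43732, 9728), (44265, 5637)],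
  mkN 44799 73852 58367 0 0 0 0 (25100, 8180) [(25925, 16675), (27456, 25197), (29644, 32831), (31831, 38164), (35959, 31707), (38023, 27845), (40087, 23292), (41532, 19436), (42977, 14546), (43988, 9720), (44533, 5573)],
  mkN 45064 74042 57602 0 0 0 0 (25100, 8208) [(25925, 16730), (27456, 25279), (29644, 32940), (31831, 38294), (36046, 31811), (38153, 27935), (40260, 23362), (41735, 19490), (43210, 14577), (44243, 9716), (44799, 5527)],
  mkN 45436 74300 56561 0 0 0 0 (25100, 8253) [(25925, 16807), (27456, 25394), (28550, 29647), (29644, 33090), (31831, 38470), (36132, 32015), (38282, 28161), (40432, 23627), (41938, 19798), (43443, 14978), (44497, 10301), (45064, 6498)],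
  mkN 46018 74687 55006 0 0 0 0 (25100, 8297) [(25925, 16912), (27456, 25557), (28550, 29840), (29644, 33308), (31831, 38728), (36252, 32335), (38463, 28529), (40674, 24069), (42222, 20330), (43769, 15682), (44853, 11305), (45436, 7999)],
  mkN 47121 75364 52281 0 0 0 0 (25100, 8391) [(25925, 17101), (27456, 25845), (29644, 33689), (31831, 39178), (36442, 32948), (38748, 29265), (41053, 24990), (42666, 21459), (44280, 17175), (46018, 10729)],
  mkN 50576 77109 45260 0 0 0 0 (25100, 8619) [(25925, 17574), (27456, 26569), (29644, 34647), (31831, 40309), (36800, 34758), (39285, 31559), (41770, 27951), (44446, 23393), (47121, 17617)],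
  mkN 71166 84697 14724 0 0 0 0 (25100, 9563) [(25925, 19503), (27456, 29503), (29644, 38507), (31831, 44839), (41204, 41975), (50576, 38852)],
  mkN 96627 107676 0 77746 0 0 0 (25100, 11965) [(25925, 24396), (27456, 36871), (29644, 48057), (31831, 55882), (36374, 60796), (40916, 65149), (50000, 72568), (59084, 78664), (68169, 83728), (71166, 83516)],
  mkN 100000 117573 0 117573 0 0 0 (25100, 12861) [(31831, 59801), (68169, 92732), (96627, 99255)]]

/-- Certificate data. -/
def slabB11 : List CertN := [
  mkN 39538 69328 77575 0 0 0 0 (25350, 7444) [(26144, 14949), (27618, 22529), (31831, 34059), (35990, 23301)],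
  mkN 41358 71508 68891 0 0 0 0 (25350, 7758) [(26144, 15594), (27618, 23520), (29724, 30642), (31831, 35631), (36841, 24752), (39538, 15786)],
  mkN 42438 72585 64599 0 0 0 0 (25350, 7915) [(26144, 15906), (27618, 23995), (29724, 31274), (31831, 36380), (34928, 30770), (38024, 23711), (40191, 16979), (41358, 11795)],
  mkN 43162 73235 62010 0 0 0 0 (25350, 8004) [(26144, 16089), (27618, 24276), (29724, 31647), (31831, 36823), (35278, 30885), (37002, 27375), (38726, 23294), (41139, 15791), (42438, 9467)],
  mkN 43656 73649 60359 0 0 0 0 (25350, 8067) [(26144, 16208), (27618, 24456), (29724, 31884), (31831, 37103), (35514, 30965), (37355, 27318), (39196, 23049), (40485, 19474), (41774, 15034), (43162, 7725)],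
  mkN 44036 73953 59148 0 0 0 0 (25350, 8108) [(26144, 16293), (27618, 24585), (29724, 32055), (31831, 37306), (35674, 31061), (37596, 27339), (39517, 22968), (40862, 19288), (42207, 14673), (43149, 10235), (43656, 6709)],
  mkN 44304 74160 58322 0 0 0 0 (25350, 8141) [(26144, 16352), (27618, 24674), (29724, 32173), (31831, 37445), (35798, 31108), (37781, 27323), (39764, 22863), (41152, 19091), (42541, 14310), (43513, 9604), (44036, 5607)],
  mkN 44571 74361 57523 0 0 0 0 (25350, 8162) [(26144, 16405), (27618, 24757), (29724, 32284), (31831, 37577), (35884, 31217), (37911, 27415), (39938, 22934), (41357, 19142), (42776, 14336), (43769, 9598), (44304, 5547)],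
  mkN 44837 74556 56747 0 0 0 0 (25350, 8186) [(26144, 16457), (27618, 24838), (29724, 32392), (31831, 37705), (35972, 31319), (38042, 27502), (40112, 23002), (41561, 19194), (43010, 14364), (44025, 9592), (44571, 5498)],
  mkN 45102 74744 55996 0 0 0 0 (25350, 8218) [(26144, 16512), (27618, 24919), (29724, 32498), (31831, 37830), (36058, 31421), (38172, 27589), (40285, 23072), (41764, 19247), (43244, 14392), (44279, 9596), (44837, 5458)],
  mkN 45473 75000 54976 0 0 0 0 (25350, 8253) [(26144, 16582), (27618, 25026), (29724, 32640), (31831, 37998), (36144, 31616), (38300, 27807), (40457, 23325), (41966, 19545), (43476, 14782), (44533, 10160), (45102, 6395)],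
  mkN 46161 75451 53180 0 0 0 0 (25350, 8311) [(26144, 16704), (27618, 25212), (29724, 32887), (31831, 38290), (36264, 32016), (38481, 28289), (40698, 23931), (42250, 20291), (43802, 15793), (44638, 12706), (45473, 8553)],
  mkN 47787 76408 49369 0 0 0 0 (25350, 8432) [(26144, 16958), (27618, 25603), (29724, 33405), (31831, 38902), (36488, 32932), (38817, 29429), (41146, 25396), (42776, 22105), (44406, 18194), (46161, 12645)],
  mkN 54663 79290 37886 0 0 0 0 (25350, 8807) [(26144, 17711), (27618, 26748), (29724, 34917), (31831, 40685), (35820, 37106), (39809, 33074), (43798, 28397), (47787, 22678)],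
  mkN 77268 90864 0 8228 0 0 0 (25350, 10169) [(26144, 20447), (27618, 30891), (31831, 47040), (54663, 50406)],
  mkN 99956 117328 0 113661 0 0 0 (25350, 12729) [(26144, 25580), (27618, 38577), (29724, 50256), (31831, 58437), (36374, 65009), (40916, 70598), (45458, 75423), (50000, 79624), (59084, 86502), (68169, 91718), (77268, 93707)],
  mkN 100000 118557 0 118557 0 0 0 (25350, 12834) [(31831, 58892), (68169, 92605), (99956, 99990)]]

/-- Certificate data. -/
def slabB12 : List CertN := [
  mkN 39413 69846 76506 0 0 0 0 (25600, 7436) [(27781, 22155), (31831, 33565), (35990, 22738)],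
  mkN 41237 72073 67723 0 0 0 0 (25600, 7750) [(26363, 15357), (27781, 23136), (29806, 30167), (31831, 35120), (36759, 24440), (39413, 15669)],
  mkN 42319 73167 63404 0 0 0 0 (25600, 7916) [(26363, 15670), (27781, 23607), (29806, 30791), (31831, 35860), (34888, 30336), (37945, 23391), (40085, 16777), (41237, 11702)],
  mkN 43044 73826 60807 0 0 0 0 (25600, 7997) [(26363, 15846), (27781, 23881), (29806, 31157), (31831, 36293), (35240, 30440), (36944, 26983), (38648, 22967), (41034, 15588), (42319, 9382)],
  mkN 43539 74245 59152 0 0 0 0 (25600, 8062) [(26363, 15964), (27781, 24058), (29806, 31390), (31831, 36568), (35475, 30518), (37297, 26925), (39119, 22720), (40394, 19203), (41670, 14834), (43044, 7657)],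
  mkN 43809 74465 58286 0 0 0 0 (25600, 8085) [(26363, 16021), (27781, 24146), (29806, 31509), (31831, 36710), (35636, 30498), (39441, 22423), (40773, 18731), (42105, 14062), (43037, 9480), (43539, 5616)],
  mkN 44078 74677 57449 0 0 0 0 (25600, 8116) [(26363, 16079), (27781, 24235), (29806, 31625), (31831, 36847), (35724, 30609), (37670, 26885), (39617, 22496), (40980, 18785), (42342, 14092), (43296, 9474), (43809, 5568)],
  mkN 44237 74799 56966 0 0 0 0 (25600, 8139) [(26363, 16115), (27781, 24287), (29806, 31693), (31831, 36927), (35812, 30610), (39792, 22365), (41185, 18571), (42578, 13722), (43553, 8829), (44078, 4277)],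
  mkN 44396 74920 56490 0 0 0 0 (25600, 8151) [(26363, 16145), (27781, 24335), (29806, 31757), (31831, 37004), (35863, 30675), (37879, 26886), (39895, 22409), (41306, 18606), (42717, 13745), (43705, 8834), (44237, 4253)],
  mkN 44555 75039 56022 0 0 0 0 (25600, 8162) [(26363, 16175), (27781, 24382), (29806, 31821), (31831, 37079), (35914, 30737), (37956, 26940), (39998, 22453), (41428, 18637), (42857, 13763), (43857, 8839), (44396, 4229)],
  mkN 44821 75233 55257 0 0 0 0 (25600, 8187) [(26363, 16226), (27781, 24460), (29806, 31925), (31831, 37203), (35966, 30898), (38034, 27130), (40102, 22688), (41549, 18931), (42996, 14167), (44009, 9465), (44555, 5424)],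
  mkN 45086 75421 54515 0 0 0 0 (25600, 8213) [(26363, 16277), (27781, 24537), (29806, 32027), (31831, 37323), (36052, 30996), (38163, 27214), (40274, 22756), (41752, 18980), (43230, 14191), (44264, 9460), (44821, 5380)],
  mkN 45565 75748 53223 0 0 0 0 (25600, 8264) [(26363, 16367), (27781, 24672), (29806, 32204), (31831, 37532), (36139, 31278), (38293, 27554), (40447, 23185), (41954, 19515), (43462, 14926), (44518, 10551), (45086, 7149)],
  mkN 46465 76323 50955 0 0 0 0 (25600, 8339) [(26363, 16518), (27781, 24902), (29806, 32509), (31831, 37893), (36294, 31777), (38526, 28157), (40758, 23943), (42320, 20447), (43883, 16172), (45565, 9573)],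
  mkN 49127 77770 45250 0 0 0 0 (25600, 8516) [(26363, 16888), (27781, 25469), (29806, 33261), (31831, 38781), (36587, 33206), (38965, 29975), (41343, 26306), (43904, 21612), (46465, 15474)],
  mkN 68633 83367 23168 0 0 0 0 (25600, 9218) [(26363, 18269), (27781, 27562), (29806, 36017), (31831, 42023), (40479, 37394), (49127, 31979)],
  mkN 94189 106369 0 67569 0 0 0 (25600, 11629) [(26363, 23050), (27072, 29644), (27781, 34756), (28794, 40612), (29806, 45379), (31831, 52901), (36374, 57533), (40916, 61666), (45458, 65395), (50000, 68785), (54542, 71885), (59084, 74731), (68169, 79768), (68633, 79670)],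
  mkN 100000 119545 0 119545 0 0 0 (25600, 12805) [(31831, 57956), (68169, 92477), (94189, 98669)]]

/-- Certificate data. -/
def slabB13 : List CertN := [
  mkN 39413 70553 74713 0 0 0 0 (25850, 7448) [(26583, 14542), (27943, 21849), (31831, 33180), (35990, 22472)],
  mkN 41237 72784 65998 0 0 0 0 (25850, 7766) [(26583, 15166), (27943, 22801), (29887, 29756), (31831, 34685), (34295, 29923), (36759, 24133), (39413, 15472)],
  mkN 42319 73877 61727 0 0 0 0 (25850, 7922) [(26583, 15465), (27943, 23254), (29887, 30357), (31831, 35397), (34888, 29941), (37945, 23083), (40085, 16554), (41237, 11544)],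
  mkN 42932 74436 59544 0 0 0 0 (25850, 7996) [(26583, 15613), (27943, 23480), (29887, 30658), (31831, 35754), (35240, 29919), (38648, 22444), (41034, 14995), (42319, 8542)],
  mkN 43316 74767 58253 0 0 0 0 (25850, 8033) [(26583, 15698), (27943, 23611), (29887, 30833), (31831, 35962), (35439, 29944), (39047, 22163), (41572, 14219), (42932, 6686)],
  mkN 43698 75081 57024 0 0 0 0 (25850, 8084) [(26583, 15785), (27943, 23740), (29887, 31003), (31831, 36162), (35564, 30104), (37430, 26499), (39296, 22268), (40602, 18711), (41909, 14252), (43316, 6606)],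
  mkN 43968 75296 56185 0 0 0 0 (25850, 8110) [(26583, 15840), (27943, 23825), (29887, 31115), (31831, 36296), (35688, 30147), (37616, 26479), (39545, 22157), (40894, 18508), (42244, 13888), (43189, 9352), (43698, 5516)],
  mkN 44237 75504 55374 0 0 0 0 (25850, 8132) [(26583, 15891), (27943, 23906), (29887, 31224), (31831, 36425), (35776, 30251), (37748, 26566), (39720, 22226), (41100, 18559), (42481, 13912), (43448, 9339), (43968, 5459)],
  mkN 44505 75705 54589 0 0 0 0 (25850, 8158) [(26583, 15943), (27943, 23985), (29887, 31329), (31831, 36549), (35863, 30352), (37879, 26652), (39895, 22293), (41306, 18607), (42717, 13938), (43705, 9337), (44237, 5410)],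
  mkN 44772 75899 53829 0 0 0 0 (25850, 8191) [(26583, 15998), (27943, 24065), (29887, 31432), (31831, 36671), (35950, 30452), (38010, 26736), (40069, 22361), (41510, 18660), (42952, 13968), (43961, 9341), (44505, 5372)],
  mkN 45145 76162 52802 0 0 0 0 (25850, 8225) [(26583, 16065), (27943, 24167), (29887, 31569), (31831, 36833), (36037, 30640), (38140, 26947), (40243, 22606), (41715, 18948), (43187, 14346), (44217, 9892), (44772, 6281)],
  mkN 45837 76624 50996 0 0 0 0 (25850, 8290) [(26583, 16186), (27943, 24350), (29887, 31809), (31831, 37116), (36158, 31032), (38322, 27422), (40485, 23207), (42000, 19690), (43514, 15352), (45145, 8405)],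
  mkN 47472 77600 47184 0 0 0 0 (25850, 8414) [(26583, 16433), (27943, 24726), (29887, 32307), (31831, 37705), (36383, 31925), (38659, 28539), (40935, 24648), (44121, 17716), (45837, 12403)],
  mkN 55004 80694 35098 0 0 0 0 (25850, 8802) [(26583, 17196), (27943, 25881), (29887, 33833), (31831, 39504), (35742, 36146), (39652, 32384), (43562, 28056), (47472, 22844)],
  mkN 77615 92544 0 11189 0 0 0 (25850, 10145) [(26583, 19835), (27943, 29866), (29887, 39061), (31831, 45630), (55004, 50367)],
  mkN 99956 119275 0 115609 0 0 0 (25850, 12673) [(31831, 56549), (50000, 78875), (68169, 91446), (77615, 93588)],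
  mkN 100000 120537 0 120537 0 0 0 (25850, 12775) [(31831, 56993), (68169, 92346), (99956, 99989)]]

/-- Certificate data. -/
def slabB14 : List CertN := [
  mkN 39288 71104 73548 0 0 0 0 (26100, 7445) [(28106, 21470), (31831, 32663), (35990, 21893)],
  mkN 41115 73380 64745 0 0 0 0 (26100, 7758) [(26802, 14927), (28106, 22408), (29968, 29260), (31831, 34147), (34254, 29473), (36678, 23797), (39288, 15336)],
  mkN 42199 74489 60452 0 0 0 0 (26100, 7919) [(26802, 15224), (28106, 22855), (29968, 29852), (31831, 34848), (34848, 29481), (37866, 22741), (39978, 16336), (41115, 11436)],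
  mkN 42813 75055 58264 0 0 0 0 (26100, 7989) [(26802, 15368), (28106, 23076), (29968, 30146), (31831, 35197), (35200, 29453), (38570, 22099), (40929, 14779), (42199, 8456)],
  mkN 43309 75483 56609 0 0 0 0 (26100, 8044) [(26802, 15477), (28106, 23242), (29968, 30366), (31831, 35458), (35400, 29587), (37184, 26105), (38969, 22031), (40218, 18626), (41468, 14401), (42813, 7491)],
  mkN 43580 75707 55743 0 0 0 0 (26100, 8071) [(26802, 15533), (28106, 23328), (29968, 30481), (31831, 35594), (35562, 29562), (39292, 21734), (40598, 18158), (41903, 13642), (43309, 5498)],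
  mkN 43850 75923 54907 0 0 0 0 (26100, 8101) [(26802, 15589), (28106, 23412), (29968, 30592), (31831, 35726), (35650, 29669), (39468, 21805), (40804, 18214), (42141, 13669), (43076, 9212), (43580, 5448)],
  mkN 44119 76132 54099 0 0 0 0 (26100, 8127) [(26802, 15641), (28106, 23492), (29968, 30698), (31831, 35851), (35737, 29771), (39643, 21873), (41010, 18263), (42378, 13692), (43335, 9201), (43850, 5394)],
  mkN 44387 76334 53317 0 0 0 0 (26100, 8155) [(26802, 15693), (28106, 23570), (29968, 30801), (31831, 35973), (35824, 29871), (39818, 21938), (41216, 18311), (42614, 13718), (43592, 9199), (44119, 5347)],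
  mkN 44763 76608 52257 0 0 0 0 (26100, 8191) [(26802, 15762), (28106, 23675), (29968, 30940), (31831, 36137), (35912, 30061), (37952, 26442), (39992, 22191), (41420, 18611), (42849, 14109), (43849, 9764), (44387, 6268)],
  mkN 45352 77016 50678 0 0 0 0 (26100, 8246) [(26802, 15866), (28106, 23830), (29968, 31145), (31831, 36381), (36034, 30368), (38136, 26797), (40237, 22623), (41708, 19131), (43179, 14803), (44763, 7727)],
  mkN 46575 77789 47688 0 0 0 0 (26100, 8344) [(26802, 16057), (28106, 24121), (29968, 31530), (31831, 36835), (36226, 31028), (38423, 27612), (40620, 23663), (43696, 16515), (45352, 10787)],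
  mkN 50899 79917 39456 0 0 0 0 (26100, 8611) [(26802, 16573), (28106, 24902), (29968, 32562), (31831, 38054), (36623, 33088), (41415, 27100), (43995, 23182), (46575, 18394)],
  mkN 74325 90279 0 630 0 0 0 (26100, 9810) [(26802, 18883), (28106, 28384), (31831, 43426), (50899, 43674)],
  mkN 99299 116609 0 102488 0 0 0 (26100, 12337) [(26802, 23729), (28106, 35619), (29968, 46511), (31831, 54280), (36374, 60883), (40916, 66510), (45458, 71394), (50000, 75679), (59084, 82812), (68169, 88402), (74325, 89291)],
  mkN 100000 121532 0 121532 0 0 0 (26100, 12751) [(31831, 56003), (68169, 92214), (99299, 99835)]]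

/-- Certificate data. -/
def slabB15 : List CertN := [
  mkN 39288 71852 71645 0 0 0 0 (26450, 8809) [(28333, 21441), (30082, 27720), (31831, 32248), (35990, 21610)],
  mkN 40997 73997 63426 0 0 0 0 (26450, 9161) [(27109, 15351), (28333, 22310), (30082, 28862), (31831, 33600), (36678, 23246), (39288, 14685)],
  mkN 41968 75010 59545 0 0 0 0 (26450, 9321) [(28333, 22707), (30082, 29384), (31831, 34217), (34810, 28884), (37789, 22170), (39874, 15743), (40997, 10739)],
  mkN 42584 75590 57320 0 0 0 0 (26450, 9420) [(27109, 15780), (28333, 22935), (30082, 29681), (31831, 34567), (35126, 28928), (38420, 21721), (40726, 14561), (41968, 8406)],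
  mkN 42970 75933 56008 0 0 0 0 (26450, 9466) [(27109, 15865), (28333, 23064), (30082, 29851), (31831, 34769), (35326, 28948), (38820, 21436), (41267, 13781), (42584, 6577)],
  mkN 43243 76166 55116 0 0 0 0 (26450, 9500) [(27109, 15924), (28333, 23152), (30082, 29967), (31831, 34906), (35451, 28991), (39071, 21322), (40338, 17824), (41605, 13408), (42970, 5487)],
  mkN 43515 76390 54256 0 0 0 0 (26450, 9540) [(27109, 15986), (28333, 23239), (30082, 30081), (31831, 35039), (35540, 29099), (37394, 25559), (39249, 21392), (40547, 17876), (41845, 13434), (43243, 5440)],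
  mkN 43675 76519 53762 0 0 0 0 (26450, 9559) [(27109, 16019), (28333, 23288), (30082, 30144), (31831, 35114), (35628, 29096), (39426, 21254), (40755, 17652), (42084, 13054), (43014, 8428), (43515, 4157)],
  mkN 43835 76646 53277 0 0 0 0 (26450, 9574) [(27109, 16049), (28333, 23334), (30082, 30206), (31831, 35187), (35680, 29156), (39530, 21294), (40877, 17683), (42224, 13073), (43167, 8429), (43675, 4128)],
  mkN 43995 76770 52800 0 0 0 0 (26450, 9598) [(27109, 16084), (28333, 23383), (30082, 30269), (31831, 35261), (35732, 29217), (39634, 21338), (41000, 17717), (42365, 13096), (43320, 8442), (43835, 4125)],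
  mkN 44154 76891 52335 0 0 0 0 (26450, 9621) [(27109, 16117), (28333, 23431), (30082, 30330), (31831, 35333), (35784, 29276), (39738, 21379), (41122, 17749), (42505, 13116), (43474, 8440), (43995, 4103)],
  mkN 44313 77011 51878 0 0 0 0 (26450, 9631) [(27109, 16143), (28333, 23472), (30082, 30387), (31831, 35400), (35836, 29330), (39841, 21416), (41242, 17780), (42644, 13133), (43626, 8438), (44154, 4068)],
  mkN 44580 77206 51129 0 0 0 0 (26450, 9666) [(27109, 16196), (28333, 23548), (30082, 30484), (31831, 35515), (35888, 29482), (39944, 21646), (41364, 18063), (42784, 13525), (43778, 9054), (44313, 5236)],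
  mkN 45063 77546 49826 0 0 0 0 (26450, 9718) [(27109, 16284), (28333, 23675), (30082, 30651), (31831, 35711), (35974, 29755), (38046, 26214), (40118, 22065), (41568, 18585), (43018, 14245), (44580, 6946)],
  mkN 45971 78140 47550 0 0 0 0 (26450, 9808) [(27109, 16434), (28333, 23895), (30082, 30939), (31831, 36050), (36132, 30231), (38282, 26795), (40432, 22802), (43442, 15466), (45063, 9290)],
  mkN 48868 79720 41499 0 0 0 0 (26450, 10033) [(27109, 16822), (28333, 24467), (30082, 31688), (31831, 36933), (36426, 31718), (41022, 25311), (43496, 20998), (45971, 15461)],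
  mkN 69770 86426 15803 0 0 0 0 (26450, 10974) [(27109, 18396), (28333, 26764), (30082, 34682), (31831, 40444), (40350, 37251), (48868, 33705)],
  mkN 95874 110956 0 78179 0 0 0 (26450, 13852) [(27109, 23221), (28333, 33762), (30082, 43704), (31831, 50909), (36374, 56485), (40916, 61351), (50000, 69535), (59084, 76194), (68169, 81701), (69770, 81543)],
  mkN 100000 122532 0 122532 0 0 0 (26450, 15020) [(31831, 54981), (68169, 92080), (95874, 99009)]]

/-- Certificate data. -/
def slabB16 : List CertN := [
  mkN 39163 72757 69562 0 0 0 0 (26800, 8825) [(28561, 20938), (31831, 31529), (35990, 20896)],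
  mkN 40875 74940 61307 0 0 0 0 (26800, 9179) [(27416, 15058), (28561, 21782), (30196, 28174), (31831, 32837), (36597, 22755), (39163, 14455)],
  mkN 41848 75965 57433 0 0 0 0 (26800, 9334) [(28561, 22163), (30196, 28675), (31831, 33430), (34770, 28223), (37710, 21673), (39767, 15417), (40875, 10561)],
  mkN 42465 76550 55220 0 0 0 0 (26800, 9427) [(27416, 15468), (28561, 22381), (30196, 28959), (31831, 33765), (35086, 28257), (38342, 21220), (40621, 14240), (41848, 8257)],
  mkN 42964 76992 53551 0 0 0 0 (26800, 9488) [(27416, 15575), (28561, 22540), (30196, 29169), (31831, 34013), (35287, 28379), (38743, 21143), (41162, 13861), (42465, 7310)],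
  mkN 43348 77314 52334 0 0 0 0 (26800, 9535) [(27416, 15655), (28561, 22656), (30196, 29322), (31831, 34193), (35449, 28455), (39067, 21050), (40334, 17692), (41600, 13497), (42964, 6340)],
  mkN 43619 77532 51508 0 0 0 0 (26800, 9574) [(27416, 15712), (28561, 22737), (30196, 29426), (31831, 34316), (35574, 28490), (39317, 20938), (40627, 17492), (41937, 13140), (43348, 5295)],
  mkN 43889 77743 50711 0 0 0 0 (26800, 9603) [(27416, 15763), (28561, 22812), (30196, 29525), (31831, 34433), (35662, 28584), (39493, 20999), (40834, 17536), (42175, 13159), (43619, 5239)],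
  mkN 44267 78028 49635 0 0 0 0 (26800, 9641) [(27416, 15830), (28561, 22913), (30196, 29657), (31831, 34589), (35750, 28768), (39669, 21242), (41040, 17826), (42412, 13539), (43889, 6124)],
  mkN 44861 78451 48034 0 0 0 0 (26800, 9709) [(27416, 15937), (28561, 23066), (30196, 29857), (31831, 34823), (35872, 29068), (37893, 25657), (39914, 21672), (42743, 14231), (44267, 7554)],
  mkN 46095 79249 45016 0 0 0 0 (26800, 9829) [(27416, 16132), (28561, 23349), (30196, 30226), (31831, 35258), (36066, 29710), (40300, 22695), (43265, 15916), (44861, 10533)],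
  mkN 50563 81455 36675 0 0 0 0 (26800, 10148) [(27416, 16655), (28561, 24111), (30196, 31220), (31831, 36427), (36467, 31739), (41103, 26116), (46095, 18034)],
  mkN 74053 91640 0 1830 0 0 0 (26800, 11493) [(28561, 27332), (31831, 41334), (50563, 42081)],
  mkN 99342 119016 0 105332 0 0 0 (26800, 14506) [(28561, 34432), (30196, 44526), (31831, 51882), (36374, 59051), (40916, 65087), (50000, 74817), (59084, 82315), (68169, 88153), (74053, 89086)],
  mkN 100000 123938 0 123938 0 0 0 (26800, 14977) [(31831, 53496), (68169, 91889), (99342, 99839)]]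

/-- Certificate data. -/
def slabB17 : List CertN := [
  mkN 39038 73707 67350 0 0 0 0 (27300, 10542) [(28886, 20881), (31831, 30779), (35990, 20162)],
  mkN 40635 75791 59576 0 0 0 0 (27300, 10925) [(28886, 21660), (31831, 31961), (36516, 22018), (39038, 13763)],
  mkN 41612 76844 55646 0 0 0 0 (27300, 11119) [(28886, 22046), (30358, 28054), (31831, 32542), (34692, 27485), (37554, 21133), (39557, 15083), (40635, 10418)],
  mkN 42232 77443 53411 0 0 0 0 (27300, 11226) [(28886, 22261), (30358, 28331), (31831, 32867), (35010, 27507), (38189, 20671), (40414, 13905), (41612, 8137)],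
  mkN 42620 77794 52101 0 0 0 0 (27300, 11289) [(27855, 16225), (28886, 22387), (30358, 28492), (31831, 33056), (35212, 27516), (38592, 20382), (40958, 13135), (42232, 6363)],
  mkN 42894 78032 51214 0 0 0 0 (27300, 11328) [(27855, 16283), (28886, 22470), (30358, 28600), (31831, 33182), (35338, 27550), (38844, 20262), (41298, 12761), (42620, 5300)],
  mkN 43167 78261 50359 0 0 0 0 (27300, 11370) [(27855, 16343), (28886, 22551), (30358, 28704), (31831, 33305), (35426, 27650), (39022, 20327), (40280, 16993), (41539, 12782), (42894, 5251)],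
  mkN 43328 78392 49869 0 0 0 0 (27300, 11396) [(27855, 16378), (28886, 22599), (30358, 28765), (31831, 33376), (35515, 27644), (39199, 20192), (41778, 12415), (42681, 8036), (43167, 4025)],
  mkN 43489 78521 49388 0 0 0 0 (27300, 11418) [(27855, 16410), (28886, 22644), (30358, 28823), (31831, 33444), (35568, 27698), (39304, 20229), (41920, 12430), (42835, 8038), (43328, 4003)],
  mkN 43760 78733 48599 0 0 0 0 (27300, 11450) [(27855, 16460), (28886, 22716), (30358, 28916), (31831, 33554), (35620, 27848), (39409, 20456), (40735, 17084), (42061, 12824), (43489, 5132)],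
  mkN 44029 78936 47840 0 0 0 0 (27300, 11489) [(27855, 16514), (28886, 22789), (30358, 29009), (31831, 33662), (35708, 27935), (39585, 20513), (40942, 17125), (42299, 12843), (43760, 5081)],
  mkN 44516 79288 46525 0 0 0 0 (27300, 11554) [(27855, 16605), (28886, 22913), (30358, 29168), (31831, 33847), (35796, 28197), (37778, 24846), (39760, 20924), (42535, 13552), (44029, 6741)],
  mkN 45540 79970 43983 0 0 0 0 (27300, 11665) [(27855, 16770), (28886, 23145), (30358, 29468), (31831, 34199), (35954, 28731), (40076, 21792), (42962, 15017), (44516, 9481)],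
  mkN 48991 81803 37143 0 0 0 0 (27300, 11976) [(28886, 23766), (30358, 30264), (31831, 35130), (36286, 30357), (40742, 24565), (43141, 20734), (45540, 15961)],
  mkN 72231 90787 3619 0 0 0 0 (27300, 13395) [(28886, 26590), (31831, 39334), (48991, 37850)],
  mkN 98430 117779 0 97095 0 0 0 (27300, 16934) [(28886, 33574), (30358, 42711), (31831, 49529), (36374, 56569), (40916, 62513), (45458, 67652), (50000, 72159), (59084, 79689), (68169, 85664), (72231, 86010)],
  mkN 100000 125351 0 125351 0 0 0 (27300, 17803) [(31831, 51944), (68169, 91694), (98430, 99606)]]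

/-- Certificate data. -/
def slabB18 : List CertN := [
  mkN 38913 75236 63639 0 0 0 0 (27800, 10597) [(29211, 20178), (31831, 29683), (35990, 19199)],
  mkN 40513 77340 55932 0 0 0 0 (27800, 10977) [(29211, 20911), (31831, 30784), (36434, 21240), (38913, 13350)],
  mkN 41492 78393 52074 0 0 0 0 (27800, 11164) [(29211, 21268), (31831, 31320), (34652, 26453), (37474, 20351), (39449, 14551), (40513, 10089)],
  mkN 42227 79093 49510 0 0 0 0 (27800, 11286) [(29211, 21502), (30521, 27289), (31831, 31670), (34971, 26564), (38111, 20087), (40309, 13751), (41492, 8528)],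
  mkN 42728 79532 47902 0 0 0 0 (27800, 11361) [(29211, 21647), (30521, 27475), (31831, 31887), (35210, 26596), (38588, 19818), (40953, 13015), (42227, 6930)],
  mkN 43225 79940 46407 0 0 0 0 (27800, 11432) [(29211, 21782), (30521, 27647), (31831, 32088), (35372, 26752), (38914, 19905), (41393, 13016), (42728, 6796)],
  mkN 43940 80484 44413 0 0 0 0 (27800, 11528) [(28294, 16102), (29211, 21961), (30521, 27875), (31831, 32355), (35534, 27072), (39237, 20336), (41829, 13668), (43225, 7974)],
  mkN 45193 81333 41303 0 0 0 0 (27800, 11670) [(29211, 22235), (30521, 28225), (31831, 32764), (35766, 27635), (39702, 21180), (42457, 14997), (43940, 10169)],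
  mkN 49628 83573 33099 0 0 0 0 (27800, 12035) [(29211, 22939), (30521, 29126), (31831, 33816), (36174, 29511), (40516, 24376), (45193, 17075)],
  mkN 73365 93282 0 2464 0 0 0 (27800, 13510) [(29211, 25763), (31831, 38002), (49628, 39052)],
  mkN 99273 122004 0 107675 0 0 0 (27800, 17143) [(29211, 32635), (31831, 47994), (36374, 56016), (40916, 62643), (50000, 73166), (59084, 81185), (68169, 87394), (73365, 88257)],
  mkN 100000 127386 0 127386 0 0 0 (27800, 17733) [(31831, 49590), (68169, 91410), (99273, 99812)]]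

/-- Certificate data. -/
def slabB19 : List CertN := [
  mkN 38788 76892 59575 0 0 0 0 (28500, 12584) [(29666, 20118), (31831, 28491), (35990, 18182)],
  mkN 40271 78861 52491 0 0 0 0 (28500, 12993) [(29666, 20775), (31831, 29436), (36353, 20178), (38788, 12455)],
  mkN 41253 79926 48659 0 0 0 0 (28500, 13210) [(29666, 21122), (31831, 29934), (34574, 25289), (37317, 19481), (39237, 13977), (40271, 9771)],
  mkN 41876 80525 46506 0 0 0 0 (28500, 13325) [(29666, 21311), (31831, 30207), (34893, 25278), (37955, 19010), (40099, 12830), (41253, 7608)],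
  mkN 42380 80972 44898 0 0 0 0 (28500, 13414) [(29666, 21454), (31831, 30411), (35096, 25365), (38360, 18914), (40645, 12459), (41876, 6726)],
  mkN 42992 81475 43089 0 0 0 0 (28500, 13512) [(29666, 21612), (31831, 30638), (35260, 25598), (38688, 19170), (41088, 12784), (42380, 7259)],
  mkN 43821 82094 40860 0 0 0 0 (28500, 13637) [(29666, 21808), (31831, 30918), (35458, 25920), (39086, 19579), (41625, 13371), (42992, 8232)],
  mkN 45625 83244 36724 0 0 0 0 (28500, 13856) [(29666, 22162), (31831, 31426), (35728, 26717), (39624, 20881), (41722, 16874), (43821, 11497)],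
  mkN 56498 87112 22810 0 0 0 0 (28500, 14573) [(29666, 23314), (31831, 33072), (38728, 28184), (45625, 22136)],
  mkN 79038 100129 0 24012 0 0 0 (28500, 16754) [(29666, 26808), (31831, 38031), (44164, 44557), (56498, 50068)],
  mkN 100000 129437 0 129437 0 0 0 (28500, 20830) [(31831, 47057), (68169, 91117), (79038, 94244)]]

/-- Certificate data. -/
def slabB20 : List CertN := [
  mkN 38538 79357 53565 0 0 0 0 (29500, 15143) [(31831, 26563), (35990, 16465)],
  mkN 39907 81189 47136 0 0 0 0 (29500, 15574) [(31831, 27330), (36191, 18636), (38538, 11345)],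
  mkN 40778 82142 43793 0 0 0 0 (29500, 15791) [(31831, 27718), (34456, 23368), (37080, 17924), (39907, 8726)],
  mkN 41406 82749 41662 0 0 0 0 (29500, 15931) [(31831, 27964), (34739, 23407), (37647, 17630), (39682, 11967), (40778, 7235)],
  mkN 42028 83295 39746 0 0 0 0 (29500, 16054) [(31831, 28182), (34943, 23566), (38055, 17704), (40233, 11928), (41406, 7035)],
  mkN 42757 83874 37714 0 0 0 0 (29500, 16184) [(30666, 23351), (31831, 28412), (35145, 23791), (38459, 17935), (40779, 12196), (42028, 7418)],
  mkN 44036 84759 34609 0 0 0 0 (29500, 16379) [(31831, 28758), (35382, 24293), (38933, 18714), (41419, 13432), (42757, 9404)],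
  mkN 48891 87107 26369 0 0 0 0 (29500, 16889) [(30666, 24371), (31831, 29658), (37934, 23868), (44036, 15955)],
  mkN 72675 95894 0 4462 0 0 0 (29500, 18661) [(31831, 32782), (48891, 34899)],
  mkN 99361 126981 0 113539 0 0 0 (29500, 23866) [(30666, 34398), (31831, 41809), (35010, 48895), (38190, 54841), (41370, 59986), (44549, 64521), (47502, 68293), (50454, 71710), (53406, 74822), (56359, 77666), (62264, 82654), (68169, 86842), (72675, 87730)],
  mkN 100000 132340 0 132340 0 0 0 (29500, 24644) [(31831, 43142), (68169, 90694), (99361, 99821)]]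

/-- Certificate data. -/
def slabB21 : List CertN := [
  mkN 38289 83745 42452 0 0 0 0 (30800, 17665) [(31831, 23257), (35990, 13940)],
  mkN 39543 85309 37151 0 0 0 0 (30800, 18049) [(31831, 23767), (36029, 16108), (38289, 9645)],
  mkN 40537 86296 33806 0 0 0 0 (30800, 18287) [(31831, 24082), (36844, 15752), (39543, 8191)],
  mkN 41515 87107 31054 0 0 0 0 (30800, 18486) [(31831, 24343), (37490, 15767), (40537, 7799)],
  mkN 43277 88279 27082 0 0 0 0 (30800, 18762) [(31831, 24708), (38126, 16649), (41515, 9764)],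
  mkN 53621 91705 15468 0 0 0 0 (30800, 19549) [(31831, 25747), (43277, 17821)],
  mkN 75931 102185 0 20056 0 0 0 (30800, 21770) [(31831, 28673), (42726, 35157), (53621, 40502)],
  mkN 100000 136551 0 136551 0 0 0 (30800, 27787) [(31831, 36539), (44549, 65319), (68169, 90059), (75931, 92582)]]

/-- Certificate data. -/
def slabB22 : List CertN := [
  mkN 38913 92168 20126 0 0 0 0 (31630, 15145) [(31831, 16825), (35990, 10834)],
  mkN 45520 94950 11092 0 0 0 0 (31630, 15631) [(31831, 17365), (38913, 12091)],
  mkN 70659 100189 0 5916 0 0 0 (31630, 16498) [(31831, 18329), (45520, 22237)],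
  mkN 99199 135518 0 120622 0 0 0 (31630, 21442) [(31831, 23815), (36282, 39764), (40416, 49713), (44549, 57547), (50454, 66528), (56359, 73748), (68169, 84617), (70659, 85185)],
  mkN 100000 142149 0 142149 0 0 0 (31630, 22239) [(31831, 24699), (68169, 89177), (99199, 99742)]]

/-- Certificate data. -/
def slabBN : List (ℕ × List CertN) := [
  (3700, slabB0),
  (10700, slabB1),
  (15700, slabB2),
  (19200, slabB3),
  (21000, slabB4),
  (22300, slabB5),
  (23300, slabB6),
  (24000, slabB7),
  (24500, slabB8),
  (24850, slabB9),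
  (25100, slabB10),
  (25350, slabB11),
  (25600, slabB12),
  (25850, slabB13),
  (26100, slabB14),
  (26450, slabB15),
  (26800, slabB16),
  (27300, slabB17),
  (27800, slabB18),
  (28500, slabB19),
  (29500, slabB20),
  (30800, slabB21),
  (31630, slabB22)]

def slabB : List (ℚ × List Cert) := toQs slabBN

theorem slabB_ok : stripsOK (finSlab (d 36000) (d 50000)) (d 31630) (d 35990) 1 (d 200) slabB =
    true := by
  have h := stripsN_sound (finSlabN_sound 36000 50000) (A1 := 31630) (B0 := 35990) (B1 := 100000)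
    slabBN 200 (by decide +kernel)
  rw [← d_one]
  exact h

end Vale.Agent.P232
end
end

section

section

namespace Vale.Agent.P232

/-- Certificate data. -/
def slabC0 : List CertN := [
  mkN 93231 127152 0 86922 0 0 0 (46620, 49954) [(52007, 57312), (57395, 63485), (68169, 73415), (72000, 72529)],
  mkN 100000 145756 0 145756 0 0 0 (46620, 62820) [(68169, 88585), (93231, 97684)]]

/-- Certificate data. -/
def slabC1 : List CertN := [
  mkN 100000 187336 0 187336 0 0 0 (50001, 35023) [(68169, 80275), (72000, 82898)]]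

/-- Certificate data. -/
def slabCN : List (ℕ × List CertN) := [
  (46620, slabC0),
  (50001, slabC1)]

def slabC : List (ℚ × List Cert) := toQs slabCN

theorem slabC_ok : stripsOK (finSlab (d 36000) (d 50000)) (d 50001) (d 72000) 1 (d 31620) slabC =
    true := by
  have h := stripsN_sound (finSlabN_sound 36000 50000) (A1 := 50001) (B0 := 72000) (B1 := 100000)
    slabCN 31620 (by decide +kernel)
  rw [← d_one]
  exact h

end Vale.Agent.P232
end
end

section

section

open MeasureTheory Set Filter Topology ContinuousLinearMap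

namespace Vale.Agent.P232

/-- The product of `A` with a circle in the direction `i`. -/
def cylT {n : ℕ} (i : Fin (n + 1)) (A : Set (Fin n → ℝ)) : Set (Fin (n + 1) → ℝ) :=
  {x | (fun j => x (i.succAbove j)) ∈ A}

theorem measurableSet_cylT {n : ℕ} (i : Fin (n + 1)) {A : Set (Fin n → ℝ)}
    (hA : MeasurableSet A) : MeasurableSet (cylT i A) := by
  have : Measurable (fun (x : Fin (n + 1) → ℝ) (j : Fin n) => x (i.succAbove j)) :=
    measurable_pi_lambda _ fun j => measurable_pi_apply _
  exact this hA

theorem isPeriodic_cylT {n : ℕ} (i : Fin (n + 1)) {A : Set (Fin n → ℝ)}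
    (hA : IsPeriodic A) : IsPeriodic (cylT i A) := by
  intro x k
  exact hA (fun j => x (i.succAbove j)) (fun j => k (i.succAbove j))

theorem insertNth_mem_cylT {n : ℕ} (i : Fin (n + 1)) (A : Set (Fin n → ℝ)) (t : ℝ)
    (y : Fin n → ℝ) : i.insertNth (α := fun _ => ℝ) t y ∈ cylT i A ↔ y ∈ A := by
  unfold cylT
  simp

theorem slice_cylT {n : ℕ} (i : Fin (n + 1)) (A : Set (Fin n → ℝ)) (t : ℝ) :
    slice i (cylT i A) t = A := by
  ext y
  exact insertNth_mem_cylT i A t y

theorem vol_cylT {n : ℕ} (i : Fin (n + 1)) {A : Set (Fin n → ℝ)} (hA : MeasurableSet A) :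
    vol (cylT i A) = vol A := by
  rw [vol_eq_integral_sv i (measurableSet_cylT i hA)]
  unfold sv
  simp_rw [slice_cylT]
  simp

theorem testField_sliceField {n : ℕ} (i : Fin (n + 1))
    {X : (Fin (n + 1) → ℝ) → (Fin (n + 1) → ℝ)} (hX : TestField X) (t : ℝ) :
    TestField (sliceField i X t) where
  contDiff := contDiff_sliceField i hX.contDiff t
  periodic := perFun_sliceField i hX.perFun t
  bound := fun y => by
    have h := hX.bound (i.insertNth (α := fun _ => ℝ) t y)
    rw [Fin.sum_univ_succAbove _ i] at h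
    unfold sliceField
    linarith only [sq_nonneg (X (i.insertNth (α := fun _ => ℝ) t y) i), h]

theorem exists_bound_perFun {n : ℕ} {f : (Fin n → ℝ) → ℝ} (hf : Continuous f) (hp : PerFun f) :
    ∃ K, ∀ x, |f x| ≤ K := by
  obtain ⟨K, hK⟩ := (isCompact_Icc (a := (0 : Fin n → ℝ)) (b := 1)).exists_bound_of_continuousOn
    hf.continuousOn
  refine ⟨K, fun x => ?_⟩
  have h1 := hp x (fun j => - ⌊x j⌋)
  rw [← h1, ← Real.norm_eq_abs]
  apply hK
  constructor
  · intro j
    have := Int.fract_nonneg (x j)
    simp only [Pi.zero_apply, Int.cast_neg]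
    rw [← sub_eq_add_neg]
    exact this
  · intro j
    have := (Int.fract_lt_one (x j)).le
    simp only [Pi.one_apply, Int.cast_neg]
    rw [← sub_eq_add_neg]
    exact this

theorem continuous_integral_indicator_mul {n : ℕ} (i : Fin (n + 1)) {A : Set (Fin n → ℝ)}
    (hA : MeasurableSet A) {F : (Fin (n + 1) → ℝ) → ℝ} (hF : Continuous F) {K : ℝ}
    (hK : ∀ x, |F x| ≤ K) :
    Continuous (fun t => ∫ y in cube n, A.indicator (fun _ => (1 : ℝ)) y *
      F (i.insertNth (α := fun _ => ℝ) t y)) := by
  apply continuous_of_dominated (bound := fun _ => K)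
  · intro t
    apply Measurable.aestronglyMeasurable
    apply Measurable.mul (measurable_const.indicator hA)
    exact hF.measurable.comp ((continuous_insertNth' i).comp
      (continuous_const.prodMk continuous_id)).measurable
  · intro t
    filter_upwards with y
    rw [norm_mul, Real.norm_eq_abs, Real.norm_eq_abs, abs_of_nonneg (indicator_nonneg' _ _)]
    have h1 := indicator_le_one' A y
    have h2 := hK (i.insertNth (α := fun _ => ℝ) t y)
    have h3 := abs_nonneg (F (i.insertNth (α := fun _ => ℝ) t y))
    have h4 := indicator_nonneg' A y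
    linarith only [mul_nonneg (sub_nonneg.2 h2) (sub_nonneg.2 h4), mul_nonneg (sub_nonneg.2 h1) (sub_nonneg.2 h3), mul_nonneg (sub_nonneg.2 h1) (sub_nonneg.2 h2)]
  · exact integrable_const _
  · filter_upwards with y
    apply Continuous.mul continuous_const
    exact hF.comp ((continuous_insertNth' i).comp (continuous_id.prodMk continuous_const))

theorem perimeter_cylT_le {n : ℕ} (i : Fin (n + 1)) {A : Set (Fin n → ℝ)}
    (hA : MeasurableSet A) : perimeter (cylT i A) ≤ perimeter A := by
  by_cases htop : perimeter A = ⊤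
  · rw [htop]; exact le_top
  rw [← ENNReal.ofReal_toReal htop]
  conv_lhs => unfold perimeter
  apply iSup₂_le
  intro X hX
  apply ENNReal.ofReal_le_ofReal
  have hdc := continuous_divergence hX.contDiff
  have hE := measurableSet_cylT i hA
  have hint : IntegrableOn (fun x => (cylT i A).indicator (fun _ => (1 : ℝ)) x * divergence X x)
      (cube (n + 1)) := by
    apply Integrable.bdd_mul (c := 1) (integrableOn_cube hdc)
    · exact (measurable_const.indicator hE).aestronglyMeasurable
    · filter_upwards with x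
      rw [Real.norm_eq_abs, abs_of_nonneg (indicator_nonneg' _ _)]
      exact indicator_le_one' _ _
  rw [setIntegral_inter_cube hE, integral_cube_succ i _ hint]
  have hind : ∀ t y, (cylT i A).indicator (fun _ => (1 : ℝ)) (i.insertNth (α := fun _ => ℝ) t y) =
      A.indicator (fun _ => (1 : ℝ)) y := by
    intro t y
    by_cases h : y ∈ A
    · rw [indicator_of_mem h, indicator_of_mem ((insertNth_mem_cylT i A t y).mpr h)]
    · rw [indicator_of_notMem h,
        indicator_of_notMem (fun h' => h ((insertNth_mem_cylT i A t y).mp h'))]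
  simp_rw [hind, divergence_insertNth i hX.contDiff, mul_add]
  have hXi : ContDiff ℝ 1 (fun x => X x i) := contDiff_pi.mp hX.contDiff i
  have hc1 : Continuous (fun x => fderiv ℝ (fun x => X x i) x (Pi.single i 1)) :=
    (hXi.continuous_fderiv one_ne_zero).clm_apply continuous_const
  have hins : ∀ t, Continuous (fun y : Fin n → ℝ => i.insertNth (α := fun _ => ℝ) t y) := fun t =>
    (continuous_insertNth' i).comp (continuous_const.prodMk continuous_id)
  have hi1 : ∀ t, IntegrableOn (fun y => A.indicator (fun _ => (1 : ℝ)) y *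
      fderiv ℝ (fun x => X x i) (i.insertNth (α := fun _ => ℝ) t y) (Pi.single i 1)) (cube n) := by
    intro t
    apply Integrable.bdd_mul (c := 1) (integrableOn_cube (hc1.comp (hins t)))
    · exact (measurable_const.indicator hA).aestronglyMeasurable
    · filter_upwards with x
      rw [Real.norm_eq_abs, abs_of_nonneg (indicator_nonneg' _ _)]
      exact indicator_le_one' _ _
  have hi2 : ∀ t, IntegrableOn (fun y => A.indicator (fun _ => (1 : ℝ)) y *
      divergence (sliceField i X t) y) (cube n) := by
    intro t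
    apply Integrable.bdd_mul (c := 1)
      (integrableOn_cube (continuous_divergence (contDiff_sliceField i hX.contDiff t)))
    · exact (measurable_const.indicator hA).aestronglyMeasurable
    · filter_upwards with x
      rw [Real.norm_eq_abs, abs_of_nonneg (indicator_nonneg' _ _)]
      exact indicator_le_one' _ _
  have e1 : ∀ t, ∫ y in cube n, (A.indicator (fun _ => (1 : ℝ)) y *
      fderiv ℝ (fun x => X x i) (i.insertNth (α := fun _ => ℝ) t y) (Pi.single i 1) +
      A.indicator (fun _ => (1 : ℝ)) y * divergence (sliceField i X t) y) =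
      (∫ y in cube n, A.indicator (fun _ => (1 : ℝ)) y *
      fderiv ℝ (fun x => X x i) (i.insertNth (α := fun _ => ℝ) t y) (Pi.single i 1)) +
      ∫ y in A ∩ cube n, divergence (sliceField i X t) y := by
    intro t
    rw [integral_add (hi1 t) (hi2 t), setIntegral_inter_cube hA]
  simp_rw [e1]
  have hper : PerFun (fun x => fderiv ℝ (fun x => X x i) x (Pi.single i 1)) := by
    intro x k
    have h : PerFun (fun x => X x i) := fun x k => by simp only [hX.periodic x k]
    simp only
    rw [h.fderiv x k]
  obtain ⟨K, hK⟩ := exists_bound_perFun hc1 hper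
  obtain ⟨K', hK'⟩ := exists_bound_divergence hX
  have hca := continuous_integral_indicator_mul i hA hc1 hK
  have hcd := continuous_integral_indicator_mul i hA hdc hK'
  have hcd' : Continuous (fun t => (∫ y in cube n, A.indicator (fun _ => (1 : ℝ)) y *
      fderiv ℝ (fun x => X x i) (i.insertNth (α := fun _ => ℝ) t y) (Pi.single i 1)) +
      ∫ y in A ∩ cube n, divergence (sliceField i X t) y) := by
    refine hcd.congr fun t => ?_
    rw [← e1]
    congr 1
    ext y
    rw [divergence_insertNth i hX.contDiff, mul_add]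
  have hfin : ∀ {g : ℝ → ℝ}, Continuous g → IntegrableOn g (Ico (0 : ℝ) 1) := fun hg =>
    (hg.continuousOn.integrableOn_compact isCompact_Icc).mono_set Ico_subset_Icc_self
  have hle : ∀ t, (∫ y in A ∩ cube n, divergence (sliceField i X t) y) ≤
      (perimeter A).toReal := fun t =>
    integral_divergence_le_of_perimeter htop (testField_sliceField i hX t)
  have e2 : ∫ t in Ico (0 : ℝ) 1, ∫ y in cube n, A.indicator (fun _ => (1 : ℝ)) y *
      fderiv ℝ (fun x => X x i) (i.insertNth (α := fun _ => ℝ) t y) (Pi.single i 1) = 0 := by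
    rw [integral_integral_swap]
    · simp_rw [integral_const_mul]
      have h0 : ∀ y : Fin n → ℝ, ∫ t in Ico (0 : ℝ) 1,
          fderiv ℝ (fun x => X x i) (i.insertNth (α := fun _ => ℝ) t y) (Pi.single i 1) = 0 := by
        intro y
        rw [integral_Ico_eq_integral_Ioc, ← intervalIntegral.integral_of_le zero_le_one]
        have h1 : ∀ t ∈ uIcc (0 : ℝ) 1, HasDerivAt
            (fun t => X (i.insertNth (α := fun _ => ℝ) t y) i)
            (fderiv ℝ (fun x => X x i) (i.insertNth (α := fun _ => ℝ) t y) (Pi.single i 1)) t := by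
          intro t _
          exact (hXi.differentiable one_ne_zero
            (i.insertNth (α := fun _ => ℝ) t y)).hasFDerivAt.comp_hasDerivAt t
              (hasDerivAt_insertNth i t y)
        rw [intervalIntegral.integral_eq_sub_of_hasDerivAt h1]
        · have h2 := hX.periodic (i.insertNth (α := fun _ => ℝ) 0 y) (Pi.single i 1)
          have h3 : (fun j => i.insertNth (α := fun _ => ℝ) 0 y j +
              ((Pi.single i 1 : Fin (n + 1) → ℤ) j : ℝ)) =
              i.insertNth (α := fun _ => ℝ) 1 y := by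
            ext j
            refine Fin.succAboveCases i ?_ (fun j => ?_) j <;> simp
          rw [h3] at h2
          rw [h2, sub_self]
        · apply Continuous.intervalIntegrable
          exact hc1.comp ((continuous_insertNth' i).comp (continuous_id.prodMk continuous_const))
      simp [h0]
    · have hm : Measurable (Function.uncurry fun (t : ℝ) (y : Fin n → ℝ) =>
          A.indicator (fun _ => (1 : ℝ)) y *
          fderiv ℝ (fun x => X x i) (i.insertNth (α := fun _ => ℝ) t y) (Pi.single i 1)) := by
        apply Measurable.mul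
        · exact (measurable_const.indicator hA).comp measurable_snd
        · exact hc1.measurable.comp (measurable_insertNth' i)
      apply Integrable.of_bound (C := K) hm.aestronglyMeasurable
      filter_upwards with p
      simp only [Function.uncurry]
      rw [norm_mul, Real.norm_eq_abs, Real.norm_eq_abs, abs_of_nonneg (indicator_nonneg' _ _)]
      have h1 := indicator_le_one' A p.2
      have h2 := hK (i.insertNth (α := fun _ => ℝ) p.1 p.2)
      have h3 := abs_nonneg (fderiv ℝ (fun x => X x i)
        (i.insertNth (α := fun _ => ℝ) p.1 p.2) (Pi.single i 1))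
      have h4 := indicator_nonneg' A p.2
      linarith only [mul_nonneg (sub_nonneg.2 h1) (sub_nonneg.2 h3), h2]
  calc _ ≤ ∫ t in Ico (0 : ℝ) 1, ((∫ y in cube n, A.indicator (fun _ => (1 : ℝ)) y *
        fderiv ℝ (fun x => X x i) (i.insertNth (α := fun _ => ℝ) t y) (Pi.single i 1)) +
        (perimeter A).toReal) := by
        apply integral_mono (hfin hcd') (hfin (hca.add continuous_const))
        intro t
        have := hle t
        simp only [Pi.add_apply]
        linarith
    _ = (perimeter A).toReal := by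
        rw [integral_add (hfin hca) (hfin continuous_const), e2]
        simp

theorem IsPeriodic.compl {n : ℕ} {E : Set (Fin n → ℝ)} (hp : IsPeriodic E) : IsPeriodic Eᶜ := by
  intro x k
  simp only [mem_compl_iff]
  rw [hp x k]

end Vale.Agent.P232
end
end

section

section

open MeasureTheory Set Filter Topology ContinuousLinearMap
open scoped Pointwise Convolution

namespace Vale.Agent.P232

/-- A function on the slices, viewed as a function on the whole space. -/
def wfun {n : ℕ} (i : Fin (n + 1)) (g : (Fin n → ℝ) → ℝ) : (Fin (n + 1) → ℝ) → ℝ :=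
  fun x => g (fun j => x (i.succAbove j))

theorem wfun_insertNth {n : ℕ} (i : Fin (n + 1)) (g : (Fin n → ℝ) → ℝ) (t : ℝ) (y : Fin n → ℝ) :
    wfun i g (i.insertNth (α := fun _ => ℝ) t y) = g y := by
  unfold wfun
  congr 1
  ext j
  simp

theorem contDiff_wfun {n : ℕ} (i : Fin (n + 1)) {g : (Fin n → ℝ) → ℝ} (hg : ContDiff ℝ 1 g) :
    ContDiff ℝ 1 (wfun i g) := by
  unfold wfun
  apply hg.comp
  rw [contDiff_pi]
  intro j
  exact contDiff_apply ℝ ℝ (i.succAbove j)

theorem perFun_wfun {n : ℕ} (i : Fin (n + 1)) {g : (Fin n → ℝ) → ℝ} (hg : PerFun g) :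
    PerFun (wfun i g) := fun x k => hg (fun j => x (i.succAbove j)) (fun j => k (i.succAbove j))

theorem fderiv_wfun {n : ℕ} (i : Fin (n + 1)) {g : (Fin n → ℝ) → ℝ} (hg : ContDiff ℝ 1 g)
    (x : Fin (n + 1) → ℝ) : fderiv ℝ (wfun i g) x (Pi.single i 1) = 0 := by
  have hd : DifferentiableAt ℝ (wfun i g) x := (contDiff_wfun i hg).differentiable one_ne_zero x
  have h1 : HasDerivAt (fun t : ℝ => x + t • Pi.single i (1 : ℝ)) (Pi.single i (1 : ℝ)) 0 := by
    have := ((hasDerivAt_id (0 : ℝ)).smul_const (Pi.single i (1 : ℝ) : Fin (n+1) → ℝ)).const_add x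
    simpa using this
  have h2 : HasFDerivAt (wfun i g) (fderiv ℝ (wfun i g) x) (x + (0 : ℝ) • Pi.single i (1 : ℝ)) := by
    simpa using hd.hasFDerivAt
  have h3 := h2.comp_hasDerivAt 0 h1
  have h4 : (wfun i g ∘ fun t : ℝ => x + t • Pi.single i (1 : ℝ)) = fun _ => wfun i g x := by
    ext t
    unfold wfun
    simp
  rw [h4] at h3
  exact h3.unique (hasDerivAt_const _ _)

/-- The weighted slice mean. -/
noncomputable def wMean {n : ℕ} (i : Fin (n + 1)) (g : (Fin n → ℝ) → ℝ)
    (f : (Fin (n + 1) → ℝ) → ℝ) (t : ℝ) : ℝ := sliceMean i (fun x => f x * wfun i g x) t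

theorem wMean_eq {n : ℕ} (i : Fin (n + 1)) (g : (Fin n → ℝ) → ℝ)
    (f : (Fin (n + 1) → ℝ) → ℝ) (t : ℝ) :
    wMean i g f t = ∫ y in cube n, f (i.insertNth (α := fun _ => ℝ) t y) * g y := by
  unfold wMean sliceMean
  simp_rw [wfun_insertNth]

theorem sliceMean_gradNorm_ge' {n : ℕ} (i : Fin (n + 1)) {f : (Fin (n + 1) → ℝ) → ℝ}
    (hf : ContDiff ℝ 1 f) {g : (Fin n → ℝ) → ℝ} (hg : ContDiff ℝ 1 g) (hg1 : ∀ y, |g y| ≤ 1)
    (t : ℝ) {a b : ℝ} (ha : 0 ≤ a) (hab : a ^ 2 + b ^ 2 ≤ 1) :
    a * |sliceMean i (fun x => fderiv ℝ f x (Pi.single i 1) * wfun i g x) t| +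
      b * sliceTV i f t ≤ sliceMean i (gradNorm f) t := by
  have hcont : Continuous (fun x => fderiv ℝ f x (Pi.single i 1)) := by
    have := hf.continuous_fderiv one_ne_zero
    continuity
  have hins : Continuous (fun y : Fin n → ℝ => i.insertNth (α := fun _ => ℝ) t y) :=
    (continuous_insertNth' i).comp (continuous_const.prodMk continuous_id)
  have h1 : a * |sliceMean i (fun x => fderiv ℝ f x (Pi.single i 1) * wfun i g x) t| ≤
      a * ∫ y in cube n, |fderiv ℝ f (i.insertNth (α := fun _ => ℝ) t y) (Pi.single i 1)| := by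
    apply mul_le_mul_of_nonneg_left _ ha
    unfold sliceMean
    refine abs_integral_le_integral_abs.trans ?_
    apply integral_mono
    · apply integrableOn_cube
      exact ((hcont.comp hins).mul ((contDiff_wfun i hg).continuous.comp hins)).abs
    · exact integrableOn_cube (hcont.comp hins).abs
    · intro y
      simp only
      rw [abs_mul, wfun_insertNth]
      exact mul_le_of_le_one_right (abs_nonneg _) (hg1 y)
  have hi1 : IntegrableOn (fun y =>
      a * |fderiv ℝ f (i.insertNth (α := fun _ => ℝ) t y) (Pi.single i 1)|) (cube n) :=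
    integrableOn_cube (continuous_const.mul (hcont.comp hins).abs)
  have hi2 : IntegrableOn (fun y => b * gradNorm (sliceFun i f t) y) (cube n) :=
    integrableOn_cube (continuous_const.mul
      (continuous_gradNorm (contDiff_sliceFun (m := 1) i hf t)))
  have h2 : ∫ y in cube n, (a * |fderiv ℝ f (i.insertNth (α := fun _ => ℝ) t y) (Pi.single i 1)| +
      b * gradNorm (sliceFun i f t) y) ≤ sliceMean i (gradNorm f) t := by
    unfold sliceMean
    apply integral_mono (hi1.add hi2)
    · exact integrableOn_cube ((continuous_gradNorm hf).comp hins)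
    · intro y
      exact gradNorm_slice_ge i hf t y hab
  rw [integral_add hi1 hi2, integral_const_mul, integral_const_mul] at h2
  unfold sliceTV
  linarith

/-- Weighted slicing inequality, smooth version. -/
theorem weighted_smooth {n : ℕ} (i : Fin (n + 1)) {f : (Fin (n + 1) → ℝ) → ℝ}
    (hf : ContDiff ℝ 1 f) (hp : PerFun f) {g : (Fin n → ℝ) → ℝ} (hg : ContDiff ℝ 1 g)
    (hgp : PerFun g) (hg1 : ∀ y, |g y| ≤ 1) {a b : ℝ} (ha : 0 ≤ a) (hab : a ^ 2 + b ^ 2 ≤ 1)
    {s : ℕ → ℝ} (hs : Monotone s) {N : ℕ} (hN : s N = s 0 + 1) :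
    a * (∑ j ∈ Finset.range N, |wMean i g f (s (j + 1)) - wMean i g f (s j)|) +
      b * ∫ t in Ico (0 : ℝ) 1, sliceTV i f t ≤ ∫ x in cube (n + 1), gradNorm f x := by
  set F : (Fin (n + 1) → ℝ) → ℝ := fun x => f x * wfun i g x with hF
  have hFc : ContDiff ℝ 1 F := hf.mul (contDiff_wfun i hg)
  have hFp : PerFun F := fun x k => by
    simp only [hF]
    rw [hp x k, perFun_wfun i hgp x k]
  have hder : ∀ x, fderiv ℝ F x (Pi.single i 1) =
      fderiv ℝ f x (Pi.single i 1) * wfun i g x := by
    intro x
    have h1 := (hf.differentiable one_ne_zero x)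
    have h2 := ((contDiff_wfun i hg).differentiable one_ne_zero x)
    rw [hF, fderiv_fun_mul h1 h2]
    simp only [ContinuousLinearMap.add_apply, ContinuousLinearMap.smul_apply, smul_eq_mul]
    rw [fderiv_wfun i hg]
    ring
  have hwc : Continuous (sliceMean i F) := continuous_sliceMean i hFc.continuous
  have hdc := continuous_deriv_sliceMean i hFc
  have h1 := path_ineq (α := fun _ => 1) continuous_const (fun _ => zero_le_one)
    (hasDerivAt_sliceMean i hFc) hdc hs N
  simp only [prim_const, one_mul] at h1
  have hper : ∀ t, |sliceMean i (fun x => fderiv ℝ F x (Pi.single i 1)) (t + 1)| =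
      |sliceMean i (fun x => fderiv ℝ F x (Pi.single i 1)) t| := by
    intro t
    rw [sliceMean_add_one i (f := fun x => fderiv ℝ F x (Pi.single i 1))]
    intro x k
    simp only
    rw [hFp.fderiv x k]
  rw [hN, integral_Ico_eq hper] at h1
  rw [integral_sliceMean i (continuous_gradNorm hf)]
  have hTV := continuous_sliceTV i hf
  have hfin : ∀ {g : ℝ → ℝ}, Continuous g → IntegrableOn g (Ico (0 : ℝ) 1) := fun hg =>
    (hg.continuousOn.integrableOn_compact isCompact_Icc).mono_set Ico_subset_Icc_self
  calc _ ≤ a * (∫ t in Ico (0 : ℝ) 1,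
        |sliceMean i (fun x => fderiv ℝ F x (Pi.single i 1)) t|) +
        b * ∫ t in Ico (0 : ℝ) 1, sliceTV i f t := by
        gcongr
        exact h1
    _ = ∫ t in Ico (0 : ℝ) 1, (a *
        |sliceMean i (fun x => fderiv ℝ F x (Pi.single i 1)) t| +
          b * sliceTV i f t) := by
        rw [integral_add, integral_const_mul, integral_const_mul]
        · exact hfin (continuous_const.mul hdc.abs)
        · exact hfin (continuous_const.mul hTV)
    _ ≤ ∫ t in Ico (0 : ℝ) 1, sliceMean i (gradNorm f) t := by
        apply integral_mono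
        · exact hfin ((continuous_const.mul hdc.abs).add (continuous_const.mul hTV))
        · exact hfin (continuous_sliceMean i (continuous_gradNorm hf))
        · intro t
          simp only
          simp_rw [hder]
          exact sliceMean_gradNorm_ge' i hf hg hg1 t ha hab

/-- The weighted volume of a slice. -/
noncomputable def wsv {n : ℕ} (i : Fin (n + 1)) (g : (Fin n → ℝ) → ℝ)
    (E : Set (Fin (n + 1) → ℝ)) (t : ℝ) : ℝ :=
  ∫ y in cube n, (slice i E t).indicator (fun _ => (1 : ℝ)) y * g y

theorem GoodPt.tendsto_wMean {n : ℕ} {i : Fin (n + 1)} {E : Set (Fin (n + 1) → ℝ)}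
    (hE : MeasurableSet E) {t : ℝ} (ht : GoodPt i E t) {g : (Fin n → ℝ) → ℝ}
    (hg : Continuous g) (hg1 : ∀ y, |g y| ≤ 1) :
    Tendsto (fun k => wMean i g (moll (bump (n + 1) k) E) t) atTop (𝓝 (wsv i g E t)) := by
  simp_rw [wMean_eq]
  unfold wsv
  apply tendsto_integral_of_dominated_convergence (fun _ => (1 : ℝ))
  · intro k
    exact ((contDiff_sliceFun (m := 1) i ((contDiff_moll (bump (n+1) k) hE).of_le
      one_le_two) t).continuous.mul hg).aestronglyMeasurable
  · exact integrable_const _
  · intro k
    filter_upwards with y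
    rw [Real.norm_eq_abs, abs_mul, abs_of_nonneg (moll_nonneg _ _ _)]
    exact mul_le_one₀ (moll_le_one _ hE _) (abs_nonneg _) (hg1 y)
  · filter_upwards [ht] with y hy
    exact hy.mul_const _

/-- Weighted slicing inequality. -/
theorem weighted_slicing {n : ℕ} (i : Fin (n + 1)) {E : Set (Fin (n + 1) → ℝ)}
    (hE : MeasurableSet E) (hp : IsPeriodic E) {g : (Fin n → ℝ) → ℝ} (hg : ContDiff ℝ 1 g)
    (hgp : PerFun g) (hg1 : ∀ y, |g y| ≤ 1) {a b : ℝ} (ha : 0 ≤ a) (hb0 : 0 ≤ b)
    (hab : a ^ 2 + b ^ 2 ≤ 1) {s : ℕ → ℝ} (hs : Monotone s) {N : ℕ} (hN : s N = s 0 + 1)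
    (hgood : ∀ j, GoodPt i E (s j)) :
    ENNReal.ofReal (a * ∑ j ∈ Finset.range N, |wsv i g E (s (j + 1)) - wsv i g E (s j)|) +
      ENNReal.ofReal b * ∫⁻ t in Ico (0 : ℝ) 1, perimeter (slice i E t) ≤ perimeter E := by
  by_cases htop : perimeter E = ⊤
  · rw [htop]; exact le_top
  set f : ℕ → (Fin (n + 1) → ℝ) → ℝ := fun k => moll (bump (n + 1) k) E with hf
  have hfc : ∀ k, ContDiff ℝ 1 (f k) := fun k => (contDiff_moll _ hE).of_le one_le_two
  have hfp : ∀ k, PerFun (f k) := fun k => perFun_moll _ hp
  set C := (perimeter E).toReal with hC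
  set S : ℕ → ℝ := fun k => a * ∑ j ∈ Finset.range N,
    |wMean i g (f k) (s (j + 1)) - wMean i g (f k) (s j)| with hS
  set S' : ℝ := a * ∑ j ∈ Finset.range N, |wsv i g E (s (j + 1)) - wsv i g E (s j)| with hS'
  have hSlim : Tendsto S atTop (𝓝 S') := by
    apply Tendsto.const_mul
    apply tendsto_finsetSum
    intro j _
    apply Tendsto.abs
    apply Tendsto.sub
    · exact (hgood (j + 1)).tendsto_wMean hE hg.continuous hg1
    · exact (hgood j).tendsto_wMean hE hg.continuous hg1
  have hmain : ∀ k, S k + b * ∫ t in Ico (0 : ℝ) 1, sliceTV i (f k) t ≤ C := by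
    intro k
    refine (weighted_smooth i (hfc k) (hfp k) hg hgp hg1 ha hab hs hN).trans ?_
    exact integral_gradNorm_moll_le _ hE hp
      (fun X hX => integral_divergence_le_of_perimeter htop hX)
  have hint0 : ∀ k, 0 ≤ b * ∫ t in Ico (0 : ℝ) 1, sliceTV i (f k) t :=
    fun k => mul_nonneg hb0 (integral_nonneg fun t => sliceTV_nonneg _ _ _)
  have hb : ∀ k, ENNReal.ofReal b * ∫⁻ t in Ico (0 : ℝ) 1, ENNReal.ofReal (sliceTV i (f k) t) ≤
      ENNReal.ofReal (C - S k) := by
    intro k
    rw [← ofReal_integral_eq_lintegral_ofReal, ← ENNReal.ofReal_mul hb0]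
    · apply ENNReal.ofReal_le_ofReal
      linarith [hmain k]
    · exact ((continuous_sliceTV i (hfc k)).continuousOn.integrableOn_compact
        isCompact_Icc).mono_set Ico_subset_Icc_self
    · filter_upwards with t
      exact sliceTV_nonneg _ _ _
  have hB : ENNReal.ofReal b * ∫⁻ t in Ico (0 : ℝ) 1, perimeter (slice i E t) ≤
      ENNReal.ofReal (C - S') := by
    have h1 : ∫⁻ t in Ico (0 : ℝ) 1, perimeter (slice i E t) ≤
        ∫⁻ t in Ico (0 : ℝ) 1, liminf (fun k => ENNReal.ofReal (sliceTV i (f k) t)) atTop := by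
      apply lintegral_mono_ae
      filter_upwards [ae_restrict_of_ae (ae_goodPt i hE)] with t ht
      exact ht.perimeter_le_liminf hE hp
    have h2 : ∫⁻ t in Ico (0 : ℝ) 1, perimeter (slice i E t) ≤
        liminf (fun k => ∫⁻ t in Ico (0 : ℝ) 1, ENNReal.ofReal (sliceTV i (f k) t)) atTop :=
      h1.trans (lintegral_liminf_le (fun k =>
        ENNReal.measurable_ofReal.comp (continuous_sliceTV i (hfc k)).measurable))
    calc ENNReal.ofReal b * ∫⁻ t in Ico (0 : ℝ) 1, perimeter (slice i E t) ≤
        ENNReal.ofReal b * liminf (fun k => ∫⁻ t in Ico (0 : ℝ) 1,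
          ENNReal.ofReal (sliceTV i (f k) t)) atTop := by gcongr
      _ = liminf (fun k => ENNReal.ofReal b) atTop * liminf (fun k => ∫⁻ t in Ico (0 : ℝ) 1,
          ENNReal.ofReal (sliceTV i (f k) t)) atTop := by rw [liminf_const]
      _ ≤ liminf (fun k => ENNReal.ofReal b * ∫⁻ t in Ico (0 : ℝ) 1,
          ENNReal.ofReal (sliceTV i (f k) t)) atTop := ENNReal.le_liminf_mul
      _ ≤ liminf (fun k => ENNReal.ofReal (C - S k)) atTop :=
          liminf_le_liminf (Eventually.of_forall fun k => hb k)
      _ = ENNReal.ofReal (C - S') :=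
          (ENNReal.tendsto_ofReal (tendsto_const_nhds.sub hSlim)).liminf_eq
  have hS'C : S' ≤ C := by
    apply le_of_tendsto hSlim
    filter_upwards with k
    linarith [hmain k, hint0 k]
  have hS'0 : 0 ≤ S' := mul_nonneg ha (Finset.sum_nonneg fun j _ => abs_nonneg _)
  calc _ ≤ ENNReal.ofReal S' + ENNReal.ofReal (C - S') := by gcongr
    _ = ENNReal.ofReal C := by
        rw [← ENNReal.ofReal_add hS'0 (by linarith)]
        congr 1
        ring
    _ = perimeter E := ENNReal.ofReal_toReal htop

end Vale.Agent.P232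
end
end

section

section

open MeasureTheory Set Filter Topology ContinuousLinearMap
open scoped Pointwise Convolution

namespace Vale.Agent.P232

/-- A periodic property that holds almost everywhere in the cube holds almost everywhere. -/
theorem ae_of_ae_cube {n : ℕ} {p : (Fin n → ℝ) → Prop}
    (hp : ∀ (x : Fin n → ℝ) (k : Fin n → ℤ), p (fun i => x i + (k i : ℝ)) → p x)
    (h : ∀ᵐ x ∂(volume.restrict (cube n)), p x) : ∀ᵐ x : Fin n → ℝ, p x := by
  have h1 : ∀ᵐ x : Fin n → ℝ, x ∈ cube n → p x :=
    (ae_restrict_iff' (measurableSet_cube n)).mp h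
  have h2 : ∀ k : Fin n → ℤ, ∀ᵐ x : Fin n → ℝ,
      (fun i => x i + (k i : ℝ)) ∈ cube n → p (fun i => x i + (k i : ℝ)) := by
    intro k
    exact (measurePreserving_add_right volume (fun i => (k i : ℝ))).quasiMeasurePreserving.ae h1
  filter_upwards [ae_all_iff.mpr h2] with x hx
  refine hp x (fun i => -⌊x i⌋) (hx _ fun i => ?_)
  push_cast
  rw [← sub_eq_add_neg]
  exact ⟨Int.fract_nonneg _, Int.fract_lt_one _⟩

theorem ae_eq_of_ae_cube {n : ℕ} {A B : Set (Fin n → ℝ)} (hA : IsPeriodic A) (hB : IsPeriodic B)
    (h : A =ᵐ[volume.restrict (cube n)] B) : A =ᵐ[volume] B := by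
  have h1 : ∀ᵐ x ∂(volume.restrict (cube n)), (x ∈ A ↔ x ∈ B) := by
    filter_upwards [h] with x hx
    exact iff_of_eq hx
  have h2 : ∀ᵐ x : Fin n → ℝ, (x ∈ A ↔ x ∈ B) := by
    apply ae_of_ae_cube (p := fun x => x ∈ A ↔ x ∈ B) _ h1
    intro x k hx
    rwa [hA x k, hB x k] at hx
  filter_upwards [h2] with x hx
  exact propext hx

/-- In the case of equality in the slicing inequality the weighted slice volumes are constant. -/
theorem wsv_eq_of_perimeter_le {n : ℕ} (i : Fin (n + 1)) {E : Set (Fin (n + 1) → ℝ)}
    (hE : MeasurableSet E) (hp : IsPeriodic E) (hfin : perimeter E ≠ ⊤)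
    (h : perimeter E ≤ ∫⁻ t in Ico (0 : ℝ) 1, perimeter (slice i E t))
    {g : (Fin n → ℝ) → ℝ} (hg : ContDiff ℝ 1 g) (hgp : PerFun g) (hg1 : ∀ y, |g y| ≤ 1)
    {s t : ℝ} (hs : GoodPt i E s) (ht : GoodPt i E t) (hst : s ≤ t) (hts : t ≤ s + 1) :
    wsv i g E s = wsv i g E t := by
  set Q := ∫⁻ t in Ico (0 : ℝ) 1, perimeter (slice i E t) with hQ
  set σ : ℕ → ℝ := fun j => if j = 0 then s else if j = 1 then t else s + 1 with hσ
  have hσm : Monotone σ := by
    apply monotone_nat_of_le_succ
    intro j
    rcases j with _ | _ | j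
    · simpa [hσ] using hst
    · simpa [hσ] using hts
    · simp [hσ]
  have hσg : ∀ j, GoodPt i E (σ j) := by
    intro j
    rcases j with _ | _ | j
    · simpa [hσ] using hs
    · simpa [hσ] using ht
    · simp only [hσ]
      exact goodPt_add_one i hp hs
  have key : ∀ a b : ℝ, 0 ≤ a → 0 ≤ b → a ^ 2 + b ^ 2 ≤ 1 →
      ENNReal.ofReal (a * |wsv i g E t - wsv i g E s|) + ENNReal.ofReal b * Q ≤ perimeter E := by
    intro a b ha hb hab
    have h1 := weighted_slicing i hE hp hg hgp hg1 ha hb hab hσm (N := 2) (by simp [hσ]) hσg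
    refine le_trans ?_ h1
    gcongr
    have h2 := Finset.single_le_sum (f := fun j => |wsv i g E (σ (j + 1)) - wsv i g E (σ j)|)
      (s := Finset.range 2) (fun j _ => abs_nonneg _) (Finset.mem_range.mpr (by norm_num : 0 < 2))
    simpa [hσ] using h2
  have hQfin : Q ≠ ⊤ := by
    have h1 := key 0 1 le_rfl zero_le_one (by norm_num)
    simp only [zero_mul, ENNReal.ofReal_zero, ENNReal.ofReal_one, one_mul, zero_add] at h1
    exact ne_top_of_le_ne_top hfin h1
  set q := Q.toReal with hq
  have hq0 : 0 ≤ q := ENNReal.toReal_nonneg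
  set D := |wsv i g E t - wsv i g E s| with hD
  have hD0 : 0 ≤ D := abs_nonneg _
  have key2 : ∀ a b : ℝ, 0 ≤ a → 0 ≤ b → a ^ 2 + b ^ 2 ≤ 1 → a * D + b * q ≤ q := by
    intro a b ha hb hab
    have h1 := (key a b ha hb hab).trans h
    have e1 : Q = ENNReal.ofReal q := (ENNReal.ofReal_toReal hQfin).symm
    rw [e1, ← ENNReal.ofReal_mul hb, ← ENNReal.ofReal_add (by (clear * - ha; positivity)) (by positivity)] at h1
    exact (ENNReal.ofReal_le_ofReal_iff hq0).mp h1
  -- `D = 0`
  have hDz : D = 0 := by
    by_contra hne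
    have hDpos : 0 < D := lt_of_le_of_ne hD0 (Ne.symm hne)
    set ε := min 1 (D / (q + 1)) with hε
    have hε0 : 0 < ε := lt_min one_pos (by (clear * - hne; positivity))
    have hε1 : ε ≤ 1 := min_le_left _ _
    have hε2 : ε * (q + 1) ≤ D := by
      have := min_le_right 1 (D / (q + 1))
      calc ε * (q + 1) ≤ D / (q + 1) * (q + 1) := by gcongr
        _ = D := by field_simp
    have hε3 : ε ^ 2 ≤ 1 := by nlinarith only [hε0, hε1]
    have h1 := key2 ε (1 - ε ^ 2) hε0.le (by linarith)
      (by linarith only [mul_nonneg (sq_nonneg ε) (sub_nonneg.mpr hε3)])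
    have h2 : ε * D ≤ ε ^ 2 * q := by linarith only [h1]
    have h3 : D ≤ ε * q := by
      have : ε * D ≤ ε * (ε * q) := by linarith only [h1]
      exact le_of_mul_le_mul_left this hε0
    linarith only [hε0, hε2, h3]
  have := abs_eq_zero.mp hDz
  linarith

/-- Two slices whose weighted volumes agree are equal almost everywhere. -/
theorem ae_eq_of_integral_eq {n : ℕ} {A B : Set (Fin n → ℝ)} (hA : MeasurableSet A)
    (hB : MeasurableSet B) (hpA : IsPeriodic A) (hpB : IsPeriodic B)
    (h : ∀ g : (Fin n → ℝ) → ℝ, ContDiff ℝ 1 g → PerFun g → (∀ y, |g y| ≤ 1) →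
      ∫ y in cube n, A.indicator (fun _ => (1 : ℝ)) y * g y =
        ∫ y in cube n, B.indicator (fun _ => (1 : ℝ)) y * g y) : A =ᵐ[volume] B := by
  apply ae_eq_of_ae_cube hpA hpB
  set a : (Fin n → ℝ) → ℝ := A.indicator (fun _ => (1 : ℝ)) with ha
  set b : (Fin n → ℝ) → ℝ := B.indicator (fun _ => (1 : ℝ)) with hb
  have ha0 : ∀ x, 0 ≤ a x := indicator_nonneg' A
  have ha1 : ∀ x, a x ≤ 1 := indicator_le_one' A
  have hb0 : ∀ x, 0 ≤ b x := indicator_nonneg' B
  have hb1 : ∀ x, b x ≤ 1 := indicator_le_one' B
  set g : ℕ → (Fin n → ℝ) → ℝ := fun k x => moll (bump n k) A x - moll (bump n k) B x with hg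
  have hg1 : ∀ k x, |g k x| ≤ 1 := by
    intro k x
    have h1 := moll_nonneg (bump n k) A x
    have h2 := moll_le_one (bump n k) hA x
    have h3 := moll_nonneg (bump n k) B x
    have h4 := moll_le_one (bump n k) hB x
    simp only [hg]
    rw [abs_le]
    constructor <;> linarith
  have hgc : ∀ k, ContDiff ℝ 1 (g k) := fun k =>
    ((contDiff_moll _ hA).sub (contDiff_moll _ hB)).of_le one_le_two
  have hgp : ∀ k, PerFun (g k) := fun k x z => by
    simp only [hg]
    rw [perFun_moll _ hpA x z, perFun_moll _ hpB x z]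
  have hma : Measurable a := measurable_indicator' hA
  have hmb : Measurable b := measurable_indicator' hB
  have hzero : ∀ k, ∫ x in cube n, (a x - b x) * g k x = 0 := by
    intro k
    have h1 := h (g k) (hgc k) (hgp k) (hg1 k)
    have hi : ∀ {c : (Fin n → ℝ) → ℝ}, Measurable c → (∀ x, 0 ≤ c x) → (∀ x, c x ≤ 1) →
        IntegrableOn (fun x => c x * g k x) (cube n) := by
      intro c hc h0 h1
      apply Integrable.mono' (integrable_const (1 : ℝ))
      · exact (hc.mul (hgc k).continuous.measurable).aestronglyMeasurable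
      · filter_upwards with x
        rw [Real.norm_eq_abs, abs_mul, abs_of_nonneg (h0 x)]
        exact mul_le_one₀ (h1 x) (abs_nonneg _) (hg1 k x)
    have e : ∀ x, (a x - b x) * g k x = a x * g k x - b x * g k x := fun x => by ring
    simp_rw [e]
    rw [integral_sub (hi hma ha0 ha1) (hi hmb hb0 hb1), h1, sub_self]
  have hlim : Tendsto (fun k => ∫ x in cube n, (a x - b x) * g k x) atTop
      (𝓝 (∫ x in cube n, (a x - b x) * (a x - b x))) := by
    apply tendsto_integral_of_dominated_convergence (fun _ => (1 : ℝ))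
    · intro k
      exact ((hma.sub hmb).mul (hgc k).continuous.measurable).aestronglyMeasurable
    · exact integrable_const _
    · intro k
      filter_upwards with x
      rw [Real.norm_eq_abs, abs_mul]
      refine mul_le_one₀ ?_ (abs_nonneg _) (hg1 k x)
      rw [abs_le]
      have := ha0 x; have := ha1 x; have := hb0 x; have := hb1 x
      constructor <;> linarith
    · filter_upwards [ae_restrict_of_ae (tendsto_moll_bump hA),
        ae_restrict_of_ae (tendsto_moll_bump hB)] with x h1 h2
      exact (h1.sub h2).const_mul _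
  simp_rw [hzero] at hlim
  have h0 := tendsto_nhds_unique hlim tendsto_const_nhds
  have hint : IntegrableOn (fun x => (a x - b x) * (a x - b x)) (cube n) := by
    apply Integrable.mono' (integrable_const (1 : ℝ))
    · exact ((hma.sub hmb).mul (hma.sub hmb)).aestronglyMeasurable
    · filter_upwards with x
      rw [Real.norm_eq_abs, abs_mul]
      have : |a x - b x| ≤ 1 := by
        rw [abs_le]
        have := ha0 x; have := ha1 x; have := hb0 x; have := hb1 x
        constructor <;> linarith
      exact mul_le_one₀ this (abs_nonneg _) this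
  have h2 := (integral_eq_zero_iff_of_nonneg (fun x => mul_self_nonneg _) hint).mp h0
  filter_upwards [h2] with x hx
  have h3 : a x = b x := by
    have : (a x - b x) * (a x - b x) = 0 := hx
    have := mul_self_eq_zero.mp this
    linarith
  have h4 : x ∈ A ↔ x ∈ B := by
    simp only [ha, hb] at h3
    by_cases hxA : x ∈ A <;> by_cases hxB : x ∈ B
    · simp [hxA, hxB]
    · simp [hxA, hxB] at h3
    · simp [hxA, hxB] at h3
    · simp [hxA, hxB]
  exact propext h4

/-- In the case of equality in the slicing inequality, all slices agree. -/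
theorem slice_ae_eq {n : ℕ} (i : Fin (n + 1)) {E : Set (Fin (n + 1) → ℝ)}
    (hE : MeasurableSet E) (hp : IsPeriodic E) (hfin : perimeter E ≠ ⊤)
    (h : perimeter E ≤ ∫⁻ t in Ico (0 : ℝ) 1, perimeter (slice i E t))
    {s t : ℝ} (hs : GoodPt i E s) (ht : GoodPt i E t) (hst : s ≤ t) (hts : t ≤ s + 1) :
    slice i E s =ᵐ[volume] slice i E t := by
  apply ae_eq_of_integral_eq (measurableSet_slice i hE s) (measurableSet_slice i hE t)
    (isPeriodic_slice i hp s) (isPeriodic_slice i hp t)
  intro g hg hgp hg1
  exact wsv_eq_of_perimeter_le i hE hp hfin h hg hgp hg1 hs ht hst hts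

theorem ae_of_ae_mu {p : ℝ → Prop} (hp : ∀ (t : ℝ) (k : ℤ), p (t + k) → p t)
    (h : ∀ᵐ t ∂mu, p t) : ∀ᵐ t : ℝ, p t := by
  have h1 : ∀ᵐ t : ℝ, t ∈ Ico (0 : ℝ) 1 → p t := (ae_restrict_iff' measurableSet_Ico).mp h
  have h2 : ∀ k : ℤ, ∀ᵐ t : ℝ, t + k ∈ Ico (0 : ℝ) 1 → p (t + k) := by
    intro k
    exact (measurePreserving_add_right volume (k : ℝ)).quasiMeasurePreserving.ae h1
  filter_upwards [ae_all_iff.mpr h2] with t ht
  refine hp t (-⌊t⌋) (ht _ ?_)
  push_cast
  rw [← sub_eq_add_neg]
  exact ⟨Int.fract_nonneg _, Int.fract_lt_one _⟩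

theorem slice_add_int {n : ℕ} (i : Fin (n + 1)) {E : Set (Fin (n + 1) → ℝ)}
    (hE : IsPeriodic E) (t : ℝ) (k : ℤ) : slice i E (t + k) = slice i E t := by
  ext y
  unfold slice
  simp only [mem_ofPred_eq]
  rw [← hE (i.insertNth (α := fun _ => ℝ) t y) (i.insertNth (α := fun _ => ℤ) k 0)]
  have : (fun j => i.insertNth (α := fun _ => ℝ) t y j +
      ((i.insertNth (α := fun _ => ℤ) k 0 : Fin (n + 1) → ℤ) j : ℝ)) =
      i.insertNth (α := fun _ => ℝ) (t + k) y := by
    ext j
    refine Fin.succAboveCases i ?_ (fun j => ?_) j <;> simp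
  rw [this]

/-- Two sets whose slices agree almost everywhere agree almost everywhere. -/
theorem ae_eq_of_slices {n : ℕ} (i : Fin (n + 1)) {A B : Set (Fin (n + 1) → ℝ)}
    (hA : MeasurableSet A) (hB : MeasurableSet B)
    (h : ∀ᵐ t : ℝ, slice i A t =ᵐ[volume] slice i B t) : A =ᵐ[volume] B := by
  have hms : MeasurableSet {p : ℝ × (Fin n → ℝ) |
      i.insertNth (α := fun _ => ℝ) p.1 p.2 ∈ A ↔ i.insertNth (α := fun _ => ℝ) p.1 p.2 ∈ B} :=
    ((measurable_insertNth' i) hA).iff ((measurable_insertNth' i) hB)
  have h1 : ∀ᵐ p : ℝ × (Fin n → ℝ) ∂(volume.prod volume),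
      (i.insertNth (α := fun _ => ℝ) p.1 p.2 ∈ A ↔ i.insertNth (α := fun _ => ℝ) p.1 p.2 ∈ B) := by
    rw [Measure.ae_prod_iff_ae_ae hms]
    filter_upwards [h] with t ht
    filter_upwards [ht] with y hy
    exact iff_of_eq hy
  have h2 := (volume_preserving_piFinSuccAbove (fun _ : Fin (n + 1) => ℝ) i).quasiMeasurePreserving.ae h1
  filter_upwards [h2] with x hx
  have e : i.insertNth (α := fun _ => ℝ)
      ((MeasurableEquiv.piFinSuccAbove (fun _ : Fin (n + 1) => ℝ) i) x).1
      ((MeasurableEquiv.piFinSuccAbove (fun _ : Fin (n + 1) => ℝ) i) x).2 = x :=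
    (MeasurableEquiv.piFinSuccAbove (fun _ : Fin (n + 1) => ℝ) i).symm_apply_apply x
  rw [e] at hx
  exact propext hx

theorem ae_eq_of_slices_mu {n : ℕ} (i : Fin (n + 1)) {A B : Set (Fin (n + 1) → ℝ)}
    (hA : MeasurableSet A) (hB : MeasurableSet B) (hpA : IsPeriodic A) (hpB : IsPeriodic B)
    (h : ∀ᵐ t ∂mu, slice i A t =ᵐ[volume] slice i B t) : A =ᵐ[volume] B := by
  apply ae_eq_of_slices i hA hB
  apply ae_of_ae_mu (p := fun t => slice i A t =ᵐ[volume] slice i B t) _ h
  intro t k ht
  rwa [slice_add_int i hpA, slice_add_int i hpB] at ht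

/-- Almost all slices of almost equal sets are almost equal. -/
theorem ae_slice_of_ae_eq {n : ℕ} (i : Fin (n + 1)) {A B : Set (Fin (n + 1) → ℝ)}
    (h : A =ᵐ[volume] B) : ∀ᵐ t : ℝ, slice i A t =ᵐ[volume] slice i B t := by
  have h1 : ∀ᵐ x : Fin (n + 1) → ℝ, (x ∈ A ↔ x ∈ B) := by
    filter_upwards [h] with x hx
    exact iff_of_eq hx
  have h2 := (volume_preserving_piFinSuccAbove
    (fun _ : Fin (n + 1) => ℝ) i).symm.quasiMeasurePreserving.ae h1
  filter_upwards [Measure.ae_ae_of_ae_prod h2] with t ht
  filter_upwards [ht] with y hy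
  exact propext hy

theorem vol_congr {n : ℕ} {A B : Set (Fin n → ℝ)} (h : A =ᵐ[volume] B) : vol A = vol B := by
  unfold vol
  congr 1
  exact measure_congr (h.inter (ae_eq_refl _))

theorem perimeter_congr {n : ℕ} {A B : Set (Fin n → ℝ)} (h : A =ᵐ[volume] B) :
    perimeter A = perimeter B := by
  unfold perimeter
  congr 1
  ext X
  congr 1
  ext _
  congr 1
  exact setIntegral_congr_set (h.inter (ae_eq_refl _))

/-- In the case of equality in the slicing inequality, the set is a cylinder. -/
theorem cylinder_of_perimeter_le {n : ℕ} (i : Fin (n + 1)) {E : Set (Fin (n + 1) → ℝ)}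
    (hE : MeasurableSet E) (hp : IsPeriodic E) (hfin : perimeter E ≠ ⊤)
    (h : perimeter E ≤ ∫⁻ t in Ico (0 : ℝ) 1, perimeter (slice i E t)) :
    ∃ G : Set (Fin n → ℝ), MeasurableSet G ∧ IsPeriodic G ∧ vol G = vol E ∧
      perimeter G ≤ perimeter E ∧ E =ᵐ[volume] {x | (fun j => x (i.succAbove j)) ∈ G} := by
  obtain ⟨s, hs⟩ := (ae_goodPt i hE).exists
  refine ⟨slice i E s, measurableSet_slice i hE s, isPeriodic_slice i hp s, ?_⟩
  have h1 : ∀ᵐ t : ℝ, slice i E t =ᵐ[volume] slice i E s := by
    filter_upwards [ae_goodPt i hE] with t ht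
    -- move `t` to `[s, s + 1)`
    set k : ℤ := -⌊t - s⌋ with hk
    have h2 : s ≤ t + k := by
      have := Int.floor_le (t - s)
      rw [hk]; push_cast; linarith
    have h3 : t + k ≤ s + 1 := by
      have := Int.lt_floor_add_one (t - s)
      rw [hk]; push_cast; linarith
    have h4 := slice_ae_eq i hE hp hfin h hs ((goodPt_add_int i hp t k).mpr ht) h2 h3
    rw [slice_add_int i hp] at h4
    exact h4.symm
  have hcyl : MeasurableSet {x : Fin (n + 1) → ℝ | (fun j => x (i.succAbove j)) ∈ slice i E s} :=
    (measurable_pi_iff.mpr fun j => measurable_pi_apply _) (measurableSet_slice i hE s)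
  have h5 : E =ᵐ[volume] {x | (fun j => x (i.succAbove j)) ∈ slice i E s} := by
    apply ae_eq_of_slices i hE hcyl
    filter_upwards [h1] with t ht
    refine ht.trans (Eq.eventuallyEq ?_)
    ext y
    simp [slice]
  refine ⟨?_, ?_, h5⟩
  · rw [vol_eq_integral_sv i hE]
    have h6 : ∀ᵐ t ∂mu, sv i E t = vol (slice i E s) := by
      filter_upwards [ae_restrict_of_ae h1] with t ht
      exact vol_congr ht
    rw [integral_congr_ae h6]
    simp
  · have h7 : ∫⁻ t in Ico (0 : ℝ) 1, perimeter (slice i E t) = perimeter (slice i E s) := by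
      have h8 : ∀ᵐ t ∂mu, perimeter (slice i E t) = perimeter (slice i E s) := by
        filter_upwards [ae_restrict_of_ae h1] with t ht
        exact perimeter_congr ht
      rw [lintegral_congr_ae h8]
      simp
    have h9 := weighted_slicing i hE hp (g := fun _ => 0) contDiff_const (fun _ _ => rfl)
      (by simp) (a := 0) (b := 1) le_rfl zero_le_one (by norm_num)
      (s := fun j => if j = 0 then s else s + 1) (monotone_nat_of_le_succ fun j => by
        rcases j with _ | j <;> simp) (N := 1) (by simp) (fun j => by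
        rcases j with _ | j
        · simpa using hs
        · simpa using goodPt_add_one i hp hs)
    rw [h7] at h9
    simpa using h9

end Vale.Agent.P232
end
end

section

section

open MeasureTheory Set Filter Topology

namespace Vale.Agent.P232

/-- A set of perimeter at most two with slices of area arbitrarily close to zero and to one is a
slab. -/
theorem slab_corner {k : Fin 3} {E : Set (Fin 3 → ℝ)} (hE : MeasurableSet E)
    (hp : IsPeriodic E) (hm : EssBd (sv k E) 0 1) (hP : perimeter E ≤ ENNReal.ofReal 2)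
    {j : Fin 3} (hj : j ≠ k) : ∀ᵐ t ∂mu, sv j E t = vol E := by
  -- the slices have vanishing perimeter
  set Q := ∫⁻ t in Ico (0 : ℝ) 1, perimeter (slice k E t) with hQ
  have hkey : ∀ s : ℝ, 0 < s → s ≤ 1 → Q ≤ ENNReal.ofReal (2 * s) := by
    intro s hs hs1
    have hs2 : 0 < 1 + s ^ 2 := by positivity
    have key := slicing_ess k hE hp (α := fun _ => (1 - s ^ 2) / (1 + s ^ 2))
      (β := fun _ => 2 * s / (1 + s ^ 2)) continuous_const continuous_const
      (fun _ => div_nonneg (by nlinarith) hs2.le) (fun _ => by positivity) (fun _ => by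
        apply le_of_eq
        field_simp
        ring) hm
    simp only [prim_const, mul_one, mul_zero, sub_zero] at key
    rw [lintegral_const_mul' _ _ ENNReal.ofReal_ne_top, ← hQ] at key
    have h2 := key.trans hP
    have hb : 0 < 2 * s / (1 + s ^ 2) := by positivity
    have hQtop : Q ≠ ⊤ := by
      intro h
      rw [h, ENNReal.mul_top (by simpa using hb)] at h2
      simp at h2
    have h3 : ENNReal.ofReal (2 * ((1 - s ^ 2) / (1 + s ^ 2)) + 2 * s / (1 + s ^ 2) * Q.toReal) ≤
        ENNReal.ofReal 2 := by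
      rw [ENNReal.ofReal_add (mul_nonneg (by norm_num) (div_nonneg (by nlinarith only [hs, hs1]) hs2.le))
        (mul_nonneg hb.le ENNReal.toReal_nonneg), ENNReal.ofReal_mul hb.le,
        ENNReal.ofReal_toReal hQtop]
      exact h2
    have h4 := (ENNReal.ofReal_le_ofReal_iff (by norm_num)).mp h3
    rw [← ENNReal.ofReal_toReal hQtop]
    apply ENNReal.ofReal_le_ofReal
    have h5 : 2 * ((1 - s ^ 2) / (1 + s ^ 2)) + 2 * s / (1 + s ^ 2) * Q.toReal =
        (2 * (1 - s ^ 2) + 2 * s * Q.toReal) / (1 + s ^ 2) := by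
      field_simp
    rw [h5, div_le_iff₀ hs2] at h4
    have h6 : s * Q.toReal ≤ s * (2 * s) := by linarith only [h4]
    exact le_of_mul_le_mul_left h6 hs
  have hQ0 : Q = 0 := by
    have hlim : Tendsto (fun s : ℝ => ENNReal.ofReal (2 * s)) (𝓝[>] 0)
        (𝓝 (ENNReal.ofReal (2 * 0))) := by
      apply ENNReal.tendsto_ofReal
      apply tendsto_nhdsWithin_of_tendsto_nhds
      exact (continuous_const.mul continuous_id).tendsto 0
    have h1 := ge_of_tendsto hlim (by
      filter_upwards [Ioo_mem_nhdsGT (zero_lt_one (α := ℝ))] with s hs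
      exact hkey s hs.1 hs.2.le)
    simpa using h1
  -- the slices are full or empty
  have hI : ∀ᵐ t ∂mu, sv k E t = 0 ∨ sv k E t = 1 := by
    have h1 : ∫⁻ t in Ico (0 : ℝ) 1, ENNReal.ofReal (I2 (sv k E t)) = 0 := by
      have h2 : ∫⁻ t in Ico (0 : ℝ) 1, ENNReal.ofReal (I2 (sv k E t)) ≤ Q := by
        rw [hQ]
        apply lintegral_mono
        intro t
        exact I2_le_perimeter (measurableSet_slice k hE t) (isPeriodic_slice k hp t)
      rw [hQ0] at h2
      exact le_antisymm h2 bot_le
    have hmeas : Measurable (fun t => ENNReal.ofReal (I2 (sv k E t))) :=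
      ENNReal.measurable_ofReal.comp (continuous_I2.measurable.comp (measurable_sv k hE))
    rw [lintegral_eq_zero_iff hmeas] at h1
    filter_upwards [h1] with t ht
    simp only [Pi.zero_apply, ENNReal.ofReal_eq_zero] at ht
    by_contra hc
    push Not at hc
    have h0 := sv_nonneg k E t
    have h1' := sv_le_one k E t
    have := I2_pos (lt_of_le_of_ne h0 hc.1.symm) (lt_of_le_of_ne h1' hc.2)
    linarith
  -- the set is a cylinder over a subset of the line
  set B : Set ℝ := {t | sv k E t = 1} with hB
  have hBm : MeasurableSet B := measurableSet_eq_fun (measurable_sv k hE) measurable_const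
  set C : Set (Fin 3 → ℝ) := {x | x k ∈ B} with hC
  have hCm : MeasurableSet C := (measurable_pi_apply k) hBm
  have hCp : IsPeriodic C := by
    intro x l
    change sv k E (x k + l k) = 1 ↔ sv k E (x k) = 1
    rw [sv_add_int k hp]
  have hEC : E =ᵐ[volume] C := by
    apply ae_eq_of_slices_mu k hE hCm hp hCp
    filter_upwards [hI] with t ht
    apply ae_eq_of_ae_cube (isPeriodic_slice k hp t) (isPeriodic_slice k hCp t)
    have hsC : slice k C t = {y | t ∈ B} := by
      ext y
      simp [slice, hC]
    have hfin : ∀ A : Set (Fin 2 → ℝ), volume (A ∩ cube 2) ≠ ⊤ := fun A =>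
      ((measure_mono inter_subset_right).trans_lt (by rw [volume_cube]; simp)).ne
    rcases ht with ht | ht
    · have h1 : volume (slice k E t ∩ cube 2) = 0 := by
        have := ht
        unfold sv vol at this
        rcases (ENNReal.toReal_eq_zero_iff _).mp this with h | h
        · exact h
        · exact absurd h (hfin _)
      have h2 : t ∉ B := by
        intro h
        have : sv k E t = 1 := h
        rw [ht] at this
        norm_num at this
      rw [hsC]
      have h3 : ∀ᵐ y ∂(volume.restrict (cube 2)), y ∉ slice k E t := by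
        rw [ae_iff]
        simp only [not_not]
        change (volume.restrict (cube 2)) (slice k E t) = 0
        rw [Measure.restrict_apply (measurableSet_slice k hE t)]
        exact h1
      filter_upwards [h3] with y hy
      apply propext
      constructor
      · intro h; exact absurd h hy
      · intro h; exact absurd h h2
    · have h1 : volume ((slice k E t)ᶜ ∩ cube 2) = 0 := by
        have h2 := vol_compl (measurableSet_slice k hE t)
        have h3 : vol (slice k E t) = 1 := ht
        rw [h3, sub_self] at h2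
        unfold vol at h2
        rcases (ENNReal.toReal_eq_zero_iff _).mp h2 with h | h
        · exact h
        · exact absurd h (hfin _)
      rw [hsC]
      have h3 : ∀ᵐ y ∂(volume.restrict (cube 2)), y ∈ slice k E t := by
        rw [ae_iff]
        change (volume.restrict (cube 2)) (slice k E t)ᶜ = 0
        rw [Measure.restrict_apply (measurableSet_slice k hE t).compl]
        exact h1
      filter_upwards [h3] with y hy
      apply propext
      constructor
      · intro _; exact ht
      · intro _; exact hy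
  obtain ⟨k', hk'⟩ := Fin.exists_succAbove_eq hj.symm
  have hconst : ∀ᵐ t ∂mu, sv j E t = vol {y : Fin 2 → ℝ | y k' ∈ B} := by
    filter_upwards [ae_restrict_of_ae (ae_slice_of_ae_eq j hEC)] with t ht
    unfold sv
    rw [vol_congr ht]
    congr 1
    ext y
    simp only [slice, hC, mem_ofPred_eq]
    rw [← hk', Fin.insertNth_apply_succAbove]
  have hv : vol E = vol {y : Fin 2 → ℝ | y k' ∈ B} := by
    rw [vol_eq_integral_sv j hE, integral_congr_ae hconst]
    simp
  filter_upwards [hconst] with t ht
  rw [ht, hv]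

end Vale.Agent.P232
end
end

section

section

/-! Equality cases of the slicing inequality with disc bounds. -/

open MeasureTheory Set Filter Topology
open scoped Pointwise Convolution

namespace Vale.Agent.P232

/-- Strictness in the algebraic end of the tube bound. -/
theorem J0_lt_of_radii {r R V : ℝ} (hr : 0 < r) (hrR : r < R) (hV : 0 < V) :
    J0 V < 2 * (2 * Real.pi / 3 * (R - r) ^ 2) + 2 * Real.pi * (r * R) / (r + R) +
      2 / (r + R) * V := by
  have hpi := Real.pi_pos
  have hR : 0 < R := hr.trans hrR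
  set ρ := r + R with hρ
  have hρ0 : 0 < ρ := by positivity
  set D := (R - r) ^ 2 with hD
  have hD0 : 0 < D := by
    have : 0 < R - r := by linarith
    positivity
  have hDρ : D < ρ ^ 2 := by rw [hD, hρ]; linarith only [mul_pos hr hR]
  have e1 : 2 * Real.pi * (r * R) / ρ = Real.pi * ρ / 2 - Real.pi * D / (2 * ρ) := by
    rw [hD]
    field_simp
    rw [hρ]
    ring
  rw [e1]
  rcases lt_trichotomy (1 / (2 * ρ)) (4 / 3) with h | h | h
  · refine (min_le_right _ _).trans_lt ?_
    have h2 := two_mul_sqrt_le_add (x := Real.pi * ρ / 2) (y := 2 / ρ * V)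
      (by positivity) (by positivity)
    have h3 : Real.pi * ρ / 2 * (2 / ρ * V) = Real.pi * V := by field_simp
    rw [h3] at h2
    have h4 : Real.pi * D / (2 * ρ) < 4 / 3 * (Real.pi * D) := by
      have := mul_lt_mul_of_pos_right h (mul_pos hpi hD0)
      calc Real.pi * D / (2 * ρ) = 1 / (2 * ρ) * (Real.pi * D) := by ring
        _ < _ := this
    linarith only [h2, h4]
  · -- `ρ = 3 / 8`
    have hρ3 : ρ = 3 / 8 := by
      field_simp at h
      linarith only [h]
    have e2 : 2 * (2 * Real.pi / 3 * D) + (Real.pi * ρ / 2 - Real.pi * D / (2 * ρ)) + 2 / ρ * V =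
        3 * Real.pi / 16 + 16 / 3 * V := by
      rw [hρ3]; ring
    rw [e2]
    -- compare with the tube unless `V = 9 π / 256`, and with the ball otherwise
    by_cases hVe : V = 9 * Real.pi / 256
    · refine (min_le_left _ _).trans_lt ?_
      refine lt_of_pow_lt_pow_left₀ 3 (by positivity) ?_
      rw [ball_cube hV.le, hVe]
      have : 3 * Real.pi / 16 + 16 / 3 * (9 * Real.pi / 256) = 3 * Real.pi / 8 := by ring
      rw [this]
      have e3 : 36 * Real.pi * (9 * Real.pi / 256) ^ 2 = Real.pi ^ 3 * (2916 / 65536) := by ring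
      have e4 : (3 * Real.pi / 8) ^ 3 = Real.pi ^ 3 * (27 / 512) := by ring
      rw [e3, e4]
      apply mul_lt_mul_of_pos_left (by norm_num) (by positivity)
    · refine (min_le_right _ _).trans_lt ?_
      have hne : Real.sqrt (3 * Real.pi / 16) ≠ Real.sqrt (16 / 3 * V) := by
        intro hc
        apply hVe
        have h1 : Real.sqrt (3 * Real.pi / 16) ^ 2 = Real.sqrt (16 / 3 * V) ^ 2 := by rw [hc]
        rw [Real.sq_sqrt (by positivity), Real.sq_sqrt (by positivity)] at h1
        linarith only [h1]
      have h1 : 0 < (Real.sqrt (3 * Real.pi / 16) - Real.sqrt (16 / 3 * V)) ^ 2 := by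
        have := sub_ne_zero.mpr hne
        positivity
      have h2 : Real.sqrt (3 * Real.pi / 16) * Real.sqrt (16 / 3 * V) =
          Real.sqrt (Real.pi * V) := by
        rw [← Real.sqrt_mul (by positivity)]
        congr 1
        ring
      have h3 : Real.sqrt (3 * Real.pi / 16) ^ 2 = 3 * Real.pi / 16 := Real.sq_sqrt (by positivity)
      have h4 : Real.sqrt (16 / 3 * V) ^ 2 = 16 / 3 * V := Real.sq_sqrt (by positivity)
      linarith only [h1, h2, h3, h4]
  · refine (min_le_left _ _).trans_lt ?_
    refine (ball_le hV.le hρ0).trans_lt ?_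
    have h5 : (1 / (2 * ρ) - 4 / 3) * D < (1 / (2 * ρ) - 4 / 3) * ρ ^ 2 :=
      mul_lt_mul_of_pos_left hDρ (by linarith only [h])
    have h6 : 1 / (2 * ρ) * ρ ^ 2 = ρ / 2 := by field_simp
    have h7 : Real.pi * D / (2 * ρ) = Real.pi * (1 / (2 * ρ) * D) := by ring
    have h8 : 2 * V / ρ = 2 / ρ * V := by ring
    rw [h7, h8]
    nlinarith only [hpi, h5, h6]

/-- Equality case of the isoperimetric inequality of `ℝ² × S¹`, first part. -/
theorem essInf_zero_or {k : Fin 3} {E : Set (Fin 3 → ℝ)} (hE : MeasurableSet E)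
    (hp : IsPeriodic E) (h0 : 0 < vol E)
    (hper : ∀ᵐ t ∂mu, ENNReal.ofReal (2 * Real.sqrt (Real.pi * sv k E t)) ≤
      perimeter (slice k E t))
    (hP : perimeter E ≤ ENNReal.ofReal (J0 (vol E))) :
    (∀ᵐ t ∂mu, sv k E t = vol E) ∨ ∃ M, EssBd (sv k E) 0 M := by
  have hpi := Real.pi_pos
  obtain ⟨m, M, hm0, hmM, hM1, hess⟩ := exists_essBd (sv_nonneg k E) (sv_le_one k E)
  have hvol := vol_eq_integral_sv k hE
  have hM : 0 < M := by
    by_contra hM
    push Not at hM
    have : ∀ᵐ t ∂mu, sv k E t = 0 := by
      filter_upwards [hess.upper] with t ht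
      exact le_antisymm (ht.trans hM) (sv_nonneg _ _ _)
    rw [integral_congr_ae this] at hvol
    simp at hvol
    linarith
  rcases hm0.eq_or_lt with hm | hm
  · right
    rw [hm]
    exact ⟨M, hess⟩
  rcases hmM.eq_or_lt with hmM' | hmM'
  · left
    have h1 : ∀ᵐ t ∂mu, sv k E t = m := by
      filter_upwards [hess.upper, hess.lower] with t h1 h2
      linarith
    have h2 : vol E = m := by
      rw [hvol, integral_congr_ae h1]
      simp
    rw [h2]
    exact h1
  exfalso
  set r := Real.sqrt (m / Real.pi) with hr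
  set R := Real.sqrt (M / Real.pi) with hR
  have hr0 : 0 < r := Real.sqrt_pos.mpr (by positivity)
  have hR0 : 0 < R := Real.sqrt_pos.mpr (by positivity)
  have hrR : r < R := Real.sqrt_lt_sqrt (by positivity) (by gcongr)
  have hmr : m = Real.pi * r ^ 2 := by rw [hr, Real.sq_sqrt (by positivity)]; field_simp
  have hMR : M = Real.pi * R ^ 2 := by rw [hR, Real.sq_sqrt (by positivity)]; field_simp
  have hβc := continuous_tubeBeta hr0.le hR0
  have key := slicing_affine k hE hp (α := fun u => Real.sqrt (1 - tubeBeta r R u ^ 2))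
    (β := tubeBeta r R) (by fun_prop) hβc (fun _ => Real.sqrt_nonneg _)
    (fun _ => tubeBeta_nonneg _ _ _) (fun u => by
      rw [Real.sq_sqrt]
      · linarith
      · have := tubeBeta_nonneg r R u; have := tubeBeta_le_one r R u; nlinarith) hess hmM
    (F := 2 * Real.pi * (r * R) / (r + R)) (H := 2 / (r + R)) (by
      filter_upwards [hess.lower, hess.upper, hper] with t h1 h2 h3
      have hs0 := sv_nonneg k E t
      refine ⟨by (clear * - hm hM hs0; positivity), ?_⟩
      refine le_trans ?_ (mul_le_mul_right h3 _)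
      rw [← ENNReal.ofReal_mul (tubeBeta_nonneg _ _ _)]
      apply ENNReal.ofReal_le_ofReal
      set v := sv k E t with hv
      have h : 0 < v := hm.trans_le h1
      set s := Real.sqrt (v / Real.pi) with hs
      have hsp : 0 < s := Real.sqrt_pos.mpr (by positivity)
      have hvs : v = Real.pi * s ^ 2 := by rw [hs, Real.sq_sqrt (by positivity)]; field_simp
      have hrs : r ≤ s := Real.sqrt_le_sqrt (by gcongr)
      have hsR : s ≤ R := Real.sqrt_le_sqrt (by gcongr)
      have e1 : Real.sqrt (Real.pi * v) = Real.pi * s := by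
        rw [hvs, show Real.pi * (Real.pi * s ^ 2) = (Real.pi * s) ^ 2 by ring,
          Real.sqrt_sq (by positivity)]
      rw [e1]
      have e2 := tubeBeta_eq hr0.le hR0 hrs hsp hsR
      rw [← hvs] at e2
      rw [e2, hvs]
      apply le_of_eq
      field_simp)
  have h1 := tube_integral hr0.le hR0 hrR.le
  rw [← hmr, ← hMR] at h1
  have h2 := J0_lt_of_radii hr0 hrR h0
  have h3 := key.trans hP
  have hJ : 0 ≤ J0 (vol E) := by
    unfold J0
    apply le_min <;> positivity
  rw [ENNReal.ofReal_le_ofReal_iff hJ] at h3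
  linarith only [h1, h2, h3]

end Vale.Agent.P232
end
end

section

section

open MeasureTheory Set Filter Topology ContinuousLinearMap
open scoped Pointwise Convolution

namespace Vale.Agent.P232

/-- The perimeter bound in terms of the radii of the extremal slices. -/
theorem radii_le_perimeter {k : Fin 3} {E : Set (Fin 3 → ℝ)} (hE : MeasurableSet E)
    (hp : IsPeriodic E)
    (hper : ∀ᵐ t ∂mu, ENNReal.ofReal (2 * Real.sqrt (Real.pi * sv k E t)) ≤
      perimeter (slice k E t)) {m M : ℝ} (hm0 : 0 ≤ m) (hmM : m ≤ M) (hM : 0 < M)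
    (hess : EssBd (sv k E) m M) {r R : ℝ} (hr : r = Real.sqrt (m / Real.pi))
    (hR : R = Real.sqrt (M / Real.pi)) :
    ENNReal.ofReal (2 * (2 * Real.pi / 3 * (R - r) ^ 2) + 2 * Real.pi * (r * R) / (r + R) +
      2 / (r + R) * vol E) ≤ perimeter E := by
  have hpi := Real.pi_pos
  have hr0 : 0 ≤ r := by rw [hr]; exact Real.sqrt_nonneg _
  have hR0 : 0 < R := by rw [hR]; exact Real.sqrt_pos.mpr (by positivity)
  have hrR : r ≤ R := by rw [hr, hR]; exact Real.sqrt_le_sqrt (by gcongr)
  have hmr : m = Real.pi * r ^ 2 := by rw [hr, Real.sq_sqrt (by positivity)]; field_simp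
  have hMR : M = Real.pi * R ^ 2 := by rw [hR, Real.sq_sqrt (by positivity)]; field_simp
  have hβc := continuous_tubeBeta hr0 hR0
  have key := slicing_affine k hE hp (α := fun u => Real.sqrt (1 - tubeBeta r R u ^ 2))
    (β := tubeBeta r R) (by fun_prop) hβc (fun _ => Real.sqrt_nonneg _)
    (fun _ => tubeBeta_nonneg _ _ _) (fun u => by
      rw [Real.sq_sqrt]
      · linarith
      · have := tubeBeta_nonneg r R u; have := tubeBeta_le_one r R u; nlinarith) hess hmM
    (F := 2 * Real.pi * (r * R) / (r + R)) (H := 2 / (r + R)) (by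
      filter_upwards [hess.lower, hess.upper, hper] with t h1 h2 h3
      have hs0 := sv_nonneg k E t
      refine ⟨by (clear * - hr0 hR0 hs0; positivity), ?_⟩
      refine le_trans ?_ (mul_le_mul_right h3 _)
      rw [← ENNReal.ofReal_mul (tubeBeta_nonneg _ _ _)]
      apply ENNReal.ofReal_le_ofReal
      set v := sv k E t with hv
      rcases hs0.eq_or_lt with h | h
      · have hm' : m = 0 := le_antisymm (by rw [h]; exact h1) hm0
        have hr' : r = 0 := by rw [hr, hm']; simp
        rw [← h, hr']; simp
      · set s := Real.sqrt (v / Real.pi) with hs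
        have hsp : 0 < s := Real.sqrt_pos.mpr (by positivity)
        have hvs : v = Real.pi * s ^ 2 := by rw [hs, Real.sq_sqrt (by positivity)]; field_simp
        have hrs : r ≤ s := by rw [hr, hs]; exact Real.sqrt_le_sqrt (by gcongr)
        have hsR : s ≤ R := by rw [hR, hs]; exact Real.sqrt_le_sqrt (by gcongr)
        have e1 : Real.sqrt (Real.pi * v) = Real.pi * s := by
          rw [hvs, show Real.pi * (Real.pi * s ^ 2) = (Real.pi * s) ^ 2 by ring,
            Real.sqrt_sq (by positivity)]
        rw [e1]
        have e2 := tubeBeta_eq hr0 hR0 hrs hsp hsR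
        rw [← hvs] at e2
        rw [e2, hvs]
        apply le_of_eq
        field_simp)
  refine le_trans (ENNReal.ofReal_le_ofReal ?_) key
  have h1 := tube_integral hr0 hR0 hrR
  rw [← hmr, ← hMR] at h1
  linarith only [h1]

/-- In the degenerate case of the algebraic inequality the ball is strictly better. -/
theorem ball_lt_of_eq {V : ℝ} (hV : 0 < V) (h : V < 4 * Real.pi / 81) :
    (36 * Real.pi) ^ (1 / 3 : ℝ) * V ^ (2 / 3 : ℝ) < 2 * Real.sqrt (Real.pi * V) := by
  have hpi := Real.pi_pos
  refine lt_of_pow_lt_pow_left₀ 6 (by positivity) ?_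
  have e1 : ((36 * Real.pi) ^ (1 / 3 : ℝ) * V ^ (2 / 3 : ℝ)) ^ 6 = (36 * Real.pi * V ^ 2) ^ 2 := by
    rw [← ball_cube hV.le]; ring
  have e2 : (2 * Real.sqrt (Real.pi * V)) ^ 6 = 64 * (Real.pi * V) ^ 3 := by
    rw [mul_pow, show Real.sqrt (Real.pi * V) ^ 6 = (Real.sqrt (Real.pi * V) ^ 2) ^ 3 by ring,
      Real.sq_sqrt (by positivity)]
    norm_num
  rw [e1, e2]
  have e3 : 64 * (Real.pi * V) ^ 3 - (36 * Real.pi * V ^ 2) ^ 2 =
      16 * 81 * Real.pi ^ 2 * V ^ 3 * (4 * Real.pi / 81 - V) := by ring
  have e4 : 0 < 16 * 81 * Real.pi ^ 2 * V ^ 3 * (4 * Real.pi / 81 - V) :=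
    mul_pos (by positivity) (by linarith only [h])
  linarith only [e4]

/-- The strict form of the algebraic end of the tube bound. -/
theorem J0_lt_of_radii_bd530 {r R V : ℝ} (hr : 0 < r) (hrR : r < R) (hV : 0 < V) :
    J0 V < 2 * (2 * Real.pi / 3 * (R - r) ^ 2) + 2 * Real.pi * (r * R) / (r + R) +
      2 / (r + R) * V := by
  have hpi := Real.pi_pos
  set ρ := r + R with hρ
  have hρ0 : 0 < ρ := by linarith
  set D := (R - r) ^ 2 with hD
  have hD0 : 0 < D := by rw [hD]; have : 0 < R - r := by linarith
                         positivity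
  have hDρ : D < ρ ^ 2 := by rw [hD, hρ]; linarith only [mul_pos hr (hr.trans hrR)]
  have e1 : 2 * Real.pi * (r * R) / ρ = Real.pi * ρ / 2 - Real.pi * D / (2 * ρ) := by
    rw [hD]
    field_simp
    rw [hρ]
    ring
  rw [e1]
  have h2 := two_mul_sqrt_le_add (x := Real.pi * ρ / 2) (y := 2 / ρ * V)
    (by positivity) (by positivity)
  have h3 : Real.pi * ρ / 2 * (2 / ρ * V) = Real.pi * V := by field_simp
  rw [h3] at h2
  rcases lt_trichotomy (1 / (2 * ρ)) (4 / 3) with h | h | h
  · refine (min_le_right _ _).trans_lt ?_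
    have h4 : Real.pi * D / (2 * ρ) < 4 / 3 * (Real.pi * D) := by
      have := mul_lt_mul_of_pos_right h (mul_pos hpi hD0)
      calc Real.pi * D / (2 * ρ) = 1 / (2 * ρ) * (Real.pi * D) := by ring
        _ < _ := this
    linarith only [h2, h4]
  · -- `ρ = 3 / 8`
    have hρv : ρ = 3 / 8 := by
      field_simp at h
      linarith only [h]
    have h4 : Real.pi * D / (2 * ρ) = 4 / 3 * (Real.pi * D) := by
      calc Real.pi * D / (2 * ρ) = 1 / (2 * ρ) * (Real.pi * D) := by ring
        _ = _ := by rw [h]
    rw [h4]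
    have h5 : J0 V < Real.pi * ρ / 2 + 2 / ρ * V := by
      rcases lt_or_ge V (4 * Real.pi / 81) with h6 | h6
      · exact ((min_le_left _ _).trans_lt (ball_lt_of_eq hV h6)).trans_le h2
      · refine (min_le_right _ _).trans_lt ?_
        -- strict arithmetic-geometric mean inequality
        refine lt_of_pow_lt_pow_left₀ 2 (by positivity) ?_
        rw [mul_pow, Real.sq_sqrt (by positivity)]
        have h7 : 0 < 2 / ρ * V - Real.pi * ρ / 2 := by
          rw [hρv]
          have : 4 * Real.pi / 81 * (16 / 3) ≤ V * (16 / 3) := by gcongr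
          linarith only [hV, h6]
        linarith only [mul_pos h7 h7, h3]
    linarith only [h5]
  · refine (min_le_left _ _).trans_lt ?_
    refine (ball_le hV.le hρ0).trans_lt ?_
    have h5 : (1 / (2 * ρ) - 4 / 3) * D < (1 / (2 * ρ) - 4 / 3) * ρ ^ 2 :=
      mul_lt_mul_of_pos_left hDρ (by linarith only [h])
    have h6 : 1 / (2 * ρ) * ρ ^ 2 = ρ / 2 := by field_simp
    have h7 : Real.pi * D / (2 * ρ) = Real.pi * (1 / (2 * ρ) * D) := by ring
    have h8 : 2 * V / ρ = 2 / ρ * V := by ring
    rw [h7, h8]
    nlinarith only [hpi, h5, h6]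

/-- Equality in the isoperimetric inequality of `ℝ² × S¹`. -/
theorem J0_eq_cases {k : Fin 3} {E : Set (Fin 3 → ℝ)} (hE : MeasurableSet E)
    (hp : IsPeriodic E)
    (hper : ∀ᵐ t ∂mu, ENNReal.ofReal (2 * Real.sqrt (Real.pi * sv k E t)) ≤
      perimeter (slice k E t)) (h0 : 0 < vol E)
    (hP : perimeter E ≤ ENNReal.ofReal (J0 (vol E))) :
    (∀ᵐ t ∂mu, sv k E t = vol E) ∨
      (∃ M, EssBd (sv k E) 0 M) ∧
        J0 (vol E) = (36 * Real.pi) ^ (1 / 3 : ℝ) * vol E ^ (2 / 3 : ℝ) := by
  have hpi := Real.pi_pos
  obtain ⟨m, M, hm0, hmM, hM1, hess⟩ := exists_essBd (sv_nonneg k E) (sv_le_one k E)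
  have hvol := vol_eq_integral_sv k hE
  have hM : 0 < M := by
    by_contra hM
    push Not at hM
    have : ∀ᵐ t ∂mu, sv k E t = 0 := by
      filter_upwards [hess.upper] with t ht
      exact le_antisymm (ht.trans hM) (sv_nonneg _ _ _)
    rw [integral_congr_ae this] at hvol
    simp at hvol
    linarith
  have key := radii_le_perimeter hE hp hper hm0 hmM hM hess rfl rfl
  set r := Real.sqrt (m / Real.pi) with hr
  set R := Real.sqrt (M / Real.pi) with hR
  have hr0 : 0 ≤ r := Real.sqrt_nonneg _
  have hR0 : 0 < R := Real.sqrt_pos.mpr (by positivity)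
  have hrR : r ≤ R := Real.sqrt_le_sqrt (by gcongr)
  have hmr : m = Real.pi * r ^ 2 := by rw [hr, Real.sq_sqrt (by positivity)]; field_simp
  have hMR : M = Real.pi * R ^ 2 := by rw [hR, Real.sq_sqrt (by positivity)]; field_simp
  have hJ0 : 0 ≤ J0 (vol E) := by
    unfold J0
    exact le_min (by positivity) (by positivity)
  have key2 := (ENNReal.ofReal_le_ofReal_iff hJ0).mp (key.trans hP)
  rcases hr0.eq_or_lt with h | h
  · right
    have hm : m = 0 := by rw [hmr, ← h]; ring
    rw [hm] at hess
    refine ⟨⟨M, hess⟩, le_antisymm (min_le_left _ _) ?_⟩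
    rw [← h] at key2
    refine (ball_le h0.le hR0).trans (le_trans (le_of_eq ?_) key2)
    field_simp
    ring
  · rcases hrR.eq_or_lt with h' | h'
    · left
      have hmM' : m = M := by rw [hmr, hMR, h']
      have hc : ∀ᵐ t ∂mu, sv k E t = m := by
        filter_upwards [hess.lower, hess.upper] with t h1 h2
        exact le_antisymm (by rw [hmM']; exact h2) h1
      have : vol E = m := by
        rw [hvol, integral_congr_ae hc]
        simp
      rw [this]
      exact hc
    · exact absurd key2 (not_le.mpr (J0_lt_of_radii_bd530 h h' h0))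

end Vale.Agent.P232
end
end
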