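import Vale.Agent.P232.MathlibUsed
import Vale.Agent.P232.Bdl.B1
import Vale.Agent.P232.ShapesDef
attribute [-instance] ProperSMul.toContinuousSMul IsTopologicalTorsor.toContinuousSMul IdemSemiring.toCanonicallyOrderedAdd IdemSemiring.toMulLeftMono IdemSemiring.toMulRightMono AddQuantale.instAddLeftMono AddQuantale.instAddRightMono Quantale.instMulLeftMono Quantale.instMulRightMono FiniteDimensional.rclike_to_real IsScalarTower.complexToReal FiniteDimensional.complexToReal

set_option linter.all false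

section

section

open MeasureTheory Set Filter Topology ContinuousLinearMap
open scoped Pointwise Convolution

namespace Vale.Agent.P232

/-- The bound of the tube calibration with inner radius `r` and outer radius `R`. -/
noncomputable def Bf (r R V : ℝ) : ℝ :=
  2 * (2 * Real.pi / 3 * (R - r) ^ 2) + 2 * Real.pi * (r * R) / (r + R) + 2 / (r + R) * V

/-- The one-direction bound when all slices satisfy the planar isoperimetric inequality. -/
theorem radii_bound {k : Fin 3} {E : Set (Fin 3 → ℝ)} (hE : MeasurableSet E)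
    (hp : IsPeriodic E)
    (hper : ∀ᵐ t ∂mu, ENNReal.ofReal (2 * Real.sqrt (Real.pi * sv k E t)) ≤
      perimeter (slice k E t)) {m M : ℝ} (hess : EssBd (sv k E) m M) (hm0 : 0 ≤ m)
      (hmM : m ≤ M) (hM : 0 < M) :
    ENNReal.ofReal (Bf (Real.sqrt (m / Real.pi)) (Real.sqrt (M / Real.pi)) (vol E)) ≤
      perimeter E := by
  have hpi := Real.pi_pos
  set r := Real.sqrt (m / Real.pi) with hr
  set R := Real.sqrt (M / Real.pi) with hR
  have hr0 : 0 ≤ r := Real.sqrt_nonneg _
  have hR0 : 0 < R := Real.sqrt_pos.mpr (by positivity)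
  have hrR : r ≤ R := Real.sqrt_le_sqrt (by gcongr)
  have hmr : m = Real.pi * r ^ 2 := by rw [hr, Real.sq_sqrt (by positivity)]; field_simp
  have hMR : M = Real.pi * R ^ 2 := by rw [hR, Real.sq_sqrt (by positivity)]; field_simp
  have hβc := continuous_tubeBeta hr0 hR0
  have key := slicing_affine k hE hp (α := fun u => Real.sqrt (1 - tubeBeta r R u ^ 2))
    (β := tubeBeta r R) (by fun_prop) hβc (fun _ => Real.sqrt_nonneg _)
    (fun _ => tubeBeta_nonneg _ _ _) (fun u => by
      rw [Real.sq_sqrt]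
      · linarith only []
      · have := tubeBeta_nonneg r R u; have := tubeBeta_le_one r R u; nlinarith) hess hmM
    (F := 2 * Real.pi * (r * R) / (r + R)) (H := 2 / (r + R)) (by
      filter_upwards [hess.lower, hess.upper, hper] with t h1 h2 h3
      have hs0 := sv_nonneg k E t
      refine ⟨by (clear * - hM hs0; positivity), ?_⟩
      refine le_trans ?_ (mul_le_mul_right h3 _)
      rw [← ENNReal.ofReal_mul (tubeBeta_nonneg _ _ _)]
      apply ENNReal.ofReal_le_ofReal
      set v := sv k E t with hv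
      rcases hs0.eq_or_lt with h | h
      · have hm' : m = 0 := le_antisymm (by rw [h]; exact h1) hm0
        have hr' : r = 0 := by rw [hr, hm']; simp
        rw [← h, hr']; simp
      · set s := Real.sqrt (v / Real.pi) with hs
        have hsp : 0 < s := Real.sqrt_pos.mpr (by positivity)
        have hvs : v = Real.pi * s ^ 2 := by rw [hs, Real.sq_sqrt (by positivity)]; field_simp
        have hrs : r ≤ s := Real.sqrt_le_sqrt (by gcongr)
        have hsR : s ≤ R := Real.sqrt_le_sqrt (by gcongr)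
        have e1 : Real.sqrt (Real.pi * v) = Real.pi * s := by
          rw [hvs, show Real.pi * (Real.pi * s ^ 2) = (Real.pi * s) ^ 2 by ring,
            Real.sqrt_sq (by positivity)]
        rw [e1]
        have e2 := tubeBeta_eq hr0 hR0 hrs hsp hsR
        rw [← hvs] at e2
        rw [e2, hvs]
        apply le_of_eq
        field_simp)
  refine le_trans (ENNReal.ofReal_le_ofReal ?_) key
  have h1 := tube_integral hr0 hR0 hrR
  rw [← hmr, ← hMR] at h1
  unfold Bf
  linarith only [h1]

/-- Two nearby good points with almost minimal slices. -/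
theorem exists_close_pair {n : ℕ} (i : Fin (n + 1)) {E : Set (Fin (n + 1) → ℝ)}
    (hE : MeasurableSet E) {m M : ℝ} (hm : EssBd (sv i E) m M) {ε : ℝ} (hε : 0 < ε) :
    ∃ a b, a < b ∧ b ≤ a + ε ∧ b ≤ a + 1 ∧ GoodPt i E a ∧ GoodPt i E b ∧
      sv i E a < m + ε ∧ sv i E b < m + ε := by
  have hgood := ae_restrict_of_ae (s := Ico (0 : ℝ) 1) (ae_goodPt i hE)
  have hf : ∃ᶠ t in ae mu, sv i E t < m + ε ∧ GoodPt i E t ∧ t ∈ Ico (0 : ℝ) 1 :=
    (hm.inf ε hε).and_eventually (hgood.and ae_mu_mem)
  set A : Set ℝ := {t | sv i E t < m + ε ∧ GoodPt i E t ∧ t ∈ Ico (0 : ℝ) 1} with hA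
  have hinf : A.Infinite := by
    intro hfin
    have h0 : mu A = 0 := hfin.measure_zero _
    apply hf
    rw [ae_iff]
    have : {t | ¬¬(sv i E t < m + ε ∧ GoodPt i E t ∧ t ∈ Ico (0 : ℝ) 1)} = A := by
      ext t; simp [hA]
    rw [this]
    exact h0
  set N : ℕ := ⌈1 / ε⌉₊ + 1 with hN
  have hNpos : (0 : ℝ) < N := by positivity
  have hN1 : 1 / ε < N := by
    have := Nat.le_ceil (1 / ε)
    rw [hN]; push_cast; linarith only [this]
  have hmaps : MapsTo (fun t : ℝ => ⌊t * N⌋) A (Finset.Icc (0 : ℤ) N : Set ℤ) := by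
    intro t ht
    simp only [Finset.coe_Icc, mem_Icc]
    have h0 : 0 ≤ t := ht.2.2.1
    have h1 : t < 1 := ht.2.2.2
    constructor
    · exact Int.floor_nonneg.mpr (by positivity)
    · have : (⌊t * N⌋ : ℝ) ≤ N := (Int.floor_le _).trans (by nlinarith only [h1])
      exact_mod_cast this
  obtain ⟨x, hx, y, hy, hxy, hfxy⟩ :=
    hinf.exists_ne_map_eq_of_mapsTo hmaps (Finset.finite_toSet _)
  have hclose : |x - y| < ε := by
    have h1 := Int.abs_sub_lt_one_of_floor_eq_floor hfxy
    rw [← sub_mul, abs_mul, abs_of_pos hNpos] at h1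
    have h2 : |x - y| < 1 / N := by
      rw [lt_div_iff₀ hNpos]; exact h1
    refine h2.trans ?_
    rw [div_lt_iff₀ hNpos]
    rw [div_lt_iff₀ hε] at hN1
    linarith only [hN1]
  have hclose1 : |x - y| ≤ 1 := by
    rw [abs_le]
    constructor <;> linarith only [hx.2.2.1, hx.2.2.2, hy.2.2.1, hy.2.2.2]
  rcases lt_or_gt_of_ne hxy with h | h
  · refine ⟨x, y, h, ?_, ?_, hx.2.1, hy.2.1, hx.1, hy.1⟩
    · rw [abs_lt] at hclose; linarith
    · rw [abs_le] at hclose1; linarith
  · refine ⟨y, x, h, ?_, ?_, hy.2.1, hx.2.1, hy.1, hx.1⟩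
    · rw [abs_lt] at hclose; linarith
    · rw [abs_le] at hclose1; linarith

theorem perimeter_cut_le {n : ℕ} (i : Fin (n + 1)) {a b : ℝ}
    {E : Set (Fin (n + 1) → ℝ)} (hE : MeasurableSet E) (hp : IsPeriodic E)
    (hab : a ≤ b) (hb : b ≤ a + 1) (ga : GoodPt i E a) (gb : GoodPt i E b) :
    perimeter (cut i a b E) ≤ perimeter E + ENNReal.ofReal (sv i E a + sv i E b) :=
  le_trans le_self_add (cut_perimeter i hE hp hab hb ga gb)

theorem slice_cut_succAbove {n : ℕ} (k : Fin (n + 2)) (j : Fin (n + 1)) (a b : ℝ)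
    (E : Set (Fin (n + 2) → ℝ)) (t : ℝ) :
    slice k (cut (k.succAbove j) a b E) t = cut j a b (slice k E t) := by
  ext y
  unfold slice cut
  simp only [mem_ofPred_eq, Fin.insertNth_apply_succAbove]

theorem vol_cut_ge {n : ℕ} (i : Fin (n + 1)) {a b : ℝ} {E : Set (Fin (n + 1) → ℝ)}
    (hE : MeasurableSet E) (hp : IsPeriodic E) (hab : a ≤ b) (hb : b ≤ a + 1) :
    vol E - (b - a) ≤ vol (cut i a b E) := by
  rw [vol_cut i hE hp hab hb]
  have : ∫ t in a..b, sv i E t ≤ ∫ t in a..b, (1 : ℝ) :=
    intervalIntegral.integral_mono_on hab (intervalIntegrable_sv i hE _ _)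
      intervalIntegrable_const (fun t _ => sv_le_one _ _ _)
  rw [intervalIntegral.integral_const] at this
  simp only [smul_eq_mul, mul_one] at this
  linarith

theorem vol_mono {n : ℕ} {E E' : Set (Fin n → ℝ)} (h : E' ⊆ E) : vol E' ≤ vol E := by
  unfold vol
  apply ENNReal.toReal_mono
  · exact ((measure_mono inter_subset_right).trans_lt (by
      rw [volume_cube]; exact ENNReal.one_lt_top)).ne
  · exact measure_mono (inter_subset_inter_left _ h)

theorem slice_mono {n : ℕ} (i : Fin (n + 1)) {E E' : Set (Fin (n + 1) → ℝ)} (h : E' ⊆ E)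
    (t : ℝ) : slice i E' t ⊆ slice i E t := fun _ hy => h hy

theorem sv_mono {n : ℕ} (i : Fin (n + 1)) {E E' : Set (Fin (n + 1) → ℝ)} (h : E' ⊆ E)
    (t : ℝ) : sv i E' t ≤ sv i E t := vol_mono (slice_mono i h t)

theorem sv_cut_succAbove_ge {n : ℕ} (k : Fin (n + 2)) (j : Fin (n + 1)) {a b : ℝ}
    {E : Set (Fin (n + 2) → ℝ)} (hE : MeasurableSet E) (hp : IsPeriodic E)
    (hab : a ≤ b) (hb : b ≤ a + 1) (t : ℝ) :
    sv k E t - (b - a) ≤ sv k (cut (k.succAbove j) a b E) t := by
  unfold sv
  rw [slice_cut_succAbove]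
  exact vol_cut_ge j (measurableSet_slice k hE t) (isPeriodic_slice k hp t) hab hb

/-- Essential bounds are stable. -/
theorem EssBd.close {v v' : ℝ → ℝ} {m M m' M' δ : ℝ} (h : EssBd v m M) (h' : EssBd v' m' M')
    (hv : ∀ t, |v' t - v t| ≤ δ) : |m' - m| ≤ δ ∧ |M' - M| ≤ δ := by
  have hε : ∀ ε > 0, |m' - m| ≤ δ + ε ∧ |M' - M| ≤ δ + ε := by
    intro ε hε
    obtain ⟨t1, a1, ⟨a2, a3⟩, a4, a5⟩ := ((h.inf ε hε).and_eventually
      ((h'.lower.and h'.upper).and (h.lower.and h.upper))).exists
    obtain ⟨t2, b1, ⟨b2, b3⟩, b4, b5⟩ := ((h'.inf ε hε).and_eventually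
      ((h'.lower.and h'.upper).and (h.lower.and h.upper))).exists
    obtain ⟨t3, c1, ⟨c2, c3⟩, c4, c5⟩ := ((h.sup ε hε).and_eventually
      ((h'.lower.and h'.upper).and (h.lower.and h.upper))).exists
    obtain ⟨t4, d1, ⟨d2, d3⟩, d4, d5⟩ := ((h'.sup ε hε).and_eventually
      ((h'.lower.and h'.upper).and (h.lower.and h.upper))).exists
    have e1 := abs_le.mp (hv t1)
    have e2 := abs_le.mp (hv t2)
    have e3 := abs_le.mp (hv t3)
    have e4 := abs_le.mp (hv t4)
    constructor <;> rw [abs_le] <;> constructor <;> linarith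
  constructor
  · exact le_of_forall_pos_le_add fun ε he => (hε ε he).1
  · exact le_of_forall_pos_le_add fun ε he => (hε ε he).2

/-- Cutting at two nearby almost minimal slices in two directions. -/
theorem exists_double_cut (k : Fin 3) {E : Set (Fin 3 → ℝ)} (hE : MeasurableSet E)
    (hp : IsPeriodic E) {m0 M0 m1 M1 : ℝ} (h0 : EssBd (sv (k.succAbove 0) E) m0 M0)
    (h1 : EssBd (sv (k.succAbove 1) E) m1 M1)
    {ε : ℝ} (hε : 0 < ε) :
    ∃ E' : Set (Fin 3 → ℝ), MeasurableSet E' ∧ IsPeriodic E' ∧ Avoids (k.succAbove 0) E' ∧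
      Avoids (k.succAbove 1) E' ∧ |vol E' - vol E| ≤ 2 * ε ∧
      (∀ t, |sv k E' t - sv k E t| ≤ 2 * ε) ∧
      perimeter E' ≤ perimeter E + ENNReal.ofReal (2 * m0 + 2 * m1 + 4 * ε) := by
  obtain ⟨a, b, hab, hbε, hb1, ga, gb, sa, sb⟩ := exists_close_pair _ hE h0 hε
  set E1 := cut (k.succAbove 0) a b E with hE1
  have hE1m : MeasurableSet E1 := measurableSet_cut _ _ _ hE
  have hE1p : IsPeriodic E1 := isPeriodic_cut _ _ _ hp
  have hE1s : E1 ⊆ E := cut_subset _ _ _ _
  -- the second pair
  obtain ⟨m1', M1', hm1', hmM1', hM1', h1'⟩ := exists_essBd (sv_nonneg (k.succAbove 1) E1)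
    (sv_le_one (k.succAbove 1) E1)
  have hm1le : m1' ≤ m1 := by
    apply le_of_forall_pos_le_add
    intro δ hδ
    obtain ⟨t, t1, t2⟩ := ((h1.inf δ hδ).and_eventually h1'.lower).exists
    have := sv_mono (k.succAbove 1) hE1s t
    linarith
  obtain ⟨a', b', hab', hbε', hb1', ga', gb', sa', sb'⟩ := exists_close_pair _ hE1m h1' hε
  set E2 := cut (k.succAbove 1) a' b' E1 with hE2
  have hE2m : MeasurableSet E2 := measurableSet_cut _ _ _ hE1m
  have hE2p : IsPeriodic E2 := isPeriodic_cut _ _ _ hE1p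
  have hE2s : E2 ⊆ E1 := cut_subset _ _ _ _
  refine ⟨E2, hE2m, hE2p, ?_, avoids_cut _ _ hab' hb1', ?_, ?_, ?_⟩
  · exact (avoids_cut _ _ hab hb1).mono hE2s
  · have v1 := vol_cut_ge (k.succAbove 0) hE hp hab.le hb1
    have v2 := vol_cut_ge (k.succAbove 1) hE1m hE1p hab'.le hb1'
    have v3 := vol_mono hE1s
    have v4 := vol_mono hE2s
    rw [abs_le]
    constructor <;> linarith
  · intro t
    have v1 := sv_cut_succAbove_ge k 0 hE hp hab.le hb1 t
    have v2 := sv_cut_succAbove_ge k 1 hE1m hE1p hab'.le hb1' t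
    have v3 := sv_mono k hE1s t
    have v4 := sv_mono k hE2s t
    rw [abs_le]
    constructor <;> linarith
  · have p1 := perimeter_cut_le (k.succAbove 0) hE hp hab.le hb1 ga gb
    have p2 := perimeter_cut_le (k.succAbove 1) hE1m hE1p hab'.le hb1' ga' gb'
    have n1 := sv_nonneg (k.succAbove 0) E a
    have n2 := sv_nonneg (k.succAbove 0) E b
    have n3 := sv_nonneg (k.succAbove 1) E1 a'
    have n4 := sv_nonneg (k.succAbove 1) E1 b'
    calc perimeter E2 ≤ perimeter E1 +
          ENNReal.ofReal (sv (k.succAbove 1) E1 a' + sv (k.succAbove 1) E1 b') := p2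
      _ ≤ (perimeter E + ENNReal.ofReal (sv (k.succAbove 0) E a + sv (k.succAbove 0) E b)) +
          ENNReal.ofReal (sv (k.succAbove 1) E1 a' + sv (k.succAbove 1) E1 b') := by gcongr
      _ = perimeter E + ENNReal.ofReal ((sv (k.succAbove 0) E a + sv (k.succAbove 0) E b) +
          (sv (k.succAbove 1) E1 a' + sv (k.succAbove 1) E1 b')) := by
          rw [add_assoc, ← ENNReal.ofReal_add (by linarith) (by linarith)]
      _ ≤ _ := add_le_add le_rfl (ENNReal.ofReal_le_ofReal (by linarith))

theorem tendsto_Bf {r R V : ℝ} {rj Rj Vj : ℕ → ℝ} (hr : Tendsto rj atTop (𝓝 r))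
    (hR : Tendsto Rj atTop (𝓝 R)) (hV : Tendsto Vj atTop (𝓝 V)) (h : 0 < r + R) :
    Tendsto (fun j => Bf (rj j) (Rj j) (Vj j)) atTop (𝓝 (Bf r R V)) := by
  unfold Bf
  have h1 := hr.add hR
  have h2 := ((hR.sub hr).pow 2).const_mul (2 * Real.pi / 3)
  have h3 := ((hr.mul hR).const_mul (2 * Real.pi)).div h1 h.ne'
  have h4 := ((tendsto_const_nhds (x := (2 : ℝ))).div h1 h.ne').mul hV
  exact ((h2.const_mul 2).add h3).add h4

/-- **The zero-volume cut bound.** -/
theorem zcut_bound (k : Fin 3) {E : Set (Fin 3 → ℝ)} (hE : MeasurableSet E)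
    (hp : IsPeriodic E) {m0 M0 m1 M1 m M : ℝ} (h0 : EssBd (sv (k.succAbove 0) E) m0 M0)
    (h1 : EssBd (sv (k.succAbove 1) E) m1 M1) (hk : EssBd (sv k E) m M) (hM : 0 < M) :
    ENNReal.ofReal (Bf (Real.sqrt (m / Real.pi)) (Real.sqrt (M / Real.pi)) (vol E)) ≤
      perimeter E + ENNReal.ofReal (2 * m0 + 2 * m1) := by
  by_cases htop : perimeter E = ⊤
  · rw [htop, top_add]; exact le_top
  have hpi := Real.pi_pos
  -- a sequence of double cuts
  have hseq : ∀ j : ℕ, ∃ r : ℝ × ℝ × ℝ, |r.1 - m| ≤ 2 * (1 / ((j : ℝ) + 1)) ∧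
      |r.2.1 - M| ≤ 2 * (1 / ((j : ℝ) + 1)) ∧ |r.2.2 - vol E| ≤ 2 * (1 / ((j : ℝ) + 1)) ∧
      (0 < r.2.1 → ENNReal.ofReal (Bf (Real.sqrt (r.1 / Real.pi)) (Real.sqrt (r.2.1 / Real.pi))
        r.2.2) ≤ perimeter E + ENNReal.ofReal (2 * m0 + 2 * m1 + 4 * (1 / ((j : ℝ) + 1)))) := by
    intro j
    have hj : (0 : ℝ) < 1 / ((j : ℝ) + 1) := by positivity
    obtain ⟨E', hE', hp', av0, av1, hv, hs, hP⟩ := exists_double_cut k hE hp h0 h1 hj
    obtain ⟨m', M', hm', hmM', hM', h'⟩ := exists_essBd (sv_nonneg k E') (sv_le_one k E')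
    obtain ⟨c1, c2⟩ := hk.close h' hs
    refine ⟨(m', M', vol E'), c1, c2, hv, ?_⟩
    intro hpos
    refine le_trans ?_ hP
    apply radii_bound hE' hp' _ h' hm' hmM' hpos
    filter_upwards with t
    exact disc_bound_avoids (measurableSet_slice k hE' t) (isPeriodic_slice k hp' t)
      (av0.slice t) (av1.slice t)
  choose r hr1 hr2 hr3 hr4 using hseq
  have hz : Tendsto (fun j : ℕ => 2 * (1 / ((j : ℝ) + 1))) atTop (𝓝 0) := by
    have := (tendsto_one_div_add_atTop_nhds_zero_nat (𝕜 := ℝ)).const_mul 2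
    simpa using this
  have hlim : ∀ (g : ℕ → ℝ) (l : ℝ), (∀ j, |g j - l| ≤ 2 * (1 / ((j : ℝ) + 1))) →
      Tendsto g atTop (𝓝 l) := by
    intro g l hg
    rw [tendsto_iff_norm_sub_tendsto_zero]
    exact squeeze_zero (fun _ => norm_nonneg _) hg hz
  have l1 := hlim _ _ hr1
  have l2 := hlim _ _ hr2
  have l3 := hlim _ _ hr3
  have hR : 0 < Real.sqrt (M / Real.pi) := Real.sqrt_pos.mpr (by positivity)
  have hcont : Tendsto (fun j => Bf (Real.sqrt ((r j).1 / Real.pi))
      (Real.sqrt ((r j).2.1 / Real.pi)) (r j).2.2) atTop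
      (𝓝 (Bf (Real.sqrt (m / Real.pi)) (Real.sqrt (M / Real.pi)) (vol E))) := by
    have hs : Continuous (fun x : ℝ => Real.sqrt (x / Real.pi)) := by fun_prop
    exact tendsto_Bf ((hs.tendsto m).comp l1) ((hs.tendsto M).comp l2) l3 (by (clear * - hM; positivity))
  have hcost : Tendsto (fun j : ℕ => perimeter E +
      ENNReal.ofReal (2 * m0 + 2 * m1 + 4 * (1 / ((j : ℝ) + 1)))) atTop
      (𝓝 (perimeter E + ENNReal.ofReal (2 * m0 + 2 * m1))) := by
    apply Tendsto.const_add
    apply ENNReal.tendsto_ofReal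
    have := (tendsto_one_div_add_atTop_nhds_zero_nat (𝕜 := ℝ)).const_mul 4
    have := this.const_add (2 * m0 + 2 * m1)
    simpa using this
  apply le_of_tendsto_of_tendsto (ENNReal.tendsto_ofReal hcont) hcost
  filter_upwards [l2.eventually (lt_mem_nhds hM)] with j hj
  exact hr4 j hj

end Vale.Agent.P232
end
end

section

section

open MeasureTheory Set Filter Topology ContinuousLinearMap
open scoped Pointwise Convolution

namespace Vale.Agent.P232

theorem I2_eq_of_le {u : ℝ} (h : u ≤ 1 / Real.pi) :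
    I2 u = 2 * Real.sqrt (Real.pi * u) := by
  have hpi := Real.pi_gt_three
  have h1 : u ≤ 1 / 3 := h.trans (one_div_le_one_div_of_le (by norm_num) hpi.le)
  have h2 : Real.pi * u ≤ 1 := by
    rw [le_div_iff₀ Real.pi_pos] at h
    linarith
  unfold I2
  rw [min_eq_left (a := 2 * Real.sqrt (Real.pi * u)), min_eq_left]
  · have := Real.sqrt_le_sqrt h2
    rw [Real.sqrt_one] at this
    linarith only [this]
  · apply mul_le_mul_of_nonneg_left (Real.sqrt_le_sqrt _) (by norm_num)
    linarith only [h2, hpi]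

theorem J0_le_of_upper (k : Fin 3) {E : Set (Fin 3 → ℝ)} (hE : MeasurableSet E)
    (hp : IsPeriodic E) {m M : ℝ} (h : EssBd (sv k E) m M) (hM : M ≤ 1 / Real.pi) :
    ENNReal.ofReal (J0 (vol E)) ≤ perimeter E := by
  apply J0_le_perimeter (k := k) hE hp
  filter_upwards [h.upper] with t ht
  rw [← I2_eq_of_le (ht.trans hM)]
  exact I2_le_perimeter (measurableSet_slice k hE t) (isPeriodic_slice k hp t)

theorem EssBd.vol_mem {n : ℕ} {i : Fin (n + 1)} {E : Set (Fin (n + 1) → ℝ)}
    (hE : MeasurableSet E) {m M : ℝ} (h : EssBd (sv i E) m M) : m ≤ vol E ∧ vol E ≤ M := by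
  rw [vol_eq_integral_sv i hE]
  have hint : Integrable (sv i E) mu := by
    have := intervalIntegrable_sv i hE 0 1
    rw [intervalIntegrable_iff_integrableOn_Ico_of_le zero_le_one] at this
    exact this
  constructor
  · have h1 := integral_mono_ae (integrable_const m) hint h.lower
    simpa using h1
  · have h1 := integral_mono_ae hint (integrable_const M) h.upper
    simpa using h1

/-- All the one-direction information about a set in the three-torus that is used below. -/
theorem geometric_bounds {E : Set (Fin 3 → ℝ)} (hE : MeasurableSet E)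
    (hp : IsPeriodic E) (hV : 0 < vol E) :
    ∃ m M : ℝ, 0 ≤ m ∧ m ≤ vol E ∧ vol E ≤ M ∧ M ≤ 1 ∧
      ENNReal.ofReal (Bf (Real.sqrt (m / Real.pi)) (Real.sqrt (M / Real.pi)) (vol E) - 4 * m) ≤
        perimeter E ∧
      (M ≤ 1 / Real.pi → ENNReal.ofReal (J0 (vol E)) ≤ perimeter E) ∧
      (∀ F H : ℝ, (∀ u ∈ Icc m M, 0 ≤ F + H * u) → (∀ u ∈ Icc m M, F + H * u ≤ I2 u) →
        ENNReal.ofReal (2 * (∫ u in m..M, Real.sqrt (1 - ((F + H * u) / I2 u) ^ 2)) + F +
          H * vol E) ≤ perimeter E) := by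
  have hex : ∀ i : Fin 3, ∃ p : ℝ × ℝ, 0 ≤ p.1 ∧ p.1 ≤ p.2 ∧ p.2 ≤ 1 ∧ EssBd (sv i E) p.1 p.2 := by
    intro i
    obtain ⟨m, M, h1, h2, h3, h4⟩ := exists_essBd (sv_nonneg i E) (sv_le_one i E)
    exact ⟨(m, M), h1, h2, h3, h4⟩
  choose p hp0 hp1 hp2 hp3 using hex
  obtain ⟨k, hk⟩ := Finite.exists_max (fun i => (p i).1)
  obtain ⟨hv1, hv2⟩ := (hp3 k).vol_mem hE
  refine ⟨(p k).1, (p k).2, hp0 k, hv1, hv2, hp2 k, ?_, ?_, ?_⟩
  · have h := zcut_bound k hE hp (hp3 (k.succAbove 0)) (hp3 (k.succAbove 1)) (hp3 k)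
      (hV.trans_le hv2)
    have h0 := hk (k.succAbove 0)
    have h1 := hk (k.succAbove 1)
    have h2 : ENNReal.ofReal (2 * (p (k.succAbove 0)).1 + 2 * (p (k.succAbove 1)).1) ≤
        ENNReal.ofReal (4 * (p k).1) := ENNReal.ofReal_le_ofReal (by linarith)
    have h3 := h.trans (add_le_add le_rfl h2)
    rw [ENNReal.ofReal_sub _ (by have := hp0 k; positivity)]
    exact tsub_le_iff_right.mpr h3
  · exact fun hM => J0_le_of_upper k hE hp (hp3 k) hM
  · intro F H h0 h1
    exact line_bound_I2 k hE hp (hp3 k) (hp0 k) (hp1 k) (hp2 k) h0 h1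

end Vale.Agent.P232
end
end

section

section

open MeasureTheory Set

namespace Vale.Agent.P232

/-! ### Small essential infimum -/

theorem small_m_aux {ρ R : ℝ} (hρ0 : 0 ≤ ρ) (hρ : ρ ≤ 0.0334) (hR : 0.3183 ≤ R)
    (h : 3 * (R + ρ) ≥ 1) (h2 : 9 * (R + ρ) ≤ 4) :
    0 ≤ (9 * (R + ρ) - 4) ^ 2 + 27 * (8 * (R + ρ) - 3) * (R - ρ) ^ 2 -
      648 * (R + ρ) * ρ ^ 2 := by
  set x := 3 * (R + ρ) - 1 with hx
  have hx0 : 0 ≤ x := by rw [hx]; linarith
  have hR' : R = (x + 1) / 3 - ρ := by rw [hx]; ring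
  have e : (9 * (R + ρ) - 4) ^ 2 + 27 * (8 * (R + ρ) - 3) * (R - ρ) ^ 2 -
      648 * (R + ρ) * ρ ^ 2 = 8 * x ^ 2 * (x + 3) +
        108 * ρ * ((1 - 8 * x) * R / 3 - 2 * (x + 1) * ρ) := by
    rw [hx]; ring
  rw [e]
  have hx3 : 0 ≤ 8 * x ^ 3 := by positivity
  rcases le_or_gt (8 * x) 1 with h8 | h8
  · have k1 : 0.0393 - 0.9158 * x ≤ (1 - 8 * x) * R / 3 - 2 * (x + 1) * ρ := by
      have := mul_le_mul_of_nonneg_left hR (sub_nonneg.2 h8)
      have := mul_le_mul_of_nonneg_left hρ (by linarith only [h] : (0 : ℝ) ≤ x + 1)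
      nlinarith
    have k2 : ρ * (0.0393 - 0.9158 * x) ≤ ρ * ((1 - 8 * x) * R / 3 - 2 * (x + 1) * ρ) :=
      mul_le_mul_of_nonneg_left k1 hρ0
    have k3 : 0 ≤ 24 * x ^ 2 + 108 * (ρ * (0.0393 - 0.9158 * x)) := by
      rcases le_or_gt (0.9158 * x) 0.0393 with h9 | h9
      · have : 0 ≤ ρ * (0.0393 - 0.9158 * x) := mul_nonneg hρ0 (by linarith only [h9])
        (clear * - hρ0 h9; positivity)
      · have : 0.0334 * (0.0393 - 0.9158 * x) ≤ ρ * (0.0393 - 0.9158 * x) :=
          mul_le_mul_of_nonpos_right hρ (by linarith only [h9])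
        linarith only [sq_nonneg (x - 0.069), h9, this]
    linarith only [k2, k3, hx3]
  · have hR2 : R ≤ 0.4445 := by linarith only [hρ0, h2]
    have k1 : 0.0813 - 1.2526 * x ≤ (1 - 8 * x) * R / 3 - 2 * (x + 1) * ρ := by
      have := mul_le_mul_of_nonneg_left hR2 (by linarith only [h8] : (0 : ℝ) ≤ 8 * x - 1)
      have := mul_le_mul_of_nonneg_left hρ (by linarith only [h8] : (0 : ℝ) ≤ x + 1)
      nlinarith
    have k2 : ρ * (0.0813 - 1.2526 * x) ≤ ρ * ((1 - 8 * x) * R / 3 - 2 * (x + 1) * ρ) :=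
      mul_le_mul_of_nonneg_left k1 hρ0
    have k3 : 0 ≤ 24 * x ^ 2 + 108 * (ρ * (0.0813 - 1.2526 * x)) := by
      have : 0.0334 * (0.0813 - 1.2526 * x) ≤ ρ * (0.0813 - 1.2526 * x) :=
          mul_le_mul_of_nonpos_right hρ (by linarith only [h8])
      nlinarith only [sq_nonneg (x - 0.094), h8, this]
    linarith only [k2, k3, hx3]

theorem J0_le_ball {V σ : ℝ} (hV : 0 ≤ V) (hσ : 0 < σ) :
    J0 V ≤ 4 * Real.pi / 3 * σ ^ 2 + 2 * V / σ := (min_le_left _ _).trans (ball_le hV hσ)

theorem J0_le_tube {V σ : ℝ} (hV : 0 ≤ V) (hσ : 0 < σ) :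
    J0 V ≤ 2 * V / σ + Real.pi * σ / 2 := by
  have hpi := Real.pi_pos
  refine (min_le_right _ _).trans ((tube_le (t := Real.pi * σ / 2) hV (by positivity)).trans
    (le_of_eq ?_))
  field_simp

theorem small_m {ρ R V : ℝ} (hV : 0 ≤ V) (hρ0 : 0 ≤ ρ) (hρ : ρ ≤ 0.0334) (hR : 0.3183 ≤ R) :
    J0 V ≤ Bf ρ R V - 4 * (Real.pi * ρ ^ 2) := by
  have hpi := Real.pi_pos
  have hσ : 0 < R + ρ := by linarith only [hR, hρ0]
  have eB : Bf ρ R V - 4 * (Real.pi * ρ ^ 2) = 2 * V / (R + ρ) +
      Real.pi * (4 / 3 * (R - ρ) ^ 2 + 2 * (ρ * R) / (R + ρ) - 4 * ρ ^ 2) := by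
    unfold Bf
    rw [add_comm ρ R]
    ring
  rw [eB]
  rcases le_or_gt (3 * (R + ρ)) 1 with h | h
  · refine (J0_le_ball hV hσ).trans ?_
    have k1 : 4 / 3 * (R + ρ) ^ 2 ≤ 4 / 3 * (R - ρ) ^ 2 + 2 * (ρ * R) / (R + ρ) - 4 * ρ ^ 2 := by
      have : 16 / 3 * (ρ * R) + 4 * ρ ^ 2 ≤ 2 * (ρ * R) / (R + ρ) := by
        rw [le_div_iff₀ hσ]
        have h0 : (8 / 3 * R + 2 * ρ) * (R + ρ) ≤ R := by
          have : (8 / 3 * R + 2 * ρ) * (R + ρ) ≤ (8 / 3 * R + 2 * ρ) * (1 / 3) :=
            mul_le_mul_of_nonneg_left (by linarith only [h]) (by positivity)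
          linarith only [this, hσ, hR, hρ]
        linarith only [mul_le_mul_of_nonneg_left h0 hρ0]
      linarith only [this]
    have k2 := mul_le_mul_of_nonneg_left k1 hpi.le
    linarith only [k2]
  rcases le_or_gt 4 (9 * (R + ρ)) with h2 | h2
  · refine (J0_le_tube hV hσ).trans ?_
    have k1 : (R + ρ) / 2 ≤ 4 / 3 * (R - ρ) ^ 2 + 2 * (ρ * R) / (R + ρ) - 4 * ρ ^ 2 := by
      have e1 : 2 * (ρ * R) / (R + ρ) = (R + ρ) / 2 - (R - ρ) ^ 2 / (2 * (R + ρ)) := by
        field_simp
        ring
      rw [e1]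
      have h3 : (R - ρ) ^ 2 / (2 * (R + ρ)) ≤ (R - ρ) ^ 2 * (9 / 8) := by
        rw [div_le_iff₀ (by positivity)]
        have := sq_nonneg (R - ρ)
        linarith only [mul_nonneg (sq_nonneg (1 * R - 1 * ρ : ℝ)) (sub_nonneg.2 h2)]
      have h4 : 0.37 ^ 2 ≤ (R - ρ) ^ 2 := by
        apply pow_le_pow_left₀ (by norm_num)
        linarith only [hρ, h, h2]
      have h5 : ρ ^ 2 ≤ 0.0334 ^ 2 := pow_le_pow_left₀ hρ0 hρ 2
      norm_num at h4 h5
      linarith only [h3, h4, h5]
    have k2 := mul_le_mul_of_nonneg_left k1 hpi.le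
    linarith only [k2]
  · have b1 := J0_le_ball (σ := 1 / 3) hV (by norm_num)
    have b2 := J0_le_tube (σ := 4 / 9) hV (by norm_num)
    set θ : ℝ := (2 / (R + ρ) - 9 / 2) / (3 / 2) with hθ
    have i1 : 2 / (R + ρ) ≤ 6 := by
      rw [div_le_iff₀ hσ]; linarith only [h]
    have i2 : 9 / 2 ≤ 2 / (R + ρ) := by
      rw [le_div_iff₀ hσ]; linarith only [h2]
    have t0 : 0 ≤ θ := by rw [hθ]; apply div_nonneg _ (by norm_num); linarith only [i2]
    have t1 : θ ≤ 1 := by rw [hθ, div_le_one (by norm_num)]; linarith only [i1]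
    have b3 : J0 V ≤ 4 * Real.pi / 9 + 2 / (R + ρ) * (V - 4 * Real.pi / 81) := by
      have e1 : 4 * Real.pi / 9 + 2 / (R + ρ) * (V - 4 * Real.pi / 81) =
          θ * (4 * Real.pi / 3 * (1 / 3) ^ 2 + 2 * V / (1 / 3)) +
            (1 - θ) * (2 * V / (4 / 9) + Real.pi * (4 / 9) / 2) := by
        rw [hθ]; ring
      rw [e1]
      linarith only [mul_le_mul_of_nonneg_left b2 (sub_nonneg.2 t1), mul_le_mul_of_nonneg_left b1 t0]
    refine b3.trans ?_
    have k1 : 4 / 9 - 2 / (R + ρ) * (4 / 81) ≤
        4 / 3 * (R - ρ) ^ 2 + 2 * (ρ * R) / (R + ρ) - 4 * ρ ^ 2 := by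
      have haux := small_m_aux hρ0 hρ hR h.le h2.le
      have e2 : 4 / 3 * (R - ρ) ^ 2 + 2 * (ρ * R) / (R + ρ) - 4 * ρ ^ 2 -
          (4 / 9 - 2 / (R + ρ) * (4 / 81)) =
          ((9 * (R + ρ) - 4) ^ 2 + 27 * (8 * (R + ρ) - 3) * (R - ρ) ^ 2 -
            648 * (R + ρ) * ρ ^ 2) / (162 * (R + ρ)) := by
        field_simp
        ring
      have : 0 ≤ 4 / 3 * (R - ρ) ^ 2 + 2 * (ρ * R) / (R + ρ) - 4 * ρ ^ 2 -
          (4 / 9 - 2 / (R + ρ) * (4 / 81)) := by
        rw [e2]; positivity
      linarith only [this]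
    have k2 := mul_le_mul_of_nonneg_left k1 hpi.le
    have e3 : 2 / (R + ρ) * (V - 4 * Real.pi / 81) = 2 * V / (R + ρ) -
        Real.pi * (2 / (R + ρ) * (4 / 81)) := by ring
    rw [e3]
    linarith only [k2]

end Vale.Agent.P232
end
end

section

section

open MeasureTheory Set Filter Topology
open scoped Pointwise Convolution

namespace Vale.Agent.P232

/-- distance to the nearest integer -/
noncomputable def nr (t : ℝ) : ℝ := |t - round t|

theorem nr_nonneg (t : ℝ) : 0 ≤ nr t := abs_nonneg _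

theorem nr_le_half (t : ℝ) : nr t ≤ 1 / 2 := abs_sub_round t

theorem nr_add_int (t : ℝ) (k : ℤ) : nr (t + k) = nr t := by
  unfold nr
  rw [round_add_intCast]
  push_cast
  rw [add_sub_add_right_eq_sub]

theorem nr_of_abs_lt {t : ℝ} (h : |t| < 1 / 2) : nr t = |t| := by
  have hr : round t = 0 := by
    rw [round_eq_zero_iff]
    rw [abs_lt] at h
    exact ⟨by linarith only [h.1], h.2⟩
  unfold nr
  rw [hr]
  simp

theorem nr_of_mem {t : ℝ} (h0 : 0 ≤ t) (h1 : t < 1 / 2) : nr t = t := by
  rw [nr_of_abs_lt (by rw [abs_of_nonneg h0]; exact h1), abs_of_nonneg h0]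

theorem nr_half : nr (1 / 2) = 1 / 2 := by
  have hr : round (1 / 2 : ℝ) = 1 := by
    rw [round_eq]
    norm_num
  unfold nr
  rw [hr]
  norm_num

theorem nr_nr (t : ℝ) : nr (nr t) = nr t := by
  rcases (nr_le_half t).lt_or_eq with h | h
  · exact nr_of_mem (nr_nonneg t) h
  · rw [h]; exact nr_half

theorem measurable_nr : Measurable nr := by
  have hr : Measurable fun t : ℝ => ((round t : ℤ) : ℝ) := by
    simp_rw [round_eq]
    exact (Measurable.of_discrete (f := fun z : ℤ => (z : ℝ))).comp
      (Int.measurable_floor.comp (measurable_id.add_const (1 / 2 : ℝ)))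
  exact continuous_abs.measurable.comp (measurable_id.sub hr)

/-- symmetric decreasing in one coordinate -/
def SymDec {n : ℕ} (i : Fin n) (E : Set (Fin n → ℝ)) : Prop :=
  ∀ x y : Fin n → ℝ, (∀ k, k ≠ i → y k = x k) → nr (y i) ≤ nr (x i) → x ∈ E → y ∈ E

theorem isDown_of_symDec {n : ℕ} {E : Set (Fin n → ℝ)} (h : ∀ i, SymDec i E) : IsDown E := by
  classical
  intro x y hxy hx
  have key : ∀ s : Finset (Fin n), (fun k => if k ∈ s then y k else x k) ∈ E := by
    intro s
    induction s using Finset.induction_on with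
    | empty => simpa using hx
    | insert a s ha ih =>
      refine h a _ _ ?_ ?_ ih
      · intro k hk
        simp [Finset.mem_insert, hk]
      · simp [ha]
        exact hxy a
  have := key Finset.univ
  simpa using this

theorem IsDown.isPeriodic {n : ℕ} {E : Set (Fin n → ℝ)} (h : IsDown E) : IsPeriodic E := by
  intro x k
  constructor
  · apply h
    intro i
    exact (nr_add_int (x i) (k i)).ge
  · apply h
    intro i
    exact (nr_add_int (x i) (k i)).le

theorem symDec_steiner_self {n : ℕ} (i : Fin (n + 1)) (E : Set (Fin (n + 1) → ℝ)) :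
    SymDec i (steiner i E) := by
  intro x y h1 h2 hx
  have e : (fun j => y (i.succAbove j)) = (fun j => x (i.succAbove j)) := by
    ext j
    exact h1 _ (Fin.succAbove_ne i j)
  simp only [steiner, mem_ofPred_eq] at hx ⊢
  rw [e]
  exact h2.trans_lt hx

theorem colH_mono {n : ℕ} (i : Fin (n + 1)) {E : Set (Fin (n + 1) → ℝ)} (hE : MeasurableSet E)
    {y z : Fin n → ℝ} (h : ∀ t, i.insertNth (α := fun _ => ℝ) t y ∈ E →
      i.insertNth (α := fun _ => ℝ) t z ∈ E) : colH i E y ≤ colH i E z := by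
  unfold colH colMean
  apply integral_mono (integrable_ind_col i hE y) (integrable_ind_col i hE z)
  intro t
  simp only
  by_cases ht : i.insertNth (α := fun _ => ℝ) t y ∈ E
  · rw [indicator_of_mem ht, indicator_of_mem (h t ht)]
  · rw [indicator_of_notMem ht]
    exact indicator_nonneg' _ _

theorem symDec_steiner_of_ne {n : ℕ} {i j : Fin (n + 1)} (hij : j ≠ i)
    {E : Set (Fin (n + 1) → ℝ)} (hE : MeasurableSet E) (h : SymDec j E) :
    SymDec j (steiner i E) := by
  intro x y h1 h2 hx
  simp only [steiner, mem_ofPred_eq] at hx ⊢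
  rw [h1 i hij.symm]
  refine hx.trans_le ?_
  have : colH i E (fun k => x (i.succAbove k)) ≤ colH i E (fun k => y (i.succAbove k)) := by
    apply colH_mono i hE
    intro t ht
    refine h _ _ ?_ ?_ ht
    · intro k hk
      rcases Fin.eq_self_or_eq_succAbove i k with rfl | ⟨l, rfl⟩
      · simp
      · simp only [Fin.insertNth_apply_succAbove]
        exact h1 _ hk
    · obtain ⟨l, rfl⟩ := Fin.exists_succAbove_eq hij
      simp only [Fin.insertNth_apply_succAbove]
      exact h2
  linarith only [this]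

/-- Iterated Steiner symmetrization. -/
theorem exists_isDown {E : Set (Fin 3 → ℝ)} (hE : MeasurableSet E) (hp : IsPeriodic E) :
    ∃ E' : Set (Fin 3 → ℝ), MeasurableSet E' ∧ IsDown E' ∧ vol E' = vol E ∧
      perimeter E' ≤ perimeter E := by
  set E0 := steiner 0 E with hE0
  set E1 := steiner 1 E0 with hE1
  set E2 := steiner 2 E1 with hE2
  have m0 : MeasurableSet E0 := measurableSet_steiner 0 hE
  have m1 : MeasurableSet E1 := measurableSet_steiner 1 m0
  have m2 : MeasurableSet E2 := measurableSet_steiner 2 m1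
  have p0 : IsPeriodic E0 := isPeriodic_steiner 0 hp
  have p1 : IsPeriodic E1 := isPeriodic_steiner 1 p0
  refine ⟨E2, m2, ?_, ?_, ?_⟩
  · apply isDown_of_symDec
    intro i
    have h0 : SymDec 0 E0 := symDec_steiner_self 0 E
    have h01 : SymDec 0 E1 := symDec_steiner_of_ne (by decide) m0 h0
    have h02 : SymDec 0 E2 := symDec_steiner_of_ne (by decide) m1 h01
    have h11 : SymDec 1 E1 := symDec_steiner_self 1 E0
    have h12 : SymDec 1 E2 := symDec_steiner_of_ne (by decide) m1 h11
    have h22 : SymDec 2 E2 := symDec_steiner_self 2 E1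
    fin_cases i
    · exact h02
    · exact h12
    · exact h22
  · rw [hE2, vol_steiner 2 m1 p1, hE1, vol_steiner 1 m0 p0, hE0, vol_steiner 0 hE hp]
  · exact ((perimeter_steiner_le 2 m1 p1).trans (perimeter_steiner_le 1 m0 p0)).trans
      (perimeter_steiner_le 0 hE hp)

section
variable {n : ℕ} {E : Set (Fin (n + 1) → ℝ)}

theorem IsDown.slice (h : IsDown E) (i : Fin (n + 1)) (t : ℝ) : IsDown (slice i E t) := by
  intro x y hxy hx
  refine h _ _ ?_ hx
  intro k
  rcases Fin.eq_self_or_eq_succAbove i k with rfl | ⟨l, rfl⟩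
  · simp
  · simp only [Fin.insertNth_apply_succAbove]
    exact hxy l

theorem IsDown.slice_subset (h : IsDown E) (i : Fin (n + 1)) {s t : ℝ} (hst : nr s ≤ nr t) :
    Vale.Agent.P232.slice i E t ⊆ Vale.Agent.P232.slice i E s := by
  intro x hx
  refine h _ _ ?_ hx
  intro k
  rcases Fin.eq_self_or_eq_succAbove i k with rfl | ⟨l, rfl⟩
  · simp only [Fin.insertNth_apply_same]
    exact hst
  · simp only [Fin.insertNth_apply_succAbove]
    exact le_rfl

theorem IsDown.slice_eq (h : IsDown E) (i : Fin (n + 1)) {s t : ℝ} (hst : nr s = nr t) :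
    Vale.Agent.P232.slice i E t = Vale.Agent.P232.slice i E s :=
  (h.slice_subset i hst.le).antisymm (h.slice_subset i hst.ge)

theorem IsDown.sv_le (h : IsDown E) (i : Fin (n + 1)) {s t : ℝ} (hst : nr s ≤ nr t) :
    sv i E t ≤ sv i E s := vol_mono (h.slice_subset i hst)

theorem IsDown.sv_eq (h : IsDown E) (i : Fin (n + 1)) {s t : ℝ} (hst : nr s = nr t) :
    sv i E t = sv i E s := by
  unfold sv
  rw [h.slice_eq i hst]

theorem far_nonneg (i : Fin (n + 1)) (E : Set (Fin (n + 1) → ℝ)) : 0 ≤ far i E := by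
  apply Real.sInf_nonneg
  rintro _ ⟨s, _, rfl⟩
  exact sv_nonneg i E s

theorem bddBelow_far (i : Fin (n + 1)) (E : Set (Fin (n + 1) → ℝ)) :
    BddBelow (sv i E '' Ioo 0 (1 / 2)) := ⟨0, by
  rintro _ ⟨s, _, rfl⟩
  exact sv_nonneg i E s⟩

theorem far_le_sv (i : Fin (n + 1)) (E : Set (Fin (n + 1) → ℝ)) {s : ℝ} (hs : s ∈ Ioo (0 : ℝ) (1 / 2)) :
    far i E ≤ sv i E s := csInf_le (bddBelow_far i E) ⟨s, hs, rfl⟩

theorem nonempty_far (i : Fin (n + 1)) (E : Set (Fin (n + 1) → ℝ)) :
    (sv i E '' Ioo 0 (1 / 2)).Nonempty := ⟨_, 1 / 4, by norm_num, rfl⟩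

theorem le_far (i : Fin (n + 1)) {E : Set (Fin (n + 1) → ℝ)} {c : ℝ}
    (h : ∀ s ∈ Ioo (0 : ℝ) (1 / 2), c ≤ sv i E s) : c ≤ far i E := by
  apply le_csInf (nonempty_far i E)
  rintro _ ⟨s, hs, rfl⟩
  exact h s hs

theorem far_le_one (i : Fin (n + 1)) (E : Set (Fin (n + 1) → ℝ)) : far i E ≤ 1 :=
  (far_le_sv i E (s := 1 / 4) (by norm_num)).trans (sv_le_one _ _ _)

theorem far_mono (i : Fin (n + 1)) {E E' : Set (Fin (n + 1) → ℝ)} (h : E ⊆ E') :
    far i E ≤ far i E' := by
  apply le_far
  intro s hs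
  exact (far_le_sv i E hs).trans (sv_mono i h s)

end

/-! ### one-dimensional sets -/

theorem vol_fin_zero_univ : vol (univ : Set (Fin 0 → ℝ)) = 1 := by
  rcases vol_fin_zero (univ : Set (Fin 0 → ℝ)) with h | h
  · exfalso
    have := vol_compl (E := (∅ : Set (Fin 0 → ℝ))) MeasurableSet.empty
    rw [compl_empty, h] at this
    simp [vol] at this
  · exact h

theorem sv_fin_one (F : Set (Fin 1 → ℝ)) (t : ℝ) :
    sv 0 F t = F.indicator (fun _ => (1 : ℝ)) (fun _ => t) := by
  unfold sv
  by_cases h : (fun _ => t) ∈ F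
  · rw [indicator_of_mem h]
    have : slice 0 F t = univ := by
      ext y
      simp only [slice, mem_ofPred_eq, mem_univ, iff_true]
      convert h using 1
      ext k
      fin_cases k
      simp
    rw [this]
    exact vol_fin_zero_univ
  · rw [indicator_of_notMem h]
    have : slice 0 F t = ∅ := by
      ext y
      simp only [slice, mem_ofPred_eq, mem_empty_iff_false, iff_false]
      intro h'
      apply h
      convert h' using 1
      ext k
      fin_cases k
      simp
    rw [this]
    simp [vol]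

theorem vol_fin_one {F : Set (Fin 1 → ℝ)} (hF : MeasurableSet F) (hp : IsPeriodic F) :
    vol F = ∫ t in (-1 / 2 : ℝ)..(1 / 2), F.indicator (fun _ => (1 : ℝ)) (fun _ => t) := by
  rw [vol_eq_intervalIntegral 0 hF hp (-1 / 2)]
  have e : (-1 / 2 + 1 : ℝ) = 1 / 2 := by norm_num
  rw [e]
  simp_rw [sv_fin_one]

theorem mem_of_lt_vol {F : Set (Fin 1 → ℝ)} (hF : MeasurableSet F) (hd : IsDown F) {y : ℝ}
    (h0 : 0 ≤ y) (hy : 2 * y < vol F) : (fun _ => y) ∈ F := by
  by_contra hcon
  have h1 : vol F ≤ 2 * y := by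
    rw [vol_fin_one hF hd.isPeriodic]
    have hy1 : y < 1 / 2 := by
      have := vol_le_one F
      linarith
    have hle : ∀ t ∈ Icc (-1 / 2 : ℝ) (1 / 2), F.indicator (fun _ => (1 : ℝ)) (fun _ => t) ≤
        (Icc (-y) y).indicator (fun _ => (1 : ℝ)) t := by
      intro t ht
      by_cases hm : (fun _ => t) ∈ F
      · have ht2 : t ∈ Icc (-y) y := by
          by_contra hn
          apply hcon
          refine hd _ _ (fun _ => ?_) hm
          change nr y ≤ nr t
          rw [nr_of_mem h0 hy1]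
          have hty : y < |t| := by
            by_contra h'
            exact hn (abs_le.mp (not_lt.mp h'))
          rcases (abs_le.mpr (show t ∈ Icc (-(1 / 2)) (1 / 2) by
            constructor <;> linarith only [ht.1, ht.2])).lt_or_eq with h | h
          · rw [nr_of_abs_lt h]; exact hty.le
          · have : nr t = 1 / 2 := by
              rcases abs_cases t with h' | h'
              · rw [h'.1] at h; rw [h]; exact nr_half
              · have ht' : t = 1 / 2 + ((-1 : ℤ) : ℝ) := by push_cast; linarith only [h'.1, h]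
                rw [ht', nr_add_int]; exact nr_half
            rw [this]; exact hy1.le
        rw [indicator_of_mem hm, indicator_of_mem ht2]
      · rw [indicator_of_notMem hm]
        exact indicator_nonneg (fun _ _ => zero_le_one) _
    have hint : IntervalIntegrable (fun t => F.indicator (fun _ => (1 : ℝ)) (fun _ => t)) volume
        (-1 / 2) (1 / 2) := by
      have := intervalIntegrable_sv 0 hF (-1 / 2) (1 / 2)
      rwa [show sv 0 F = _ from funext (sv_fin_one F)] at this
    have hint2 : IntervalIntegrable ((Icc (-y) y).indicator (fun _ => (1 : ℝ))) volume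
        (-1 / 2) (1 / 2) := by
      rw [intervalIntegrable_iff]
      apply Integrable.indicator _ measurableSet_Icc
      exact intervalIntegrable_iff.mp intervalIntegrable_const
    refine (intervalIntegral.integral_mono_on (by norm_num) hint hint2 hle).trans ?_
    rw [intervalIntegral.integral_of_le (by norm_num), setIntegral_indicator measurableSet_Icc]
    have hsub : (Ioc (-1 / 2 : ℝ) (1 / 2)) ∩ Icc (-y) y = Icc (-y) y := by
      apply inter_eq_self_of_subset_right
      intro t ht
      exact ⟨by linarith [ht.1], by linarith [ht.2]⟩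
    rw [hsub, setIntegral_const, Real.volume_real_Icc_of_le (by linarith)]
    simp only [smul_eq_mul, mul_one]
    linarith
  linarith

theorem two_mul_le_vol {F : Set (Fin 1 → ℝ)} (hF : MeasurableSet F) (hd : IsDown F) {y : ℝ}
    (h0 : 0 ≤ y) (h1 : y ≤ 1 / 2) (hy : (fun _ => y) ∈ F) : 2 * y ≤ vol F := by
  rw [vol_fin_one hF hd.isPeriodic]
  have hle : ∀ t ∈ Icc (-1 / 2 : ℝ) (1 / 2), (Ioo (-y) y).indicator (fun _ => (1 : ℝ)) t ≤
      F.indicator (fun _ => (1 : ℝ)) (fun _ => t) := by
    intro t ht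
    by_cases hm : t ∈ Ioo (-y) y
    · have ht2 : (fun _ => t) ∈ F := by
        refine hd _ _ (fun _ => ?_) hy
        change nr t ≤ nr y
        have hty : |t| < y := abs_lt.mpr hm
        rw [nr_of_abs_lt (by linarith only [h1, hty])]
        rcases h1.lt_or_eq with h | h
        · rw [nr_of_mem h0 h]; exact hty.le
        · rw [h, nr_half]; linarith only [h1, hty]
      rw [indicator_of_mem hm, indicator_of_mem ht2]
    · rw [indicator_of_notMem hm]
      exact indicator_nonneg (fun _ _ => zero_le_one) _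
  have hint : IntervalIntegrable (fun t => F.indicator (fun _ => (1 : ℝ)) (fun _ => t)) volume
      (-1 / 2) (1 / 2) := by
    have := intervalIntegrable_sv 0 hF (-1 / 2) (1 / 2)
    rwa [show sv 0 F = _ from funext (sv_fin_one F)] at this
  have hint2 : IntervalIntegrable ((Ioo (-y) y).indicator (fun _ => (1 : ℝ))) volume
      (-1 / 2) (1 / 2) := by
    rw [intervalIntegrable_iff]
    apply Integrable.indicator _ measurableSet_Ioo
    exact intervalIntegrable_iff.mp intervalIntegrable_const
  refine le_trans (le_of_eq ?_) (intervalIntegral.integral_mono_on (by norm_num) hint2 hint hle)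
  rw [intervalIntegral.integral_of_le (by norm_num), setIntegral_indicator measurableSet_Ioo]
  have hsub : (Ioc (-1 / 2 : ℝ) (1 / 2)) ∩ Ioo (-y) y = Ioo (-y) y := by
    apply inter_eq_self_of_subset_right
    intro t ht
    exact ⟨by linarith [ht.1], by linarith [ht.2]⟩
  rw [hsub, setIntegral_const, Real.volume_real_Ioo_of_le (by linarith)]
  simp only [smul_eq_mul, mul_one]
  ring

end Vale.Agent.P232
end
end

section

section

open MeasureTheory Set Filter Topology
open scoped Pointwise Convolution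

namespace Vale.Agent.P232

theorem insert_insert (j : Fin 3) (c : Fin 2) (t s y : ℝ) :
    j.insertNth (α := fun _ => ℝ) t (c.insertNth (α := fun _ => ℝ) s (fun _ => y)) =
      fun l => if l = j then t else if l = j.succAbove c then s else y := by
  ext l
  rcases Fin.eq_self_or_eq_succAbove j l with rfl | ⟨m, rfl⟩
  · simp
  · rw [Fin.insertNth_apply_succAbove, if_neg (Fin.succAbove_ne j m)]
    rcases Fin.eq_self_or_eq_succAbove c m with rfl | ⟨q, rfl⟩
    · simp
    · rw [Fin.insertNth_apply_succAbove, if_neg]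
      intro h
      exact Fin.succAbove_ne c q (Fin.succAbove_right_injective h)

theorem three_cases : ∀ i j k l : Fin 3, i ≠ j → i ≠ k → j ≠ k → l = i ∨ l = j ∨ l = k := by
  decide

section
variable {E : Set (Fin 3 → ℝ)}

/-- Duality between the two ways of slicing the far trace. -/
theorem far_dual (hE : MeasurableSet E) (hd : IsDown E) {i j k : Fin 3} (hij : i ≠ j)
    {c c' : Fin 2} (hc : j.succAbove c = k) (hc' : i.succAbove c' = k) {t y : ℝ}
    (ht0 : 0 < t) (ht1 : t < 1 / 2) (hy0 : 0 ≤ y) (h : 2 * y < far c (slice j E t)) :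
    2 * t ≤ far c' (slice i E y) := by
  apply le_far
  intro s hs
  have hjk : j ≠ k := by rw [← hc]; exact (Fin.succAbove_ne j c).symm
  have hik : i ≠ k := by rw [← hc']; exact (Fin.succAbove_ne i c').symm
  have h1 : 2 * y < sv c (slice j E t) s := h.trans_le (far_le_sv c _ hs)
  have h2 : (fun _ => y) ∈ slice c (slice j E t) s :=
    mem_of_lt_vol (measurableSet_slice c (measurableSet_slice j hE t) s)
      ((hd.slice j t).slice c s) hy0 h1
  have h3 : (fun _ => t) ∈ slice c' (slice i E y) s := by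
    simp only [slice, mem_ofPred_eq] at h2 ⊢
    rw [insert_insert] at h2 ⊢
    rw [hc] at h2
    rw [hc']
    convert h2 using 1
    ext l
    rcases three_cases i j k l hij hik hjk with rfl | rfl | rfl
    · simp [hij, hik]
    · simp [hij.symm, hjk]
    · simp [hik.symm, hjk.symm]
  exact two_mul_le_vol (measurableSet_slice c' (measurableSet_slice i hE y) s)
    ((hd.slice i y).slice c' s) ht0.le ht1.le h3

/-- The extent in direction `j` of the far trace at the wall `j.succAbove c`. -/
noncomputable def bnd (E : Set (Fin 3 → ℝ)) (j : Fin 3) (c : Fin 2) : ℝ :=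
  2 * sSup {t | t ∈ Ioo (0 : ℝ) (1 / 2) ∧ 0 < far c (slice j E t)}

theorem bddAbove_bnd (E : Set (Fin 3 → ℝ)) (j : Fin 3) (c : Fin 2) :
    BddAbove {t | t ∈ Ioo (0 : ℝ) (1 / 2) ∧ 0 < far c (slice j E t)} :=
  ⟨1 / 2, fun _ ht => ht.1.2.le⟩

theorem bnd_nonneg (E : Set (Fin 3 → ℝ)) (j : Fin 3) (c : Fin 2) : 0 ≤ bnd E j c := by
  have : 0 ≤ sSup {t | t ∈ Ioo (0 : ℝ) (1 / 2) ∧ 0 < far c (slice j E t)} :=
    Real.sSup_nonneg fun t ht => ht.1.1.le
  unfold bnd
  linarith only [this]

theorem bnd_le_one (E : Set (Fin 3 → ℝ)) (j : Fin 3) (c : Fin 2) : bnd E j c ≤ 1 := by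
  have : sSup {t | t ∈ Ioo (0 : ℝ) (1 / 2) ∧ 0 < far c (slice j E t)} ≤ 1 / 2 :=
    Real.sSup_le (fun t ht => ht.1.2.le) (by norm_num)
  unfold bnd
  linarith only [this]

theorem far_eq_zero_of_bnd_lt {j : Fin 3} {c : Fin 2} {t : ℝ} (ht0 : 0 < t) (ht1 : t < 1 / 2)
    (h : bnd E j c < 2 * t) : far c (slice j E t) = 0 := by
  by_contra hne
  have hpos : 0 < far c (slice j E t) := lt_of_le_of_ne (far_nonneg _ _) (Ne.symm hne)
  have := le_csSup (bddAbove_bnd E j c) ⟨⟨ht0, ht1⟩, hpos⟩
  unfold bnd at h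
  linarith only [h, this]

theorem far_slice_anti (hd : IsDown E) (j : Fin 3) (c : Fin 2) {s t : ℝ} (h : nr s ≤ nr t) :
    far c (slice j E t) ≤ far c (slice j E s) := far_mono c (hd.slice_subset j h)

theorem far_slice_nr (hd : IsDown E) (j : Fin 3) (c : Fin 2) (t : ℝ) :
    far c (slice j E t) = far c (slice j E (nr t)) := by
  rw [hd.slice_eq j (nr_nr t)]

theorem far_pos_of_lt_bnd (hd : IsDown E) {j : Fin 3} {c : Fin 2} {t : ℝ} (ht0 : 0 < t)
    (h : 2 * t < bnd E j c) : 0 < far c (slice j E t) := by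
  have hne : {t | t ∈ Ioo (0 : ℝ) (1 / 2) ∧ 0 < far c (slice j E t)}.Nonempty := by
    by_contra hcon
    rw [not_nonempty_iff_eq_empty] at hcon
    unfold bnd at h
    rw [hcon, Real.sSup_empty] at h
    linarith
  have h' : t < sSup {t | t ∈ Ioo (0 : ℝ) (1 / 2) ∧ 0 < far c (slice j E t)} := by
    unfold bnd at h
    linarith only [h]
  obtain ⟨s, hs, hts⟩ := exists_lt_of_lt_csSup hne h'
  refine hs.2.trans_le (far_slice_anti hd j c ?_)
  rw [nr_of_mem ht0.le (hts.trans hs.1.2), nr_of_mem hs.1.1.le hs.1.2]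
  exact hts.le

theorem exists_sigma (E : Set (Fin 3 → ℝ)) (j : Fin 3) :
    ∃ c : Fin 2, bnd E j c ≤ bnd E j (c.succAbove 0) := by
  rcases le_total (bnd E j 0) (bnd E j 1) with h | h
  · exact ⟨0, h⟩
  · exact ⟨1, h⟩

theorem comb : ∀ c : Fin 3 → Fin 2, ∃ j : Fin 3,
    (j.succAbove (c j)).succAbove (c (j.succAbove (c j))) = j.succAbove ((c j).succAbove 0) := by
  decide

/-- The combinatorial dichotomy for symmetric decreasing sets. -/
theorem dichotomy (hE : MeasurableSet E) (hd : IsDown E) {e : ℝ} (he0 : 0 < e) :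
    (∃ (j : Fin 3) (c : Fin 2) (b y : ℝ), e ≤ b ∧ b ≤ 1 ∧ 0 ≤ y ∧ y ≤ 1 ∧
      (∀ t, 0 < nr t → 2 * nr t < b → 0 < far c (slice j E t) ∧
        0 < far (c.succAbove 0) (slice j E t) ∧ y ≤ far (c.succAbove 0) (slice j E t)) ∧
      (∀ t, b < 2 * nr t → nr t < 1 / 2 → far c (slice j E t) = 0 ∧
        far (c.succAbove 0) (slice j E t) ≤ y)) ∨
    (∃ (j : Fin 3) (c : Fin 2) (b : ℝ),
      (∀ t, 0 < nr t → nr t < 1 / 2 → far (c.succAbove 0) (slice j E t) ≤ e) ∧
      (∀ t, 0 < nr t → 2 * nr t < b → 0 < far c (slice j E t) ∧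
        0 < far (c.succAbove 0) (slice j E t)) ∧
      (∀ t, b < 2 * nr t → nr t < 1 / 2 → far c (slice j E t) = 0)) := by
  choose c hc using exists_sigma E
  by_cases hG : ∃ j, e ≤ bnd E j (c j)
  · left
    obtain ⟨j, hj⟩ := hG
    set S : Set ℝ := (fun t => far ((c j).succAbove 0) (slice j E t)) ''
      {t | 0 < t ∧ 2 * t < bnd E j (c j)} with hS
    have hbpos : 0 < bnd E j (c j) := he0.trans_le hj
    have hSne : S.Nonempty := ⟨_, bnd E j (c j) / 4, ⟨by linarith only [he0, hj], by linarith only [he0, hj]⟩, rfl⟩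
    have hSbdd : BddBelow S := ⟨0, by
      rintro _ ⟨t, _, rfl⟩
      exact far_nonneg _ _⟩
    have hb1 := bnd_le_one E j (c j)
    refine ⟨j, c j, bnd E j (c j), sInf S, hj, hb1, ?_, ?_, ?_, ?_⟩
    · apply Real.sInf_nonneg
      rintro _ ⟨t, _, rfl⟩
      exact far_nonneg _ _
    · obtain ⟨z, hz⟩ := hSne
      refine (csInf_le hSbdd hz).trans ?_
      obtain ⟨t, _, rfl⟩ := hz
      exact far_le_one _ _
    · intro t ht0 ht1
      rw [far_slice_nr hd, far_slice_nr hd j ((c j).succAbove 0)]
      refine ⟨far_pos_of_lt_bnd hd ht0 ht1, far_pos_of_lt_bnd hd ht0 (ht1.trans_le (hc j)), ?_⟩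
      exact csInf_le hSbdd ⟨nr t, ⟨ht0, ht1⟩, rfl⟩
    · intro t ht0 ht1
      rw [far_slice_nr hd, far_slice_nr hd j ((c j).succAbove 0)]
      refine ⟨far_eq_zero_of_bnd_lt (by linarith) ht1 ht0, ?_⟩
      apply le_csInf hSne
      rintro _ ⟨s, ⟨hs0, hs1⟩, rfl⟩
      apply far_slice_anti hd
      rw [nr_nr, nr_of_mem hs0.le (by linarith)]
      linarith
  · right
    push Not at hG
    obtain ⟨j, hj⟩ := comb c
    set i := j.succAbove (c j) with hi
    refine ⟨j, c j, bnd E j (c j), ?_, ?_, ?_⟩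
    · intro t ht0 ht1
      rw [far_slice_nr hd]
      by_contra hcon
      push Not at hcon
      set r := far ((c j).succAbove 0) (slice j E (nr t)) with hr
      have hr1 : r ≤ 1 := far_le_one _ _
      have hij : i ≠ j := Fin.succAbove_ne j (c j)
      have h := far_dual hE hd (i := i) (j := j) (k := j.succAbove ((c j).succAbove 0)) hij
        (c := (c j).succAbove 0) (c' := c i) rfl hj (t := nr t) (y := (e + r) / 4) ht0 ht1
        (by linarith only [he0, hcon]) (by rw [← hr]; linarith)
      have h2 := far_eq_zero_of_bnd_lt (E := E) (j := i) (c := c i) (t := (e + r) / 4)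
        (by linarith) (by linarith only [hcon, hr1]) (by have := hG i; linarith only [hcon, this])
      rw [h2] at h
      linarith
    · intro t ht0 ht1
      rw [far_slice_nr hd, far_slice_nr hd j ((c j).succAbove 0)]
      exact ⟨far_pos_of_lt_bnd hd ht0 ht1, far_pos_of_lt_bnd hd ht0 (ht1.trans_le (hc j))⟩
    · intro t ht0 ht1
      rw [far_slice_nr hd]
      have := bnd_nonneg E j (c j)
      exact far_eq_zero_of_bnd_lt (by linarith) ht1 ht0

end

end Vale.Agent.P232
end
end

section

section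

open MeasureTheory Set Filter Topology
open scoped Pointwise Convolution

namespace Vale.Agent.P232

theorem nr_of_mem_Ico {t : ℝ} (h0 : 0 ≤ t) (h1 : t < 1) : nr t = min t (1 - t) := by
  rcases lt_trichotomy t (1 / 2) with h | h | h
  · rw [nr_of_mem h0 h, min_eq_left (by linarith only [h])]
  · rw [h, nr_half, min_eq_left (by norm_num)]
  · have e : t = (t - 1) + ((1 : ℤ) : ℝ) := by push_cast; ring
    rw [e, nr_add_int, nr_of_abs_lt (by rw [abs_lt]; constructor <;> linarith), ← e,
      min_eq_right (by linarith), abs_of_nonpos (by linarith)]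
    ring

theorem ae_two_nr_ne (b : ℝ) : ∀ᵐ t ∂mu, 2 * nr t ≠ b := by
  have h1 : ∀ᵐ t ∂mu, t ≠ b / 2 := ae_restrict_of_ae (Far2D.ae_ne _)
  have h2 : ∀ᵐ t ∂mu, t ≠ 1 - b / 2 := ae_restrict_of_ae (Far2D.ae_ne _)
  filter_upwards [h1, h2, ae_mu_mem] with t h1 h2 h3 hb
  rw [nr_of_mem_Ico h3.1 h3.2] at hb
  rcases min_cases t (1 - t) with ⟨h, _⟩ | ⟨h, _⟩
  · rw [h] at hb; apply h1; linarith only [hb]
  · rw [h] at hb; apply h2; linarith only [hb]

theorem ae_nr_pos : ∀ᵐ t ∂mu, 0 < nr t := by
  filter_upwards [ae_two_nr_ne 0] with t ht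
  exact lt_of_le_of_ne (nr_nonneg t) fun h => ht (by rw [← h]; ring)

theorem ae_nr_lt : ∀ᵐ t ∂mu, nr t < 1 / 2 := by
  filter_upwards [ae_two_nr_ne 1] with t ht
  exact lt_of_le_of_ne (nr_le_half t) fun h => ht (by rw [h]; ring)

/-- The heights in the middle band of width `e`. -/
def band (e : ℝ) : Set ℝ := {t | 2 * nr t < e}

theorem measurableSet_band (e : ℝ) : MeasurableSet (band e) :=
  measurableSet_lt (measurable_const.mul measurable_nr) measurable_const

theorem mu_band {e : ℝ} (h0 : 0 ≤ e) (h1 : e ≤ 1) : (mu (band e)).toReal = e := by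
  have h : band e ∩ Ico (0 : ℝ) 1 = Ico 0 (e / 2) ∪ Ioo (1 - e / 2) 1 := by
    ext t
    simp only [band, mem_inter_iff, mem_ofPred_eq, mem_Ico, mem_union, mem_Ioo]
    constructor
    · rintro ⟨h, h2, h3⟩
      rw [nr_of_mem_Ico h2 h3] at h
      rcases min_cases t (1 - t) with ⟨h', _⟩ | ⟨h', _⟩
      · rw [h'] at h; left; exact ⟨h2, by linarith only [h]⟩
      · rw [h'] at h; right; exact ⟨by linarith only [h], h3⟩
    · rintro (⟨h2, h3⟩ | ⟨h2, h3⟩)
      · have h4 : t < 1 := by linarith
        refine ⟨?_, h2, h4⟩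
        rw [nr_of_mem_Ico h2 h4]
        have := min_le_left t (1 - t)
        linarith
      · have h4 : 0 ≤ t := by linarith only [h1, h2, h3]
        refine ⟨?_, h4, h3⟩
        rw [nr_of_mem_Ico h4 h3]
        have := min_le_right t (1 - t)
        linarith only [h2, this]
  rw [Measure.restrict_apply (measurableSet_band e), h, measure_union, Real.volume_Ico,
    Real.volume_Ioo, ← ENNReal.ofReal_add (by linarith only [h0]) (by linarith only [h0]), ENNReal.toReal_ofReal]
  · ring
  · linarith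
  · rw [Set.disjoint_left]
    rintro t ⟨_, h2⟩ ⟨h3, _⟩
    linarith
  · exact measurableSet_Ioo

/-- On the band the slices are large. -/
theorem vol_le_of_band {n : ℕ} {E : Set (Fin (n + 1) → ℝ)} (hE : MeasurableSet E)
    (hd : IsDown E) (j : Fin (n + 1)) {M e : ℝ} (hM : ∀ᵐ t ∂mu, sv j E t ≤ M) (he0 : 0 ≤ e)
    (he1 : e ≤ 1) {t : ℝ} (ht : 2 * nr t < e) : vol E ≤ e * M + (1 - e) * sv j E t := by
  rw [vol_eq_integral_sv j hE]
  have hB := measurableSet_band e
  have h1 : ∀ᵐ u ∂mu, sv j E u ≤ (band e).indicator (fun _ => M - sv j E t) u + sv j E t := by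
    filter_upwards [hM] with u hu
    by_cases hm : u ∈ band e
    · rw [indicator_of_mem hm]; linarith
    · rw [indicator_of_notMem hm, zero_add]
      apply hd.sv_le j
      simp only [band, mem_ofPred_eq, not_lt] at hm
      linarith
  have hi1 : Integrable ((band e).indicator (fun _ => M - sv j E t)) mu :=
    (integrable_const _).indicator hB
  have hi2 : Integrable (fun _ : ℝ => sv j E t) mu := integrable_const _
  refine (integral_mono_ae (integrable_sv j hE) (hi1.add hi2) h1).trans (le_of_eq ?_)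
  have h2 : ∫ u, (band e).indicator (fun _ => M - sv j E t) u ∂mu = e * (M - sv j E t) := by
    rw [integral_indicator hB, setIntegral_const]
    simp only [smul_eq_mul, Measure.real]
    rw [mu_band he0 he1]
  have h3 := integral_add hi1 hi2
  simp only [Pi.add_apply] at h3 ⊢
  rw [h3, h2]
  simp
  ring

/-- the bounds for the perimeters of the slices -/
noncomputable def qC (v : ℝ) : ℝ := 2 * Real.sqrt (Real.pi * v)

/-- the bounds for the perimeters of the slices -/
noncomputable def qB (v : ℝ) : ℝ := 2 * Real.sqrt (Real.pi * (1 - v))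

/-- the corner bound for the complement of height at most `Y` -/
noncomputable def qK (Y v : ℝ) : ℝ :=
  if Real.pi * Y ^ 2 / 4 ≤ 1 - v then 2 * ((1 - v) / Y + Real.pi * Y / 4)
  else 2 * Real.sqrt (Real.pi * (1 - v))

theorem qK_eq {Y : ℝ} (hY : 0 < Y) {v : ℝ} (hv : v ≤ 1) :
    qK Y v = 2 * (Real.sqrt (Real.pi * min (1 - v) (Real.pi * Y ^ 2 / 4)) +
      max (1 - v - Real.pi * Y ^ 2 / 4) 0 / Y) := by
  have hpi := Real.pi_pos
  unfold qK
  split_ifs with h
  · rw [min_eq_right h, max_eq_left (by linarith only [h]),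
      show Real.pi * (Real.pi * Y ^ 2 / 4) = (Real.pi * Y / 2) ^ 2 by ring,
      Real.sqrt_sq (by positivity)]
    field_simp
    ring
  · push Not at h
    rw [min_eq_left h.le, max_eq_right (by linarith only [h])]
    have : 0 ≤ 1 - v := by linarith
    ring

theorem qK_le_perimeter (i : Fin 2) {F : Set (Fin 2 → ℝ)} (hF : MeasurableSet F) (h : IsDown F)
    (hi : 0 < far i F) (ho : 0 < far (i.succAbove 0) F) {y : ℝ} (hy1 : y < 1)
    (hy : y ≤ far (i.succAbove 0) F) :
    ENNReal.ofReal (qK (1 - y) (vol F)) ≤ perimeter F := by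
  unfold qK
  split_ifs with hc
  · have hY : 0 < 1 - y := by linarith only [hy1]
    rcases (far_le_one (i.succAbove 0) F).lt_or_eq with hf | hf
    · refine le_trans (ENNReal.ofReal_le_ofReal ?_) (Far2D.corner_bound i hF h hi ho hf)
      set y' := far (i.succAbove 0) F with hy'
      have hY' : 0 < 1 - y' := by linarith only [hf]
      set Y := 1 - y with hYdef
      set Y' := 1 - y' with hYdef'
      have hle : Y' ≤ Y := by linarith
      have key : (1 - vol F) / Y' + Real.pi * Y' / 4 - ((1 - vol F) / Y + Real.pi * Y / 4) =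
          (Y - Y') * ((1 - vol F) / (Y * Y') - Real.pi / 4) := by
        field_simp
        ring
      have h2 : Real.pi / 4 ≤ (1 - vol F) / (Y * Y') := by
        rw [le_div_iff₀ (by positivity)]
        have : Real.pi * (Y * Y') ≤ Real.pi * Y ^ 2 := by
          apply mul_le_mul_of_nonneg_left _ Real.pi_pos.le
          (by_contra nlg; linarith only [nlg, mul_pos (sub_pos.2 (not_le.1 nlg)) (sub_pos.2 hy1), mul_nonneg (sq_nonneg (Y : ℝ)) (sub_nonneg.2 hy)])
        linarith only [this, hc]
      have h3 : 0 ≤ (Y - Y') * ((1 - vol F) / (Y * Y') - Real.pi / 4) :=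
        mul_nonneg (by linarith only [hy]) (by linarith only [h2])
      linarith only [key, h3]
    · exfalso
      have hv : (1 : ℝ) ≤ vol F := by
        rw [vol_eq_integral_sv (i.succAbove 0) hF]
        have h1 : ∀ᵐ t ∂mu, (1 : ℝ) ≤ sv (i.succAbove 0) F t := by
          filter_upwards [ae_nr_pos, ae_nr_lt] with t h1 h2
          rw [← hf, h.sv_eq (i.succAbove 0) (nr_nr t)]
          exact far_le_sv _ _ ⟨h1, h2⟩
        have := integral_mono_ae (integrable_const (1 : ℝ)) (integrable_sv (i.succAbove 0) hF) h1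
        simpa using this
      have : 0 < Real.pi * (1 - y) ^ 2 / 4 := by
        have := Real.pi_pos
        positivity
      linarith only [hc, hv, this]
  · exact Far2D.disc_compl_bound i hF h hi ho

theorem fin2_invol : ∀ c : Fin 2, (c.succAbove 0).succAbove 0 = c := by decide

/-- The bound of Case G2. -/
theorem case_two {E : Set (Fin 3 → ℝ)} (hE : MeasurableSet E) (hd : IsDown E) {e : ℝ}
    {j : Fin 3} {c : Fin 2} {b : ℝ}
    (h0 : ∀ t, 0 < nr t → nr t < 1 / 2 → far (c.succAbove 0) (slice j E t) ≤ e)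
    (h1 : ∀ t, 0 < nr t → 2 * nr t < b → 0 < far c (slice j E t) ∧
        0 < far (c.succAbove 0) (slice j E t))
    (h2 : ∀ t, b < 2 * nr t → nr t < 1 / 2 → far c (slice j E t) = 0)
    {m M : ℝ} (hm : EssBd (sv j E) m M) (hmM : m ≤ M) {I : ℝ → ℝ} {F H : ℝ}
    (k0 : ∀ u ∈ Icc m M, 0 ≤ F + H * u) (k1 : ∀ u ∈ Icc m M, F + H * u ≤ I u)
    (kc : ContinuousOn (fun u => (F + H * u) / I u) (Icc m M))
    (kI : ∀ u ∈ Icc m M, I u ≤ qC u ∧ I u ≤ qB u ∧
      ∃ s ∈ Icc (0 : ℝ) 1, I u ≤ 2 * (arcA s + s * (u - e))) :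
    ENNReal.ofReal (2 * (∫ u in m..M, Real.sqrt (1 - ((F + H * u) / I u) ^ 2)) + F +
      H * vol E) ≤ perimeter E := by
  have hp := hd.isPeriodic
  have key := line_bound_slack' j hE hp (I := I) (F := F) (H := H) (D := 0) (B := ∅)
    MeasurableSet.empty hm hmM k0 k1 kc (by
    filter_upwards [ae_nr_pos, ae_nr_lt, ae_two_nr_ne b] with t ht0 ht1 htb hu
    have hA := measurableSet_slice j hE t
    have hAd := hd.slice j t
    have hI0 : 0 ≤ I (sv j E t) := (k0 _ hu).trans (k1 _ hu)
    obtain ⟨kI1, kI2, s, hs, kI3⟩ := kI _ hu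
    have hall : ENNReal.ofReal (I (sv j E t)) ≤ perimeter (slice j E t) := by
      rcases lt_or_gt_of_ne htb with hlt | hgt
      · obtain ⟨a1, a2⟩ := h1 t ht0 hlt
        exact (ENNReal.ofReal_le_ofReal kI2).trans (Far2D.disc_compl_bound c hA hAd a1 a2)
      · have a1 := h2 t hgt ht1
        have a2 := h0 t ht0 ht1
        rcases (far_nonneg (c.succAbove 0) (slice j E t)).eq_or_lt with h0 | h0
        · exact (ENNReal.ofReal_le_ofReal kI1).trans (Far2D.disc_bound c hA hAd a1 h0.symm)
        · refine le_trans (ENNReal.ofReal_le_ofReal ?_)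
            (Far2D.arc_bound (c.succAbove 0) hA hAd h0 (by rw [fin2_invol]; exact a1) hs.1 hs.2)
          refine kI3.trans ?_
          have : s * (sv j E t - e) ≤ s * (vol (slice j E t) -
              far (c.succAbove 0) (slice j E t)) := by
            apply mul_le_mul_of_nonneg_left _ hs.1
            change vol (slice j E t) - e ≤ _
            linarith only [a2]
          linarith only [this]
    simp only [indicator_empty, add_zero]
    refine le_trans ?_ (mul_le_mul_right hall _)
    rw [← ENNReal.ofReal_mul (div_nonneg (k0 _ hu) hI0)]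
    apply ENNReal.ofReal_le_ofReal
    rcases hI0.eq_or_lt with h5 | h5
    · have := k1 _ hu
      rw [← h5] at this ⊢
      simpa using this
    · rw [div_mul_cancel₀ _ h5.ne'])
  simpa using key

end Vale.Agent.P232
end
end

section

section

open MeasureTheory Set Filter Topology
open scoped Pointwise Convolution

namespace Vale.Agent.P232

/-- The bound of Case G1. -/
theorem case_one' {E : Set (Fin 3 → ℝ)} (hE : MeasurableSet E) (hd : IsDown E) {e : ℝ}
    (he0 : 0 < e) {j : Fin 3} {c : Fin 2} {b y : ℝ} (hb : e ≤ b) (hb1 : b ≤ 1)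
    (h1 : ∀ t, 0 < nr t → 2 * nr t < b → 0 < far c (slice j E t) ∧
        0 < far (c.succAbove 0) (slice j E t) ∧ y ≤ far (c.succAbove 0) (slice j E t))
    (h2 : ∀ t, b < 2 * nr t → nr t < 1 / 2 → far c (slice j E t) = 0 ∧
        far (c.succAbove 0) (slice j E t) ≤ y)
    {m M : ℝ} (hm : EssBd (sv j E) m M) (hmM : m ≤ M) {y1 y2 : ℝ}
    (hy1 : y1 < 1) (hy1' : y1 ≤ y) (hy2 : y ≤ y2) {I : ℝ → ℝ} {F H D : ℝ}
    (k0 : ∀ u ∈ Icc m M, 0 ≤ F + H * u) (k1 : ∀ u ∈ Icc m M, F + H * u ≤ I u)
    (kc : ContinuousOn (fun u => (F + H * u) / I u) (Icc m M))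
    (kI : ∀ u ∈ Icc m M, I u ≤ qC u ∧ I u ≤ qK (1 - y1) u ∧
      ∃ s ∈ Icc (0 : ℝ) 1, I u ≤ 2 * (arcA s + s * (u - y2)))
    (kpos : ∀ u ∈ Icc m M, vol E ≤ e * M + (1 - e) * u → 0 < I u ∨ D ≤ 0)
    (kD : ∀ u ∈ Icc m M, vol E ≤ e * M + (1 - e) * u →
      D * I u ≤ (F + H * u) * (qK (1 - y1) u - I u)) :
    ENNReal.ofReal (2 * (∫ u in m..M, Real.sqrt (1 - ((F + H * u) / I u) ^ 2)) + F + H * vol E +
      D * e) ≤ perimeter E := by
  have hp := hd.isPeriodic
  have hband := mu_band he0.le (hb.trans hb1)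
  have key := line_bound_slack' j hE hp (I := I) (F := F) (H := H) (D := D) (B := band e)
    (measurableSet_band e) hm hmM k0 k1 kc (by
    filter_upwards [ae_nr_pos, ae_nr_lt, ae_two_nr_ne b] with t ht0 ht1 htb hu
    have hA := measurableSet_slice j hE t
    have hAd := hd.slice j t
    have hI0 : 0 ≤ I (sv j E t) := (k0 _ hu).trans (k1 _ hu)
    obtain ⟨kI1, kI2, s, hs, kI3⟩ := kI _ hu
    -- all slices satisfy the bound by `I`
    have hall : ENNReal.ofReal (I (sv j E t)) ≤ perimeter (slice j E t) := by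
      rcases lt_or_gt_of_ne htb with hlt | hgt
      · obtain ⟨a1, a2, a3⟩ := h1 t ht0 hlt
        exact (ENNReal.ofReal_le_ofReal kI2).trans
          (qK_le_perimeter c hA hAd a1 a2 hy1 (hy1'.trans a3))
      · obtain ⟨a1, a2⟩ := h2 t hgt ht1
        rcases (far_nonneg (c.succAbove 0) (slice j E t)).eq_or_lt with h0 | h0
        · exact (ENNReal.ofReal_le_ofReal kI1).trans (Far2D.disc_bound c hA hAd a1 h0.symm)
        · refine le_trans (ENNReal.ofReal_le_ofReal ?_)
            (Far2D.arc_bound (c.succAbove 0) hA hAd h0 (by rw [fin2_invol]; exact a1) hs.1 hs.2)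
          refine kI3.trans ?_
          have : s * (sv j E t - y2) ≤ s * (vol (slice j E t) -
              far (c.succAbove 0) (slice j E t)) := by
            apply mul_le_mul_of_nonneg_left _ hs.1
            change vol (slice j E t) - y2 ≤ _
            linarith only [hy2, a2]
          linarith only [this]
    by_cases htB : t ∈ band e
    · rw [indicator_of_mem htB]
      simp only [band, mem_ofPred_eq] at htB
      obtain ⟨a1, a2, a3⟩ := h1 t ht0 (htB.trans_le hb)
      have hK := qK_le_perimeter c hA hAd a1 a2 hy1 (hy1'.trans a3)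
      have hV := vol_le_of_band hE hd j hm.upper he0.le (hb.trans hb1) htB
      have hDle := kD _ hu hV
      refine le_trans ?_ (mul_le_mul_right hK _)
      rw [← ENNReal.ofReal_mul (div_nonneg (k0 _ hu) hI0)]
      apply ENNReal.ofReal_le_ofReal
      rcases hI0.eq_or_lt with h5 | h5
      · have h6 := k1 _ hu
        have h7 := k0 _ hu
        rw [← h5] at h6
        have h8 : F + H * sv j E t = 0 := le_antisymm h6 h7
        rcases kpos _ hu hV with h9 | h9
        · rw [← h5] at h9; exact absurd h9 (lt_irrefl 0)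
        · rw [h8]; simp; exact h9
      · change _ ≤ (F + H * sv j E t) / I (sv j E t) * qK (1 - y1) (sv j E t)
        rw [div_mul_eq_mul_div, le_div_iff₀ h5]
        linarith only [hDle]
    · rw [indicator_of_notMem htB, add_zero]
      refine le_trans ?_ (mul_le_mul_right hall _)
      rw [← ENNReal.ofReal_mul (div_nonneg (k0 _ hu) hI0)]
      apply ENNReal.ofReal_le_ofReal
      rcases hI0.eq_or_lt with h5 | h5
      · have := k1 _ hu
        rw [← h5] at this ⊢
        simpa using this
      · rw [div_mul_cancel₀ _ h5.ne'])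
  rw [hband] at key
  exact key

end Vale.Agent.P232
end
end

section

section

/-! Steiner symmetrization and the volumes of the slices. -/

open MeasureTheory Set Filter Topology
open scoped Pointwise Convolution

namespace Vale.Agent.P232

section
variable {n : ℕ}

theorem update_insertNth' (j : Fin (n + 2)) (i : Fin (n + 1)) (t s : ℝ) (y : Fin (n + 1) → ℝ) :
    (j.succAbove i).insertNth (α := fun _ => ℝ) s (fun k =>
      j.insertNth (α := fun _ => ℝ) t y ((j.succAbove i).succAbove k)) =
    j.insertNth (α := fun _ => ℝ) t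
      (i.insertNth (α := fun _ => ℝ) s (fun k => y (i.succAbove k))) := by
  have h1 : (j.succAbove i).insertNth (α := fun _ => ℝ) s (fun k =>
      j.insertNth (α := fun _ => ℝ) t y ((j.succAbove i).succAbove k)) =
      Function.update (j.insertNth (α := fun _ => ℝ) t y) (j.succAbove i) s := by
    ext l
    rcases Fin.eq_self_or_eq_succAbove (j.succAbove i) l with rfl | ⟨m, rfl⟩
    · simp
    · rw [Fin.insertNth_apply_succAbove, Function.update_of_ne (Fin.succAbove_ne _ _)]
  have h2 : i.insertNth (α := fun _ => ℝ) s (fun k => y (i.succAbove k)) =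
      Function.update y i s := by
    ext l
    rcases Fin.eq_self_or_eq_succAbove i l with rfl | ⟨m, rfl⟩
    · simp
    · rw [Fin.insertNth_apply_succAbove, Function.update_of_ne (Fin.succAbove_ne _ _)]
  rw [h1, h2]
  ext l
  rcases Fin.eq_self_or_eq_succAbove j l with rfl | ⟨m, rfl⟩
  · rw [Function.update_of_ne (Fin.succAbove_ne _ _).symm]
    simp
  · by_cases hm : m = i
    · rw [hm]; simp
    · rw [Function.update_of_ne (fun h => hm (Fin.succAbove_right_injective h))]
      rw [Fin.insertNth_apply_succAbove, Fin.insertNth_apply_succAbove,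
        Function.update_of_ne hm]

/-- Slicing commutes with symmetrization in the other directions. -/
theorem slice_steiner (j : Fin (n + 2)) (i : Fin (n + 1)) (E : Set (Fin (n + 2) → ℝ)) (t : ℝ) :
    slice j (steiner (j.succAbove i) E) t = steiner i (slice j E t) := by
  ext y
  have hcol : colH (j.succAbove i) E (fun k =>
      j.insertNth (α := fun _ => ℝ) t y ((j.succAbove i).succAbove k)) =
      colH i (slice j E t) (fun k => y (i.succAbove k)) := by
    unfold colH colMean
    congr 1
    ext s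
    rw [update_insertNth' j i t s y]
    rfl
  simp only [slice, steiner, mem_ofPred_eq]
  rw [hcol, Fin.insertNth_apply_succAbove]
  rfl

theorem sv_steiner_succAbove (j : Fin (n + 2)) (i : Fin (n + 1)) {E : Set (Fin (n + 2) → ℝ)}
    (hE : MeasurableSet E) (hp : IsPeriodic E) (t : ℝ) :
    sv j (steiner (j.succAbove i) E) t = sv j E t := by
  unfold sv
  rw [slice_steiner, vol_steiner i (measurableSet_slice j hE t) (isPeriodic_slice j hp t)]

theorem sv_steiner_of_ne {i j : Fin (n + 2)} (hij : i ≠ j) {E : Set (Fin (n + 2) → ℝ)}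
    (hE : MeasurableSet E) (hp : IsPeriodic E) (t : ℝ) :
    sv j (steiner i E) t = sv j E t := by
  obtain ⟨i', rfl⟩ := Fin.exists_succAbove_eq hij
  exact sv_steiner_succAbove j i' hE hp t

end

section
variable {n : ℕ} (j : Fin (n + 1)) {F : Set (Fin (n + 1) → ℝ)}

theorem sv_steiner_self (F : Set (Fin (n + 1) → ℝ)) (t : ℝ) :
    sv j (steiner j F) t = vol {y | 2 * nr t < colH j F y} := by
  unfold sv
  congr 1
  ext y
  rw [slice, mem_ofPred_eq, mem_steiner, mem_ofPred_eq]
  change nr t < _ ↔ _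
  constructor <;> intro h <;> linarith only [h]

/-- If the slices of the symmetrized set have constant volume, then almost all lines are full
or empty. -/
theorem colH_of_const (hF : MeasurableSet F) {V : ℝ}
    (h : ∀ᵐ t ∂mu, sv j (steiner j F) t = V) :
    (∀ᵐ y ∂(volume.restrict (cube n)), colH j F y = 0 ∨ colH j F y = 1) ∧
      vol {y | 1 / 2 < colH j F y} = V := by
  have hcm := measurable_colH j hF
  set φ : ℝ → ℝ := fun s => vol {y | s < colH j F y} with hφ
  have hanti : Antitone φ := by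
    intro s s' hs
    exact vol_mono fun y hy => lt_of_le_of_lt hs hy
  have h' : ∀ᵐ t ∂mu, φ (2 * nr t) = V := by
    filter_upwards [h] with t ht
    rw [← ht, sv_steiner_self]
  -- points near any prescribed level
  have hex : ∀ a b : ℝ, 0 ≤ a → a < b → b ≤ 1 → ∃ s, a < s ∧ s < b ∧ φ s = V := by
    intro a b ha hab hb
    have hfreq : ∃ᶠ t in ae mu, t ∈ Ioo (a / 2) (b / 2) := by
      rw [Filter.Frequently]
      intro hcon
      have : mu (Ioo (a / 2) (b / 2)) = 0 := by
        have := mem_ae_iff.mp hcon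
        refine measure_mono_null ?_ this
        intro t ht
        simpa using ht
      rw [Measure.restrict_apply measurableSet_Ioo] at this
      have hsub : Ioo (a / 2) (b / 2) ∩ Ico (0 : ℝ) 1 = Ioo (a / 2) (b / 2) := by
        apply inter_eq_self_of_subset_left
        intro t ht
        exact ⟨by linarith only [ht.1, ha], by linarith only [ht.2, hb]⟩
      rw [hsub, Real.volume_Ioo] at this
      simp at this
      linarith only [hab, this]
    obtain ⟨t, ht1, ht2⟩ := (hfreq.and_eventually h').exists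
    refine ⟨2 * nr t, ?_, ?_, ht2⟩
    · rw [nr_of_mem (by linarith [ht1.1]) (by linarith only [ht1.2, hb])]; linarith [ht1.1]
    · rw [nr_of_mem (by linarith [ht1.1]) (by linarith [ht1.2])]; linarith [ht1.2]
  have hconst : ∀ s, 0 < s → s < 1 → φ s = V := by
    intro s h0 h1
    obtain ⟨a, _, ha2, ha3⟩ := hex 0 s le_rfl h0 h1.le
    obtain ⟨b, hb1, _, hb3⟩ := hex s 1 h0.le h1 le_rfl
    apply le_antisymm
    · rw [← ha3]; exact hanti ha2.le
    · rw [← hb3]; exact hanti hb1.le
  refine ⟨?_, hconst _ (by norm_num) (by norm_num)⟩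
  have hfin : ∀ s : ℝ, volume ({y | s < colH j F y} ∩ cube n) ≠ ⊤ := fun s => by
    refine ((measure_mono inter_subset_right).trans_lt ?_).ne
    rw [volume_cube]
    exact ENNReal.one_lt_top
  have hnull : ∀ k : ℕ, volume.restrict (cube n)
      {y | 1 / ((k : ℝ) + 2) < colH j F y ∧ colH j F y ≤ 1 - 1 / ((k : ℝ) + 2)} = 0 := by
    intro k
    have hk : 0 < 1 / ((k : ℝ) + 2) := by positivity
    have hk2 : 1 / ((k : ℝ) + 2) ≤ 1 / 2 := one_div_le_one_div_of_le (by norm_num) (by
      have : (0 : ℝ) ≤ k := Nat.cast_nonneg k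
      linarith)
    set a := 1 / ((k : ℝ) + 2) with ha
    have hms : MeasurableSet {y | a < colH j F y ∧ colH j F y ≤ 1 - a} :=
      (measurableSet_lt measurable_const hcm).inter (measurableSet_le hcm measurable_const)
    rw [Measure.restrict_apply hms]
    have e : {y | a < colH j F y ∧ colH j F y ≤ 1 - a} ∩ cube n =
        ({y | a < colH j F y} ∩ cube n) \ ({y | 1 - a < colH j F y} ∩ cube n) := by
      ext y
      simp only [mem_inter_iff, mem_ofPred_eq, Set.mem_sdiff, not_and]
      constructor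
      · rintro ⟨⟨h1, h2⟩, h3⟩
        exact ⟨⟨h1, h3⟩, fun h4 => absurd h4 (not_lt.mpr h2)⟩
      · rintro ⟨⟨h1, h3⟩, h4⟩
        refine ⟨⟨h1, ?_⟩, h3⟩
        by_contra hcon
        exact h4 (not_le.mp hcon) h3
    rw [e, measure_sdiff _ _ (hfin _)]
    · have e1 : volume ({y | a < colH j F y} ∩ cube n) =
          volume ({y | 1 - a < colH j F y} ∩ cube n) := by
        rw [← ENNReal.toReal_eq_toReal_iff' (hfin _) (hfin _)]
        change φ a = φ (1 - a)
        rw [hconst a hk (by linarith only [hk, hk2]), hconst (1 - a) (by linarith) (by linarith)]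
      rw [e1, tsub_self]
    · rintro y ⟨h1, h2⟩
      have h1' : 1 - a < colH j F y := h1
      exact ⟨show a < colH j F y by linarith only [hk2, h1'], h2⟩
    · exact ((measurableSet_lt measurable_const hcm).inter (measurableSet_cube n)).nullMeasurableSet
  have hall : ∀ᵐ y ∂(volume.restrict (cube n)), ∀ k : ℕ,
      ¬ (1 / ((k : ℝ) + 2) < colH j F y ∧ colH j F y ≤ 1 - 1 / ((k : ℝ) + 2)) := by
    rw [ae_all_iff]
    intro k
    exact measure_eq_zero_iff_ae_notMem.mp (hnull k)
  filter_upwards [hall] with y hy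
  have h0 := colH_nonneg j F y
  have h1 := colH_le_one j hF y
  rcases h0.eq_or_lt with h0 | h0
  · exact Or.inl h0.symm
  rcases h1.eq_or_lt with h1 | h1
  · exact Or.inr h1
  exfalso
  obtain ⟨k, hk⟩ := exists_nat_gt (1 / min (colH j F y) (1 - colH j F y))
  have hmin : 0 < min (colH j F y) (1 - colH j F y) := lt_min h0 (by linarith)
  have hk2 : 1 / ((k : ℝ) + 2) < min (colH j F y) (1 - colH j F y) := by
    rw [div_lt_iff₀ (by positivity)]
    rw [div_lt_iff₀ hmin] at hk
    linarith only [hk, hmin]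
  apply hy k
  exact ⟨hk2.trans_le (min_le_left _ _), by
    have := hk2.trans_le (min_le_right (colH j F y) (1 - colH j F y))
    linarith only [this]⟩

/-- If almost all lines in direction `j` are full or empty, then the set is a cylinder. -/
theorem ae_slice_of_colH (hF : MeasurableSet F)
    (h : ∀ᵐ y ∂(volume.restrict (cube n)), colH j F y = 0 ∨ colH j F y = 1) :
    ∀ᵐ t ∂mu, ∀ᵐ y ∂(volume.restrict (cube n)),
      (y ∈ slice j F t ↔ 1 / 2 < colH j F y) := by
  have hcm := measurable_colH j hF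
  have hms : MeasurableSet {p : (Fin n → ℝ) × ℝ | p.1 ∈ slice j F p.2 ↔ 1 / 2 < colH j F p.1} := by
    have h1 : MeasurableSet {p : (Fin n → ℝ) × ℝ | p.1 ∈ slice j F p.2} :=
      ((measurable_insertNth' j).comp (measurable_snd.prodMk measurable_fst)) hF
    have h2 : MeasurableSet {p : (Fin n → ℝ) × ℝ | 1 / 2 < colH j F p.1} :=
      measurableSet_lt measurable_const (hcm.comp measurable_fst)
    exact h1.iff h2
  rw [← Measure.ae_ae_comm (μ := volume.restrict (cube n)) (ν := mu) hms]
  filter_upwards [h] with y hy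
  have hint := integrable_ind_col j hF y
  rcases hy with hy | hy
  · have h1 : ∀ᵐ t ∂mu, F.indicator (fun _ => (1 : ℝ)) (j.insertNth (α := fun _ => ℝ) t y) = 0 :=
      (integral_eq_zero_iff_of_nonneg (fun t => indicator_nonneg' _ _) hint).mp hy
    filter_upwards [h1] with t ht
    rw [hy]
    constructor
    · intro hmem
      exfalso
      have hmem' : j.insertNth (α := fun _ => ℝ) t y ∈ F := hmem
      rw [indicator_of_mem hmem'] at ht
      exact one_ne_zero ht
    · intro h; norm_num at h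
  · have h1 : ∫ t in Ico (0 : ℝ) 1, (1 - F.indicator (fun _ => (1 : ℝ))
        (j.insertNth (α := fun _ => ℝ) t y)) = 0 := by
      rw [integral_sub (integrable_const _) hint]
      have : ∫ t in Ico (0 : ℝ) 1, F.indicator (fun _ => (1 : ℝ))
        (j.insertNth (α := fun _ => ℝ) t y) = 1 := hy
      rw [this]
      simp
    have h2 : ∀ᵐ t ∂mu, 1 - F.indicator (fun _ => (1 : ℝ))
        (j.insertNth (α := fun _ => ℝ) t y) = 0 :=
      (integral_eq_zero_iff_of_nonneg (fun t => by
        have := indicator_le_one' F (j.insertNth (α := fun _ => ℝ) t y)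
        simp only [Pi.zero_apply, Pi.sub_apply]
        linarith) ((integrable_const _).sub hint)).mp h1
    filter_upwards [h2] with t ht
    rw [hy]
    constructor
    · intro _; norm_num
    · intro _
      by_contra hmem
      have hmem' : j.insertNth (α := fun _ => ℝ) t y ∉ F := hmem
      rw [indicator_of_notMem hmem'] at ht
      norm_num at ht

theorem sv_const_of_steiner (hF : MeasurableSet F) {V : ℝ}
    (h : ∀ᵐ t ∂mu, sv j (steiner j F) t = V) : ∀ᵐ t ∂mu, sv j F t = V := by
  obtain ⟨h1, h2⟩ := colH_of_const j hF h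
  filter_upwards [ae_slice_of_colH j hF h1] with t ht
  rw [← h2]
  unfold sv vol
  congr 1
  rw [← Measure.restrict_apply' (measurableSet_cube n),
    ← Measure.restrict_apply' (measurableSet_cube n)]
  apply measure_congr
  filter_upwards [ht] with y hy
  exact propext hy

end

end Vale.Agent.P232
end
end

section

section

/-! Reduction of the ball case of the uniqueness theorem to facts about the slices. -/

open MeasureTheory Set Filter Topology
open scoped Pointwise Convolution

namespace Vale.Agent.P232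

theorem three_cases' : ∀ a b j k : Fin 3, a ≠ b → a ≠ j → b ≠ j → k = a ∨ k = b ∨ k = j := by
  decide

theorem isDown_iter {a b j : Fin 3} (hab : a ≠ b) (haj : a ≠ j) (hbj : b ≠ j)
    {E : Set (Fin 3 → ℝ)} (hE : MeasurableSet E) :
    IsDown (steiner j (steiner b (steiner a E))) := by
  have m0 : MeasurableSet (steiner a E) := measurableSet_steiner a hE
  have m1 : MeasurableSet (steiner b (steiner a E)) := measurableSet_steiner b m0
  apply isDown_of_symDec
  intro k
  rcases three_cases' a b j k hab haj hbj with h | h | h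
  · rw [h]
    exact symDec_steiner_of_ne haj m1 (symDec_steiner_of_ne hab m0 (symDec_steiner_self a E))
  · rw [h]
    exact symDec_steiner_of_ne hbj m1 (symDec_steiner_self b _)
  · rw [h]
    exact symDec_steiner_self j _

theorem isDown_iter2 {a b : Fin 2} (hab : a ≠ b) {E : Set (Fin 2 → ℝ)} (hE : MeasurableSet E) :
    IsDown (steiner b (steiner a E)) := by
  have m0 : MeasurableSet (steiner a E) := measurableSet_steiner a hE
  have h2 : ∀ a b k : Fin 2, a ≠ b → k = a ∨ k = b := by decide
  apply isDown_of_symDec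
  intro k
  rcases h2 a b k hab with h | h
  · rw [h]
    exact symDec_steiner_of_ne hab m0 (symDec_steiner_self a E)
  · rw [h]
    exact symDec_steiner_self b _

theorem sv_const_of_steiner' {E : Set (Fin 3 → ℝ)} (i j : Fin 3) (hE : MeasurableSet E)
    (hp : IsPeriodic E) {V : ℝ} (h : ∀ᵐ t ∂mu, sv j (steiner i E) t = V) :
    ∀ᵐ t ∂mu, sv j E t = V := by
  by_cases hij : i = j
  · rw [hij] at h
    exact sv_const_of_steiner j hE h
  · filter_upwards [h] with t ht
    rw [← ht, sv_steiner_of_ne hij hE hp]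

/-- The two symmetrizations attached to a direction `j`: in the two other directions, and in all
directions. -/
theorem exists_sym (j : Fin 3) {E : Set (Fin 3 → ℝ)} (hE : MeasurableSet E)
    (hp : IsPeriodic E) :
    ∃ F E' : Set (Fin 3 → ℝ), MeasurableSet F ∧ IsPeriodic F ∧ vol F = vol E ∧
      perimeter F ≤ perimeter E ∧ (∀ t, sv j F t = sv j E t) ∧ (∀ t, IsDown (slice j F t)) ∧
      MeasurableSet E' ∧ IsDown E' ∧ vol E' = vol E ∧ perimeter E' ≤ perimeter E ∧
      (∀ (k : Fin 3) (V : ℝ), (∀ᵐ t ∂mu, sv k E' t = V) → ∀ᵐ t ∂mu, sv k E t = V) ∧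
      (∀ (i : Fin 2) (s : ℝ), sv (j.succAbove i) F s = sv (j.succAbove i) E' s) := by
  set a := j.succAbove 0 with ha
  set b := j.succAbove 1 with hb
  have hab : a ≠ b := by
    intro h
    have := Fin.succAbove_right_injective h
    exact absurd this (by decide)
  have haj : a ≠ j := Fin.succAbove_ne j 0
  have hbj : b ≠ j := Fin.succAbove_ne j 1
  have m0 : MeasurableSet (steiner a E) := measurableSet_steiner a hE
  have m1 : MeasurableSet (steiner b (steiner a E)) := measurableSet_steiner b m0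
  have p0 : IsPeriodic (steiner a E) := isPeriodic_steiner a hp
  have p1 : IsPeriodic (steiner b (steiner a E)) := isPeriodic_steiner b p0
  have hv1 : vol (steiner b (steiner a E)) = vol E := by
    rw [vol_steiner b m0 p0, vol_steiner a hE hp]
  have hP1 : perimeter (steiner b (steiner a E)) ≤ perimeter E :=
    (perimeter_steiner_le b m0 p0).trans (perimeter_steiner_le a hE hp)
  refine ⟨steiner b (steiner a E), steiner j (steiner b (steiner a E)), m1, p1, hv1, hP1, ?_, ?_,
    measurableSet_steiner j m1, isDown_iter hab haj hbj hE, ?_, ?_, ?_, ?_⟩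
  · intro t
    rw [sv_steiner_of_ne hbj m0 p0, sv_steiner_of_ne haj hE hp]
  · intro t
    rw [hb, slice_steiner, ha, slice_steiner]
    exact isDown_iter2 (by decide) (measurableSet_slice j hE t)
  · rw [vol_steiner j m1 p1, hv1]
  · exact (perimeter_steiner_le j m1 p1).trans hP1
  · intro k V h
    exact sv_const_of_steiner' a k hE hp (sv_const_of_steiner' b k m0 p0
      (sv_const_of_steiner' j k m1 p1 h))
  · intro i s
    rw [sv_steiner_of_ne (Fin.succAbove_ne j i).symm m1 p1]

/-- Slicing in two directions commutes. -/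
theorem slice_slice_comm (j : Fin 3) (i : Fin 2) :
    ∃ c : Fin 2, ∀ (F : Set (Fin 3 → ℝ)) (t s : ℝ),
      slice c (slice (j.succAbove i) F s) t = slice i (slice j F t) s := by
  obtain ⟨c, hc⟩ := Fin.exists_succAbove_eq (x := j) (y := j.succAbove i)
    (Fin.succAbove_ne j i).symm
  refine ⟨c, fun F t s => ?_⟩
  ext w
  obtain ⟨w0, rfl⟩ : ∃ w0 : ℝ, w = fun _ => w0 := ⟨w 0, by
    ext k
    rw [Subsingleton.elim k 0]⟩
  simp only [slice, mem_ofPred_eq]
  rw [insert_insert, insert_insert, hc]
  have : (fun l => if l = j.succAbove i then s else if l = j then t else w0) =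
      (fun l => if l = j then t else if l = j.succAbove i then s else w0) := by
    ext l
    by_cases h1 : l = j
    · rw [if_pos h1, if_pos h1, if_neg]
      rw [h1]
      exact (Fin.succAbove_ne j i).symm
    · rw [if_neg h1, if_neg h1]
  rw [this]

theorem sv_eq_integral_slice (j : Fin 3) (i : Fin 2) {F : Set (Fin 3 → ℝ)}
    (hF : MeasurableSet F) (s : ℝ) :
    sv (j.succAbove i) F s = ∫ t in Ico (0 : ℝ) 1, sv i (slice j F t) s := by
  obtain ⟨c, hc⟩ := slice_slice_comm j i
  have h1 := vol_eq_integral_sv c (measurableSet_slice (j.succAbove i) hF s)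
  have e : sv (j.succAbove i) F s = vol (slice (j.succAbove i) F s) := rfl
  rw [e, h1]
  congr 1
  ext t
  unfold sv
  rw [hc]

theorem far_slice_ae (j : Fin 3) (i : Fin 2) {F E' : Set (Fin 3 → ℝ)} (hF : MeasurableSet F)
    (hsv : ∀ s, sv (j.succAbove i) F s = sv (j.succAbove i) E' s)
    (hfar : far (j.succAbove i) E' = 0) : ∀ᵐ t ∂mu, far i (slice j F t) = 0 := by
  obtain ⟨c, hc⟩ := slice_slice_comm j i
  have hs : ∀ n : ℕ, ∃ s ∈ Ioo (0 : ℝ) (1 / 2), sv (j.succAbove i) F s < 1 / ((n : ℝ) + 1) := by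
    intro n
    have h1 : sInf (sv (j.succAbove i) E' '' Ioo 0 (1 / 2)) < 1 / ((n : ℝ) + 1) := by
      have : sInf (sv (j.succAbove i) E' '' Ioo 0 (1 / 2)) = 0 := hfar
      rw [this]
      positivity
    obtain ⟨_, ⟨s, hs, rfl⟩, h2⟩ := exists_lt_of_csInf_lt (nonempty_far _ _) h1
    exact ⟨s, hs, by rw [hsv]; exact h2⟩
  choose s hs0 hs1 using hs
  have hmeas : ∀ n, Measurable fun t => sv i (slice j F t) (s n) := by
    intro n
    have e : (fun t => sv i (slice j F t) (s n)) = sv c (slice (j.succAbove i) F (s n)) := by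
      ext t
      unfold sv
      rw [hc]
    rw [e]
    exact measurable_sv c (measurableSet_slice (j.succAbove i) hF (s n))
  have hint : ∀ n, Integrable (fun t => sv i (slice j F t) (s n)) mu := by
    intro n
    have e : (fun t => sv i (slice j F t) (s n)) = sv c (slice (j.succAbove i) F (s n)) := by
      ext t
      unfold sv
      rw [hc]
    rw [e]
    exact integrable_sv c (measurableSet_slice (j.succAbove i) hF (s n))
  set g : ℝ → ENNReal := fun t => ⨅ n, ENNReal.ofReal (sv i (slice j F t) (s n)) with hg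
  have hgm : Measurable g := Measurable.iInf fun n => (hmeas n).ennreal_ofReal
  have hg0 : ∫⁻ t, g t ∂mu = 0 := by
    have hle : ∀ n : ℕ, ∫⁻ t, g t ∂mu ≤ ENNReal.ofReal (1 / ((n : ℝ) + 1)) := by
      intro n
      refine (lintegral_mono (fun t => iInf_le _ n)).trans ?_
      rw [← ofReal_integral_eq_lintegral_ofReal (hint n)
        (Eventually.of_forall fun t => sv_nonneg _ _ _)]
      apply ENNReal.ofReal_le_ofReal
      rw [← sv_eq_integral_slice j i hF]
      exact (hs1 n).le
    have hlim : Tendsto (fun n : ℕ => ENNReal.ofReal (1 / ((n : ℝ) + 1))) atTop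
        (𝓝 (ENNReal.ofReal 0)) :=
      ENNReal.tendsto_ofReal tendsto_one_div_add_atTop_nhds_zero_nat
    rw [ENNReal.ofReal_zero] at hlim
    exact le_antisymm (ge_of_tendsto' hlim hle) bot_le
  rw [lintegral_eq_zero_iff hgm] at hg0
  filter_upwards [hg0] with t ht
  apply le_antisymm _ (far_nonneg _ _)
  apply le_of_forall_pos_le_add
  intro ε hε
  have h1 : ⨅ n, ENNReal.ofReal (sv i (slice j F t) (s n)) < ENNReal.ofReal ε := by
    have : g t = 0 := ht
    rw [hg] at this
    simp only at this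
    rw [this]
    exact ENNReal.ofReal_pos.mpr hε
  obtain ⟨n, hn⟩ := iInf_lt_iff.mp h1
  have h2 := (ENNReal.ofReal_lt_ofReal_iff hε).mp hn
  have h3 := far_le_sv i (slice j F t) (hs0 n)
  linarith

/-- The isoperimetric inequality for the slices. -/
theorem slice_bound (j : Fin 3) {F E' : Set (Fin 3 → ℝ)} (hF : MeasurableSet F)
    (hsl : ∀ t, IsDown (slice j F t))
    (hsv : ∀ (i : Fin 2) (s : ℝ), sv (j.succAbove i) F s = sv (j.succAbove i) E' s)
    (hfar : ∀ k, far k E' = 0) :
    ∀ᵐ t ∂mu, ENNReal.ofReal (2 * Real.sqrt (Real.pi * sv j F t)) ≤ perimeter (slice j F t) := by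
  filter_upwards [far_slice_ae j 0 hF (hsv 0) (hfar _), far_slice_ae j 1 hF (hsv 1) (hfar _)]
    with t h0 h1
  exact Far2D.disc_bound 0 (measurableSet_slice j hF t) (hsl t) h0 h1

end Vale.Agent.P232
end
end

section

section

open MeasureTheory Set

namespace Vale.Agent.P232

/-! ### Profiles for slices of special types (half of the perimeter in the torus) -/

/-- Lower bound for slices touching both far walls, whose complement has height at most `H`. -/
noncomputable def pBf (H u : ℝ) : ℝ :=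
  Real.sqrt (Real.pi * min (1 - u) (Real.pi * H ^ 2 / 4)) +
    max (1 - u - Real.pi * H ^ 2 / 4) 0 / H

/-- Lower bound for slices touching one far wall with residual width at most `y`. -/
noncomputable def Lf (y : ℝ) : List (ℚ × ℚ) → ℝ → ℝ
  | [], _ => 1
  | p :: T, u => max ((p.1 : ℝ) + p.2 * (u - y)) (Lf y T u)

/-- Common lower bound for all slices. -/
noncomputable def qmin (y H : ℝ) (T : List (ℚ × ℚ)) (u : ℝ) : ℝ :=
  min (min (Real.sqrt (Real.pi * u)) (Lf y T u)) (pBf H u)

theorem one_le_Lf (y : ℝ) (T : List (ℚ × ℚ)) (u : ℝ) : 1 ≤ Lf y T u := by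
  induction T with
  | nil => simp [Lf]
  | cons p T ih => exact ih.trans (le_max_right _ _)

theorem le_Lf_of_mem {y : ℝ} {T : List (ℚ × ℚ)} {p : ℚ × ℚ} (h : p ∈ T) (u : ℝ) :
    (p.1 : ℝ) + p.2 * (u - y) ≤ Lf y T u := by
  induction T with
  | nil => simp at h
  | cons q T ih =>
    rcases List.mem_cons.1 h with h | h
    · rw [h]; exact le_max_left _ _
    · exact (ih h).trans (le_max_right _ _)

theorem continuous_Lf (y : ℝ) (T : List (ℚ × ℚ)) : Continuous (Lf y T) := by
  induction T with
  | nil => exact continuous_const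
  | cons p T ih =>
    show Continuous fun u => max ((p.1 : ℝ) + p.2 * (u - y)) (Lf y T u)
    fun_prop

theorem continuous_pBf (H : ℝ) : Continuous (pBf H) := by
  unfold pBf
  fun_prop

theorem continuous_qmin (y H : ℝ) (T : List (ℚ × ℚ)) : Continuous (qmin y H T) := by
  have h1 := continuous_Lf y T
  have h2 := continuous_pBf H
  unfold qmin
  fun_prop

theorem sqrt_le_pBf {H : ℝ} (hH : 0 < H) (u : ℝ) :
    Real.sqrt (Real.pi * (1 - u)) ≤ pBf H u := by
  have hpi := Real.pi_pos
  unfold pBf
  rcases le_or_gt (1 - u) (Real.pi * H ^ 2 / 4) with h | h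
  · rw [min_eq_left h]
    have : 0 ≤ max (1 - u - Real.pi * H ^ 2 / 4) 0 / H := by positivity
    linarith only [this]
  · rw [min_eq_right h.le, max_eq_left (by linarith only [h])]
    have e1 : Real.sqrt (Real.pi * (Real.pi * H ^ 2 / 4)) = Real.pi * H / 2 := by
      rw [show Real.pi * (Real.pi * H ^ 2 / 4) = (Real.pi * H / 2) ^ 2 by ring]
      exact Real.sqrt_sq (by positivity)
    rw [e1, Real.sqrt_le_left]
    · set z := (1 - u - Real.pi * H ^ 2 / 4) / H with hz
      have hz0 : 0 ≤ z := div_nonneg (by linarith only [h]) hH.le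
      have e2 : 1 - u = z * H + Real.pi * H ^ 2 / 4 := by rw [hz]; field_simp; ring
      rw [e2]
      linarith only [sq_nonneg z]
    · have : 0 ≤ (1 - u - Real.pi * H ^ 2 / 4) / H := div_nonneg (by linarith only [h]) hH.le
      positivity

theorem pBf_eq_corner {H u : ℝ} (hH : 0 < H) (h : Real.pi * H ^ 2 / 4 ≤ 1 - u) :
    pBf H u = (1 - u) / H + Real.pi * H / 4 := by
  have hpi := Real.pi_pos
  unfold pBf
  rw [min_eq_right h, max_eq_left (by linarith only [h])]
  have e1 : Real.sqrt (Real.pi * (Real.pi * H ^ 2 / 4)) = Real.pi * H / 2 := by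
    rw [show Real.pi * (Real.pi * H ^ 2 / 4) = (Real.pi * H / 2) ^ 2 by ring]
    exact Real.sqrt_sq (by positivity)
  rw [e1]
  field_simp
  ring

theorem pBf_nonneg {H : ℝ} (hH : 0 < H) (u : ℝ) : 0 ≤ pBf H u :=
  (Real.sqrt_nonneg _).trans (sqrt_le_pBf hH u)

theorem qmin_nonneg {H : ℝ} (hH : 0 < H) (y : ℝ) (T : List (ℚ × ℚ)) (u : ℝ) : 0 ≤ qmin y H T u :=
  le_min (le_min (Real.sqrt_nonneg _) (zero_le_one.trans (one_le_Lf y T u))) (pBf_nonneg hH u)

theorem I2_le_qmin {H : ℝ} (hH : 0 < H) (y : ℝ) (T : List (ℚ × ℚ)) (u : ℝ) :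
    I2 u ≤ 2 * qmin y H T u := by
  unfold I2 qmin
  rw [mul_min_of_nonneg _ _ (by norm_num), mul_min_of_nonneg _ _ (by norm_num)]
  refine le_min (le_min ?_ ?_) ?_
  · exact (min_le_left _ _).trans (min_le_left _ _)
  · exact (min_le_right _ _).trans (by linarith [one_le_Lf y T u])
  · exact ((min_le_left _ _).trans (min_le_right _ _)).trans
      (by linarith [sqrt_le_pBf hH u])

theorem qmin_pos {H : ℝ} (hH : 0 < H) (y : ℝ) (T : List (ℚ × ℚ)) {u : ℝ} (h0 : 0 < u)
    (h1 : u < 1) : 0 < qmin y H T u := by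
  have := I2_le_qmin hH y T u
  have := I2_pos h0 h1
  linarith

theorem qmin_zero {H : ℝ} (hH : 0 < H) (y : ℝ) (T : List (ℚ × ℚ)) : qmin y H T 0 = 0 := by
  refine le_antisymm ?_ (qmin_nonneg hH y T 0)
  exact ((min_le_left _ _).trans (min_le_left _ _)).trans (by simp)

theorem qmin_one {H : ℝ} (hH : 0 < H) (y : ℝ) (T : List (ℚ × ℚ)) : qmin y H T 1 = 0 := by
  refine le_antisymm ?_ (qmin_nonneg hH y T 1)
  refine (min_le_right _ _).trans ?_
  unfold pBf
  have hpi := Real.pi_pos
  have h1 : min (1 - 1) (Real.pi * H ^ 2 / 4) = 0 := by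
    rw [sub_self]; exact min_eq_left (by positivity)
  have h2 : max (1 - 1 - Real.pi * H ^ 2 / 4) 0 = 0 := by
    rw [sub_self]; exact max_eq_right (by simp; positivity)
  rw [h1, h2]
  simp

/-- The integrand of the one-direction bound. -/
noncomputable def slq (Q : ℝ → ℝ) (c l u : ℝ) : ℝ :=
  Real.sqrt (1 - ((2 * c + 2 * l * u) / Q u) ^ 2)

theorem slq_nonneg (Q : ℝ → ℝ) (c l u : ℝ) : 0 ≤ slq Q c l u := Real.sqrt_nonneg _

theorem slq_le_one (Q : ℝ → ℝ) (c l u : ℝ) : slq Q c l u ≤ 1 := by
  unfold slq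
  have := sq_nonneg ((2 * c + 2 * l * u) / Q u)
  exact Real.sqrt_le_one.2 (by linarith only [this])

theorem intervalIntegrable_slq {Q : ℝ → ℝ} (hQ : Continuous Q) (c l a b : ℝ) :
    IntervalIntegrable (slq Q c l) volume a b := by
  have h1 : IntervalIntegrable (fun _ : ℝ => (1 : ℝ)) volume a b := intervalIntegrable_const
  refine h1.mono_fun' ?_ ?_
  · apply Measurable.aestronglyMeasurable
    unfold slq
    have hI := hQ.measurable
    fun_prop
  · refine Filter.Eventually.of_forall fun u => ?_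
    show ‖slq Q c l u‖ ≤ 1
    rw [Real.norm_eq_abs, abs_of_nonneg (slq_nonneg Q c l u)]
    exact slq_le_one Q c l u

theorem interp' {h0 h1 s0 s1 w0 w1 t : ℝ} (ht0 : 0 ≤ t) (ht1 : t ≤ 1) (hw0 : 0 ≤ w0)
    (hw1 : 0 ≤ w1) (hs0 : s0 ^ 2 ≤ 1) (hs1 : s1 ^ 2 ≤ 1)
    (a0 : h0 ^ 2 ≤ w0 * (1 - s0 ^ 2)) (a1 : h1 ^ 2 ≤ w1 * (1 - s1 ^ 2)) :
    ((1 - t) * h0 + t * h1) ^ 2 ≤
      ((1 - t) * w0 + t * w1) * (1 - ((1 - t) * s0 + t * s1) ^ 2) := by
  have ht2 : 0 ≤ 1 - t := by linarith
  have k2 : 0 ≤ (1 - t) * t * (s0 - s1) ^ 2 := by positivity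
  have k3 : (1 - t) * (1 - s0 ^ 2) + t * (1 - s1 ^ 2) ≤ 1 - ((1 - t) * s0 + t * s1) ^ 2 := by
    linarith only [k2]
  have k4 : 0 ≤ (1 - t) * (1 - s0 ^ 2) := mul_nonneg ht2 (by linarith)
  have k5 : 0 ≤ t * (1 - s1 ^ 2) := mul_nonneg ht0 (by linarith)
  rcases hw0.eq_or_lt with h | h
  · have e0 : h0 = 0 := by
      rw [← h, zero_mul] at a0
      exact pow_eq_zero_iff (two_ne_zero) |>.1 (le_antisymm a0 (sq_nonneg _))
    rw [← h, e0]
    have : t ^ 2 * h1 ^ 2 ≤ t ^ 2 * (w1 * (1 - s1 ^ 2)) :=
      mul_le_mul_of_nonneg_left a1 (sq_nonneg t)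
    calc ((1 - t) * 0 + t * h1) ^ 2 = t ^ 2 * h1 ^ 2 := by ring
      _ ≤ t ^ 2 * (w1 * (1 - s1 ^ 2)) := this
      _ = (t * w1) * (t * (1 - s1 ^ 2)) := by ring
      _ ≤ (t * w1) * (1 - ((1 - t) * s0 + t * s1) ^ 2) := by
        apply mul_le_mul_of_nonneg_left _ (by positivity)
        linarith
      _ = _ := by ring
  rcases hw1.eq_or_lt with h' | h'
  · have e1 : h1 = 0 := by
      rw [← h', zero_mul] at a1
      exact pow_eq_zero_iff (two_ne_zero) |>.1 (le_antisymm a1 (sq_nonneg _))
    rw [← h', e1]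
    have : (1 - t) ^ 2 * h0 ^ 2 ≤ (1 - t) ^ 2 * (w0 * (1 - s0 ^ 2)) :=
      mul_le_mul_of_nonneg_left a0 (sq_nonneg _)
    calc ((1 - t) * h0 + t * 0) ^ 2 = (1 - t) ^ 2 * h0 ^ 2 := by ring
      _ ≤ (1 - t) ^ 2 * (w0 * (1 - s0 ^ 2)) := this
      _ = ((1 - t) * w0) * ((1 - t) * (1 - s0 ^ 2)) := by ring
      _ ≤ ((1 - t) * w0) * (1 - ((1 - t) * s0 + t * s1) ^ 2) := by
        apply mul_le_mul_of_nonneg_left _ (by positivity)
        linarith
      _ = _ := by ring
  · exact interp ht0 ht1 h h' a0 a1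

/-- One interval of a certificate: on `[x0, x1]` the number `s` interpolating `sL` and `sR` is a
lower bound of the integrand. -/
structure IvOK (y H : ℝ) (T : List (ℚ × ℚ)) (c l x0 x1 sL sR : ℝ) : Prop where
  lt : x0 < x1
  sL0 : 0 ≤ sL
  sR0 : 0 ≤ sR
  sL1 : sL ≤ 1
  sR1 : sR ≤ 1
  h0 : 0 ≤ c + l * x0
  h1 : 0 ≤ c + l * x1
  tube0 : (c + l * x0) ^ 2 ≤ Real.pi * x0 * (1 - sL ^ 2)
  tube1 : (c + l * x1) ^ 2 ≤ Real.pi * x1 * (1 - sR ^ 2)
  x00 : 0 ≤ x0
  x11 : x1 ≤ 1
  L : ∃ A s : ℝ, (∀ u, A + s * (u - y) ≤ Lf y T u) ∧ 0 ≤ A + s * (x0 - y) ∧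
    0 ≤ A + s * (x1 - y) ∧ (s * (x1 - x0)) ^ 2 / 4 ≤ (A + s * (x0 - y)) ^ 2 ∧
    (s * (x1 - x0)) ^ 2 / 4 ≤ (A + s * (x1 - y)) ^ 2 ∧
    (c + l * x0) ^ 2 ≤ ((A + s * (x0 - y)) ^ 2 - (s * (x1 - x0)) ^ 2 / 4) * (1 - sL ^ 2) ∧
    (c + l * x1) ^ 2 ≤ ((A + s * (x1 - y)) ^ 2 - (s * (x1 - x0)) ^ 2 / 4) * (1 - sR ^ 2)
  B : ((c + l * x0) ^ 2 ≤ Real.pi * (1 - x0) * (1 - sL ^ 2) ∧
      (c + l * x1) ^ 2 ≤ Real.pi * (1 - x1) * (1 - sR ^ 2)) ∨
    (Real.pi * H ^ 2 / 4 ≤ 1 - x1 ∧
    ((x1 - x0) / H) ^ 2 / 4 ≤ ((1 - x0) / H + Real.pi * H / 4) ^ 2 ∧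
    ((x1 - x0) / H) ^ 2 / 4 ≤ ((1 - x1) / H + Real.pi * H / 4) ^ 2 ∧
    (c + l * x0) ^ 2 ≤ (((1 - x0) / H + Real.pi * H / 4) ^ 2 - ((x1 - x0) / H) ^ 2 / 4) *
      (1 - sL ^ 2) ∧
    (c + l * x1) ^ 2 ≤ (((1 - x1) / H + Real.pi * H / 4) ^ 2 - ((x1 - x0) / H) ^ 2 / 4) *
      (1 - sR ^ 2))

theorem sq_interp {p q t : ℝ} :
    ((1 - t) * p + t * q) ^ 2 = (1 - t) * p ^ 2 + t * q ^ 2 - t * (1 - t) * (q - p) ^ 2 := by
  ring

theorem sq_interp_ge {p q t : ℝ} :
    (1 - t) * (p ^ 2 - (q - p) ^ 2 / 4) + t * (q ^ 2 - (q - p) ^ 2 / 4) ≤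
      ((1 - t) * p + t * q) ^ 2 := by
  rw [sq_interp]
  have : t * (1 - t) ≤ 1 / 4 := by linarith only [sq_nonneg (2 * t - 1)]
  linarith only [mul_nonneg (sq_nonneg (q - p)) (sub_nonneg.2 this)]

theorem IvOK.basic {y H : ℝ} {T : List (ℚ × ℚ)} {c l x0 x1 sL sR : ℝ}
    (h : IvOK y H T c l x0 x1 sL sR) {t : ℝ} (ht0 : 0 ≤ t) (ht1 : t ≤ 1) :
    0 ≤ c + l * ((1 - t) * x0 + t * x1) ∧ 0 ≤ (1 - t) * sL + t * sR ∧
      (1 - t) * sL + t * sR ≤ 1 := by
  have ht2 : 0 ≤ 1 - t := by linarith
  have eh : c + l * ((1 - t) * x0 + t * x1) = (1 - t) * (c + l * x0) + t * (c + l * x1) := by ring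
  refine ⟨?_, ?_, ?_⟩
  · rw [eh]
    have := h.h0
    have := h.h1
    positivity
  · have := h.sL0
    have := h.sR0
    positivity
  · have k1 := mul_le_mul_of_nonneg_left h.sL1 ht2
    have k2 := mul_le_mul_of_nonneg_left h.sR1 ht0
    linarith

theorem sq_le_one_of {s : ℝ} (h0 : 0 ≤ s) (h1 : s ≤ 1) : s ^ 2 ≤ 1 := by nlinarith

theorem IvOK.tube {y H : ℝ} {T : List (ℚ × ℚ)} {c l x0 x1 sL sR : ℝ}
    (h : IvOK y H T c l x0 x1 sL sR) {t : ℝ} (ht0 : 0 ≤ t) (ht1 : t ≤ 1) :
    (c + l * ((1 - t) * x0 + t * x1)) ^ 2 ≤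
      Real.pi * ((1 - t) * x0 + t * x1) * (1 - ((1 - t) * sL + t * sR) ^ 2) := by
  have hpi := Real.pi_pos
  have r1 := interp' ht0 ht1 (w0 := Real.pi * x0) (w1 := Real.pi * x1)
    (mul_nonneg hpi.le h.x00) (mul_nonneg hpi.le (h.x00.trans h.lt.le))
    (sq_le_one_of h.sL0 h.sL1) (sq_le_one_of h.sR0 h.sR1) h.tube0 h.tube1
  have eh : c + l * ((1 - t) * x0 + t * x1) = (1 - t) * (c + l * x0) + t * (c + l * x1) := by ring
  have e1 : (1 - t) * (Real.pi * x0) + t * (Real.pi * x1) =
      Real.pi * ((1 - t) * x0 + t * x1) := by ring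
  rw [e1] at r1
  rw [eh]
  exact r1

theorem IvOK.far {y H : ℝ} {T : List (ℚ × ℚ)} {c l x0 x1 sL sR : ℝ}
    (h : IvOK y H T c l x0 x1 sL sR) {t : ℝ} (ht0 : 0 ≤ t) (ht1 : t ≤ 1) :
    (c + l * ((1 - t) * x0 + t * x1)) ^ 2 ≤
      (Lf y T ((1 - t) * x0 + t * x1)) ^ 2 * (1 - ((1 - t) * sL + t * sR) ^ 2) := by
  obtain ⟨b1, b2, b3⟩ := h.basic ht0 ht1
  have hσ2 : 0 ≤ 1 - ((1 - t) * sL + t * sR) ^ 2 := by linarith [sq_le_one_of b2 b3]
  obtain ⟨A, s, L0, L1, L2, L3, L4, L5, L6⟩ := h.L
  have r2 := interp' ht0 ht1 (sub_nonneg.2 L3) (sub_nonneg.2 L4)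
    (sq_le_one_of h.sL0 h.sL1) (sq_le_one_of h.sR0 h.sR1) L5 L6
  have eh : c + l * ((1 - t) * x0 + t * x1) = (1 - t) * (c + l * x0) + t * (c + l * x1) := by ring
  rw [eh]
  refine r2.trans (mul_le_mul_of_nonneg_right ?_ hσ2)
  have := sq_interp_ge (p := A + s * (x0 - y)) (q := A + s * (x1 - y)) (t := t)
  have e3 : A + s * (x1 - y) - (A + s * (x0 - y)) = s * (x1 - x0) := by ring
  rw [e3] at this
  refine this.trans ?_
  have e4 : (1 - t) * (A + s * (x0 - y)) + t * (A + s * (x1 - y)) =
      A + s * ((1 - t) * x0 + t * x1 - y) := by ring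
  have ht2 : 0 ≤ 1 - t := by linarith only [ht1]
  have e5 : 0 ≤ (1 - t) * (A + s * (x0 - y)) + t * (A + s * (x1 - y)) := by positivity
  rw [e4] at e5 ⊢
  exact pow_le_pow_left₀ e5 (L0 _) 2

theorem IvOK.corner {y H : ℝ} {T : List (ℚ × ℚ)} {c l x0 x1 sL sR : ℝ} (hH : 0 < H)
    (h : IvOK y H T c l x0 x1 sL sR) {t : ℝ} (ht0 : 0 ≤ t) (ht1 : t ≤ 1) :
    (c + l * ((1 - t) * x0 + t * x1)) ^ 2 ≤
      (pBf H ((1 - t) * x0 + t * x1)) ^ 2 * (1 - ((1 - t) * sL + t * sR) ^ 2) := by
  have hpi := Real.pi_pos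
  obtain ⟨b1, b2, b3⟩ := h.basic ht0 ht1
  have hσ2 : 0 ≤ 1 - ((1 - t) * sL + t * sR) ^ 2 := by linarith [sq_le_one_of b2 b3]
  have ht2 : 0 ≤ 1 - t := by linarith
  have eh : c + l * ((1 - t) * x0 + t * x1) = (1 - t) * (c + l * x0) + t * (c + l * x1) := by ring
  have hx0 : x0 ≤ 1 := h.lt.le.trans h.x11
  rcases h.B with ⟨B0, B1⟩ | ⟨B0, B1, B2, B3, B4⟩
  · have w0 : 0 ≤ Real.pi * (1 - x0) := mul_nonneg hpi.le (by linarith)
    have w1 : 0 ≤ Real.pi * (1 - x1) := mul_nonneg hpi.le (by linarith [h.x11])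
    have r3 := interp' ht0 ht1 w0 w1
      (sq_le_one_of h.sL0 h.sL1) (sq_le_one_of h.sR0 h.sR1) B0 B1
    rw [eh]
    refine r3.trans (mul_le_mul_of_nonneg_right ?_ hσ2)
    have e3 : (1 - t) * (Real.pi * (1 - x0)) + t * (Real.pi * (1 - x1)) =
      Real.pi * (1 - ((1 - t) * x0 + t * x1)) := by ring
    have h4 : 0 ≤ (1 - t) * (Real.pi * (1 - x0)) + t * (Real.pi * (1 - x1)) :=
      add_nonneg (mul_nonneg ht2 w0) (mul_nonneg ht0 w1)
    rw [e3] at h4 ⊢
    calc Real.pi * (1 - ((1 - t) * x0 + t * x1)) =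
        Real.sqrt (Real.pi * (1 - ((1 - t) * x0 + t * x1))) ^ 2 := (Real.sq_sqrt h4).symm
      _ ≤ _ := pow_le_pow_left₀ (Real.sqrt_nonneg _) (sqrt_le_pBf hH _) 2
  · have r3 := interp' ht0 ht1 (sub_nonneg.2 B1) (sub_nonneg.2 B2)
      (sq_le_one_of h.sL0 h.sL1) (sq_le_one_of h.sR0 h.sR1) B3 B4
    have hu1 : (1 - t) * x0 + t * x1 ≤ x1 := by
      have := mul_le_mul_of_nonneg_left h.lt.le ht2
      linarith only [this]
    have e3 : pBf H ((1 - t) * x0 + t * x1) =
        (1 - ((1 - t) * x0 + t * x1)) / H + Real.pi * H / 4 :=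
      pBf_eq_corner hH (by linarith only [B0, hu1])
    rw [e3, eh]
    refine r3.trans (mul_le_mul_of_nonneg_right ?_ hσ2)
    have := sq_interp_ge (p := (1 - x0) / H + Real.pi * H / 4)
      (q := (1 - x1) / H + Real.pi * H / 4) (t := t)
    have e4 : ((1 - x1) / H + Real.pi * H / 4 - ((1 - x0) / H + Real.pi * H / 4)) ^ 2 =
      ((x1 - x0) / H) ^ 2 := by ring
    rw [e4] at this
    refine this.trans (le_of_eq ?_)
    ring

theorem le_mul_sqrt_of {h z σ : ℝ} (hσ2 : 0 ≤ 1 - σ ^ 2) (hz : 0 ≤ z)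
    (hz2 : h ^ 2 ≤ z ^ 2 * (1 - σ ^ 2)) : h ≤ z * Real.sqrt (1 - σ ^ 2) := by
  have := abs_le_of_sq_le_sq' (a := h) (b := z * Real.sqrt (1 - σ ^ 2))
    (by rw [mul_pow, Real.sq_sqrt hσ2]; exact hz2) (by positivity)
  exact this.2

theorem IvOK.key {y H : ℝ} {T : List (ℚ × ℚ)} {c l x0 x1 sL sR : ℝ} (hH : 0 < H)
    (h : IvOK y H T c l x0 x1 sL sR) {t : ℝ} (ht0 : 0 ≤ t) (ht1 : t ≤ 1) :
    0 ≤ c + l * ((1 - t) * x0 + t * x1) ∧
    (c + l * ((1 - t) * x0 + t * x1)) ^ 2 ≤
      (qmin y H T ((1 - t) * x0 + t * x1)) ^ 2 * (1 - ((1 - t) * sL + t * sR) ^ 2) ∧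
    0 ≤ (1 - t) * sL + t * sR ∧ (1 - t) * sL + t * sR ≤ 1 := by
  obtain ⟨b1, b2, b3⟩ := h.basic ht0 ht1
  have r1 := h.tube ht0 ht1
  have r2 := h.far ht0 ht1
  have r3 := h.corner hH ht0 ht1
  have hσ2 : 0 ≤ 1 - ((1 - t) * sL + t * sR) ^ 2 := by linarith only [sq_le_one_of b2 b3]
  have hu0 : 0 ≤ (1 - t) * x0 + t * x1 := by
    have := h.x00
    have := h.x00.trans h.lt.le
    have ht2 : 0 ≤ 1 - t := by linarith only [ht1]
    positivity
  generalize (1 - t) * x0 + t * x1 = u at *
  generalize (1 - t) * sL + t * sR = σ at *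
  refine ⟨b1, ?_, b2, b3⟩
  have hpi := Real.pi_pos
  have r1' : (c + l * u) ^ 2 ≤ (Real.sqrt (Real.pi * u)) ^ 2 * (1 - σ ^ 2) := by
    rw [Real.sq_sqrt (by positivity)]; exact r1
  have k1 := le_mul_sqrt_of hσ2 (Real.sqrt_nonneg _) r1'
  have k2 := le_mul_sqrt_of hσ2 (zero_le_one.trans (one_le_Lf y T u)) r2
  have k3 := le_mul_sqrt_of hσ2 (pBf_nonneg hH u) r3
  have k4 : c + l * u ≤ qmin y H T u * Real.sqrt (1 - σ ^ 2) := by
    unfold qmin
    rcases min_choice (min (Real.sqrt (Real.pi * u)) (Lf y T u)) (pBf H u) with e | e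
    · rw [e]
      rcases min_choice (Real.sqrt (Real.pi * u)) (Lf y T u) with e | e
      · rw [e]; exact k1
      · rw [e]; exact k2
    · rw [e]; exact k3
  calc (c + l * u) ^ 2 ≤ (qmin y H T u * Real.sqrt (1 - σ ^ 2)) ^ 2 := pow_le_pow_left₀ b1 k4 2
    _ = _ := by rw [mul_pow, Real.sq_sqrt hσ2]

theorem IvOK.le_slq {y H : ℝ} {T : List (ℚ × ℚ)} {c l x0 x1 sL sR : ℝ} (hH : 0 < H)
    (h : IvOK y H T c l x0 x1 sL sR) {t : ℝ} (ht0 : 0 ≤ t) (ht1 : t ≤ 1) :
    (1 - t) * sL + t * sR ≤
      slq (fun u => 2 * qmin y H T u) c l ((1 - t) * x0 + t * x1) := by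
  obtain ⟨k1, k2, k3, k4⟩ := h.key hH ht0 ht1
  unfold slq
  apply Real.le_sqrt_of_sq_le
  set u := (1 - t) * x0 + t * x1
  set σ := (1 - t) * sL + t * sR
  have e : (2 * c + 2 * l * u) / (2 * qmin y H T u) = (c + l * u) / qmin y H T u := by
    rw [show 2 * c + 2 * l * u = 2 * (c + l * u) by ring, mul_div_mul_left _ _ (by norm_num)]
  simp only
  rw [e]
  rcases (qmin_nonneg hH y T u).eq_or_lt with h0 | h0
  · rw [← h0]; simp only [div_zero]; nlinarith only [k3, k4]
  · have : ((c + l * u) / qmin y H T u) ^ 2 ≤ 1 - σ ^ 2 := by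
      rw [div_pow, div_le_iff₀ (by positivity)]
      linarith only [k2]
    linarith only [this]

theorem IvOK.line {y H : ℝ} {T : List (ℚ × ℚ)} {c l x0 x1 sL sR : ℝ} (hH : 0 < H)
    (h : IvOK y H T c l x0 x1 sL sR) {u : ℝ} (hu : u ∈ Icc x0 x1) :
    0 ≤ 2 * c + 2 * l * u ∧ 2 * c + 2 * l * u ≤ 2 * qmin y H T u := by
  have hx : 0 < x1 - x0 := sub_pos.2 h.lt
  have ht0 : 0 ≤ (u - x0) / (x1 - x0) := div_nonneg (by linarith [hu.1]) hx.le
  have ht1 : (u - x0) / (x1 - x0) ≤ 1 := by rw [div_le_one hx]; linarith [hu.2]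
  obtain ⟨k1, k2, k3, k4⟩ := h.key hH ht0 ht1
  have e3 : (1 - (u - x0) / (x1 - x0)) * x0 + (u - x0) / (x1 - x0) * x1 = u := by
    field_simp
    ring
  rw [e3] at k1 k2
  refine ⟨by linarith only [k1], ?_⟩
  have : c + l * u ≤ qmin y H T u := by
    apply le_of_sq_le_sq _ (qmin_nonneg hH y T u)
    refine k2.trans ?_
    set σ := (1 - (u - x0) / (x1 - x0)) * sL + (u - x0) / (x1 - x0) * sR
    linarith only [sq_nonneg σ, sq_nonneg (qmin y H T u), mul_nonneg (sq_nonneg (qmin y H T u)) (sq_nonneg σ)]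
  linarith only [this]

theorem IvOK.integral {y H : ℝ} {T : List (ℚ × ℚ)} {c l x0 x1 sL sR : ℝ} (hH : 0 < H)
    (h : IvOK y H T c l x0 x1 sL sR) :
    (x1 - x0) * (sL + sR) / 2 ≤ ∫ u in x0..x1, slq (fun u => 2 * qmin y H T u) c l u := by
  have hx : 0 < x1 - x0 := sub_pos.2 h.lt
  have e : (∫ u in x0..x1, ((1 - (u - x0) / (x1 - x0)) * sL + ((u - x0) / (x1 - x0)) * sR)) =
      (x1 - x0) * (sL + sR) / 2 := by
    have e1 : (fun u : ℝ => ((1 - (u - x0) / (x1 - x0)) * sL + ((u - x0) / (x1 - x0)) * sR)) =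
        fun u => (sL - x0 * ((sR - sL) / (x1 - x0))) + ((sR - sL) / (x1 - x0)) * u := by
      ext u
      field_simp
      ring
    rw [e1, intervalIntegral.integral_add (by simp) (by apply Continuous.intervalIntegrable; fun_prop),
      intervalIntegral.integral_const, intervalIntegral.integral_const_mul, integral_id,
      smul_eq_mul]
    field_simp
    ring
  rw [← e]
  apply intervalIntegral.integral_mono_on h.lt.le
  · apply Continuous.intervalIntegrable
    fun_prop
  · apply intervalIntegrable_slq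
    exact (continuous_qmin y H T).const_smul (2 : ℝ)
  · intro u hu
    have h1 : 0 ≤ (u - x0) / (x1 - x0) := div_nonneg (by linarith only [hu.1]) hx.le
    have h2 : (u - x0) / (x1 - x0) ≤ 1 := by
      rw [div_le_one hx]; linarith only [hu.2]
    have := h.le_slq hH h1 h2
    have e3 : (1 - (u - x0) / (x1 - x0)) * x0 + (u - x0) / (x1 - x0) * x1 = u := by
      field_simp
      ring
    rw [e3] at this
    exact this

end Vale.Agent.P232
end
end

section

section

open MeasureTheory Set

namespace Vale.Agent.P232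

/-- Line bound with slack: `m`, `M` are the essential bounds of the areas `v` of the slices,
`Q v` is a lower bound of the perimeter of every slice and `PB v` one for the slices in a set of
parameters of measure `e` where `v` is large. -/
def SlackHyp (Q PB : ℝ → ℝ) (m M V e : ℝ) (P : ENNReal) : Prop :=
  ∀ F H D : ℝ, 0 ≤ D → (D = 0 ∨ M < 1) → (∀ u ∈ Icc m M, 0 ≤ F + H * u) → (∀ u ∈ Icc m M, F + H * u ≤ Q u) →
    (∀ u ∈ Icc (max m ((V - e * M) / (1 - e))) M,
      (F + H * u + D) * Q u ≤ (F + H * u) * PB u) →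
    ENNReal.ofReal (2 * (∫ u in m..M, Real.sqrt (1 - ((F + H * u) / Q u) ^ 2)) + F +
      H * V + D * e) ≤ P

/-- One interval of a certificate. -/
structure Iv where
  /-- right end -/
  x : ℚ
  /-- value at the left end -/
  sL : ℚ
  /-- value at the right end -/
  sR : ℚ
  /-- constant of the tangent -/
  A : ℚ
  /-- slope of the tangent -/
  s : ℚ
  /-- use of the corner bound -/
  k : Bool

/-- Parameters of a profile. -/
structure Par where
  /-- residual width -/
  y : ℚ
  /-- height of the complement -/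
  H : ℚ
  /-- tangents -/
  T : List (ℚ × ℚ)

/-- The far branch of an interval. -/
def farOK (p : Par) (c l x0 : ℚ) (I : Iv) : Bool :=
  (decide ((I.A, I.s) ∈ p.T) || (decide (I.A = 1) && decide (I.s = 0))) &&
  decide (0 ≤ I.A + I.s * (x0 - p.y)) && decide (0 ≤ I.A + I.s * (I.x - p.y)) &&
  decide ((I.s * (I.x - x0)) ^ 2 / 4 ≤ (I.A + I.s * (x0 - p.y)) ^ 2) &&
  decide ((I.s * (I.x - x0)) ^ 2 / 4 ≤ (I.A + I.s * (I.x - p.y)) ^ 2) &&
  decide ((c + l * x0) ^ 2 ≤
    ((I.A + I.s * (x0 - p.y)) ^ 2 - (I.s * (I.x - x0)) ^ 2 / 4) * (1 - I.sL ^ 2)) &&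
  decide ((c + l * I.x) ^ 2 ≤
    ((I.A + I.s * (I.x - p.y)) ^ 2 - (I.s * (I.x - x0)) ^ 2 / 4) * (1 - I.sR ^ 2))

/-- The corner branch of an interval. -/
def corOK (p : Par) (c l x0 : ℚ) (I : Iv) : Bool :=
  match I.k with
  | false => decide ((c + l * x0) ^ 2 ≤ piL * (1 - x0) * (1 - I.sL ^ 2)) &&
      decide ((c + l * I.x) ^ 2 ≤ piL * (1 - I.x) * (1 - I.sR ^ 2))
  | true => decide (piU * p.H ^ 2 / 4 ≤ 1 - I.x) &&
      decide (0 ≤ (1 - x0) / p.H + piL * p.H / 4) &&
      decide (0 ≤ (1 - I.x) / p.H + piL * p.H / 4) &&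
      decide (((I.x - x0) / p.H) ^ 2 / 4 ≤ ((1 - x0) / p.H + piL * p.H / 4) ^ 2) &&
      decide (((I.x - x0) / p.H) ^ 2 / 4 ≤ ((1 - I.x) / p.H + piL * p.H / 4) ^ 2) &&
      decide ((c + l * x0) ^ 2 ≤
        (((1 - x0) / p.H + piL * p.H / 4) ^ 2 - ((I.x - x0) / p.H) ^ 2 / 4) * (1 - I.sL ^ 2)) &&
      decide ((c + l * I.x) ^ 2 ≤
        (((1 - I.x) / p.H + piL * p.H / 4) ^ 2 - ((I.x - x0) / p.H) ^ 2 / 4) * (1 - I.sR ^ 2))

/-- Check of one interval. -/
def ivOK (p : Par) (c l x0 : ℚ) (I : Iv) : Bool :=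
  decide (x0 < I.x) && decide (0 ≤ I.sL) && decide (0 ≤ I.sR) && decide (I.sL ≤ 1) &&
  decide (I.sR ≤ 1) && decide (0 ≤ c + l * x0) && decide (0 ≤ c + l * I.x) &&
  decide ((c + l * x0) ^ 2 ≤ piL * x0 * (1 - I.sL ^ 2)) &&
  decide ((c + l * I.x) ^ 2 ≤ piL * I.x * (1 - I.sR ^ 2)) &&
  decide (0 ≤ x0) && decide (I.x ≤ 1) && farOK p c l x0 I && corOK p c l x0 I

theorem far_sound {p : Par} {c l x0 : ℚ} {I : Iv} (h : farOK p c l x0 I = true) :
    ∃ A s : ℝ, (∀ u, A + s * (u - p.y) ≤ Lf p.y p.T u) ∧ 0 ≤ A + s * (x0 - p.y) ∧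
    0 ≤ A + s * (I.x - p.y) ∧ (s * (I.x - x0)) ^ 2 / 4 ≤ (A + s * (x0 - p.y)) ^ 2 ∧
    (s * (I.x - x0)) ^ 2 / 4 ≤ (A + s * (I.x - p.y)) ^ 2 ∧
    (c + l * x0 : ℝ) ^ 2 ≤
      ((A + s * (x0 - p.y)) ^ 2 - (s * (I.x - x0)) ^ 2 / 4) * (1 - (I.sL : ℝ) ^ 2) ∧
    (c + l * I.x : ℝ) ^ 2 ≤
      ((A + s * (I.x - p.y)) ^ 2 - (s * (I.x - x0)) ^ 2 / 4) * (1 - (I.sR : ℝ) ^ 2) := by
  simp only [farOK, Bool.and_eq_true, decide_eq_true_eq, Bool.or_eq_true] at h
  obtain ⟨⟨⟨⟨⟨⟨h1, h2⟩, h3⟩, h4⟩, h5⟩, h6⟩, h7⟩ := h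
  refine ⟨I.A, I.s, ?_, by exact_mod_cast h2, by exact_mod_cast h3, by exact_mod_cast h4,
    by exact_mod_cast h5, by exact_mod_cast h6, by exact_mod_cast h7⟩
  intro u
  rcases h1 with h1 | ⟨h1, h1'⟩
  · exact le_Lf_of_mem h1 u
  · rw [h1, h1']
    have := one_le_Lf (p.y : ℝ) p.T u
    simpa using this

theorem cor_sound {p : Par} {c l x0 : ℚ} {I : Iv} (hH : 0 < p.H) (hs0 : 0 ≤ I.sL)
    (hs1 : 0 ≤ I.sR) (ht0 : I.sL ≤ 1) (ht1 : I.sR ≤ 1) (hx0 : x0 ≤ 1) (hx1 : I.x ≤ 1)
    (h : corOK p c l x0 I = true) :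
    ((c + l * x0 : ℝ) ^ 2 ≤ Real.pi * (1 - x0) * (1 - (I.sL : ℝ) ^ 2) ∧
      (c + l * I.x : ℝ) ^ 2 ≤ Real.pi * (1 - I.x) * (1 - (I.sR : ℝ) ^ 2)) ∨
    (Real.pi * (p.H : ℝ) ^ 2 / 4 ≤ 1 - I.x ∧
    (((I.x : ℝ) - x0) / p.H) ^ 2 / 4 ≤ ((1 - x0) / p.H + Real.pi * p.H / 4) ^ 2 ∧
    (((I.x : ℝ) - x0) / p.H) ^ 2 / 4 ≤ ((1 - I.x) / p.H + Real.pi * p.H / 4) ^ 2 ∧
    (c + l * x0 : ℝ) ^ 2 ≤ (((1 - x0) / p.H + Real.pi * p.H / 4) ^ 2 -
      (((I.x : ℝ) - x0) / p.H) ^ 2 / 4) * (1 - (I.sL : ℝ) ^ 2) ∧
    (c + l * I.x : ℝ) ^ 2 ≤ (((1 - I.x) / p.H + Real.pi * p.H / 4) ^ 2 -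
      (((I.x : ℝ) - x0) / p.H) ^ 2 / 4) * (1 - (I.sR : ℝ) ^ 2)) := by
  have hH' : (0 : ℝ) < p.H := by exact_mod_cast hH
  have a0 : (0 : ℝ) ≤ I.sL := by exact_mod_cast hs0
  have a1 : (0 : ℝ) ≤ I.sR := by exact_mod_cast hs1
  have a2 : (I.sL : ℝ) ≤ 1 := by exact_mod_cast ht0
  have a3 : (I.sR : ℝ) ≤ 1 := by exact_mod_cast ht1
  have a4 : (x0 : ℝ) ≤ 1 := by exact_mod_cast hx0
  have a5 : (I.x : ℝ) ≤ 1 := by exact_mod_cast hx1
  have s0 : 0 ≤ 1 - (I.sL : ℝ) ^ 2 := by linarith [sq_le_one_of a0 a2]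
  have s1 : 0 ≤ 1 - (I.sR : ℝ) ^ 2 := by linarith [sq_le_one_of a1 a3]
  have hpL := piL_le
  have hpU := le_piU
  unfold corOK at h
  rcases hk : I.k with _ | _
  · left
    rw [hk] at h
    simp only [Bool.and_eq_true, decide_eq_true_eq] at h
    obtain ⟨h1, h2⟩ := h
    have h1' : ((c : ℝ) + l * x0) ^ 2 ≤ (piL : ℝ) * (1 - x0) * (1 - (I.sL : ℝ) ^ 2) := by
      exact_mod_cast h1
    have h2' : ((c : ℝ) + l * I.x) ^ 2 ≤ (piL : ℝ) * (1 - I.x) * (1 - (I.sR : ℝ) ^ 2) := by
      exact_mod_cast h2
    have b0 : (0 : ℝ) ≤ 1 - x0 := by linarith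
    have b1 : (0 : ℝ) ≤ 1 - I.x := by linarith
    refine ⟨h1'.trans ?_, h2'.trans ?_⟩
    · gcongr
    · gcongr
  · right
    rw [hk] at h
    simp only [Bool.and_eq_true, decide_eq_true_eq] at h
    obtain ⟨⟨⟨⟨⟨⟨h1, h2⟩, h3⟩, h4⟩, h5⟩, h6⟩, h7⟩ := h
    have g1 : (piU : ℝ) * (p.H : ℝ) ^ 2 / 4 ≤ 1 - I.x := by exact_mod_cast h1
    have g2 : (0 : ℝ) ≤ (1 - x0) / p.H + (piL : ℝ) * p.H / 4 := by exact_mod_cast h2
    have g3 : (0 : ℝ) ≤ (1 - I.x) / p.H + (piL : ℝ) * p.H / 4 := by exact_mod_cast h3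
    have g4 : (((I.x : ℝ) - x0) / p.H) ^ 2 / 4 ≤ ((1 - x0) / p.H + (piL : ℝ) * p.H / 4) ^ 2 := by
      exact_mod_cast h4
    have g5 : (((I.x : ℝ) - x0) / p.H) ^ 2 / 4 ≤
        ((1 - I.x) / p.H + (piL : ℝ) * p.H / 4) ^ 2 := by
      exact_mod_cast h5
    have g6 : ((c : ℝ) + l * x0) ^ 2 ≤ (((1 - x0) / p.H + (piL : ℝ) * p.H / 4) ^ 2 -
      (((I.x : ℝ) - x0) / p.H) ^ 2 / 4) * (1 - (I.sL : ℝ) ^ 2) := by exact_mod_cast h6
    have g7 : ((c : ℝ) + l * I.x) ^ 2 ≤ (((1 - I.x) / p.H + (piL : ℝ) * p.H / 4) ^ 2 -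
      (((I.x : ℝ) - x0) / p.H) ^ 2 / 4) * (1 - (I.sR : ℝ) ^ 2) := by exact_mod_cast h7
    have m0 : ((1 - x0 : ℝ) / p.H + (piL : ℝ) * p.H / 4) ^ 2 ≤
        ((1 - x0) / p.H + Real.pi * p.H / 4) ^ 2 := by
      apply pow_le_pow_left₀ g2
      gcongr
    have m1 : ((1 - I.x : ℝ) / p.H + (piL : ℝ) * p.H / 4) ^ 2 ≤
        ((1 - I.x) / p.H + Real.pi * p.H / 4) ^ 2 := by
      apply pow_le_pow_left₀ g3
      gcongr
    refine ⟨?_, g4.trans m0, g5.trans m1, g6.trans ?_, g7.trans ?_⟩
    · refine le_trans ?_ g1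
      gcongr
    · apply mul_le_mul_of_nonneg_right _ s0
      linarith only [m0]
    · apply mul_le_mul_of_nonneg_right _ s1
      linarith only [m1]

theorem iv_sound {p : Par} {c l x0 : ℚ} {I : Iv} (hH : 0 < p.H) (h : ivOK p c l x0 I = true) :
    IvOK (p.y : ℝ) (p.H : ℝ) p.T (c : ℝ) (l : ℝ) (x0 : ℝ) (I.x : ℝ) (I.sL : ℝ) (I.sR : ℝ) := by
  simp only [ivOK, Bool.and_eq_true, decide_eq_true_eq] at h
  obtain ⟨⟨⟨⟨⟨⟨⟨⟨⟨⟨⟨⟨h1, h2⟩, h3⟩, h4⟩, h5⟩, h6⟩, h7⟩, h8⟩, h9⟩, h10⟩, h11⟩, h12⟩, h13⟩ := h
  have a0 : (0 : ℝ) ≤ I.sL := by exact_mod_cast h2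
  have a1 : (0 : ℝ) ≤ I.sR := by exact_mod_cast h3
  have a2 : (I.sL : ℝ) ≤ 1 := by exact_mod_cast h4
  have a3 : (I.sR : ℝ) ≤ 1 := by exact_mod_cast h5
  have s0 : 0 ≤ 1 - (I.sL : ℝ) ^ 2 := by linarith [sq_le_one_of a0 a2]
  have s1 : 0 ≤ 1 - (I.sR : ℝ) ^ 2 := by linarith [sq_le_one_of a1 a3]
  have b0 : (0 : ℝ) ≤ x0 := by exact_mod_cast h10
  have b1 : (x0 : ℝ) < I.x := by exact_mod_cast h1
  have b2 : (0 : ℝ) ≤ I.x := b0.trans b1.le
  have g8 : ((c : ℝ) + l * x0) ^ 2 ≤ (piL : ℝ) * x0 * (1 - (I.sL : ℝ) ^ 2) := by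
    exact_mod_cast h8
  have g9 : ((c : ℝ) + l * I.x) ^ 2 ≤ (piL : ℝ) * I.x * (1 - (I.sR : ℝ) ^ 2) := by
    exact_mod_cast h9
  have hpL := piL_le
  exact
    { lt := b1
      sL0 := a0
      sR0 := a1
      sL1 := a2
      sR1 := a3
      h0 := by exact_mod_cast h6
      h1 := by exact_mod_cast h7
      tube0 := g8.trans (by gcongr)
      tube1 := g9.trans (by gcongr)
      x00 := b0
      x11 := by exact_mod_cast h11
      L := far_sound h12
      B := cor_sound hH h2 h3 h4 h5 (h1.le.trans h11) h11 h13 }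

/-- Check of a chain of intervals. -/
def chOK (p : Par) (c l : ℚ) : ℚ → List Iv → Bool
  | _, [] => true
  | x0, I :: L => ivOK p c l x0 I && chOK p c l I.x L

/-- The end of a chain. -/
def endX : ℚ → List Iv → ℚ
  | x0, [] => x0
  | _, I :: L => endX I.x L

/-- The trapezoidal sum of a chain. -/
def trp : ℚ → List Iv → ℚ
  | _, [] => 0
  | x0, I :: L => (I.x - x0) * (I.sL + I.sR) / 2 + trp I.x L

theorem ch_line {p : Par} {c l : ℚ} (hH : 0 < p.H) (L : List Iv) (x0 : ℚ)
    (h : chOK p c l x0 L = true) {u : ℝ} (h0 : (x0 : ℝ) < u) (h1 : u ≤ ((endX x0 L : ℚ) : ℝ)) :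
    0 ≤ 2 * (c : ℝ) + 2 * l * u ∧ 2 * (c : ℝ) + 2 * l * u ≤ 2 * qmin p.y p.H p.T u := by
  induction L generalizing x0 with
  | nil => simp only [endX] at h1; linarith only [h0, h1]
  | cons I L ih =>
    simp only [chOK, Bool.and_eq_true] at h
    rcases le_or_gt u (I.x : ℝ) with h2 | h2
    · exact (iv_sound hH h.1).line (by exact_mod_cast hH) ⟨h0.le, h2⟩
    · exact ih I.x h.2 h2 h1

theorem ch_start {p : Par} {c l : ℚ} (hH : 0 < p.H) (L : List Iv) (x0 : ℚ)
    (h : chOK p c l x0 L = true) (hne : x0 < endX x0 L) :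
    0 ≤ 2 * (c : ℝ) + 2 * l * x0 ∧ 2 * (c : ℝ) + 2 * l * x0 ≤ 2 * qmin p.y p.H p.T x0 := by
  cases L with
  | nil => simp only [endX] at hne; exact absurd hne (lt_irrefl _)
  | cons I L =>
    simp only [chOK, Bool.and_eq_true] at h
    have h1 := iv_sound hH h.1
    exact h1.line (by exact_mod_cast hH) ⟨le_rfl, h1.lt.le⟩

theorem ch_integral {p : Par} {c l : ℚ} (hH : 0 < p.H) (L : List Iv) (x0 : ℚ)
    (h : chOK p c l x0 L = true) :
    (x0 : ℝ) ≤ ((endX x0 L : ℚ) : ℝ) ∧ ((trp x0 L : ℚ) : ℝ) ≤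
      ∫ u in (x0 : ℝ)..((endX x0 L : ℚ) : ℝ), slq (fun u => 2 * qmin p.y p.H p.T u) c l u := by
  have hcont : Continuous (fun u => 2 * qmin (p.y : ℝ) p.H p.T u) :=
    (continuous_qmin _ _ _).const_smul (2 : ℝ)
  induction L generalizing x0 with
  | nil => simp [endX, trp]
  | cons I L ih =>
    simp only [chOK, Bool.and_eq_true] at h
    obtain ⟨k1, k2⟩ := ih I.x h.2
    have h1 := iv_sound hH h.1
    refine ⟨h1.lt.le.trans k1, ?_⟩
    simp only [endX, trp]
    rw [← intervalIntegral.integral_add_adjacent_intervals (b := (I.x : ℝ))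
      (intervalIntegrable_slq hcont _ _ _ _) (intervalIntegrable_slq hcont _ _ _ _)]
    have := h1.integral (by exact_mod_cast hH)
    push_cast
    linarith only [k2, this]

/-- Certificate for a cell. -/
structure GCert where
  /-- upper end for `M` -/
  b2 : ℚ
  /-- line -/
  c : ℚ
  /-- line -/
  l : ℚ
  /-- intervals -/
  pre : List Iv
  /-- intervals -/
  mid : List Iv
  /-- intervals -/
  post : List Iv
  /-- comparison -/
  th : ℚ
  /-- comparison -/
  t : ℚ
  /-- slack -/
  D : ℚ
  /-- slack data -/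
  xlo : ℚ
  /-- slack data -/
  r0 : ℚ
  /-- slack data -/
  r1 : ℚ
  /-- slack data -/
  kD : Bool

/-- Rational version of `Lf`. -/
def LfQ (y : ℚ) : List (ℚ × ℚ) → ℚ → ℚ
  | [], _ => 1
  | p :: T, u => max (p.1 + p.2 * (u - y)) (LfQ y T u)

theorem cast_LfQ (y : ℚ) (T : List (ℚ × ℚ)) (u : ℚ) :
    ((LfQ y T u : ℚ) : ℝ) = Lf (y : ℝ) T (u : ℝ) := by
  induction T with
  | nil => simp [LfQ, Lf]
  | cons p T ih =>
    simp only [LfQ, Lf]
    rw [← ih]
    push_cast
    rfl

theorem Lf_convex (y : ℝ) (T : List (ℚ × ℚ)) {x0 x1 t : ℝ} (h0 : 0 ≤ t) (h1 : t ≤ 1) :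
    Lf y T ((1 - t) * x0 + t * x1) ≤ (1 - t) * Lf y T x0 + t * Lf y T x1 := by
  have h2 : 0 ≤ 1 - t := by linarith
  induction T with
  | nil => simp [Lf]
  | cons p T ih =>
    simp only [Lf]
    apply max_le
    · have k0 := mul_le_mul_of_nonneg_left
        (le_max_left ((p.1 : ℝ) + p.2 * (x0 - y)) (Lf y T x0)) h2
      have k1 := mul_le_mul_of_nonneg_left
        (le_max_left ((p.1 : ℝ) + p.2 * (x1 - y)) (Lf y T x1)) h0
      linarith
    · have k0 := mul_le_mul_of_nonneg_left
        (le_max_right ((p.1 : ℝ) + p.2 * (x0 - y)) (Lf y T x0)) h2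
      have k1 := mul_le_mul_of_nonneg_left
        (le_max_right ((p.1 : ℝ) + p.2 * (x1 - y)) (Lf y T x1)) h0
      linarith

/-- Check of the slack. -/
def slackOK (p : Par) (V0 e a : ℚ) (C : GCert) : Bool :=
  decide (C.D = 0) || (decide (0 < C.D) && decide (0 ≤ C.l) &&
    (decide (C.xlo ≤ a) || decide (C.xlo * (1 - e) ≤ V0 - e * C.b2)) &&
    decide (0 ≤ C.r0) && decide (0 ≤ C.r1) && decide (C.r1 ≤ C.r0) &&
    decide (LfQ p.y p.T C.xlo ≤ LfQ p.y p.T C.b2) &&
    (decide (0 ≤ C.c + C.l * C.xlo) && decide (C.xlo ≤ C.b2)) &&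
    decide ((C.c + C.l * C.xlo + C.D) * LfQ p.y p.T C.xlo ≤ (C.c + C.l * C.xlo) * C.r0) &&
    decide ((C.c + C.l * C.b2 + C.D) * LfQ p.y p.T C.b2 ≤ (C.c + C.l * C.b2) * C.r1) &&
    (match C.kD with
      | false => decide (C.r0 ^ 2 ≤ piL * (1 - C.xlo)) && decide (C.r1 ^ 2 ≤ piL * (1 - C.b2))
      | true => decide (piU * p.H ^ 2 / 4 ≤ 1 - C.b2) &&
        decide (C.r0 ≤ (1 - C.xlo) / p.H + piL * p.H / 4) &&
        decide (C.r1 ≤ (1 - C.b2) / p.H + piL * p.H / 4)))

theorem slack_aux {h0 h1 L0 L1 r0 r1 D t Lu Ru : ℝ} (ht0 : 0 ≤ t) (ht1 : t ≤ 1)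
    (hh0 : 0 ≤ h0) (hh : h0 ≤ h1) (hD : 0 ≤ D) (hL : L0 ≤ L1) (hr : r1 ≤ r0)
    (hLu : Lu ≤ (1 - t) * L0 + t * L1) (hRu : (1 - t) * r0 + t * r1 ≤ Ru)
    (e0 : (h0 + D) * L0 ≤ h0 * r0) (e1 : (h1 + D) * L1 ≤ h1 * r1) :
    ((1 - t) * h0 + t * h1 + D) * Lu ≤ ((1 - t) * h0 + t * h1) * Ru := by
  have ht2 : 0 ≤ 1 - t := by linarith
  have hh1 : 0 ≤ h1 := hh0.trans hh
  have hht : 0 ≤ (1 - t) * h0 + t * h1 := by positivity
  have k1 := mul_le_mul_of_nonneg_left hLu (by linarith : 0 ≤ (1 - t) * h0 + t * h1 + D)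
  have k2 := mul_le_mul_of_nonneg_left hRu hht
  have k3 : 0 ≤ t * (1 - t) * ((h1 - h0) * ((r0 - r1) + (L1 - L0))) :=
    mul_nonneg (mul_nonneg ht0 ht2) (mul_nonneg (by linarith) (by linarith))
  have k4 := mul_le_mul_of_nonneg_left e0 ht2
  have k5 := mul_le_mul_of_nonneg_left e1 ht0
  refine k1.trans (le_trans ?_ k2)
  linarith only [k3, k4, k5]

theorem slack_sound {p : Par} {V0 e a : ℚ} {C : GCert} (hH : 0 < p.H) (he0 : 0 ≤ e) (he1 : e < 1)
    (h : slackOK p V0 e a C = true) {m M V : ℝ} (ham : (a : ℝ) ≤ m) (hM : M ≤ (C.b2 : ℝ))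
    (hV : (V0 : ℝ) ≤ V) (hline : ∀ u ∈ Icc m M, 0 ≤ 2 * (C.c : ℝ) + 2 * C.l * u) :
    0 ≤ 2 * (C.D : ℝ) ∧ (2 * (C.D : ℝ) = 0 ∨ M < 1) ∧
      ∀ u ∈ Icc (max m ((V - e * M) / (1 - e))) M,
      (2 * (C.c : ℝ) + 2 * C.l * u + 2 * C.D) * (2 * qmin p.y p.H p.T u) ≤
        (2 * (C.c : ℝ) + 2 * C.l * u) * (2 * pBf p.H u) := by
  have hH' : (0 : ℝ) < p.H := by exact_mod_cast hH
  have he0' : (0 : ℝ) ≤ e := by exact_mod_cast he0
  have he1' : (e : ℝ) < 1 := by exact_mod_cast he1
  simp only [slackOK, Bool.or_eq_true, Bool.and_eq_true, decide_eq_true_eq] at h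
  rcases h with h | ⟨⟨⟨⟨⟨⟨⟨⟨⟨⟨h1, h2⟩, h3⟩, h4⟩, h5⟩, h6⟩, h7⟩, h8, h8'⟩, h9⟩, h10⟩, h11⟩
  · rw [h]
    refine ⟨by simp, Or.inl (by simp), fun u hu => ?_⟩
    have hu' : u ∈ Icc m M := ⟨(le_max_left _ _).trans hu.1, hu.2⟩
    have := hline u hu'
    have h3 : qmin p.y p.H p.T u ≤ pBf p.H u := min_le_right _ _
    have h4 : 2 * qmin (p.y : ℝ) p.H p.T u ≤ 2 * pBf p.H u := by linarith
    calc (2 * (C.c : ℝ) + 2 * C.l * u + 2 * ((0 : ℚ) : ℝ)) * (2 * qmin p.y p.H p.T u) =
        (2 * (C.c : ℝ) + 2 * C.l * u) * (2 * qmin p.y p.H p.T u) := by simp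
      _ ≤ _ := mul_le_mul_of_nonneg_left h4 this
  · have g1 : (0 : ℝ) < C.D := by exact_mod_cast h1
    have g2 : (0 : ℝ) ≤ C.l := by exact_mod_cast h2
    have g4 : (0 : ℝ) ≤ C.r0 := by exact_mod_cast h4
    have g5 : (0 : ℝ) ≤ C.r1 := by exact_mod_cast h5
    have g6 : (C.r1 : ℝ) ≤ C.r0 := by exact_mod_cast h6
    have g7 : Lf (p.y : ℝ) p.T C.xlo ≤ Lf (p.y : ℝ) p.T C.b2 := by
      rw [← cast_LfQ, ← cast_LfQ]; exact_mod_cast h7
    have g8 : (0 : ℝ) ≤ C.c + C.l * C.xlo := by exact_mod_cast h8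
    have hxb : (C.xlo : ℝ) ≤ C.b2 := by exact_mod_cast h8'
    have g9 : ((C.c : ℝ) + C.l * C.xlo + C.D) * Lf (p.y : ℝ) p.T C.xlo ≤
        (C.c + C.l * C.xlo) * C.r0 := by
      rw [← cast_LfQ]; exact_mod_cast h9
    have g10 : ((C.c : ℝ) + C.l * C.b2 + C.D) * Lf (p.y : ℝ) p.T C.b2 ≤
        (C.c + C.l * C.b2) * C.r1 := by
      rw [← cast_LfQ]; exact_mod_cast h10
    have hb21 : (C.b2 : ℝ) < 1 := by
      have hr1 : 0 < (C.r1 : ℝ) := by
        rcases g5.eq_or_lt with h0 | h0
        · exfalso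
          rw [← h0, mul_zero] at g10
          by_cases hx : (0 : ℝ) ≤ C.c + C.l * C.b2
          · have : 0 < ((C.c : ℝ) + C.l * C.b2 + C.D) * Lf (p.y : ℝ) p.T C.b2 :=
              mul_pos (by linarith only [g1, hx]) (lt_of_lt_of_le one_pos (one_le_Lf _ _ _))
            linarith only [g10, this]
          · have h12 : (C.b2 : ℝ) < C.xlo := by
              by_contra hc
              push Not at hc hx
              have := mul_le_mul_of_nonneg_left hc g2
              linarith only [g8, hx, this]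
            have h13 : (C.xlo : ℝ) ≤ C.b2 := hxb
            linarith only [hxb, h12]
        · exact h0
      revert h11
      rcases C.kD with _ | _
      · intro h11
        simp only [Bool.and_eq_true, decide_eq_true_eq] at h11
        have h11' : (C.r1 : ℝ) ^ 2 ≤ (piL : ℝ) * (1 - C.b2) := by exact_mod_cast h11.2
        have hpL : (0 : ℝ) < (piL : ℝ) := by norm_num [piL]
        have : 0 < (piL : ℝ) * (1 - C.b2) := lt_of_lt_of_le (by positivity) h11'
        linarith only [(pos_iff_pos_of_mul_pos this).1 hpL]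
      · intro h11
        simp only [Bool.and_eq_true, decide_eq_true_eq] at h11
        obtain ⟨⟨i1, i2⟩, i3⟩ := h11
        have i1' : (piU : ℝ) * (p.H : ℝ) ^ 2 / 4 ≤ 1 - C.b2 := by exact_mod_cast i1
        have hpU : (0 : ℝ) < (piU : ℝ) := by norm_num [piU]
        have : 0 < (piU : ℝ) * (p.H : ℝ) ^ 2 / 4 := by positivity
        linarith only [i1', this]
    refine ⟨by linarith only [g1], Or.inr (lt_of_le_of_lt hM hb21), fun u hu => ?_⟩
    -- `u` lies in `[xlo, b2]`
    have hu1 : u ≤ (C.b2 : ℝ) := hu.2.trans hM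
    have hu0 : (C.xlo : ℝ) ≤ u := by
      refine le_trans ?_ hu.1
      rcases h3 with h3 | h3
      · have : (C.xlo : ℝ) ≤ a := by exact_mod_cast h3
        exact this.trans (ham.trans (le_max_left _ _))
      · have h3' : (C.xlo : ℝ) * (1 - e) ≤ V0 - e * C.b2 := by exact_mod_cast h3
        refine le_trans ?_ (le_max_right _ _)
        rw [le_div_iff₀ (by linarith only [he1'])]
        have := mul_le_mul_of_nonneg_left hM he0'
        linarith only [hV, h3', this]
    rcases (hu0.trans hu1).eq_or_lt with hx | hx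
    · -- degenerate interval
      have hux : u = C.b2 := le_antisymm hu1 (by rw [← hx]; exact hu0)
      have hR : (C.r1 : ℝ) ≤ pBf p.H u := by
        rw [hux]
        revert h11
        rcases C.kD with _ | _
        · intro h11
          simp only [Bool.and_eq_true, decide_eq_true_eq] at h11
          have h11' : (C.r1 : ℝ) ^ 2 ≤ (piL : ℝ) * (1 - C.b2) := by exact_mod_cast h11.2
          refine le_trans ?_ (sqrt_le_pBf hH' _)
          apply Real.le_sqrt_of_sq_le
          refine h11'.trans (mul_le_mul_of_nonneg_right piL_le ?_)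
          have hpL : (0 : ℝ) < (piL : ℝ) := by norm_num [piL]
          exact nonneg_of_mul_nonneg_right ((sq_nonneg _).trans h11') hpL
        · intro h11
          simp only [Bool.and_eq_true, decide_eq_true_eq] at h11
          obtain ⟨⟨i1, i2⟩, i3⟩ := h11
          have i1' : (piU : ℝ) * (p.H : ℝ) ^ 2 / 4 ≤ 1 - C.b2 := by exact_mod_cast i1
          have i3' : (C.r1 : ℝ) ≤ (1 - C.b2) / p.H + piL * p.H / 4 := by exact_mod_cast i3
          rw [pBf_eq_corner hH' (le_trans (by have := le_piU; gcongr) i1')]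
          refine i3'.trans ?_
          have := piL_le
          gcongr
      have hh1 : 0 ≤ (C.c : ℝ) + C.l * C.b2 := by
        have := mul_le_mul_of_nonneg_left hx.le g2
        linarith only [g8, this]
      have hq : qmin (p.y : ℝ) p.H p.T u ≤ Lf (p.y : ℝ) p.T C.b2 := by
        rw [hux]; exact (min_le_left _ _).trans (min_le_right _ _)
      rw [← hux] at g10 hh1 hq
      have k1 := mul_le_mul_of_nonneg_left hq
        (by linarith only [g1, hh1] : (0 : ℝ) ≤ (C.c : ℝ) + C.l * u + C.D)
      have k2 := mul_le_mul_of_nonneg_left hR hh1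
      linarith only [k1, k2, g10]
    · have hx' : (0 : ℝ) < C.b2 - C.xlo := by linarith only [hx]
      set t := (u - C.xlo) / ((C.b2 : ℝ) - C.xlo) with ht
      have ht0 : 0 ≤ t := div_nonneg (by linarith only [hu0]) hx'.le
      have ht1 : t ≤ 1 := by rw [ht, div_le_one hx']; linarith only [hu1]
      have ht2 : 0 ≤ 1 - t := by linarith only [ht1]
      have eu : (1 - t) * (C.xlo : ℝ) + t * C.b2 = u := by
        rw [ht]; field_simp; ring
      have hLu : Lf (p.y : ℝ) p.T u ≤ (1 - t) * Lf (p.y : ℝ) p.T C.xlo +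
          t * Lf (p.y : ℝ) p.T C.b2 := by
        have := Lf_convex (p.y : ℝ) p.T (x0 := (C.xlo : ℝ)) (x1 := (C.b2 : ℝ)) ht0 ht1
        rwa [eu] at this
      have hRu : (1 - t) * (C.r0 : ℝ) + t * C.r1 ≤ pBf p.H u := by
        revert h11
        rcases C.kD with _ | _
        · intro h11
          simp only [Bool.and_eq_true, decide_eq_true_eq] at h11
          have i1 : (C.r0 : ℝ) ^ 2 ≤ (piL : ℝ) * (1 - C.xlo) := by exact_mod_cast h11.1
          have i2 : (C.r1 : ℝ) ^ 2 ≤ (piL : ℝ) * (1 - C.b2) := by exact_mod_cast h11.2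
          refine le_trans ?_ (sqrt_le_pBf hH' _)
          apply Real.le_sqrt_of_sq_le
          have hpL : (0 : ℝ) < (piL : ℝ) := by norm_num [piL]
          have e1 : ((1 - t) * (C.r0 : ℝ) + t * C.r1) ^ 2 ≤
              (1 - t) * (C.r0 : ℝ) ^ 2 + t * (C.r1 : ℝ) ^ 2 := by
            rw [sq_interp]
            have : 0 ≤ t * (1 - t) * ((C.r1 : ℝ) - C.r0) ^ 2 := by (clear * - hu0 hx ht1; positivity)
            linarith only [this]
          have e2 := mul_le_mul_of_nonneg_left i1 ht2
          have e3 := mul_le_mul_of_nonneg_left i2 ht0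
          have e4 : (1 - t) * ((piL : ℝ) * (1 - C.xlo)) + t * ((piL : ℝ) * (1 - C.b2)) =
              (piL : ℝ) * (1 - u) := by rw [← eu]; ring
          have e5 : (piL : ℝ) * (1 - u) ≤ Real.pi * (1 - u) := by
            apply mul_le_mul_of_nonneg_right piL_le
            have : 0 ≤ (piL : ℝ) * (1 - u) := by
              rw [← e4]
              exact ((sq_nonneg _).trans e1).trans (by linarith only [e2, e3])
            exact nonneg_of_mul_nonneg_right this hpL
          linarith only [e1, e2, e3, e4, e5]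
        · intro h11
          simp only [Bool.and_eq_true, decide_eq_true_eq] at h11
          obtain ⟨⟨i1, i2⟩, i3⟩ := h11
          have i1' : (piU : ℝ) * (p.H : ℝ) ^ 2 / 4 ≤ 1 - C.b2 := by exact_mod_cast i1
          have i2' : (C.r0 : ℝ) ≤ (1 - C.xlo) / p.H + piL * p.H / 4 := by exact_mod_cast i2
          have i3' : (C.r1 : ℝ) ≤ (1 - C.b2) / p.H + piL * p.H / 4 := by exact_mod_cast i3
          have i4 : Real.pi * (p.H : ℝ) ^ 2 / 4 ≤ 1 - u := by
            have := le_piU
            have : Real.pi * (p.H : ℝ) ^ 2 / 4 ≤ (piU : ℝ) * (p.H : ℝ) ^ 2 / 4 := by gcongr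
            linarith only [hu1, i1', this]
          rw [pBf_eq_corner hH' i4]
          have e2 := mul_le_mul_of_nonneg_left i2' ht2
          have e3 := mul_le_mul_of_nonneg_left i3' ht0
          have e4 : (1 - t) * ((1 - C.xlo) / p.H + (piL : ℝ) * p.H / 4) +
              t * ((1 - C.b2) / p.H + (piL : ℝ) * p.H / 4) = (1 - u) / p.H + (piL : ℝ) * p.H / 4 := by
            rw [← eu]; ring
          have e5 : (piL : ℝ) * p.H / 4 ≤ Real.pi * p.H / 4 := by
            have := piL_le
            gcongr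
          linarith only [e2, e3, e4, e5]
      have key := slack_aux (D := (C.D : ℝ)) ht0 ht1 g8
        (by linarith only [mul_le_mul_of_nonneg_left hx.le g2] :
          (C.c : ℝ) + C.l * C.xlo ≤ C.c + C.l * C.b2) g1.le g7 g6 hLu hRu g9 g10
      have eh : (1 - t) * ((C.c : ℝ) + C.l * C.xlo) + t * (C.c + C.l * C.b2) = C.c + C.l * u := by
        rw [← eu]; ring
      rw [eh] at key
      have hh : 0 ≤ (C.c : ℝ) + C.l * u := by
        have := mul_le_mul_of_nonneg_left hu0 g2
        linarith only [g8, this]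
      have hq : qmin (p.y : ℝ) p.H p.T u ≤ Lf (p.y : ℝ) p.T u :=
        (min_le_left _ _).trans (min_le_right _ _)
      have k1 := mul_le_mul_of_nonneg_left hq
        (by linarith only [g1, hh] : (0 : ℝ) ≤ (C.c : ℝ) + C.l * u + C.D)
      linarith only [k1, key]

end Vale.Agent.P232
end
end

section

section

open MeasureTheory Set

namespace Vale.Agent.P232

/-- The comparison at one volume. -/
def cmpOK (e T : ℚ) (C : GCert) (v : ℚ) : Bool :=
  decide (C.th * ((piU * v / C.t + C.t) / 2) + (1 - C.th) < C.c + C.l * v + T + e * C.D)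

/-- The comparison with the conjectured profile. -/
def finOK (V0 V1 e a a2 : ℚ) (C : GCert) : Bool :=
  decide (0 ≤ C.th) && decide (C.th ≤ 1) && decide (0 < C.t) &&
  (cmpOK e (trp a2 C.mid) C V0 || (decide (V0 ≤ a) && cmpOK e (trp a2 C.mid) C a)) &&
  (cmpOK e (trp a2 C.mid) C V1 || (decide (C.b2 ≤ V1) && cmpOK e (trp a2 C.mid) C C.b2))

/-- Check of a cell. -/
def gcOK (p : Par) (V0 V1 e a a2 b : ℚ) (C : GCert) : Bool :=
  chOK p C.c C.l a C.pre && decide (endX a C.pre = a2) && decide (a < a2) &&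
  chOK p C.c C.l a2 C.mid && decide (endX a2 C.mid = b) &&
  chOK p C.c C.l b C.post && decide (endX b C.post = C.b2) && decide (b < C.b2) &&
  slackOK p V0 e a C && finOK V0 V1 e a a2 C

theorem fin_sound {V0 V1 e a a2 : ℚ} {C : GCert} (h : finOK V0 V1 e a a2 C = true) {V : ℝ}
    (hVp : 0 ≤ V) (hV0 : (V0 : ℝ) ≤ V) (hV1 : V ≤ (V1 : ℝ)) (ha : (a : ℝ) ≤ V)
    (hb : V ≤ (C.b2 : ℝ)) :
    min (2 * Real.sqrt (Real.pi * V)) 2 <
      2 * ((C.c : ℝ) + C.l * V + ((trp a2 C.mid : ℚ) : ℝ) + e * C.D) := by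
  simp only [finOK, cmpOK, Bool.and_eq_true, Bool.or_eq_true, decide_eq_true_eq] at h
  obtain ⟨⟨⟨⟨h1, h2⟩, h3⟩, h4⟩, h5⟩ := h
  have g1 : (0 : ℝ) ≤ C.th := by exact_mod_cast h1
  have g2 : (C.th : ℝ) ≤ 1 := by exact_mod_cast h2
  have g3 : (0 : ℝ) < C.t := by exact_mod_cast h3
  set T : ℝ := ((trp a2 C.mid : ℚ) : ℝ) with hT
  have k1 : ∃ x : ℝ, x ≤ V ∧ (C.th : ℝ) * (((piU : ℝ) * x / C.t + C.t) / 2) + (1 - C.th) <
      C.c + C.l * x + T + e * C.D := by
    rcases h4 with h | ⟨_, h⟩
    · exact ⟨V0, hV0, by rw [hT]; exact_mod_cast h⟩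
    · exact ⟨a, ha, by rw [hT]; exact_mod_cast h⟩
  have k2 : ∃ x : ℝ, V ≤ x ∧ (C.th : ℝ) * (((piU : ℝ) * x / C.t + C.t) / 2) + (1 - C.th) <
      C.c + C.l * x + T + e * C.D := by
    rcases h5 with h | ⟨_, h⟩
    · exact ⟨V1, hV1, by rw [hT]; exact_mod_cast h⟩
    · exact ⟨C.b2, hb, by rw [hT]; exact_mod_cast h⟩
  obtain ⟨x, hx, j1⟩ := k1
  obtain ⟨z, hz, j2⟩ := k2
  have j3 : (C.th : ℝ) * (((piU : ℝ) * V / C.t + C.t) / 2) + (1 - C.th) <
      C.c + C.l * V + T + e * C.D := by
    set s : ℝ := (C.th : ℝ) * ((piU : ℝ) / C.t / 2) with hs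
    have e1 : ∀ v : ℝ, (C.th : ℝ) * (((piU : ℝ) * v / C.t + C.t) / 2) + (1 - C.th) =
        s * v + ((C.th : ℝ) * (C.t / 2) + (1 - C.th)) := by
      intro v; rw [hs]; ring
    rw [e1] at j1 j2 ⊢
    rcases (hx.trans hz).eq_or_lt with h7 | h7
    · have : V = x := le_antisymm (by rw [h7]; exact hz) hx
      rw [this]; exact j1
    · have h8 : (0 : ℝ) < z - x := by linarith only [h7]
      have h9 : 0 < (z - x) * (C.c + C.l * V + T + e * C.D -
          (s * V + ((C.th : ℝ) * (C.t / 2) + (1 - C.th)))) := by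
        have k1 := mul_nonneg (sub_nonneg.2 hz) (sub_pos.2 j1).le
        have k2 := mul_nonneg (sub_nonneg.2 hx) (sub_pos.2 j2).le
        rcases hz.eq_or_lt with h10 | h10
        · rw [← h10] at h8 j2 ⊢
          exact mul_pos h8 (by linarith only [j2])
        · have k3 := mul_pos (sub_pos.2 h10) (sub_pos.2 j1)
          linarith only [k3, k2]
      linarith only [(pos_iff_pos_of_mul_pos h9).1 h8]
  have ht := tube_le hVp g3
  have hpi := le_piU
  have i1 : Real.pi * V / C.t ≤ (piU : ℝ) * V / C.t := by gcongr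
  have m1 : min (2 * Real.sqrt (Real.pi * V)) 2 ≤ (piU : ℝ) * V / C.t + C.t :=
    (min_le_left _ _).trans (ht.trans (by linarith only [i1]))
  have m2 : min (2 * Real.sqrt (Real.pi * V)) 2 ≤ 2 := min_le_right _ _
  have n1 := mul_le_mul_of_nonneg_left m1 g1
  have n2 := mul_le_mul_of_nonneg_left m2 (sub_nonneg.2 g2)
  linarith only [n1, n2, j3]

theorem gc_sound {p : Par} {V0 V1 e a a2 b : ℚ} {C : GCert} (hH : 0 < p.H) (he0 : 0 ≤ e)
    (he1 : e < 1) (h : gcOK p V0 V1 e a a2 b C = true) {m M V : ℝ} {P : ENNReal}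
    (hl : SlackHyp (fun u => 2 * qmin p.y p.H p.T u) (fun u => 2 * pBf p.H u) m M V e P)
    (hVp : 0 ≤ V) (hV0 : (V0 : ℝ) ≤ V) (hV1 : V ≤ (V1 : ℝ)) (hmV : m ≤ V) (hVM : V ≤ M)
    (h1 : (a : ℝ) ≤ m) (h2 : m ≤ (a2 : ℝ)) (h3 : (b : ℝ) ≤ M) (h4 : M ≤ (C.b2 : ℝ)) :
    ∃ x, min (2 * Real.sqrt (Real.pi * V)) 2 < x ∧ ENNReal.ofReal x ≤ P := by
  simp only [gcOK, Bool.and_eq_true, decide_eq_true_eq] at h
  obtain ⟨⟨⟨⟨⟨⟨⟨⟨⟨c1, c2⟩, c3⟩, c4⟩, c5⟩, c6⟩, c7⟩, c8⟩, c9⟩, c10⟩ := h
  obtain ⟨k1, k2⟩ := ch_integral hH C.mid a2 c4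
  rw [c5] at k1 k2
  have hcont : Continuous (fun u => 2 * qmin (p.y : ℝ) p.H p.T u) :=
    (continuous_qmin _ _ _).const_smul (2 : ℝ)
  have hline : ∀ u ∈ Icc m M, 0 ≤ 2 * (C.c : ℝ) + 2 * C.l * u ∧
      2 * (C.c : ℝ) + 2 * C.l * u ≤ 2 * qmin p.y p.H p.T u := by
    intro u hu
    have hu0 : (a : ℝ) ≤ u := h1.trans hu.1
    have hu1 : u ≤ (C.b2 : ℝ) := hu.2.trans h4
    rcases hu0.eq_or_lt with h5 | h5
    · rw [← h5]
      exact ch_start hH C.pre a c1 (by rw [c2]; exact c3)
    rcases le_or_gt u (a2 : ℝ) with h6 | h6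
    · exact ch_line hH C.pre a c1 h5 (by rw [c2]; exact h6)
    rcases le_or_gt u (b : ℝ) with h7 | h7
    · exact ch_line hH C.mid a2 c4 h6 (by rw [c5]; exact h7)
    · exact ch_line hH C.post b c6 h7 (by rw [c7]; exact hu1)
  obtain ⟨s1, s0, s2⟩ := slack_sound hH he0 he1 c9 h1 h4 hV0 (fun u hu => (hline u hu).1)
  have key := hl (2 * C.c) (2 * C.l) (2 * C.D) s1 s0 (fun u hu => (hline u hu).1)
    (fun u hu => (hline u hu).2) s2
  refine ⟨_, ?_, key⟩
  have hmono : ∫ u in (a2 : ℝ)..(b : ℝ), slq (fun u => 2 * qmin p.y p.H p.T u) C.c C.l u ≤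
      ∫ u in m..M, slq (fun u => 2 * qmin p.y p.H p.T u) C.c C.l u :=
    intervalIntegral.integral_mono_interval h2 k1 h3
      (Filter.Eventually.of_forall fun u => slq_nonneg _ _ _ _)
      (intervalIntegrable_slq hcont _ _ _ _)
  have e0 : (∫ u in m..M, Real.sqrt (1 - ((2 * (C.c : ℝ) + 2 * C.l * u) /
      (2 * qmin p.y p.H p.T u)) ^ 2)) =
      ∫ u in m..M, slq (fun u => 2 * qmin p.y p.H p.T u) C.c C.l u := rfl
  have hf := fin_sound c10 hVp hV0 hV1 (h1.trans hmV) (hVM.trans h4)
  refine hf.trans_le ?_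
  simp only
  rw [e0]
  linarith only [k2, hmono]

/-- Check all the cells over a strip. -/
def gCells (p : Par) (V0 V1 e B1 a a2 : ℚ) : ℚ → List GCert → Bool
  | b, [] => decide (B1 ≤ b)
  | b, C :: Cs => gcOK p V0 V1 e a a2 b C && gCells p V0 V1 e B1 a a2 C.b2 Cs

/-- Check all strips. -/
def gStrips (p : Par) (V0 V1 e A1 B0 B1 : ℚ) : ℚ → List (ℚ × List GCert) → Bool
  | a, [] => decide (A1 ≤ a)
  | a, S :: Ss => gCells p V0 V1 e B1 a S.1 B0 S.2 && gStrips p V0 V1 e A1 B0 B1 S.1 Ss

theorem gCells_sound {p : Par} {V0 V1 e B1 a a2 : ℚ} (Cs : List GCert) (b : ℚ)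
    (h : gCells p V0 V1 e B1 a a2 b Cs = true) {M : ℝ} (hb : (b : ℝ) < M) (hM : M ≤ (B1 : ℝ)) :
    ∃ (b' : ℚ) (C : GCert), gcOK p V0 V1 e a a2 b' C = true ∧ (b' : ℝ) < M ∧
      M ≤ (C.b2 : ℝ) := by
  induction Cs generalizing b with
  | nil =>
    simp only [gCells, decide_eq_true_eq] at h
    have : (B1 : ℝ) ≤ b := by exact_mod_cast h
    linarith
  | cons C Cs ih =>
    simp only [gCells, Bool.and_eq_true] at h
    rcases le_or_gt M (C.b2 : ℝ) with h4 | h4
    · exact ⟨b, C, h.1, hb, h4⟩
    · exact ih C.b2 h.2 h4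

theorem gStrips_sound {p : Par} {V0 V1 e A1 B0 B1 : ℚ} (hH : 0 < p.H) (he0 : 0 ≤ e)
    (he1 : e < 1) (Ss : List (ℚ × List GCert)) (a : ℚ)
    (h : gStrips p V0 V1 e A1 B0 B1 a Ss = true) {m M V : ℝ} {P : ENNReal}
    (hl : SlackHyp (fun u => 2 * qmin p.y p.H p.T u) (fun u => 2 * pBf p.H u) m M V e P)
    (hVp : 0 ≤ V) (hV0 : (V0 : ℝ) ≤ V) (hV1 : V ≤ (V1 : ℝ)) (hmV : m ≤ V) (hVM : V ≤ M)
    (ha : (a : ℝ) ≤ m) (hm : m < (A1 : ℝ)) (hb : (B0 : ℝ) < M) (hM : M ≤ (B1 : ℝ)) :
    ∃ x, min (2 * Real.sqrt (Real.pi * V)) 2 < x ∧ ENNReal.ofReal x ≤ P := by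
  induction Ss generalizing a with
  | nil =>
    simp only [gStrips, decide_eq_true_eq] at h
    have : (A1 : ℝ) ≤ a := by exact_mod_cast h
    linarith
  | cons S Ss ih =>
    simp only [gStrips, Bool.and_eq_true] at h
    rcases le_or_gt m (S.1 : ℝ) with h4 | h4
    · obtain ⟨b', C, k1, k3, k4⟩ := gCells_sound S.2 B0 h.1 hb hM
      exact gc_sound hH he0 he1 k1 hl hVp hV0 hV1 hmV hVM ha h4 k3.le k4
    · exact ih S.1 h.2 h4.le

end Vale.Agent.P232
end
end

section

section

/-! A faster version of the checker of `GapB` and `GapC`, with natural numbers. -/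

namespace Vale.Agent.P232

/-- One interval of a certificate. -/
structure IvN where
  /-- right end -/
  x : ℕ
  /-- value at the left end -/
  sL : ℕ
  /-- value at the right end -/
  sR : ℕ
  /-- constant of the tangent -/
  A : ℕ
  /-- slope of the tangent -/
  s : ℕ
  /-- use of the corner bound -/
  k : Bool

/-- Conversion of intervals. -/
def IvN.toQ (I : IvN) : Iv := ⟨d I.x, d I.sL, d I.sR, d I.A, d I.s, I.k⟩

/-- Parameters of a profile. -/
structure ParN where
  /-- residual width -/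
  y : ℕ
  /-- height of the complement -/
  H : ℕ
  /-- tangents -/
  T : List (ℕ × ℕ)

/-- Conversion of parameters. -/
def ParN.toQ (p : ParN) : Par := ⟨d p.y, d p.H, p.T.map dd⟩

/-- The far branch, second part. -/
def farN' (f0 f1 g W0 W1 u0 u1 : ℕ) : Bool :=
  Nat.ble (sqN g) (4 * sqN f0) && Nat.ble (sqN g) (4 * sqN f1) &&
    Nat.ble (40000000000 * W0) ((4 * sqN f0 - sqN g) * u0) &&
    Nat.ble (40000000000 * W1) ((4 * sqN f1 - sqN g) * u1)

/-- The far branch. -/
def farN (y : ℕ) (T : List (ℕ × ℕ)) (W0 W1 u0 u1 x0 : ℕ) (I : IvN) : Bool :=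
  (T.any (fun q => Nat.beq q.1 I.A && Nat.beq q.2 I.s) ||
    (Nat.beq I.A 100000 && Nat.beq I.s 0)) &&
  Nat.ble (I.s * y) (I.A * 100000 + I.s * x0) &&
  farN' (I.A * 100000 + I.s * x0 - I.s * y) (I.A * 100000 + I.s * I.x - I.s * y)
    (I.s * (I.x - x0)) W0 W1 u0 u1

/-- The corner branch, second part. -/
def corN' (H k0 k1 h W0 W1 u0 u1 : ℕ) : Bool :=
  Nat.ble (sqN h) (4 * sqN k0) && Nat.ble (sqN h) (4 * sqN k1) &&
    Nat.ble (64000000000000 * (sqN H * W0)) ((4 * sqN k0 - sqN h) * u0) &&
    Nat.ble (64000000000000 * (sqN H * W1)) ((4 * sqN k1 - sqN h) * u1)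

/-- The corner branch. -/
def corN (H : ℕ) (W0 W1 u0 u1 x0 : ℕ) (I : IvN) : Bool :=
  match I.k with
  | false => Nat.ble (1000000 * W0) (314159200000 * ((100000 - x0) * u0)) &&
      Nat.ble (1000000 * W1) (314159200000 * ((100000 - I.x) * u1))
  | true => Nat.ble (3141593 * sqN H) (400000000000 * (100000 - I.x)) &&
      corN' H ((100000 - x0) * 400000000000 + 3141592 * sqN H)
        ((100000 - I.x) * 400000000000 + 3141592 * sqN H) ((I.x - x0) * 400000000000) W0 W1 u0 u1

/-- Check of one interval, second part. -/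
def ivN' (p : ParN) (W0 W1 u0 u1 x0 : ℕ) (I : IvN) : Bool :=
  Nat.ble (1000000 * W0) (314159200000 * (x0 * u0)) &&
  Nat.ble (1000000 * W1) (314159200000 * (I.x * u1)) &&
  farN p.y p.T W0 W1 u0 u1 x0 I && corN p.H W0 W1 u0 u1 x0 I

/-- Check of one interval. -/
def ivN (p : ParN) (c lp ln x0 : ℕ) (I : IvN) : Bool :=
  Nat.ble (x0 + 1) I.x && Nat.ble I.sL 100000 && Nat.ble I.sR 100000 && Nat.ble I.x 100000 &&
  Nat.ble (ln * x0) (c * 100000 + lp * x0) && Nat.ble (ln * I.x) (c * 100000 + lp * I.x) &&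
  ivN' p (sqN (wN c lp ln x0)) (sqN (wN c lp ln I.x)) (10000000000 - sqN I.sL)
    (10000000000 - sqN I.sR) x0 I

theorem sqN_cast (n : ℕ) : ((sqN n : ℕ) : ℚ) = (n : ℚ) ^ 2 := by
  rw [sqN]
  push_cast
  ring

theorem far_aux {w F G s : ℕ} (h1 : sqN G ≤ 4 * sqN F) (hs : s ≤ 100000)
    (h3 : 40000000000 * sqN w ≤ (4 * sqN F - sqN G) * (10000000000 - sqN s)) :
    ((G : ℚ) / 10000000000) ^ 2 / 4 ≤ ((F : ℚ) / 10000000000) ^ 2 ∧
    ((w : ℚ) / 10000000000) ^ 2 ≤ (((F : ℚ) / 10000000000) ^ 2 -
      ((G : ℚ) / 10000000000) ^ 2 / 4) * (1 - ((s : ℚ) / 100000) ^ 2) := by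
  have k1 : ((sqN G : ℕ) : ℚ) ≤ 4 * ((sqN F : ℕ) : ℚ) := by exact_mod_cast h1
  have k3 : 40000000000 * ((sqN w : ℕ) : ℚ) ≤
      ((4 * sqN F - sqN G : ℕ) : ℚ) * ((10000000000 - sqN s : ℕ) : ℚ) := by exact_mod_cast h3
  rw [Nat.cast_sub h1, uN_cast hs, Nat.cast_mul, sqN_cast, sqN_cast, sqN_cast] at k3
  rw [sqN_cast, sqN_cast] at k1
  push_cast at k3
  constructor <;> linarith

theorem cor_aux {w K h s H : ℕ} (hH : 0 < H) (h1 : sqN h ≤ 4 * sqN K) (hs : s ≤ 100000)
    (h3 : 64000000000000 * (sqN H * sqN w) ≤ (4 * sqN K - sqN h) * (10000000000 - sqN s)) :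
    ((h : ℚ) / (400000000000 * H)) ^ 2 / 4 ≤ ((K : ℚ) / (400000000000 * H)) ^ 2 ∧
    ((w : ℚ) / 10000000000) ^ 2 ≤ (((K : ℚ) / (400000000000 * H)) ^ 2 -
      ((h : ℚ) / (400000000000 * H)) ^ 2 / 4) * (1 - ((s : ℚ) / 100000) ^ 2) := by
  have hH' : (0 : ℚ) < H := by exact_mod_cast hH
  have k1 : ((sqN h : ℕ) : ℚ) ≤ 4 * ((sqN K : ℕ) : ℚ) := by exact_mod_cast h1
  have k3 : 64000000000000 * (((sqN H : ℕ) : ℚ) * ((sqN w : ℕ) : ℚ)) ≤
      ((4 * sqN K - sqN h : ℕ) : ℚ) * ((10000000000 - sqN s : ℕ) : ℚ) := by exact_mod_cast h3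
  rw [Nat.cast_sub h1, uN_cast hs, Nat.cast_mul, sqN_cast, sqN_cast, sqN_cast, sqN_cast] at k3
  rw [sqN_cast, sqN_cast] at k1
  push_cast at k3
  constructor
  · rw [← sub_nonneg]
    have e : ((K : ℚ) / (400000000000 * H)) ^ 2 - ((h : ℚ) / (400000000000 * H)) ^ 2 / 4 =
        (4 * (K : ℚ) ^ 2 - (h : ℚ) ^ 2) / (640000000000000000000000 * (H : ℚ) ^ 2) := by
      field_simp
      ring
    rw [e]
    apply div_nonneg (by linarith only [k1]) (by positivity)
  · rw [← sub_nonneg]
    have e : (((K : ℚ) / (400000000000 * H)) ^ 2 - ((h : ℚ) / (400000000000 * H)) ^ 2 / 4) *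
        (1 - ((s : ℚ) / 100000) ^ 2) - ((w : ℚ) / 10000000000) ^ 2 =
        ((4 * (K : ℚ) ^ 2 - (h : ℚ) ^ 2) * (10000000000 - (s : ℚ) ^ 2) -
          64000000000000 * ((H : ℚ) ^ 2 * (w : ℚ) ^ 2)) /
          (6400000000000000000000000000000000 * (H : ℚ) ^ 2) := by
      field_simp
      ring
    rw [e]
    apply div_nonneg (by linarith only [k3]) (by positivity)

theorem farN_sound {p : ParN} {w0 w1 x0 : ℕ} {c l : ℚ} {I : IvN}
    (hx : x0 ≤ I.x) (hsL : I.sL ≤ 100000) (hsR : I.sR ≤ 100000)
    (e0 : c + l * d x0 = (w0 : ℚ) / 10000000000) (e1 : c + l * d I.x = (w1 : ℚ) / 10000000000)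
    (h : farN p.y p.T (sqN w0) (sqN w1) (10000000000 - sqN I.sL) (10000000000 - sqN I.sR) x0 I
      = true) :
    farOK p.toQ c l (d x0) I.toQ = true := by
  simp only [farN, farN', Bool.and_eq_true, Bool.or_eq_true, Nat.ble_eq, Nat.beq_eq,
    List.any_eq_true] at h
  obtain ⟨⟨hT, h0⟩, ⟨⟨h1, h2⟩, h3⟩, h4⟩ := h
  have h0' : I.s * p.y ≤ I.A * 100000 + I.s * I.x :=
    h0.trans (Nat.add_le_add_left (Nat.mul_le_mul_left _ hx) _)
  obtain ⟨r1, r3⟩ := far_aux h1 hsL h3
  obtain ⟨r2, r4⟩ := far_aux h2 hsR h4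
  have q0 : d I.A + d I.s * (d x0 - d p.y) =
      ((I.A * 100000 + I.s * x0 - I.s * p.y : ℕ) : ℚ) / 10000000000 := by
    rw [Nat.cast_sub h0]
    simp only [dq_eq, Int.cast_natCast]
    push_cast
    ring
  have q1 : d I.A + d I.s * (d I.x - d p.y) =
      ((I.A * 100000 + I.s * I.x - I.s * p.y : ℕ) : ℚ) / 10000000000 := by
    rw [Nat.cast_sub h0']
    simp only [dq_eq, Int.cast_natCast]
    push_cast
    ring
  have q2 : d I.s * (d I.x - d x0) = ((I.s * (I.x - x0) : ℕ) : ℚ) / 10000000000 := by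
    simp only [dq_eq, Int.cast_natCast]
    push_cast [Nat.cast_sub hx]
    ring
  have qL : d I.sL = (I.sL : ℚ) / 100000 := by rw [dq_eq, Int.cast_natCast]
  have qR : d I.sR = (I.sR : ℚ) / 100000 := by rw [dq_eq, Int.cast_natCast]
  simp only [farOK, Bool.and_eq_true, Bool.or_eq_true, decide_eq_true_eq]
  simp only [ParN.toQ, IvN.toQ]
  rw [e0, e1, q0, q1, q2, qL, qR]
  refine ⟨⟨⟨⟨⟨⟨?_, ?_⟩, ?_⟩, r1⟩, r2⟩, r3⟩, r4⟩
  · rcases hT with ⟨q, hq, hq1, hq2⟩ | ⟨hA, hs⟩
    · left
      rw [List.mem_map]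
      exact ⟨q, hq, by rw [dd, hq1, hq2]⟩
    · right
      rw [hA, hs]
      exact ⟨d_one, d_zero⟩
  · positivity
  · positivity

theorem corOK_of_false {p : Par} {c l x0 : ℚ} {I : Iv} (hk : I.k = false)
    (h1 : (c + l * x0) ^ 2 ≤ piL * (1 - x0) * (1 - I.sL ^ 2))
    (h2 : (c + l * I.x) ^ 2 ≤ piL * (1 - I.x) * (1 - I.sR ^ 2)) : corOK p c l x0 I = true := by
  rcases I with ⟨x, sL, sR, A, s, k⟩
  cases k with
  | false => exact Bool.and_eq_true_iff.2 ⟨decide_eq_true h1, decide_eq_true h2⟩
  | true => exact Bool.noConfusion hk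

theorem corOK_of_true {p : Par} {c l x0 : ℚ} {I : Iv} (hk : I.k = true)
    (h1 : piU * p.H ^ 2 / 4 ≤ 1 - I.x)
    (h2 : 0 ≤ (1 - x0) / p.H + piL * p.H / 4)
    (h3 : 0 ≤ (1 - I.x) / p.H + piL * p.H / 4)
    (h4 : ((I.x - x0) / p.H) ^ 2 / 4 ≤ ((1 - x0) / p.H + piL * p.H / 4) ^ 2)
    (h5 : ((I.x - x0) / p.H) ^ 2 / 4 ≤ ((1 - I.x) / p.H + piL * p.H / 4) ^ 2)
    (h6 : (c + l * x0) ^ 2 ≤
        (((1 - x0) / p.H + piL * p.H / 4) ^ 2 - ((I.x - x0) / p.H) ^ 2 / 4) * (1 - I.sL ^ 2))
    (h7 : (c + l * I.x) ^ 2 ≤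
        (((1 - I.x) / p.H + piL * p.H / 4) ^ 2 - ((I.x - x0) / p.H) ^ 2 / 4) * (1 - I.sR ^ 2)) :
    corOK p c l x0 I = true := by
  rcases I with ⟨x, sL, sR, A, s, k⟩
  cases k with
  | false => exact Bool.noConfusion hk
  | true =>
    exact Bool.and_eq_true_iff.2 ⟨Bool.and_eq_true_iff.2 ⟨Bool.and_eq_true_iff.2
      ⟨Bool.and_eq_true_iff.2 ⟨Bool.and_eq_true_iff.2 ⟨Bool.and_eq_true_iff.2
      ⟨decide_eq_true h1, decide_eq_true h2⟩, decide_eq_true h3⟩, decide_eq_true h4⟩,
      decide_eq_true h5⟩, decide_eq_true h6⟩, decide_eq_true h7⟩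

theorem slackOK_of {p : Par} {V0 e a : ℚ} {C : GCert}
    (h : C.D = 0 ∨ (0 < C.D ∧ 0 ≤ C.l ∧ (C.xlo ≤ a ∨ C.xlo * (1 - e) ≤ V0 - e * C.b2) ∧
      0 ≤ C.r0 ∧ 0 ≤ C.r1 ∧ C.r1 ≤ C.r0 ∧ LfQ p.y p.T C.xlo ≤ LfQ p.y p.T C.b2 ∧
      0 ≤ C.c + C.l * C.xlo ∧ C.xlo ≤ C.b2 ∧
      (C.c + C.l * C.xlo + C.D) * LfQ p.y p.T C.xlo ≤ (C.c + C.l * C.xlo) * C.r0 ∧
      (C.c + C.l * C.b2 + C.D) * LfQ p.y p.T C.b2 ≤ (C.c + C.l * C.b2) * C.r1 ∧
      ((C.kD = false ∧ C.r0 ^ 2 ≤ piL * (1 - C.xlo) ∧ C.r1 ^ 2 ≤ piL * (1 - C.b2)) ∨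
        (C.kD = true ∧ piU * p.H ^ 2 / 4 ≤ 1 - C.b2 ∧
          C.r0 ≤ (1 - C.xlo) / p.H + piL * p.H / 4 ∧
          C.r1 ≤ (1 - C.b2) / p.H + piL * p.H / 4)))) : slackOK p V0 e a C = true := by
  have key : ∀ x y : Bool, x = true → y = true → (x && y) = true := by decide
  rcases h with h | ⟨h1, h2, h3, h4, h5, h6, h7, h8, h9, h10, h11, h12⟩
  · exact Bool.or_eq_true_iff.2 (Or.inl (decide_eq_true h))
  · refine Bool.or_eq_true_iff.2 (Or.inr ?_)
    have h3' : (decide (C.xlo ≤ a) || decide (C.xlo * (1 - e) ≤ V0 - e * C.b2)) = true := by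
      rcases h3 with h3 | h3
      · exact Bool.or_eq_true_iff.2 (Or.inl (decide_eq_true h3))
      · exact Bool.or_eq_true_iff.2 (Or.inr (decide_eq_true h3))
    rcases C with ⟨b2, c, l, pre, mid, post, th, t, D, xlo, r0, r1, kD⟩
    refine key _ _ (key _ _ (key _ _ (key _ _ (key _ _ (key _ _ (key _ _ (key _ _ (key _ _
      (key _ _ (decide_eq_true h1) (decide_eq_true h2)) h3') (decide_eq_true h4))
      (decide_eq_true h5)) (decide_eq_true h6)) (decide_eq_true h7))
      (key _ _ (decide_eq_true h8) (decide_eq_true h9))) (decide_eq_true h10))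
      (decide_eq_true h11)) ?_
    cases kD with
    | false =>
      rcases h12 with ⟨-, k1, k2⟩ | ⟨hk, -⟩
      · exact key _ _ (decide_eq_true k1) (decide_eq_true k2)
      · exact Bool.noConfusion hk
    | true =>
      rcases h12 with ⟨hk, -⟩ | ⟨-, k1, k2, k3⟩
      · exact Bool.noConfusion hk
      · exact key _ _ (key _ _ (decide_eq_true k1) (decide_eq_true k2)) (decide_eq_true k3)

theorem corN_sound {p : ParN} {w0 w1 x0 : ℕ} {c l : ℚ} {I : IvN} (hH : 0 < p.H)
    (hx : x0 ≤ I.x) (hx1 : I.x ≤ 100000) (hsL : I.sL ≤ 100000) (hsR : I.sR ≤ 100000)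
    (e0 : c + l * d x0 = (w0 : ℚ) / 10000000000) (e1 : c + l * d I.x = (w1 : ℚ) / 10000000000)
    (h : corN p.H (sqN w0) (sqN w1) (10000000000 - sqN I.sL) (10000000000 - sqN I.sR) x0 I
      = true) :
    corOK p.toQ c l (d x0) I.toQ = true := by
  have qL : d I.sL = (I.sL : ℚ) / 100000 := by rw [dq_eq, Int.cast_natCast]
  have qR : d I.sR = (I.sR : ℚ) / 100000 := by rw [dq_eq, Int.cast_natCast]
  have hx0 : x0 ≤ 100000 := hx.trans hx1
  have hH' : (0 : ℚ) < p.H := by exact_mod_cast hH
  unfold corN at h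
  cases hk : I.k with
  | false =>
    rw [hk] at h
    have hk' : I.toQ.k = false := hk
    simp only [Bool.and_eq_true, Nat.ble_eq] at h
    obtain ⟨h1, h2⟩ := h
    have k1 : 1000000 * ((sqN w0 : ℕ) : ℚ) ≤
        314159200000 * (((100000 - x0 : ℕ) : ℚ) * ((10000000000 - sqN I.sL : ℕ) : ℚ)) := by
      exact_mod_cast h1
    have k2 : 1000000 * ((sqN w1 : ℕ) : ℚ) ≤
        314159200000 * (((100000 - I.x : ℕ) : ℚ) * ((10000000000 - sqN I.sR : ℕ) : ℚ)) := by
      exact_mod_cast h2
    rw [sqN_cast, uN_cast hsL, Nat.cast_sub hx0] at k1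
    rw [sqN_cast, uN_cast hsR, Nat.cast_sub hx1] at k2
    push_cast at k1 k2
    apply corOK_of_false hk'
    · simp only [IvN.toQ]
      rw [e0, qL]
      simp only [dq_eq, Int.cast_natCast, piL]
      linarith only [k1]
    · simp only [IvN.toQ]
      rw [e1, qR]
      simp only [dq_eq, Int.cast_natCast, piL]
      linarith only [k2]
  | true =>
    rw [hk] at h
    have hk' : I.toQ.k = true := hk
    simp only [corN', Bool.and_eq_true, Nat.ble_eq] at h
    obtain ⟨h0, ⟨⟨h1, h2⟩, h3⟩, h4⟩ := h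
    obtain ⟨r1, r3⟩ := cor_aux hH h1 hsL h3
    obtain ⟨r2, r4⟩ := cor_aux hH h2 hsR h4
    have q0 : (1 - d x0) / d p.H + piL * d p.H / 4 =
        (((100000 - x0) * 400000000000 + 3141592 * sqN p.H : ℕ) : ℚ) / (400000000000 * p.H) := by
      push_cast [Nat.cast_sub hx0, sqN_cast]
      simp only [dq_eq, Int.cast_natCast, piL]
      field_simp
      ring
    have q1 : (1 - d I.x) / d p.H + piL * d p.H / 4 =
        (((100000 - I.x) * 400000000000 + 3141592 * sqN p.H : ℕ) : ℚ) / (400000000000 * p.H) := by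
      push_cast [Nat.cast_sub hx1, sqN_cast]
      simp only [dq_eq, Int.cast_natCast, piL]
      field_simp
      ring
    have q2 : (d I.x - d x0) / d p.H =
        (((I.x - x0) * 400000000000 : ℕ) : ℚ) / (400000000000 * p.H) := by
      push_cast [Nat.cast_sub hx]
      simp only [dq_eq, Int.cast_natCast]
      field_simp
    have k0 : 3141593 * ((sqN p.H : ℕ) : ℚ) ≤ 400000000000 * ((100000 - I.x : ℕ) : ℚ) := by
      exact_mod_cast h0
    rw [sqN_cast, Nat.cast_sub hx1] at k0
    push_cast at k0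
    apply corOK_of_true hk'
    · simp only [IvN.toQ, ParN.toQ, dq_eq, Int.cast_natCast, piU]
      linarith only [k0]
    · simp only [ParN.toQ]
      rw [q0]
      exact div_nonneg (Nat.cast_nonneg _) (mul_nonneg (by norm_num) hH'.le)
    · simp only [IvN.toQ, ParN.toQ]
      rw [q1]
      exact div_nonneg (Nat.cast_nonneg _) (mul_nonneg (by norm_num) hH'.le)
    · simp only [IvN.toQ, ParN.toQ]
      rw [q0, q2]
      exact r1
    · simp only [IvN.toQ, ParN.toQ]
      rw [q1, q2]
      exact r2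
    · simp only [IvN.toQ, ParN.toQ]
      rw [e0, q0, q2, qL]
      exact r3
    · simp only [IvN.toQ, ParN.toQ]
      rw [e1, q1, q2, qR]
      exact r4

theorem ivN_sound {p : ParN} {c lp ln x0 : ℕ} {I : IvN} (hH : 0 < p.H)
    (h : ivN p c lp ln x0 I = true) :
    ivOK p.toQ (d c) (d ((lp : ℤ) - ln)) (d x0) I.toQ = true := by
  simp only [ivN, ivN', Bool.and_eq_true, Nat.ble_eq] at h
  obtain ⟨⟨⟨⟨⟨⟨h1, h2⟩, h3⟩, h4⟩, h5⟩, h6⟩, ⟨⟨h7, h8⟩, h9⟩, h10⟩ := h
  have hx : x0 ≤ I.x := by omega
  have q5 := wN_cast h5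
  have q6 := wN_cast h6
  have e0 : d c + d ((lp : ℤ) - ln) * d x0 = ((wN c lp ln x0 : ℕ) : ℚ) / 10000000000 := by
    rw [q5]
    simp only [dq_eq, Int.cast_natCast]
    ring
  have e1 : d c + d ((lp : ℤ) - ln) * d I.x = ((wN c lp ln I.x : ℕ) : ℚ) / 10000000000 := by
    rw [q6]
    simp only [dq_eq, Int.cast_natCast]
    ring
  have r1 := farN_sound hx h2 h3 e0 e1 h9
  have r2 := corN_sound hH hx h4 h2 h3 e0 e1 h10
  have qL : d I.sL = (I.sL : ℚ) / 100000 := by rw [dq_eq, Int.cast_natCast]
  have qR : d I.sR = (I.sR : ℚ) / 100000 := by rw [dq_eq, Int.cast_natCast]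
  have k1 : 1000000 * ((sqN (wN c lp ln x0) : ℕ) : ℚ) ≤
      314159200000 * ((x0 : ℚ) * ((10000000000 - sqN I.sL : ℕ) : ℚ)) := by
    exact_mod_cast h7
  have k2 : 1000000 * ((sqN (wN c lp ln I.x) : ℕ) : ℚ) ≤
      314159200000 * ((I.x : ℚ) * ((10000000000 - sqN I.sR : ℕ) : ℚ)) := by
    exact_mod_cast h8
  rw [sqN_cast, uN_cast h2] at k1
  rw [sqN_cast, uN_cast h3] at k2
  have g1 : (x0 : ℚ) + 1 ≤ I.x := by exact_mod_cast h1
  have g2 : (I.sL : ℚ) ≤ 100000 := by exact_mod_cast h2
  have g3 : (I.sR : ℚ) ≤ 100000 := by exact_mod_cast h3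
  have g4 : (I.x : ℚ) ≤ 100000 := by exact_mod_cast h4
  have g5 : (0 : ℚ) ≤ ((wN c lp ln x0 : ℕ) : ℚ) := Nat.cast_nonneg _
  have g6 : (0 : ℚ) ≤ ((wN c lp ln I.x : ℕ) : ℚ) := Nat.cast_nonneg _
  have g7 : (0 : ℚ) ≤ I.sL := Nat.cast_nonneg _
  have g8 : (0 : ℚ) ≤ I.sR := Nat.cast_nonneg _
  have g9 : (0 : ℚ) ≤ x0 := Nat.cast_nonneg _
  unfold ivOK
  simp only [Bool.and_eq_true, decide_eq_true_eq]
  refine ⟨⟨⟨⟨⟨⟨⟨⟨⟨⟨⟨⟨?_, ?_⟩, ?_⟩, ?_⟩, ?_⟩, ?_⟩, ?_⟩, ?_⟩, ?_⟩, ?_⟩, ?_⟩, r1⟩, r2⟩
  · simp only [IvN.toQ, dq_eq, Int.cast_natCast]; linarith only [g1]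
  · simp only [IvN.toQ, dq_eq, Int.cast_natCast]; linarith
  · simp only [IvN.toQ, dq_eq, Int.cast_natCast]; linarith
  · simp only [IvN.toQ, dq_eq, Int.cast_natCast]; linarith only [g2]
  · simp only [IvN.toQ, dq_eq, Int.cast_natCast]; linarith only [g3]
  · rw [e0]; linarith
  · simp only [IvN.toQ]; rw [e1]; linarith
  · rw [e0]
    simp only [IvN.toQ, dq_eq, Int.cast_natCast, piL]
    linarith only [k1]
  · simp only [IvN.toQ]
    rw [e1]
    simp only [dq_eq, Int.cast_natCast, piL]
    linarith only [k2]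
  · simp only [dq_eq, Int.cast_natCast]; linarith
  · simp only [IvN.toQ, dq_eq, Int.cast_natCast]; linarith only [g4]

/-- Check of a chain of intervals. -/
def chN (p : ParN) (c lp ln : ℕ) : ℕ → List IvN → Bool
  | _, [] => true
  | x0, I :: L => ivN p c lp ln x0 I && chN p c lp ln I.x L

/-- The end of a chain. -/
def endN : ℕ → List IvN → ℕ
  | x0, [] => x0
  | _, I :: L => endN I.x L

/-- The trapezoidal sum of a chain, scaled. -/
def trN : ℕ → List IvN → ℕ
  | _, [] => 0
  | x0, I :: L => (I.x - x0) * (I.sL + I.sR) + trN I.x L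

theorem chN_sound {p : ParN} {c lp ln : ℕ} (hH : 0 < p.H) (L : List IvN) (x0 : ℕ)
    (h : chN p c lp ln x0 L = true) :
    chOK p.toQ (d c) (d ((lp : ℤ) - ln)) (d x0) (L.map IvN.toQ) = true ∧
      trp (d x0) (L.map IvN.toQ) = (trN x0 L : ℚ) / 20000000000 := by
  induction L generalizing x0 with
  | nil => exact ⟨rfl, by simp [trp, trN]⟩
  | cons I L ih =>
    simp only [chN, Bool.and_eq_true] at h
    obtain ⟨h1, h2⟩ := h
    obtain ⟨h3, h4⟩ := ih I.x h2
    have hx : x0 ≤ I.x := by
      simp only [ivN, Bool.and_eq_true, Nat.ble_eq] at h1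
      omega
    refine ⟨?_, ?_⟩
    · simp only [List.map_cons, chOK, Bool.and_eq_true]
      exact ⟨ivN_sound hH h1, h3⟩
    · simp only [List.map_cons, trp, trN]
      have h5 : trp I.toQ.x (L.map IvN.toQ) = (trN I.x L : ℚ) / 20000000000 := h4
      rw [h5]
      simp only [IvN.toQ, dq_eq, Int.cast_natCast]
      push_cast [Nat.cast_sub hx]
      ring

theorem endX_eq (L : List IvN) (x0 : ℕ) : endX (d x0) (L.map IvN.toQ) = d (endN x0 L) := by
  induction L generalizing x0 with
  | nil => rfl
  | cons I L ih =>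
    simp only [List.map_cons, endX, endN]
    exact ih I.x

/-- Certificate for a cell. -/
structure GCertN where
  /-- upper end for `M` -/
  b2 : ℕ
  /-- line -/
  c : ℕ
  /-- line -/
  lp : ℕ
  /-- line -/
  ln : ℕ
  /-- intervals -/
  pre : List IvN
  /-- intervals -/
  mid : List IvN
  /-- intervals -/
  post : List IvN
  /-- comparison -/
  th : ℕ
  /-- comparison -/
  t : ℕ
  /-- slack -/
  D : ℕ
  /-- slack data -/
  xlo : ℕ
  /-- slack data -/
  r0 : ℕ
  /-- slack data -/
  r1 : ℕ
  /-- slack data -/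
  kD : Bool

/-- Conversion of certificates. -/
def GCertN.toQ (C : GCertN) : GCert :=
  ⟨d C.b2, d C.c, d ((C.lp : ℤ) - C.ln), C.pre.map IvN.toQ, C.mid.map IvN.toQ,
    C.post.map IvN.toQ, d C.th, d C.t, d C.D, d C.xlo, d C.r0, d C.r1, C.kD⟩

/-- The comparison at one volume. -/
def cmpN (e T : ℕ) (C : GCertN) (v : ℕ) : Bool :=
  Nat.ble (C.th * (314159300000 * v + 1000000 * sqN C.t) +
      200000000000 * (C.t * (100000 - C.th)) + 2000000 * (C.t * (C.ln * v)) + 1)
    (1000000 * (C.t * (200000 * C.c + 2 * (C.lp * v) + T + 2 * (e * C.D))))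

theorem cmpN_sound {e T v : ℕ} {C : GCertN} (ht : 1 ≤ C.t) (hth : C.th ≤ 100000)
    (h : cmpN e T C v = true) :
    cmpOK (d e) ((T : ℚ) / 20000000000) C.toQ (d v) = true := by
  simp only [cmpN, Nat.ble_eq, sqN] at h
  have h' : (C.th : ℚ) * (314159300000 * v + 1000000 * (C.t * C.t)) +
      200000000000 * (C.t * ((100000 - C.th : ℕ) : ℚ)) + 2000000 * (C.t * (C.ln * v)) + 1 ≤
    1000000 * (C.t * (200000 * C.c + 2 * (C.lp * v) + T + 2 * (e * C.D))) := by
    exact_mod_cast h
  rw [Nat.cast_sub hth] at h'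
  have ht' : (1 : ℚ) ≤ C.t := by exact_mod_cast ht
  have ht0 : (0 : ℚ) < C.t := by linarith only [ht']
  simp only [cmpOK, decide_eq_true_eq]
  simp only [GCertN.toQ, dq_eq, Int.cast_natCast, piU]
  rw [← sub_pos]
  have e : (C.c : ℚ) / 100000 + (((C.lp : ℤ) - C.ln : ℤ) : ℚ) / 100000 * (v / 100000) +
      (T : ℚ) / 20000000000 + (e : ℚ) / 100000 * (C.D / 100000) -
      ((C.th : ℚ) / 100000 * ((3141593 / 1000000 * ((v : ℚ) / 100000) /
        ((C.t : ℚ) / 100000) + (C.t : ℚ) / 100000) / 2) + (1 - (C.th : ℚ) / 100000)) =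
      (1000000 * (C.t * (200000 * C.c + 2 * (C.lp * v) + T + 2 * (e * C.D))) -
        ((C.th : ℚ) * (314159300000 * v + 1000000 * (C.t * C.t)) +
      200000000000 * (C.t * (((100000 : ℕ) : ℚ) - C.th)) + 2000000 * (C.t * (C.ln * v)))) /
        (20000000000000000 * C.t) := by
    push_cast
    field_simp
    ring
  rw [e]
  apply div_pos (by linarith only [h']) (by positivity)

/-- The comparison with the conjectured profile. -/
def finN (V0 V1 e a T : ℕ) (C : GCertN) : Bool :=
  Nat.ble C.th 100000 && Nat.ble 1 C.t &&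
  (cmpN e T C V0 || (Nat.ble V0 a && cmpN e T C a)) &&
  (cmpN e T C V1 || (Nat.ble C.b2 V1 && cmpN e T C C.b2))

theorem finN_sound {V0 V1 e a a2 : ℕ} {C : GCertN} {T : ℕ}
    (hT : trp (d a2) C.toQ.mid = (T : ℚ) / 20000000000)
    (h : finN V0 V1 e a T C = true) :
    finOK (d V0) (d V1) (d e) (d a) (d a2) C.toQ = true := by
  simp only [finN, Bool.and_eq_true, Bool.or_eq_true, Nat.ble_eq] at h
  obtain ⟨⟨⟨h1, h2⟩, h3⟩, h4⟩ := h
  have h1' : (C.th : ℚ) ≤ 100000 := by exact_mod_cast h1
  have h2' : (1 : ℚ) ≤ C.t := by exact_mod_cast h2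
  have h4' : (0 : ℚ) ≤ C.th := Nat.cast_nonneg _
  unfold finOK
  rw [hT]
  simp only [Bool.and_eq_true, Bool.or_eq_true, decide_eq_true_eq]
  refine ⟨⟨⟨⟨?_, ?_⟩, ?_⟩, ?_⟩, ?_⟩
  · simp only [GCertN.toQ, dq_eq, Int.cast_natCast]; linarith
  · simp only [GCertN.toQ, dq_eq, Int.cast_natCast]; linarith
  · simp only [GCertN.toQ, dq_eq, Int.cast_natCast]; linarith
  · rcases h3 with h5 | ⟨h5, h6⟩
    · exact Or.inl (cmpN_sound h2 h1 h5)
    · exact Or.inr ⟨d_le h5, cmpN_sound h2 h1 h6⟩
  · rcases h4 with h5 | ⟨h5, h6⟩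
    · exact Or.inl (cmpN_sound h2 h1 h5)
    · exact Or.inr ⟨d_le h5, cmpN_sound h2 h1 h6⟩

/-- Scaled version of `Lf`. -/
def LfN (y : ℕ) : List (ℕ × ℕ) → ℕ → ℕ
  | [], _ => 10000000000
  | q :: T, u => max (q.1 * 100000 + q.2 * u - q.2 * y) (LfN y T u)

theorem LfN_cast (y : ℕ) (T : List (ℕ × ℕ)) (u : ℕ) :
    LfQ (d y) (T.map dd) (d u) = (LfN y T u : ℚ) / 10000000000 := by
  induction T with
  | nil => simp [LfQ, LfN]
  | cons q T ih =>
    simp only [List.map_cons, LfQ, LfN, dd]
    rw [ih, Nat.cast_max]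
    have h0 : (0 : ℚ) ≤ (LfN y T u : ℚ) := Nat.cast_nonneg _
    have e : d q.1 + d q.2 * (d u - d y) =
        ((q.1 : ℚ) * 100000 + q.2 * u - q.2 * y) / 10000000000 := by
      simp only [dq_eq, Int.cast_natCast]
      ring
    rw [e]
    rcases le_total (q.2 * y) (q.1 * 100000 + q.2 * u) with h | h
    · rw [Nat.cast_sub h, ← max_div_div_right (by norm_num : (0 : ℚ) ≤ 10000000000)]
      push_cast
      rfl
    · have h' : (q.1 : ℚ) * 100000 + q.2 * u ≤ q.2 * y := by exact_mod_cast h
      rw [Nat.sub_eq_zero_of_le h, Nat.cast_zero, max_eq_right h0]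
      apply max_eq_right
      apply (div_le_div_iff_of_pos_right (by norm_num)).2
      linarith only [h']

/-- The corner part of the slack check. -/
def slackN' (H : ℕ) (C : GCertN) : Bool :=
  match C.kD with
  | false => Nat.ble (1000000 * sqN C.r0) (314159200000 * (100000 - C.xlo)) &&
      Nat.ble (1000000 * sqN C.r1) (314159200000 * (100000 - C.b2))
  | true => Nat.ble (3141593 * sqN H) (400000000000 * (100000 - C.b2)) &&
      Nat.ble (4000000 * (C.r0 * H)) ((100000 - C.xlo) * 400000000000 + 3141592 * sqN H) &&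
      Nat.ble (4000000 * (C.r1 * H)) ((100000 - C.b2) * 400000000000 + 3141592 * sqN H)

/-- Check of the slack. -/
def slackN (p : ParN) (V0 e a : ℕ) (C : GCertN) : Bool :=
  Nat.beq C.D 0 || (Nat.ble C.ln C.lp && Nat.ble e 100000 && Nat.ble C.b2 100000 &&
    (Nat.ble C.xlo a || Nat.ble (C.xlo * (100000 - e) + e * C.b2) (V0 * 100000)) &&
    Nat.ble C.r1 C.r0 &&
    Nat.ble (LfN p.y p.T C.xlo) (LfN p.y p.T C.b2) &&
    (Nat.ble (C.ln * C.xlo) (C.c * 100000 + C.lp * C.xlo) &&
      Nat.ble (C.ln * C.b2) (C.c * 100000 + C.lp * C.b2) && Nat.ble C.xlo C.b2) &&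
    Nat.ble ((wN C.c C.lp C.ln C.xlo + C.D * 100000) * LfN p.y p.T C.xlo)
      (wN C.c C.lp C.ln C.xlo * (C.r0 * 100000)) &&
    Nat.ble ((wN C.c C.lp C.ln C.b2 + C.D * 100000) * LfN p.y p.T C.b2)
      (wN C.c C.lp C.ln C.b2 * (C.r1 * 100000)) && slackN' p.H C)

theorem slack_step {w D F r : ℕ} (h : (w + D * 100000) * F ≤ w * (r * 100000)) :
    ((w : ℚ) / 10000000000 + d D) * ((F : ℚ) / 10000000000) ≤ (w : ℚ) / 10000000000 * d r := by
  have h' : ((w : ℚ) + D * 100000) * F ≤ w * (r * 100000) := by exact_mod_cast h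
  simp only [dq_eq, Int.cast_natCast]
  linarith only [h']

theorem slackN_sound {p : ParN} {V0 e a : ℕ} {C : GCertN} (hH : 0 < p.H)
    (h : slackN p V0 e a C = true) :
    slackOK p.toQ (d V0) (d e) (d a) C.toQ = true := by
  have hH' : (0 : ℚ) < p.H := by exact_mod_cast hH
  rw [slackN, Bool.or_eq_true] at h
  apply slackOK_of
  rcases h with h | h
  · left
    rw [Nat.beq_eq] at h
    show d C.D = 0
    rw [h]
    exact d_zero
  by_cases hD : C.D = 0
  · left
    show d C.D = 0
    rw [hD]
    exact d_zero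
  right
  simp only [Bool.and_eq_true, Bool.or_eq_true, Nat.ble_eq] at h
  obtain ⟨⟨⟨⟨⟨⟨⟨⟨⟨h1, h2⟩, h3⟩, h4⟩, h5⟩, h6⟩, ⟨h7, h8⟩, h9⟩, h10⟩, h11⟩, h12⟩ := h
  have hxlo : C.xlo ≤ 100000 := h9.trans h3
  have q7 := wN_cast h7
  have q8 := wN_cast h8
  have e0 : d C.c + d ((C.lp : ℤ) - C.ln) * d C.xlo =
      ((wN C.c C.lp C.ln C.xlo : ℕ) : ℚ) / 10000000000 := by
    rw [q7]
    simp only [dq_eq, Int.cast_natCast]
    ring
  have e1 : d C.c + d ((C.lp : ℤ) - C.ln) * d C.b2 =
      ((wN C.c C.lp C.ln C.b2 : ℕ) : ℚ) / 10000000000 := by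
    rw [q8]
    simp only [dq_eq, Int.cast_natCast]
    ring
  have l0 := LfN_cast p.y p.T C.xlo
  have l1 := LfN_cast p.y p.T C.b2
  have h1' : (C.ln : ℚ) ≤ C.lp := by exact_mod_cast h1
  have h2' : (e : ℚ) ≤ 100000 := by exact_mod_cast h2
  have h5' : (C.r1 : ℚ) ≤ C.r0 := by exact_mod_cast h5
  have h6' : ((LfN p.y p.T C.xlo : ℕ) : ℚ) ≤ ((LfN p.y p.T C.b2 : ℕ) : ℚ) := by
    exact_mod_cast h6
  have r0 : (0 : ℚ) ≤ C.r0 := Nat.cast_nonneg _
  have r1 : (0 : ℚ) ≤ C.r1 := Nat.cast_nonneg _
  have g7 : (0 : ℚ) ≤ ((wN C.c C.lp C.ln C.xlo : ℕ) : ℚ) := Nat.cast_nonneg _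
  have hD' : (1 : ℚ) ≤ C.D := by
    have : 1 ≤ C.D := Nat.one_le_iff_ne_zero.2 hD
    exact_mod_cast this
  refine ⟨?_, ?_, ?_, ?_, ?_, ?_, ?_, ?_, ?_, ?_, ?_, ?_⟩
  · simp only [GCertN.toQ, dq_eq, Int.cast_natCast]; linarith only [hD']
  · simp only [GCertN.toQ, dq_eq]; push_cast; linarith only [h1']
  · rcases h4 with h | h
    · exact Or.inl (d_le h)
    · right
      have h' : (C.xlo : ℚ) * ((100000 - e : ℕ) : ℚ) + e * C.b2 ≤ V0 * 100000 := by
        exact_mod_cast h
      rw [Nat.cast_sub h2] at h'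
      push_cast at h'
      simp only [GCertN.toQ, dq_eq, Int.cast_natCast]
      linarith only [h']
  · simp only [GCertN.toQ, dq_eq, Int.cast_natCast]; linarith only [r0]
  · simp only [GCertN.toQ, dq_eq, Int.cast_natCast]; linarith only [r1]
  · simp only [GCertN.toQ, dq_eq, Int.cast_natCast]; linarith only [h5']
  · simp only [GCertN.toQ, ParN.toQ]
    rw [l0, l1]
    linarith only [h6']
  · simp only [GCertN.toQ]
    rw [e0]
    positivity
  · exact d_le h9
  · simp only [GCertN.toQ, ParN.toQ]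
    rw [l0, e0]
    exact slack_step h10
  · simp only [GCertN.toQ, ParN.toQ]
    rw [l1, e1]
    exact slack_step h11
  · unfold slackN' at h12
    cases hk : C.kD with
    | false =>
      rw [hk] at h12
      simp only [Bool.and_eq_true, Nat.ble_eq] at h12
      obtain ⟨k1, k2⟩ := h12
      have k1' : 1000000 * ((sqN C.r0 : ℕ) : ℚ) ≤ 314159200000 * ((100000 - C.xlo : ℕ) : ℚ) := by
        exact_mod_cast k1
      have k2' : 1000000 * ((sqN C.r1 : ℕ) : ℚ) ≤ 314159200000 * ((100000 - C.b2 : ℕ) : ℚ) := by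
        exact_mod_cast k2
      rw [sqN_cast, Nat.cast_sub hxlo] at k1'
      rw [sqN_cast, Nat.cast_sub h3] at k2'
      push_cast at k1' k2'
      refine Or.inl ⟨hk, ?_, ?_⟩
      · simp only [GCertN.toQ, dq_eq, Int.cast_natCast, piL]
        linarith only [k1']
      · simp only [GCertN.toQ, dq_eq, Int.cast_natCast, piL]
        linarith only [k2']
    | true =>
      rw [hk] at h12
      simp only [Bool.and_eq_true, Nat.ble_eq] at h12
      obtain ⟨⟨k0, k1⟩, k2⟩ := h12
      have k0' : 3141593 * ((sqN p.H : ℕ) : ℚ) ≤ 400000000000 * ((100000 - C.b2 : ℕ) : ℚ) := by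
        exact_mod_cast k0
      have k1' : 4000000 * ((C.r0 : ℚ) * p.H) ≤
          ((100000 - C.xlo : ℕ) : ℚ) * 400000000000 + 3141592 * ((sqN p.H : ℕ) : ℚ) := by
        exact_mod_cast k1
      have k2' : 4000000 * ((C.r1 : ℚ) * p.H) ≤
          ((100000 - C.b2 : ℕ) : ℚ) * 400000000000 + 3141592 * ((sqN p.H : ℕ) : ℚ) := by
        exact_mod_cast k2
      rw [sqN_cast, Nat.cast_sub h3] at k0'
      rw [sqN_cast, Nat.cast_sub hxlo] at k1'
      rw [sqN_cast, Nat.cast_sub h3] at k2'
      push_cast at k0' k1' k2'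
      refine Or.inr ⟨hk, ?_, ?_, ?_⟩
      · simp only [GCertN.toQ, ParN.toQ, dq_eq, Int.cast_natCast, piU]
        linarith only [k0']
      · simp only [GCertN.toQ, ParN.toQ, dq_eq, Int.cast_natCast, piL]
        rw [← sub_nonneg]
        have e : (1 - (C.xlo : ℚ) / 100000) / ((p.H : ℚ) / 100000) +
            3141592 / 1000000 * ((p.H : ℚ) / 100000) / 4 - (C.r0 : ℚ) / 100000 =
            ((100000 - C.xlo) * 400000000000 + 3141592 * (p.H : ℚ) ^ 2 -
              4000000 * ((C.r0 : ℚ) * p.H)) / (400000000000 * p.H) := by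
          field_simp
          ring
        rw [e]
        apply div_nonneg (by linarith only [k1']) (by positivity)
      · simp only [GCertN.toQ, ParN.toQ, dq_eq, Int.cast_natCast, piL]
        rw [← sub_nonneg]
        have e : (1 - (C.b2 : ℚ) / 100000) / ((p.H : ℚ) / 100000) +
            3141592 / 1000000 * ((p.H : ℚ) / 100000) / 4 - (C.r1 : ℚ) / 100000 =
            ((100000 - C.b2) * 400000000000 + 3141592 * (p.H : ℚ) ^ 2 -
              4000000 * ((C.r1 : ℚ) * p.H)) / (400000000000 * p.H) := by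
          field_simp
          ring
        rw [e]
        apply div_nonneg (by linarith only [k2']) (by positivity)

/-- Check of a cell. -/
def gcN (p : ParN) (V0 V1 e a a2 b : ℕ) (C : GCertN) : Bool :=
  chN p C.c C.lp C.ln a C.pre && Nat.beq (endN a C.pre) a2 && Nat.ble (a + 1) a2 &&
  chN p C.c C.lp C.ln a2 C.mid && Nat.beq (endN a2 C.mid) b &&
  chN p C.c C.lp C.ln b C.post && Nat.beq (endN b C.post) C.b2 && Nat.ble (b + 1) C.b2 &&
  slackN p V0 e a C && finN V0 V1 e a (trN a2 C.mid) C

theorem d_lt {a b : ℕ} (h : a + 1 ≤ b) : d a < d b := by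
  rw [dq_eq, dq_eq, Int.cast_natCast, Int.cast_natCast]
  have : (a : ℚ) + 1 ≤ b := by exact_mod_cast h
  linarith only [this]

theorem gcN_sound {p : ParN} {V0 V1 e a a2 b : ℕ} {C : GCertN} (hH : 0 < p.H)
    (h : gcN p V0 V1 e a a2 b C = true) :
    gcOK p.toQ (d V0) (d V1) (d e) (d a) (d a2) (d b) C.toQ = true := by
  simp only [gcN, Bool.and_eq_true, Nat.ble_eq, Nat.beq_eq] at h
  obtain ⟨⟨⟨⟨⟨⟨⟨⟨⟨h1, h2⟩, h3⟩, h4⟩, h5⟩, h6⟩, h7⟩, h8⟩, h9⟩, h10⟩ := h
  obtain ⟨k4, k4'⟩ := chN_sound hH _ _ h4
  simp only [gcOK, Bool.and_eq_true, decide_eq_true_eq]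
  refine ⟨⟨⟨⟨⟨⟨⟨⟨⟨(chN_sound hH _ _ h1).1, ?_⟩, d_lt h3⟩, k4⟩, ?_⟩, (chN_sound hH _ _ h6).1⟩,
    ?_⟩, d_lt h8⟩, slackN_sound hH h9⟩, finN_sound k4' h10⟩
  · exact (endX_eq _ _).trans (congrArg (fun n : ℕ => d n) h2)
  · exact (endX_eq _ _).trans (congrArg (fun n : ℕ => d n) h5)
  · exact (endX_eq _ _).trans (congrArg (fun n : ℕ => d n) h7)

/-- Check all the cells over a strip. -/
def gCellsN (p : ParN) (V0 V1 e B1 a a2 : ℕ) : ℕ → List GCertN → Bool
  | b, [] => Nat.ble B1 b
  | b, C :: Cs => gcN p V0 V1 e a a2 b C && gCellsN p V0 V1 e B1 a a2 C.b2 Cs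

/-- Check all strips. -/
def gStripsN (p : ParN) (V0 V1 e A1 B0 B1 : ℕ) : ℕ → List (ℕ × List GCertN) → Bool
  | a, [] => Nat.ble A1 a
  | a, S :: Ss => gCellsN p V0 V1 e B1 a S.1 B0 S.2 && gStripsN p V0 V1 e A1 B0 B1 S.1 Ss

/-- Conversion of strips. -/
def toGs (Ss : List (ℕ × List GCertN)) : List (ℚ × List GCert) :=
  Ss.map fun S => (d S.1, S.2.map GCertN.toQ)

theorem gCellsN_sound {p : ParN} {V0 V1 e B1 a a2 : ℕ} (hH : 0 < p.H) (Cs : List GCertN) (b : ℕ)
    (h : gCellsN p V0 V1 e B1 a a2 b Cs = true) :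
    gCells p.toQ (d V0) (d V1) (d e) (d B1) (d a) (d a2) (d b) (Cs.map GCertN.toQ) = true := by
  induction Cs generalizing b with
  | nil =>
    simp only [gCellsN, Nat.ble_eq] at h
    simp only [List.map_nil, gCells, decide_eq_true_eq]
    exact d_le h
  | cons C Cs ih =>
    simp only [gCellsN, Bool.and_eq_true] at h
    simp only [List.map_cons, gCells, Bool.and_eq_true]
    exact ⟨gcN_sound hH h.1, ih C.b2 h.2⟩

theorem gStripsN_sound {p : ParN} {V0 V1 e A1 B0 B1 : ℕ} (hH : 0 < p.H)
    (Ss : List (ℕ × List GCertN)) (a : ℕ) (h : gStripsN p V0 V1 e A1 B0 B1 a Ss = true) :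
    gStrips p.toQ (d V0) (d V1) (d e) (d A1) (d B0) (d B1) (d a) (toGs Ss) = true := by
  induction Ss generalizing a with
  | nil =>
    simp only [gStripsN, Nat.ble_eq] at h
    simp only [toGs, List.map_nil, gStrips, decide_eq_true_eq]
    exact d_le h
  | cons S Ss ih =>
    simp only [gStripsN, Bool.and_eq_true] at h
    simp only [toGs, List.map_cons, gStrips, Bool.and_eq_true]
    exact ⟨gCellsN_sound hH S.2 B0 h.1, ih S.1 h.2⟩

/-- An interval from integers. -/
def ivN0 (x sL sR A s : ℕ) (k : Bool) : IvN := ⟨x, sL, sR, A, s, k⟩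

/-- A certificate from integers. -/
def gkN (b2 c lp ln : ℕ) (pre mid post : List IvN) (th t D xlo r0 r1 : ℕ) (kD : Bool) : GCertN :=
  ⟨b2, c, lp, ln, pre, mid, post, th, t, D, xlo, r0, r1, kD⟩

end Vale.Agent.P232
end
end

section

section

namespace Vale.Agent.P232

/-- Parameters. -/
def gapEPar : Par := ⟨d 12000, d 100000, [(d 93623, d 60000), (d 91090, d 70000), (d 87953, d 80000), (d 85294, d 87000)]⟩

/-- Parameters. -/
def gapEParN : ParN := ⟨12000, 100000, [(93623, 60000), (91090, 70000), (87953, 80000), (85294, 87000)]⟩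

/-- Certificate data. -/
def gapE0 : List GCertN := [
  gkN 53259 0 227525 0 [ivN0 200 0 0 100000 0 false] [ivN0 16015 99835 85796 100000 0 false, ivN0 31831 85796 68955 100000 0 false, ivN0 38000 68955 61141 91090 70000 false] [ivN0 41814 0 0 91090 70000 false, ivN0 45629 0 0 87953 80000 false, ivN0 49444 0 0 87953 80000 false, ivN0 53259 0 0 85294 87000 false] 100000 91415 0 0 0 0 false,
  gkN 62317 0 174598 0 [ivN0 200 0 0 100000 0 false] [ivN0 16015 99902 91902 100000 0 false, ivN0 31831 91902 83134 100000 0 false, ivN0 37188 83134 79946 93623 60000 false, ivN0 42545 79946 75078 91090 70000 false, ivN0 47902 75033 69712 87953 80000 false, ivN0 53259 69617 64111 85294 87000 false] [ivN0 62317 0 0 85294 87000 false] 100000 91415 0 0 0 0 false,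
  gkN 68568 0 144923 0 [ivN0 200 0 0 100000 0 false] [ivN0 16015 99933 94495 100000 0 false, ivN0 31831 94495 88724 100000 0 false, ivN0 37547 88724 86543 93623 60000 false, ivN0 43263 86543 83180 91090 70000 false, ivN0 51837 83165 77884 87953 80000 false, ivN0 53266 77959 77079 85294 87000 false, ivN0 54695 77079 74736 85294 87000 false, ivN0 58506 74736 66970 85294 87000 false, ivN0 60411 66970 61944 85294 87000 false, ivN0 62317 61944 55771 85294 87000 false] [ivN0 68568 0 0 85294 87000 false] 92261 100000 0 0 0 0 false,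
  gkN 72947 0 126379 0 [ivN0 200 0 0 100000 0 false] [ivN0 16015 99949 95842 100000 0 false, ivN0 31831 95842 91551 100000 0 false, ivN0 36940 91551 90122 93623 60000 false, ivN0 52270 90122 83488 87953 80000 false, ivN0 55677 83580 80276 85294 87000 false, ivN0 59084 80276 75249 85294 87000 false, ivN0 61355 75249 71047 85294 87000 false, ivN0 63626 71047 65892 85294 87000 false, ivN0 65897 65892 59384 85294 87000 false, ivN0 68169 59384 50773 85294 87000 false, ivN0 68568 50773 48943 85294 87000 false] [ivN0 72947 0 0 85294 87000 false] 80455 100000 0 0 0 0 false,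
  gkN 76452 0 112502 0 [ivN0 200 0 0 100000 0 false] [ivN0 16015 99959 96720 100000 0 false, ivN0 31831 96720 93368 100000 0 false, ivN0 36940 93368 92259 93623 60000 false, ivN0 44605 92259 89789 87953 80000 false, ivN0 52270 89789 87199 87953 80000 false, ivN0 53973 87244 86314 85294 87000 false, ivN0 59084 86314 81010 85294 87000 false, ivN0 61355 81010 77945 85294 87000 false, ivN0 63626 77945 74270 85294 87000 false, ivN0 65897 74270 69786 85294 87000 false, ivN0 68169 69786 64174 85294 87000 false, ivN0 70558 64174 56459 85294 87000 false, ivN0 72947 56459 45558 85294 87000 false] [ivN0 76452 0 0 85294 87000 false] 71621 100000 0 0 0 0 false,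
  gkN 79596 0 100586 0 [ivN0 200 0 0 100000 0 false] [ivN0 16015 99967 97387 100000 0 false, ivN0 31831 97387 94735 100000 0 false, ivN0 36940 94735 93863 93623 60000 false, ivN0 52270 93863 89893 87953 80000 false, ivN0 53973 89948 89228 85294 87000 false, ivN0 59084 89228 85160 85294 87000 false, ivN0 63626 85160 80098 85294 87000 false, ivN0 65897 80098 76806 85294 87000 false, ivN0 68169 76806 72789 85294 87000 false, ivN0 70239 72789 68273 85294 87000 false, ivN0 72310 68273 62599 85294 87000 false, ivN0 74381 62599 55182 85294 87000 false, ivN0 76452 55182 44791 85294 87000 false] [ivN0 79596 0 0 85294 87000 false] 64035 100000 0 0 0 0 false,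
  gkN 82795 0 88796 0 [ivN0 200 0 0 100000 0 false] [ivN0 31831 99974 95922 100000 0 false, ivN0 36940 95922 95251 93623 60000 false, ivN0 52270 95251 92218 87953 80000 false, ivN0 53973 92261 91714 85294 87000 false, ivN0 59084 91714 88649 85294 87000 false, ivN0 63626 88649 84892 85294 87000 false, ivN0 68169 84892 79598 85294 87000 false, ivN0 71025 79598 75036 85294 87000 false, ivN0 73882 75036 68953 85294 87000 false, ivN0 76739 68953 60382 85294 87000 false, ivN0 78167 60382 54554 85294 87000 false, ivN0 79596 54554 46978 85294 87000 false] [ivN0 82795 0 0 85294 87000 false] 56529 100000 0 0 0 0 false,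
  gkN 86488 0 75331 0 [ivN0 200 0 0 100000 0 false] [ivN0 31831 99981 97082 100000 0 false, ivN0 36940 97082 96606 93623 60000 false, ivN0 52270 96606 94464 87953 80000 false, ivN0 59084 94490 91972 85294 87000 false, ivN0 63626 91972 89384 85294 87000 false, ivN0 68169 89384 85807 85294 87000 false, ivN0 71825 85807 81808 85294 87000 false, ivN0 75482 81808 76173 85294 87000 false, ivN0 77310 76173 72400 85294 87000 false, ivN0 79138 72400 67656 85294 87000 false, ivN0 80966 67656 61472 85294 87000 false, ivN0 82795 61472 52943 85294 87000 false] [ivN0 86488 0 0 85294 87000 false] 47957 100000 0 0 0 0 false,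
  gkN 90993 0 58459 0 [ivN0 200 0 0 100000 0 false] [ivN0 31831 99989 98253 100000 0 false, ivN0 36373 98253 98001 93623 60000 false, ivN0 50000 98001 96895 87953 80000 false, ivN0 54542 96901 96374 85294 87000 false, ivN0 59084 96374 95246 85294 87000 false, ivN0 63626 95246 93751 85294 87000 false, ivN0 68169 93751 91716 85294 87000 false, ivN0 72748 91716 88811 85294 87000 false, ivN0 77328 88811 84445 85294 87000 false, ivN0 79618 84445 81343 85294 87000 false, ivN0 81908 81343 77240 85294 87000 false, ivN0 84198 77240 71552 85294 87000 false, ivN0 86488 71552 63070 85294 87000 false] [ivN0 90993 0 0 85294 87000 false] 37216 100000 0 0 0 0 false,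
  gkN 95866 0 37592 0 [ivN0 200 0 0 100000 0 false] [ivN0 31831 99995 99281 100000 0 false, ivN0 50000 99281 98726 87953 80000 false, ivN0 59084 98729 98062 85294 87000 false, ivN0 68169 98062 96660 85294 87000 false, ivN0 72448 96660 95619 85294 87000 false, ivN0 76728 95619 94138 85294 87000 false, ivN0 81007 94138 91901 85294 87000 false, ivN0 85287 91901 88182 85294 87000 false, ivN0 88140 88182 83985 85294 87000 false, ivN0 90993 83985 76583 85294 87000 false] [ivN0 95866 0 0 85294 87000 false] 23932 100000 0 0 0 0 false,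
  gkN 99178 0 16203 0 [ivN0 200 0 0 100000 0 false] [ivN0 31831 99999 99866 100000 0 false, ivN0 50000 99866 99764 87953 80000 false, ivN0 68169 99764 99388 85294 87000 false, ivN0 78555 99388 98790 85294 87000 false, ivN0 83748 98790 98180 85294 87000 false, ivN0 88941 98180 96965 85294 87000 false, ivN0 92403 96965 95188 85294 87000 false, ivN0 95866 95188 90234 85294 87000 false] [ivN0 99178 0 0 85294 87000 false] 10315 100000 0 0 0 0 false,
  gkN 99800 0 7942 0 [ivN0 200 0 0 100000 0 false] [ivN0 31831 99999 99968 100000 0 false, ivN0 68169 99968 99853 85294 87000 false, ivN0 91425 99853 99016 85294 87000 false, ivN0 99178 99016 87163 85294 87000 false] [ivN0 99800 0 0 85294 87000 false] 5056 100000 0 0 0 0 false]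

/-- Certificate data. -/
def gapEN : List (ℕ × List GCertN) := [
  (200, gapE0)]

def gapE : List (ℚ × List GCert) := toGs gapEN

theorem gapE_ok : gStrips gapEPar (d 26600) (d 36000) (d 0) (d 200) (d 38000) (d 99800) (d 0) gapE = true :=
  gStripsN_sound (p := gapEParN) (V0 := 26600) (V1 := 36000) (e := 0) (A1 := 200)
    (B0 := 38000) (B1 := 99800) (by decide) gapEN 0 (by decide +kernel)

end Vale.Agent.P232
end
end

section

section

namespace Vale.Agent.P232

/-- Parameters. -/
def gapFPar : Par := ⟨d 12000, d 100000, [(d 93623, d 60000), (d 91090, d 70000), (d 87953, d 80000), (d 85294, d 87000)]⟩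

/-- Parameters. -/
def gapFParN : ParN := ⟨12000, 100000, [(93623, 60000), (91090, 70000), (87953, 80000), (85294, 87000)]⟩

/-- Certificate data. -/
def gapF0 : List GCertN := [
  gkN 50685 7486 219902 0 [ivN0 3700 0 0 100000 0 false] [ivN0 7216 88884 87144 100000 0 false, ivN0 17765 87144 78212 100000 0 false, ivN0 24798 78212 71155 100000 0 false, ivN0 31831 71155 63216 100000 0 false, ivN0 38000 63216 55280 91090 70000 false] [ivN0 40537 0 0 91090 70000 false, ivN0 43074 0 0 91090 70000 false, ivN0 45611 0 0 87953 80000 false, ivN0 48148 0 0 87953 80000 false, ivN0 50685 0 0 85294 87000 false] 100000 91415 0 0 0 0 false,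
  gkN 59392 7571 177426 0 [ivN0 3700 0 0 100000 0 false] [ivN0 10732 90999 88878 100000 0 false, ivN0 21281 88878 83226 100000 0 false, ivN0 31831 83226 76797 100000 0 false, ivN0 41258 76797 68950 91090 70000 false, ivN0 50685 68795 57176 87953 80000 false] [ivN0 59392 0 0 85294 87000 false] 100000 91415 0 0 0 0 false,
  gkN 65526 7632 147173 0 [ivN0 3700 0 0 100000 0 false] [ivN0 7216 92351 92360 100000 0 false, ivN0 10732 92360 91499 100000 0 false, ivN0 21281 91499 87923 100000 0 false, ivN0 31831 87923 83857 100000 0 false, ivN0 36998 83857 81755 93623 60000 false, ivN0 44749 81755 76499 87953 80000 false, ivN0 52501 76499 70856 87953 80000 false, ivN0 53362 70981 70232 85294 87000 false, ivN0 55946 70232 64431 85294 87000 false, ivN0 57669 64431 59710 85294 87000 false, ivN0 59392 59710 54032 85294 87000 false] [ivN0 65526 0 0 85294 87000 false] 93693 100000 0 0 0 0 false,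
  gkN 69788 7669 128610 0 [ivN0 3700 0 0 100000 0 false] [ivN0 7216 93119 93449 100000 0 false, ivN0 10732 93449 92911 100000 0 false, ivN0 16006 92911 91719 100000 0 false, ivN0 21281 91719 90353 100000 0 false, ivN0 31831 90353 87392 100000 0 false, ivN0 36569 87392 85997 93623 60000 false, ivN0 40122 85997 84480 91090 70000 false, ivN0 45453 84477 81634 91090 70000 false, ivN0 50784 81707 78969 87953 80000 false, ivN0 53153 78997 77832 85294 87000 false, ivN0 53943 77834 76795 85294 87000 false, ivN0 57102 76795 71544 85294 87000 false, ivN0 59208 71544 67216 85294 87000 false, ivN0 61314 67216 61967 85294 87000 false, ivN0 63420 61967 55417 85294 87000 false, ivN0 65526 55417 46848 85294 87000 false] [ivN0 69788 0 0 85294 87000 false] 81876 100000 0 0 0 0 false,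
  gkN 72997 7695 115634 0 [ivN0 3700 0 0 100000 0 false] [ivN0 7216 93630 94155 100000 0 false, ivN0 10732 94155 93814 100000 0 false, ivN0 21281 93814 91865 100000 0 false, ivN0 31831 91865 89551 100000 0 false, ivN0 36940 89551 88375 93623 60000 false, ivN0 52270 88375 82320 87953 80000 false, ivN0 53973 82422 81246 85294 87000 false, ivN0 59084 81246 74192 85294 87000 false, ivN0 63626 74192 64964 85294 87000 false, ivN0 65897 64964 58571 85294 87000 false, ivN0 68169 58571 50140 85294 87000 false, ivN0 69788 50140 42045 85294 87000 false] [ivN0 72997 0 0 85294 87000 false] 73615 100000 0 0 0 0 false,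
  gkN 75890 7717 104511 0 [ivN0 3700 0 0 100000 0 false] [ivN0 7216 94051 94725 100000 0 false, ivN0 10732 94725 94534 100000 0 false, ivN0 16006 94534 93870 100000 0 false, ivN0 21281 93870 93046 100000 0 false, ivN0 31831 93046 91215 100000 0 false, ivN0 36940 91215 90282 93623 60000 false, ivN0 40772 90282 89176 91090 70000 false, ivN0 52270 89104 85465 87953 80000 false, ivN0 53973 85530 84594 85294 87000 false, ivN0 56528 84594 82055 85294 87000 false, ivN0 59084 82055 79031 85294 87000 false, ivN0 61355 79031 75822 85294 87000 false, ivN0 63626 75822 71974 85294 87000 false, ivN0 65897 71974 67270 85294 87000 false, ivN0 68169 67270 61360 85294 87000 false, ivN0 69376 61360 57538 85294 87000 false, ivN0 70583 57538 53061 85294 87000 false, ivN0 71790 53061 47690 85294 87000 false, ivN0 72997 47690 41000 85294 87000 false] [ivN0 75890 0 0 85294 87000 false] 66534 100000 0 0 0 0 false,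
  gkN 78760 7738 93890 0 [ivN0 3700 0 0 100000 0 false] [ivN0 7216 94438 95241 100000 0 false, ivN0 10732 95241 95177 100000 0 false, ivN0 21281 95177 94078 100000 0 false, ivN0 31831 94078 92652 100000 0 false, ivN0 36940 92652 91920 93623 60000 false, ivN0 52270 91920 88084 87953 80000 false, ivN0 53973 88150 87408 85294 87000 false, ivN0 56528 87408 85394 85294 87000 false, ivN0 59084 85394 83014 85294 87000 false, ivN0 61355 83014 80517 85294 87000 false, ivN0 63626 80517 77560 85294 87000 false, ivN0 65897 77560 74009 85294 87000 false, ivN0 68169 74009 69664 85294 87000 false, ivN0 70099 69664 65119 85294 87000 false, ivN0 72029 65119 59465 85294 87000 false, ivN0 73959 59465 52145 85294 87000 false, ivN0 74924 52145 47543 85294 87000 false, ivN0 75890 47543 41978 85294 87000 false] [ivN0 78760 0 0 85294 87000 false] 59772 100000 0 0 0 0 false,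
  gkN 82038 7762 82105 0 [ivN0 3700 0 0 100000 0 false] [ivN0 7216 94850 95779 100000 0 false, ivN0 10732 95779 95839 100000 0 false, ivN0 21281 95839 95118 100000 0 false, ivN0 31831 95118 94079 100000 0 false, ivN0 36940 94079 93539 93623 60000 false, ivN0 52270 93539 90646 87953 80000 false, ivN0 53973 90698 90135 85294 87000 false, ivN0 59084 90135 86812 85294 87000 false, ivN0 63626 86812 82761 85294 87000 false, ivN0 65897 82761 80171 85294 87000 false, ivN0 68169 80171 77059 85294 87000 false, ivN0 70816 77059 72543 85294 87000 false, ivN0 73464 72543 66635 85294 87000 false, ivN0 76112 66635 58508 85294 87000 false, ivN0 77436 58508 53105 85294 87000 false, ivN0 78760 53105 46243 85294 87000 false] [ivN0 82038 0 0 85294 87000 false] 52270 100000 0 0 0 0 false,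
  gkN 86286 7792 67039 0 [ivN0 3700 0 0 100000 0 false] [ivN0 7216 95352 96417 100000 0 false, ivN0 10732 96417 96611 100000 0 false, ivN0 21281 96611 96292 100000 0 false, ivN0 31831 96292 95662 100000 0 false, ivN0 36373 95662 95362 93623 60000 false, ivN0 50000 95362 93696 87953 80000 false, ivN0 54542 93708 92856 85294 87000 false, ivN0 59084 92856 90840 85294 87000 false, ivN0 63626 90840 88164 85294 87000 false, ivN0 68169 88164 84490 85294 87000 false, ivN0 71636 84490 80645 85294 87000 false, ivN0 75103 80645 75354 85294 87000 false, ivN0 76836 75354 71884 85294 87000 false, ivN0 78570 71884 67599 85294 87000 false, ivN0 80304 67599 62146 85294 87000 false, ivN0 82038 62146 54893 85294 87000 false] [ivN0 86286 0 0 85294 87000 false] 42678 100000 0 0 0 0 false,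
  gkN 91994 7834 45999 0 [ivN0 3700 0 0 100000 0 false] [ivN0 5458 96008 96829 100000 0 false, ivN0 7216 96829 97217 100000 0 false, ivN0 10732 97217 97551 100000 0 false, ivN0 16006 97551 97676 100000 0 false, ivN0 21281 97676 97649 100000 0 false, ivN0 31831 97649 97441 100000 0 false, ivN0 36373 97441 97323 93623 60000 false, ivN0 50000 97323 96539 87953 80000 false, ivN0 54542 96545 96130 85294 87000 false, ivN0 59084 96130 95112 85294 87000 false, ivN0 63626 95112 93783 85294 87000 false, ivN0 68169 93783 92000 85294 87000 false, ivN0 72698 92000 89520 85294 87000 false, ivN0 74962 89520 87883 85294 87000 false, ivN0 77227 87883 85862 85294 87000 false, ivN0 79491 85862 83309 85294 87000 false, ivN0 81756 83309 79983 85294 87000 false, ivN0 84021 79983 75470 85294 87000 false, ivN0 85153 75470 72548 85294 87000 false, ivN0 86286 72548 68975 85294 87000 false] [ivN0 91994 0 0 85294 87000 false] 29284 100000 0 0 0 0 false,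
  gkN 97825 7889 18656 0 [ivN0 3700 0 0 100000 0 false] [ivN0 7216 96782 98100 100000 0 false, ivN0 10732 98100 98538 100000 0 false, ivN0 16006 98538 98817 100000 0 false, ivN0 31831 98817 99039 100000 0 false, ivN0 50000 99039 98932 87953 80000 false, ivN0 59084 98935 98598 85294 87000 false, ivN0 68169 98598 97853 85294 87000 false, ivN0 77103 97853 96490 85294 87000 false, ivN0 81570 96490 95277 85294 87000 false, ivN0 86037 95277 93238 85294 87000 false, ivN0 89015 93238 90891 85294 87000 false, ivN0 91994 90891 86630 85294 87000 false] [ivN0 97825 0 0 85294 87000 false] 11877 100000 0 0 0 0 false,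
  gkN 99967 7936 0 4718 [ivN0 3700 0 0 100000 0 false] [ivN0 10732 97374 99178 100000 0 false, ivN0 21281 99178 99639 100000 0 false, ivN0 31831 99639 99792 100000 0 false, ivN0 68169 99792 99888 85294 87000 false, ivN0 90411 99888 99776 85294 87000 false, ivN0 97825 99776 99189 85294 87000 false] [ivN0 99967 0 0 85294 87000 false] 0 100000 0 0 0 0 false,
  gkN 100000 7942 0 7942 [ivN0 3700 0 0 100000 0 false] [ivN0 31831 97451 99853 100000 0 false, ivN0 68169 99853 99968 91090 70000 false, ivN0 99967 99968 99999 85294 87000 false] [ivN0 100000 0 0 100000 0 false] 0 100000 0 0 0 0 false]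

/-- Certificate data. -/
def gapF1 : List GCertN := [
  gkN 48696 27250 184937 0 [ivN0 10700 0 0 100000 0 false] [ivN0 13341 58462 59729 100000 0 false, ivN0 15982 59729 59773 100000 0 false, ivN0 21265 59773 58009 100000 0 false, ivN0 26548 58009 54874 100000 0 false, ivN0 31831 54874 50831 100000 0 false, ivN0 38000 50831 45086 91090 70000 false] [ivN0 39782 0 0 91090 70000 false, ivN0 41565 0 0 91090 70000 false, ivN0 43348 0 0 91090 70000 false, ivN0 45130 0 0 87953 80000 false, ivN0 46913 0 0 87953 80000 false, ivN0 48696 0 0 87953 80000 false] 100000 91415 0 0 0 0 false,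
  gkN 57988 28587 148819 0 [ivN0 10700 0 0 100000 0 false] [ivN0 13341 64079 66342 100000 0 false, ivN0 15982 66342 67359 100000 0 false, ivN0 23906 67359 67217 100000 0 false, ivN0 31831 67217 65041 100000 0 false, ivN0 38155 65041 62514 91090 70000 false, ivN0 40263 62532 60229 91090 70000 false, ivN0 48696 59883 50724 87953 80000 false] [ivN0 57988 0 0 85294 87000 false] 94741 100000 0 0 0 0 false,
  gkN 65292 29869 114183 0 [ivN0 10700 0 0 100000 0 false] [ivN0 13341 68780 71739 100000 0 false, ivN0 15982 71739 73407 100000 0 false, ivN0 19944 73407 74680 100000 0 false, ivN0 23906 74680 75158 100000 0 false, ivN0 31831 75158 74937 100000 0 false, ivN0 36735 74937 74372 93623 60000 false, ivN0 40413 74372 72855 91090 70000 false, ivN0 43171 72857 71302 91090 70000 false, ivN0 51448 71262 67067 87953 80000 false, ivN0 53083 67167 66418 85294 87000 false, ivN0 55535 66417 61408 85294 87000 false, ivN0 57988 61408 54822 85294 87000 false] [ivN0 65292 0 0 85294 87000 false] 72691 100000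 0 0 0 0 false,
  gkN 72829 30973 84330 0 [ivN0 10700 0 0 100000 0 false] [ivN0 13341 72395 75804 100000 0 false, ivN0 15982 75804 77876 100000 0 false, ivN0 19944 77876 79715 100000 0 false, ivN0 23906 79715 80738 100000 0 false, ivN0 31831 80738 81592 100000 0 false, ivN0 36536 81592 81696 93623 60000 false, ivN0 50652 81696 78414 87953 80000 false, ivN0 53789 78485 77371 85294 87000 false, ivN0 56926 77371 73419 85294 87000 false, ivN0 61109 73419 66546 85294 87000 false, ivN0 63200 66546 62108 85294 87000 false, ivN0 65292 62108 56672 85294 87000 false] [ivN0 72829 0 0 85294 87000 false] 53686 100000 0 0 0 0 false,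
  gkN 83367 32320 47941 0 [ivN0 10700 0 0 100000 0 false] [ivN0 13341 76340 80147 100000 0 false, ivN0 15982 80147 82560 100000 0 false, ivN0 19944 82560 84855 100000 0 false, ivN0 23906 84855 86300 100000 0 false, ivN0 31831 86300 87955 100000 0 false, ivN0 36373 87955 88506 93623 60000 false, ivN0 50000 88506 87938 87953 80000 false, ivN0 54542 87961 87213 85294 87000 false, ivN0 59084 87213 84491 85294 87000 false, ivN0 63626 84491 80908 85294 87000 false, ivN0 68169 80908 75992 85294 87000 false, ivN0 72829 75992 68586 85294 87000 false] [ivN0 83367 0 0 85294 87000 false] 30520 100000 0 0 0 0 false,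
  gkN 97668 34370 0 7478 [ivN0 10700 0 0 100000 0 false] [ivN0 13341 81532 85689 100000 0 false, ivN0 15982 85689 88362 100000 0 false, ivN0 19944 88362 90965 100000 0 false, ivN0 23906 90965 92663 100000 0 false, ivN0 31831 92663 94745 100000 0 false, ivN0 36373 94745 95516 93623 60000 false, ivN0 50000 95516 96585 87953 80000 false, ivN0 54542 96591 96734 85294 87000 false, ivN0 68169 96734 95619 85294 87000 false, ivN0 75768 95619 94433 85294 87000 false, ivN0 83367 94433 92114 85294 87000 false] [ivN0 97668 0 0 85294 87000 false] 0 100000 0 0 0 0 false,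
  gkN 100000 35403 0 35403 [ivN0 10700 0 0 100000 0 false] [ivN0 31831 83824 97044 100000 0 false, ivN0 68169 97044 99363 85294 87000 false, ivN0 97668 99363 99953 85294 87000 false] [ivN0 100000 0 0 93623 60000 false] 0 100000 0 0 0 0 false]

/-- Certificate data. -/
def gapF2 : List GCertN := [
  gkN 45888 40619 162225 0 [ivN0 17700 0 0 100000 0 false] [ivN0 21232 36813 39407 100000 0 false, ivN0 24765 39407 40122 100000 0 false, ivN0 31831 40122 38583 100000 0 false, ivN0 38000 38583 35210 91090 70000 false] [ivN0 39577 0 0 91090 70000 false, ivN0 41155 0 0 91090 70000 false, ivN0 42732 0 0 91090 70000 false, ivN0 44310 0 0 87953 80000 false, ivN0 45888 0 0 87953 80000 false] 100000 96828 0 0 0 0 false,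
  gkN 55180 43380 136428 0 [ivN0 17700 0 0 100000 0 false] [ivN0 21232 42420 46402 100000 0 false, ivN0 24765 46402 48439 100000 0 false, ivN0 31831 48439 49645 100000 0 false, ivN0 37102 49645 49190 93623 60000 false, ivN0 38859 49190 48013 91090 70000 false, ivN0 45888 47975 38401 91090 70000 false] [ivN0 55180 0 0 85294 87000 false] 86853 100000 0 0 0 0 false,
  gkN 64121 48326 90208 0 [ivN0 17700 0 0 100000 0 false] [ivN0 21232 50659 56334 100000 0 false, ivN0 24765 56334 59845 100000 0 false, ivN0 31831 59845 63755 100000 0 false, ivN0 36208 63755 65067 93623 60000 false, ivN0 39491 65067 64885 91090 70000 false, ivN0 49342 64515 61522 87953 80000 false, ivN0 53720 61527 59641 85294 87000 false, ivN0 55180 59641 56257 85294 87000 false] [ivN0 64121 0 0 85294 87000 false] 57428 100000 0 0 0 0 false,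
  gkN 79029 54347 33938 0 [ivN0 17700 0 0 100000 0 false] [ivN0 21232 58730 65726 100000 0 false, ivN0 24765 65726 70275 100000 0 false, ivN0 28298 70275 73482 100000 0 false, ivN0 31831 73482 75865 100000 0 false, ivN0 37885 75865 78773 93623 60000 false, ivN0 43939 78773 79193 91090 70000 false, ivN0 53020 79201 80054 87953 80000 false, ivN0 56048 80150 78112 85294 87000 false, ivN0 60084 78112 74468 85294 87000 false, ivN0 64121 74468 69721 85294 87000 false] [ivN0 79029 0 0 85294 87000 false] 21606 100000 0 0 0 0 false,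
  gkN 99755 63890 0 55253 [ivN0 17700 0 0 100000 0 false] [ivN0 24765 68808 82219 100000 0 false, ivN0 31831 82219 88634 100000 0 false, ivN0 36373 88634 91223 93623 60000 false, ivN0 50000 91223 95179 87953 80000 false, ivN0 68169 95168 96500 85294 87000 false, ivN0 79029 96500 96846 85294 87000 false] [ivN0 99755 0 0 85294 87000 false] 0 100000 0 0 0 0 false,
  gkN 100000 64925 0 64925 [ivN0 17700 0 0 100000 0 false] [ivN0 31831 69752 89672 100000 0 false, ivN0 68169 89672 97841 85294 87000 false, ivN0 99755 97841 99983 85294 87000 false] [ivN0 100000 0 0 100000 0 false] 0 100000 0 0 0 0 false]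

/-- Certificate data. -/
def gapF3 : List GCertN := [
  gkN 41209 46737 157245 0 [ivN0 24700 0 0 100000 0 false] [ivN0 28265 23714 25235 100000 0 false, ivN0 31831 25235 25134 100000 0 false, ivN0 38000 25134 22379 91090 70000 false] [ivN0 38534 0 0 91090 70000 false, ivN0 39069 0 0 91090 70000 false, ivN0 39604 0 0 91090 70000 false, ivN0 40139 0 0 91090 70000 false, ivN0 40674 0 0 91090 70000 false, ivN0 41209 0 0 91090 70000 false] 100000 99895 0 0 0 0 false,
  gkN 44769 48676 146288 0 [ivN0 24700 0 0 100000 0 false] [ivN0 28265 27034 29549 100000 0 false, ivN0 31831 29549 30482 100000 0 false, ivN0 36520 30482 30231 93623 60000 false, ivN0 38864 30231 27895 91090 70000 false, ivN0 41209 27895 21357 91090 70000 false] [ivN0 41921 0 0 91090 70000 false, ivN0 42633 0 0 91090 70000 false, ivN0 43345 0 0 91090 70000 false, ivN0 44057 0 0 87953 80000 false, ivN0 44769 0 0 87953 80000 false] 93130 100000 0 0 0 0 false,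
  gkN 53242 51359 131124 0 [ivN0 24700 0 0 100000 0 false] [ivN0 28265 31010 34573 100000 0 false, ivN0 31831 34573 36509 100000 0 false, ivN0 36682 36509 37633 93623 60000 false, ivN0 38300 37633 37337 91090 70000 false, ivN0 41534 37328 32162 91090 70000 false, ivN0 44769 32162 26127 91090 70000 false] [ivN0 46463 0 0 87953 80000 false, ivN0 48158 0 0 87953 80000 false, ivN0 49852 0 0 87953 80000 false, ivN0 51547 0 0 85294 87000 false, ivN0 53242 0 0 85294 87000 false] 83476 100000 0 0 0 0 false,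
  gkN 64172 62563 67833 0 [ivN0 24700 0 0 100000 0 false] [ivN0 28265 43501 49763 100000 0 false, ivN0 31831 49763 54018 100000 0 false, ivN0 37183 54018 58334 93623 60000 false, ivN0 39190 58334 58706 91090 70000 false, ivN0 45212 58688 57870 91090 70000 false, ivN0 53242 58028 57780 87953 80000 false] [ivN0 64172 0 0 85294 87000 false] 43184 100000 0 0 0 0 false,
  gkN 90896 79669 0 28813 [ivN0 24700 0 0 100000 0 false] [ivN0 26482 56714 61336 100000 0 false, ivN0 28265 61336 65105 100000 0 false, ivN0 31831 65105 70923 100000 0 false, ivN0 35873 70923 75727 93623 60000 false, ivN0 37894 75727 77650 93623 60000 false, ivN0 39916 77650 78760 91090 70000 false, ivN0 43958 78757 80697 91090 70000 false, ivN0 48001 80718 82580 87953 80000 false, ivN0 52043 82580 84227 87953 80000 false, ivN0 53053 84271 84671 85294 87000 false, ivN0 56086 84669 84121 85294 87000 false, ivN0 64172 84121 81698 85294 87000 false] [ivN0 90896 0 0 85294 87000 false] 0 100000 0 0 0 0 false,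
  gkN 100000 90606 0 90606 [ivN0 24700 0 0 100000 0 false] [ivN0 31831 63255 78645 100000 0 false, ivN0 68169 78645 95750 85294 87000 false, ivN0 90896 95750 98803 85294 87000 false] [ivN0 100000 0 0 85294 87000 false] 0 100000 0 0 0 0 false]

/-- Certificate data. -/
def gapF4 : List GCertN := [
  gkN 39805 51355 148720 0 [ivN0 29700 0 0 100000 0 false] [ivN0 31831 14841 16108 100000 0 false, ivN0 38000 16108 15916 91090 70000 false] [ivN0 38902 0 0 91090 70000 false, ivN0 39805 0 0 91090 70000 false] 94678 100000 0 0 0 0 false,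
  gkN 42312 54123 137514 0 [ivN0 29700 0 0 100000 0 false] [ivN0 31831 18293 20409 100000 0 false, ivN0 37811 20409 22800 93623 60000 false, ivN0 39805 22800 17422 91090 70000 false] [ivN0 40640 0 0 91090 70000 false, ivN0 41476 0 0 91090 70000 false, ivN0 42312 0 0 91090 70000 false] 87544 100000 0 0 0 0 false,
  gkN 51487 58988 117810 0 [ivN0 29700 0 0 100000 0 false] [ivN0 31831 23119 26268 100000 0 false, ivN0 37071 26268 30828 93623 60000 false, ivN0 38381 30828 30870 91090 70000 false, ivN0 42312 30850 24646 91090 70000 false] [ivN0 44147 0 0 91090 70000 false, ivN0 45982 0 0 87953 80000 false, ivN0 47817 0 0 87953 80000 false, ivN0 49652 0 0 87953 80000 false, ivN0 51487 0 0 85294 87000 false] 75000 100000 0 0 0 0 false,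
  gkN 78796 91043 0 11963 [ivN0 29700 0 0 100000 0 false] [ivN0 31831 42382 48888 100000 0 false, ivN0 34288 48888 54615 93623 60000 false, ivN0 36745 54615 59129 93623 60000 false, ivN0 38587 59129 61586 91090 70000 false, ivN0 44116 61572 65540 91090 70000 false, ivN0 51487 65580 70391 87953 80000 false] [ivN0 78796 0 0 85294 87000 false] 0 100000 0 0 0 0 false,
  gkN 100000 116984 0 116984 [ivN0 29700 0 0 100000 0 false] [ivN0 31831 52453 60336 100000 0 false, ivN0 68169 60336 92808 85294 87000 false, ivN0 78796 92808 95269 85294 87000 false] [ivN0 100000 0 0 85294 87000 false] 0 100000 0 0 0 0 false]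

/-- Certificate data. -/
def gapF5 : List GCertN := [
  gkN 54195 68266 95382 0 [ivN0 32200 0 0 93623 60000 false] [ivN0 35100 17760 24740 93623 60000 false, ivN0 38000 24740 29165 91090 70000 false] [ivN0 54195 0 0 87953 80000 false] 60722 100000 0 0 0 0 false,
  gkN 100000 137403 0 137403 [ivN0 32200 0 0 93623 60000 false] [ivN0 54195 37693 85131 85294 87000 false] [ivN0 100000 0 0 85294 87000 false] 0 100000 0 0 0 0 false]

/-- Certificate data. -/
def gapF6 : List GCertN := [
  gkN 67883 100695 0 364 [ivN0 36000 0 0 93623 60000 false] [ivN0 38000 32527 39113 91090 70000 false] [ivN0 67883 0 0 87953 80000 false] 0 100000 0 0 0 0 false,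
  gkN 100000 148345 0 148345 [ivN0 36000 0 0 93623 60000 false] [ivN0 67883 45056 88035 87953 80000 false] [ivN0 100000 0 0 85294 87000 false] 0 100000 0 0 0 0 false]

/-- Certificate data. -/
def gapFN : List (ℕ × List GCertN) := [
  (3700, gapF0),
  (10700, gapF1),
  (17700, gapF2),
  (24700, gapF3),
  (29700, gapF4),
  (32200, gapF5),
  (36000, gapF6)]

def gapF : List (ℚ × List GCert) := toGs gapFN

theorem gapF_ok : gStrips gapFPar (d 26600) (d 36000) (d 0) (d 36000) (d 38000) (d 100000) (d 200) gapF = true :=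
  gStripsN_sound (p := gapFParN) (V0 := 26600) (V1 := 36000) (e := 0) (A1 := 36000)
    (B0 := 38000) (B1 := 100000) (by decide) gapFN 200 (by decide +kernel)

end Vale.Agent.P232
end
end

section

section

namespace Vale.Agent.P232

/-- Parameters. -/
def gapGPar : Par := ⟨d 0, d 100000, []⟩

/-- Parameters. -/
def gapGParN : ParN := ⟨0, 100000, []⟩

/-- Certificate data. -/
def gapG0 : List GCertN := [
  gkN 44047 7506 209988 0 [ivN0 1500 0 0 100000 0 false] [ivN0 3395 87123 89397 100000 0 false, ivN0 9082 89397 86743 100000 0 false, ivN0 20456 86743 77702 100000 0 false, ivN0 31830 77702 66877 100000 0 false] [ivN0 44047 0 0 100000 0 false] 100000 91415 31689 24220 154295 132582 false,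
  gkN 51935 7570 177971 0 [ivN0 1500 0 0 100000 0 false] [ivN0 3395 88176 90899 100000 0 false, ivN0 9082 90899 89586 100000 0 false, ivN0 20456 89586 83610 100000 0 false, ivN0 31831 83610 76653 100000 0 false, ivN0 34885 76653 71750 100000 0 false, ivN0 37939 71750 66041 100000 0 false, ivN0 40993 66041 59292 100000 0 false, ivN0 44047 59292 51095 100000 0 false] [ivN0 51935 0 0 100000 0 false] 100000 91415 22881 23145 155385 122882 false,
  gkN 57601 7605 160404 0 [ivN0 1500 0 0 100000 0 false] [ivN0 3395 88731 91668 100000 0 false, ivN0 6238 91668 91746 100000 0 false, ivN0 9082 91746 90977 100000 0 false, ivN0 20456 90977 86360 100000 0 false, ivN0 31831 86360 80985 100000 0 false, ivN0 36857 80985 74483 100000 0 false, ivN0 41883 74483 66384 100000 0 false, ivN0 46909 66384 56000 100000 0 false, ivN0 49422 56000 49516 100000 0 false, ivN0 51935 49516 41656 100000 0 false] [ivN0 57601 0 0 100000 0 false] 100000 97928 15411 22372 156165 115412 false,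
  gkN 61512 7626 150172 0 [ivN0 1500 0 0 100000 0 false] [ivN0 2447 89045 91316 100000 0 false, ivN0 3395 91316 92097 100000 0 false, ivN0 6238 92097 92338 100000 0 false, ivN0 9082 92338 91734 100000 0 false, ivN0 14769 91734 89918 100000 0 false, ivN0 20456 89918 87818 100000 0 false, ivN0 31831 87818 83233 100000 0 false, ivN0 35052 83233 79801 100000 0 false, ivN0 38273 79801 75906 100000 0 false, ivN0 41494 75906 71474 100000 0 false, ivN0 44716 71474 66395 100000 0 false, ivN0 47937 66395 60511 100000 0 false, ivN0 51158 60511 53553 100000 0 false, ivN0 54379 53553 45029 100000 0 false, ivN0 55990 45029 39871 100000 0 false, ivN0 57601 39871 33766 100000 0 false] [ivN0 61512 0 0 100000 0 false] 95602 100000 9959 21839 156700 109960 false,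
  gkN 64370 7639 143483 0 [ivN0 1500 0 0 100000 0 false] [ivN0 2447 89250 91557 100000 0 false, ivN0 3395 91557 92372 100000 0 false, ivN0 6238 92372 92712 100000 0 false, ivN0 9082 92712 92209 100000 0 false, ivN0 14769 92209 90601 100000 0 false, ivN0 20456 90601 88718 100000 0 false, ivN0 31831 88718 84604 100000 0 false, ivN0 35541 84604 81006 100000 0 false, ivN0 39251 81006 76872 100000 0 false, ivN0 42961 76872 72112 100000 0 false, ivN0 46671 72112 66590 100000 0 false, ivN0 50381 66590 60096 100000 0 false, ivN0 54091 60096 52272 100000 0 false, ivN0 57801 52272 42384 100000 0 false, ivN0 59656 42384 36155 100000 0 false, ivN0 61512 36155 28346 100000 0 false] [ivN0 64370 0 0 100000 0 false] 91344 100000 5798 21449 157090 105799 false,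
  gkN 66643 7649 138575 0 [ivN0 1500 0 0 100000 0 false] [ivN0 3395 89397 92569 100000 0 false, ivN0 6238 92569 92980 100000 0 false, ivN0 9082 92980 92547 100000 0 false, ivN0 14769 92547 91084 100000 0 false, ivN0 20456 91084 89352 100000 0 false, ivN0 31831 89352 85562 100000 0 false, ivN0 35898 85562 81889 100000 0 false, ivN0 39965 81889 77634 100000 0 false, ivN0 44032 77634 72697 100000 0 false, ivN0 48100 72697 66925 100000 0 false, ivN0 52167 66925 60080 100000 0 false, ivN0 56235 60080 51736 100000 0 false, ivN0 58268 51736 46760 100000 0 false, ivN0 60302 46760 40991 100000 0 false, ivN0 62336 40991 34031 100000 0 false, ivN0 64370 34031 24902 100000 0 false] [ivN0 66643 0 0 100000 0 false] 88220 100000 2367 21139 157400 102368 false,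
  gkN 68916 7662 132273 0 [ivN0 1500 0 0 100000 0 false] [ivN0 3395 89585 92818 100000 0 false, ivN0 6238 92818 93315 100000 0 false, ivN0 9082 93315 92969 100000 0 false, ivN0 14769 92969 91682 100000 0 false, ivN0 20456 91682 90134 100000 0 false, ivN0 31831 90134 86737 100000 0 false, ivN0 36182 86737 83171 100000 0 false, ivN0 40534 83171 79025 100000 0 false, ivN0 44885 79025 74206 100000 0 false, ivN0 49237 74206 68569 100000 0 false, ivN0 53588 68569 61893 100000 0 false, ivN0 57940 61893 53789 100000 0 false, ivN0 60115 53789 48989 100000 0 false, ivN0 62291 48989 43472 100000 0 false, ivN0 64467 43472 36921 100000 0 false, ivN0 66643 36921 28634 100000 0 false] [ivN0 68916 0 0 100000 0 false] 84208 100000 0 0 0 0 false,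
  gkN 71891 7686 120022 0 [ivN0 1500 0 0 100000 0 false] [ivN0 3395 89946 93290 100000 0 false, ivN0 6238 93290 93942 100000 0 false, ivN0 9082 93942 93750 100000 0 false, ivN0 20456 93750 91557 100000 0 false, ivN0 31831 91557 88848 100000 0 false, ivN0 36373 88848 85813 100000 0 false, ivN0 40915 85813 82307 100000 0 false, ivN0 45457 82307 78266 100000 0 false, ivN0 50000 78266 73601 100000 0 false, ivN0 54542 73601 68185 100000 0 false, ivN0 59084 68185 61822 100000 0 false, ivN0 63626 61822 54179 100000 0 false, ivN0 68169 54179 44598 100000 0 false, ivN0 68916 44598 40390 100000 0 false] [ivN0 71891 0 0 100000 0 false] 76408 100000 0 0 0 0 false,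
  gkN 75668 7715 105348 0 [ivN0 1500 0 0 100000 0 false] [ivN0 3395 90368 93832 100000 0 false, ivN0 6238 93832 94649 100000 0 false, ivN0 9082 94649 94620 100000 0 false, ivN0 14769 94620 93981 100000 0 false, ivN0 31831 93981 91096 100000 0 false, ivN0 40915 91096 86125 100000 0 false, ivN0 45457 86125 83116 100000 0 false, ivN0 50000 83116 79706 100000 0 false, ivN0 54542 79706 75844 100000 0 false, ivN0 59084 75844 71454 100000 0 false, ivN0 63626 71454 66433 100000 0 false, ivN0 68169 66433 60622 100000 0 false, ivN0 70030 60622 54286 100000 0 false, ivN0 71891 54286 45976 100000 0 false] [ivN0 75668 0 0 100000 0 false] 67067 100000 0 0 0 0 false,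
  gkN 80650 7752 87062 0 [ivN0 1500 0 0 100000 0 false] [ivN0 3395 90878 94472 100000 0 false, ivN0 6238 94472 95463 100000 0 false, ivN0 9082 95463 95606 100000 0 false, ivN0 14769 95606 95312 100000 0 false, ivN0 31831 95312 93500 100000 0 false, ivN0 40915 93500 90104 100000 0 false, ivN0 50000 90104 85849 100000 0 false, ivN0 59084 85849 80599 100000 0 false, ivN0 63626 80599 77540 100000 0 false, ivN0 68169 77540 74144 100000 0 false, ivN0 71918 74144 66239 100000 0 false, ivN0 73793 66239 60859 100000 0 false, ivN0 75668 60859 53923 100000 0 false] [ivN0 80650 0 0 100000 0 false] 55425 100000 0 0 0 0 false,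
  gkN 87636 7802 62214 0 [ivN0 1500 0 0 100000 0 false] [ivN0 2447 91546 94175 100000 0 false, ivN0 3395 94175 95280 100000 0 false, ivN0 6238 95280 96454 100000 0 false, ivN0 9082 96454 96776 100000 0 false, ivN0 14769 96776 96839 100000 0 false, ivN0 31831 96839 96114 100000 0 false, ivN0 40915 96114 94307 100000 0 false, ivN0 50000 94307 92119 100000 0 false, ivN0 59084 92119 89522 100000 0 false, ivN0 68169 89522 86479 100000 0 false, ivN0 71289 86479 83572 100000 0 false, ivN0 74409 83572 79751 100000 0 false, ivN0 77529 79751 74512 100000 0 false, ivN0 79089 74512 71085 100000 0 false, ivN0 80650 71085 66861 100000 0 false] [ivN0 87636 0 0 100000 0 false] 39607 100000 0 0 0 0 false,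
  gkN 96104 7870 28214 0 [ivN0 1500 0 0 100000 0 false] [ivN0 3395 92414 96277 100000 0 false, ivN0 6238 96277 97605 100000 0 false, ivN0 9082 97605 98074 100000 0 false, ivN0 14769 98074 98426 100000 0 false, ivN0 31831 98426 98570 100000 0 false, ivN0 50000 98570 97555 100000 0 false, ivN0 68169 97555 96257 100000 0 false, ivN0 73035 96257 95093 100000 0 false, ivN0 77902 95093 93362 100000 0 false, ivN0 82769 93362 90549 100000 0 false, ivN0 85202 90549 88373 100000 0 false, ivN0 87636 88373 85233 100000 0 false] [ivN0 96104 0 0 100000 0 false] 17962 100000 0 0 0 0 false,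
  gkN 99985 7937 0 5768 [ivN0 1500 0 0 100000 0 false] [ivN0 3395 93231 97150 100000 0 false, ivN0 9082 97150 99032 100000 0 false, ivN0 31831 99032 99813 100000 0 false, ivN0 68169 99813 99919 100000 0 false, ivN0 96104 99919 99765 100000 0 false] [ivN0 99985 0 0 100000 0 false] 0 100000 0 0 0 0 false,
  gkN 100000 7942 0 7942 [ivN0 1500 0 0 100000 0 false] [ivN0 31831 93281 99853 100000 0 false, ivN0 68169 99853 99968 100000 0 false, ivN0 99985 99968 99999 100000 0 false] [ivN0 100000 0 0 100000 0 false] 0 100000 0 0 0 0 false]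

/-- Certificate data. -/
def gapG1 : List GCertN := [
  gkN 44047 18947 184013 0 [ivN0 4000 0 0 100000 0 false] [ivN0 5739 67026 71907 100000 0 false, ivN0 7478 71907 73799 100000 0 false, ivN0 10957 73799 74542 100000 0 false, ivN0 16175 74542 73010 100000 0 false, ivN0 21393 73010 70288 100000 0 false, ivN0 26611 70288 66953 100000 0 false, ivN0 31830 66953 63172 100000 0 false] [ivN0 44047 0 0 100000 0 false] 100000 91415 32581 24220 154295 132582 false,
  gkN 52169 19390 154516 0 [ivN0 4000 0 0 100000 0 false] [ivN0 7478 69258 76967 100000 0 false, ivN0 10957 76967 78534 100000 0 false, ivN0 16175 78534 78252 100000 0 false, ivN0 21394 78252 76859 100000 0 false, ivN0 31831 76859 72784 100000 0 false, ivN0 37939 72784 62563 100000 0 false, ivN0 44047 62563 48503 100000 0 false] [ivN0 52169 0 0 100000 0 false] 98368 100000 22581 23113 155418 122582 false,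
  gkN 57952 19627 138688 0 [ivN0 4000 0 0 100000 0 false] [ivN0 4869 70404 73828 100000 0 false, ivN0 5739 73828 76020 100000 0 false, ivN0 7478 76020 78546 100000 0 false, ivN0 9217 78546 79827 100000 0 false, ivN0 10957 79827 80480 100000 0 false, ivN0 13566 80480 80824 100000 0 false, ivN0 16175 80824 80738 100000 0 false, ivN0 21394 80738 79900 100000 0 false, ivN0 26612 79900 78594 100000 0 false, ivN0 31831 78594 77026 100000 0 false, ivN0 36915 77026 70597 100000 0 false, ivN0 42000 70597 62732 100000 0 false, ivN0 44542 62732 58084 100000 0 false, ivN0 47084 58084 52796 100000 0 false, ivN0 49626 52796 46649 100000 0 false, ivN0 52169 46649 39240 100000 0 false] [ivN0 57952 0 0 100000 0 false] 88292 100000 14932 22324 156213 114933 false,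
  gkN 62682 19788 127966 0 [ivN0 4000 0 0 100000 0 false] [ivN0 5739 71158 76922 100000 0 false, ivN0 7478 76922 79570 100000 0 false, ivN0 10957 79570 81727 100000 0 false, ivN0 16175 81727 82306 100000 0 false, ivN0 21394 82306 81793 100000 0 false, ivN0 26612 81793 80823 100000 0 false, ivN0 31831 80823 79606 100000 0 false, ivN0 35096 79606 76249 100000 0 false, ivN0 38361 76249 72497 100000 0 false, ivN0 41626 72497 68285 100000 0 false, ivN0 44891 68285 63521 100000 0 false, ivN0 48156 63521 58070 100000 0 false, ivN0 51421 58070 51715 100000 0 false, ivN0 54686 51715 44065 100000 0 false, ivN0 57952 44065 34263 100000 0 false] [ivN0 62682 0 0 100000 0 false] 81466 100000 8275 21679 156860 108276 false,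
  gkN 67412 19926 118783 0 [ivN0 4000 0 0 100000 0 false] [ivN0 5739 71791 77674 100000 0 false, ivN0 7478 77674 80419 100000 0 false, ivN0 10957 80419 82750 100000 0 false, ivN0 13566 82750 83380 100000 0 false, ivN0 16175 83380 83578 100000 0 false, ivN0 21394 83578 83316 100000 0 false, ivN0 26612 83316 82602 100000 0 false, ivN0 31831 82602 81649 100000 0 false, ivN0 35687 81649 78209 100000 0 false, ivN0 39543 78209 74329 100000 0 false, ivN0 43399 74329 69936 100000 0 false, ivN0 47256 69936 64924 100000 0 false, ivN0 51112 64924 59139 100000 0 false, ivN0 54969 59139 52321 100000 0 false, ivN0 58825 52321 43999 100000 0 false, ivN0 60753 43999 38979 100000 0 false, ivN0 62682 38979 33047 100000 0 false] [ivN0 67412 0 0 100000 0 false] 75620 100000 1181 21034 157505 101182 false,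
  gkN 74014 20288 94665 0 [ivN0 4000 0 0 100000 0 false] [ivN0 5739 73401 79565 100000 0 false, ivN0 7478 79565 82534 100000 0 false, ivN0 10957 82534 85258 100000 0 false, ivN0 16175 85258 86636 100000 0 false, ivN0 21394 86636 86917 100000 0 false, ivN0 31831 86917 86358 100000 0 false, ivN0 40726 86358 80856 100000 0 false, ivN0 49621 80856 73999 100000 0 false, ivN0 54068 73999 69941 100000 0 false, ivN0 58516 69941 65362 100000 0 false, ivN0 62964 65362 60142 100000 0 false, ivN0 67412 60142 54097 100000 0 false] [ivN0 74014 0 0 100000 0 false] 60266 100000 0 0 0 0 false,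
  gkN 84398 20833 58268 0 [ivN0 4000 0 0 100000 0 false] [ivN0 5739 75698 82206 100000 0 false, ivN0 7478 82206 85433 100000 0 false, ivN0 10957 85433 88588 100000 0 false, ivN0 13566 88588 89789 100000 0 false, ivN0 16175 89789 90544 100000 0 false, ivN0 21394 90544 91379 100000 0 false, ivN0 26612 91379 91763 100000 0 false, ivN0 31831 91763 91919 100000 0 false, ivN0 40915 91919 89466 100000 0 false, ivN0 50000 89466 86621 100000 0 false, ivN0 59084 86621 83344 100000 0 false, ivN0 68169 83344 79581 100000 0 false, ivN0 71091 79581 75712 100000 0 false, ivN0 74014 75712 70633 100000 0 false] [ivN0 84398 0 0 100000 0 false] 37095 100000 0 0 0 0 false,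
  gkN 97752 21632 5056 0 [ivN0 4000 0 0 100000 0 false] [ivN0 5739 78779 85641 100000 0 false, ivN0 7478 85641 89094 100000 0 false, ivN0 10957 89094 92574 100000 0 false, ivN0 16175 92574 94911 100000 0 false, ivN0 21394 94911 96085 100000 0 false, ivN0 31831 96085 97261 100000 0 false, ivN0 68169 97261 96804 100000 0 false, ivN0 76283 96804 95540 100000 0 false, ivN0 84398 95540 92905 100000 0 false] [ivN0 97752 0 0 100000 0 false] 3219 100000 0 0 0 0 false,
  gkN 100000 22038 0 22038 [ivN0 4000 0 0 100000 0 false] [ivN0 31831 80238 98865 100000 0 false, ivN0 68169 98865 99753 100000 0 false, ivN0 97752 99753 99982 100000 0 false] [ivN0 100000 0 0 100000 0 false] 0 100000 0 0 0 0 false]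

/-- Certificate data. -/
def gapG2 : List GCertN := [
  gkN 43111 28847 165045 0 [ivN0 7500 0 0 100000 0 false] [ivN0 10541 52791 59516 100000 0 false, ivN0 13582 59516 61976 100000 0 false, ivN0 18144 61976 62736 100000 0 false, ivN0 22706 62736 61916 100000 0 false, ivN0 31830 61916 58111 100000 0 false] [ivN0 43111 0 0 100000 0 false] 100000 95174 33685 24348 154164 133686 false,
  gkN 49947 29829 140490 0 [ivN0 7500 0 0 100000 0 false] [ivN0 9020 55539 60212 100000 0 false, ivN0 10541 60212 63111 100000 0 false, ivN0 13582 63111 66283 100000 0 false, ivN0 18144 66283 68053 100000 0 false, ivN0 22706 68053 68251 100000 0 false, ivN0 31831 68251 66652 100000 0 false, ivN0 37471 66652 56554 100000 0 false, ivN0 40291 56554 50291 100000 0 false, ivN0 43111 50291 42762 100000 0 false] [ivN0 49947 0 0 100000 0 false] 89439 100000 25396 23416 155111 125397 false,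
  gkN 54677 30353 127377 0 [ivN0 7500 0 0 100000 0 false] [ivN0 9020 56931 61818 100000 0 false, ivN0 10541 61818 64901 100000 0 false, ivN0 12061 64901 66964 100000 0 false, ivN0 13582 66964 68396 100000 0 false, ivN0 15863 68396 69790 100000 0 false, ivN0 18144 69790 70606 100000 0 false, ivN0 22706 70606 71235 100000 0 false, ivN0 27268 71235 71097 100000 0 false, ivN0 31831 71097 70522 100000 0 false, ivN0 36360 70522 64203 100000 0 false, ivN0 40889 64203 56606 100000 0 false, ivN0 43153 56606 52158 100000 0 false, ivN0 45418 52158 47115 100000 0 false, ivN0 47682 47115 41265 100000 0 false, ivN0 49947 41265 34189 100000 0 false] [ivN0 54677 0 0 100000 0 false] 81091 100000 19324 22771 155763 119325 false,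
  gkN 58354 30698 118760 0 [ivN0 7500 0 0 100000 0 false] [ivN0 9020 57817 62837 100000 0 false, ivN0 10541 62837 66031 100000 0 false, ivN0 13582 66031 69719 100000 0 false, ivN0 18144 69719 72189 100000 0 false, ivN0 22706 72189 73065 100000 0 false, ivN0 27268 73065 73176 100000 0 false, ivN0 31831 73176 72853 100000 0 false, ivN0 37542 72853 65821 100000 0 false, ivN0 43254 65821 57141 100000 0 false, ivN0 46109 57141 51933 100000 0 false, ivN0 48965 51933 45889 100000 0 false, ivN0 51821 45889 38622 100000 0 false, ivN0 54677 38622 29230 100000 0 false] [ivN0 58354 0 0 100000 0 false] 75605 100000 14382 22269 156268 114383 false,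
  gkN 61914 30990 111460 0 [ivN0 7500 0 0 100000 0 false] [ivN0 9020 58553 63680 100000 0 false, ivN0 10541 63680 66963 100000 0 false, ivN0 12061 66963 69205 100000 0 false, ivN0 13582 69205 70803 100000 0 false, ivN0 15863 70803 72433 100000 0 false, ivN0 18144 72433 73475 100000 0 false, ivN0 22706 73475 74543 100000 0 false, ivN0 27268 74543 74844 100000 0 false, ivN0 31831 74844 74712 100000 0 false, ivN0 35146 74712 71253 100000 0 false, ivN0 38461 71253 67415 100000 0 false, ivN0 41776 67415 63130 100000 0 false, ivN0 45092 63130 58296 100000 0 false, ivN0 48407 58296 52767 100000 0 false, ivN0 51723 52767 46291 100000 0 false, ivN0 53380 46291 42568 100000 0 false, ivN0 55038 42568 38395 100000 0 false, ivN0 56696 38395 33607 100000 0 false, ivN0 58354 33607 27892 100000 0 false] [ivN0 61914 0 0 100000 0 false] 70958 100000 9383 21784 156755 109384 false,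
  gkN 65942 31280 104212 0 [ivN0 7500 0 0 100000 0 false] [ivN0 9020 59269 64498 100000 0 false, ivN0 10541 64498 67865 100000 0 false, ivN0 13582 67865 71848 100000 0 false, ivN0 18144 71848 74706 100000 0 false, ivN0 22706 74706 75948 100000 0 false, ivN0 27268 75948 76419 100000 0 false, ivN0 31831 76419 76458 100000 0 false, ivN0 35591 76458 72976 100000 0 false, ivN0 39351 72976 69096 100000 0 false, ivN0 43111 69096 64749 100000 0 false, ivN0 46872 64749 59831 100000 0 false, ivN0 50632 59831 54189 100000 0 false, ivN0 54393 54189 47563 100000 0 false, ivN0 58153 47563 39466 100000 0 false, ivN0 60033 39466 34550 100000 0 false, ivN0 61914 34550 28670 100000 0 false] [ivN0 65942 0 0 100000 0 false] 66343 100000 3438 21235 157304 103439 false,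
  gkN 73713 32268 79506 0 [ivN0 7500 0 0 100000 0 false] [ivN0 9020 61617 67162 100000 0 false, ivN0 10541 67162 70784 100000 0 false, ivN0 13582 70784 75188 100000 0 false, ivN0 15863 75188 77189 100000 0 false, ivN0 18144 77189 78581 100000 0 false, ivN0 22706 78581 80313 100000 0 false, ivN0 27268 80313 81256 100000 0 false, ivN0 31831 81256 81762 100000 0 false, ivN0 40358 81762 76540 100000 0 false, ivN0 48886 76540 70283 100000 0 false, ivN0 53150 70283 66678 100000 0 false, ivN0 57414 66678 62683 100000 0 false, ivN0 61678 62683 58218 100000 0 false, ivN0 65942 58218 53165 100000 0 false] [ivN0 73713 0 0 100000 0 false] 50615 100000 0 0 0 0 false,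
  gkN 88829 34326 28047 0 [ivN0 7500 0 0 100000 0 false] [ivN0 9020 66087 72155 100000 0 false, ivN0 10541 72155 76175 100000 0 false, ivN0 13582 76175 81189 100000 0 false, ivN0 18144 81189 85291 100000 0 false, ivN0 22706 85291 87626 100000 0 false, ivN0 31831 87626 90161 100000 0 false, ivN0 50000 90161 87534 100000 0 false, ivN0 68169 87534 84519 100000 0 false, ivN0 73713 84519 79605 100000 0 false] [ivN0 88829 0 0 100000 0 false] 17855 100000 0 0 0 0 false,
  gkN 100000 36926 0 36926 [ivN0 7500 0 0 100000 0 false] [ivN0 31831 71052 96779 100000 0 false, ivN0 68169 96779 99306 100000 0 false, ivN0 88829 99306 99757 100000 0 false] [ivN0 100000 0 0 100000 0 false] 0 100000 0 0 0 0 false]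

/-- Certificate data. -/
def gapG3 : List GCertN := [
  gkN 41707 37258 150435 0 [ivN0 11000 0 0 100000 0 false] [ivN0 13603 40279 46942 100000 0 false, ivN0 16207 46942 50377 100000 0 false, ivN0 20112 50377 52782 100000 0 false, ivN0 24018 52782 53496 100000 0 false, ivN0 31830 53496 52447 100000 0 false] [ivN0 41707 0 0 100000 0 false] 95770 100000 35325 24539 153970 135326 false,
  gkN 47373 38861 129058 0 [ivN0 11000 0 0 100000 0 false] [ivN0 13603 43057 50518 100000 0 false, ivN0 16207 50518 54606 100000 0 false, ivN0 20113 54606 57885 100000 0 false, ivN0 24019 57885 59433 100000 0 false, ivN0 31831 59433 60077 100000 0 false, ivN0 36769 60077 50495 100000 0 false, ivN0 41707 50495 37537 100000 0 false] [ivN0 47373 0 0 100000 0 false] 82161 100000 28580 23767 154755 128581 false,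
  gkN 51167 39702 117845 0 [ivN0 11000 0 0 100000 0 false] [ivN0 12301 44429 48978 100000 0 false, ivN0 13603 48978 52265 100000 0 false, ivN0 16207 52265 56650 100000 0 false, ivN0 18160 56650 58786 100000 0 false, ivN0 20113 58786 60313 100000 0 false, ivN0 24019 60313 62215 100000 0 false, ivN0 27925 62215 63168 100000 0 false, ivN0 31831 63168 63546 100000 0 false, ivN0 35716 63546 57533 100000 0 false, ivN0 39602 57533 50398 100000 0 false, ivN0 41544 50398 46254 100000 0 false, ivN0 43487 46254 41572 100000 0 false, ivN0 45430 41572 36145 100000 0 false, ivN0 47373 36145 29567 100000 0 false] [ivN0 51167 0 0 100000 0 false] 75022 100000 23859 23249 155280 123860 false,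
  gkN 53908 40224 110885 0 [ivN0 11000 0 0 100000 0 false] [ivN0 12301 45255 49923 100000 0 false, ivN0 13603 49923 53311 100000 0 false, ivN0 16207 53311 57866 100000 0 false, ivN0 18160 57866 60114 100000 0 false, ivN0 20113 60114 61747 100000 0 false, ivN0 24019 61747 63845 100000 0 false, ivN0 27925 63845 64987 100000 0 false, ivN0 31831 64987 65549 100000 0 false, ivN0 36665 65549 58808 100000 0 false, ivN0 39082 58808 54933 100000 0 false, ivN0 41499 54933 50622 100000 0 false, ivN0 43916 50622 45751 100000 0 false, ivN0 46333 45751 40117 100000 0 false, ivN0 48750 40117 33334 100000 0 false, ivN0 51167 33334 24467 100000 0 false] [ivN0 53908 0 0 100000 0 false] 70592 100000 20332 22876 155657 120333 false,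
  gkN 56181 40612 105707 0 [ivN0 11000 0 0 100000 0 false] [ivN0 12301 45858 50611 100000 0 false, ivN0 13603 50611 54071 100000 0 false, ivN0 16207 54071 58747 100000 0 false, ivN0 18160 58747 61074 100000 0 false, ivN0 20113 61074 62780 100000 0 false, ivN0 24019 62780 65014 100000 0 false, ivN0 27925 65014 66285 100000 0 false, ivN0 31831 66285 66973 100000 0 false, ivN0 34590 66973 63591 100000 0 false, ivN0 37350 63591 59875 100000 0 false, ivN0 40109 59875 55761 100000 0 false, ivN0 42869 55761 51151 100000 0 false, ivN0 45628 51151 45899 100000 0 false, ivN0 48388 45899 39747 100000 0 false, ivN0 51148 39747 32185 100000 0 false, ivN0 52528 32185 27523 100000 0 false, ivN0 53908 27523 21792 100000 0 false] [ivN0 56181 0 0 100000 0 false] 67295 100000 17328 22566 155969 117329 false,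
  gkN 58337 40948 101224 0 [ivN0 11000 0 0 100000 0 false] [ivN0 12301 46373 51197 100000 0 false, ivN0 13603 51197 54717 100000 0 false, ivN0 16207 54717 59493 100000 0 false, ivN0 18160 59493 61886 100000 0 false, ivN0 20113 61886 63652 100000 0 false, ivN0 24019 63652 65998 100000 0 false, ivN0 27925 65998 67373 100000 0 false, ivN0 31831 67373 68164 100000 0 false, ivN0 34874 68164 64700 100000 0 false, ivN0 37918 64700 60882 100000 0 false, ivN0 40962 60882 56642 100000 0 false, ivN0 44006 56642 51874 100000 0 false, ivN0 47049 51874 46420 100000 0 false, ivN0 50093 46420 39993 100000 0 false, ivN0 51615 39993 36259 100000 0 false, ivN0 53137 36259 32018 100000 0 false, ivN0 54659 32018 27035 100000 0 false, ivN0 56181 27035 20782 100000 0 false] [ivN0 58337 0 0 100000 0 false] 64441 100000 14405 22272 156265 114406 false,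
  gkN 60727 41289 96679 0 [ivN0 11000 0 0 100000 0 false] [ivN0 12301 46886 51781 100000 0 false, ivN0 13603 51781 55361 100000 0 false, ivN0 16207 55361 60235 100000 0 false, ivN0 18160 60235 62692 100000 0 false, ivN0 20113 62692 64516 100000 0 false, ivN0 24019 64516 66969 100000 0 false, ivN0 27925 66969 68444 100000 0 false, ivN0 31831 68444 69332 100000 0 false, ivN0 35144 69332 65841 100000 0 false, ivN0 38457 65841 61989 100000 0 false, ivN0 41770 61989 57703 100000 0 false, ivN0 45084 57703 52878 100000 0 false, ivN0 48397 52878 47351 100000 0 false, ivN0 51710 47351 40836 100000 0 false, ivN0 55023 40836 32751 100000 0 false, ivN0 56680 32751 27701 100000 0 false, ivN0 58337 27701 21375 100000 0 false] [ivN0 60727 0 0 100000 0 false] 61548 100000 11075 21946 156593 111076 false,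
  gkN 63936 41701 91182 0 [ivN0 11000 0 0 100000 0 false] [ivN0 12301 47498 52477 100000 0 false, ivN0 13603 52477 56126 100000 0 false, ivN0 16207 56126 61114 100000 0 false, ivN0 20113 61114 65535 100000 0 false, ivN0 24019 65535 68111 100000 0 false, ivN0 27925 68111 69699 100000 0 false, ivN0 31831 69699 70696 100000 0 false, ivN0 35443 70696 67240 100000 0 false, ivN0 39055 67240 63425 100000 0 false, ivN0 42667 63425 59183 100000 0 false, ivN0 46279 59183 54414 100000 0 false, ivN0 49891 54414 48963 100000 0 false, ivN0 53503 48963 42570 100000 0 false, ivN0 57115 42570 34718 100000 0 false, ivN0 58921 34718 29896 100000 0 false, ivN0 60727 29896 24016 100000 0 false] [ivN0 63936 0 0 100000 0 false] 58048 100000 6440 21508 157031 106441 false,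
  gkN 72292 43359 69080 0 [ivN0 11000 0 0 100000 0 false] [ivN0 12301 49858 55149 100000 0 false, ivN0 13603 55149 59053 100000 0 false, ivN0 14905 59053 62063 100000 0 false, ivN0 16207 62063 64456 100000 0 false, ivN0 18160 64456 67246 100000 0 false, ivN0 20113 67246 69371 100000 0 false, ivN0 24019 69371 72366 100000 0 false, ivN0 27925 72366 74337 100000 0 false, ivN0 31831 74337 75694 100000 0 false, ivN0 39857 75694 70528 100000 0 false, ivN0 43870 70528 67628 100000 0 false, ivN0 47883 67628 64478 100000 0 false, ivN0 51896 64478 61040 100000 0 false, ivN0 55909 61040 57263 100000 0 false, ivN0 59922 57263 53074 100000 0 false, ivN0 63936 53074 48365 100000 0 false] [ivN0 72292 0 0 100000 0 false] 43978 100000 0 0 0 0 false,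
  gkN 92653 48584 0 584 [ivN0 11000 0 0 100000 0 false] [ivN0 13603 56459 67042 100000 0 false, ivN0 16207 67042 73363 100000 0 false, ivN0 20113 73363 79261 100000 0 false, ivN0 24019 79261 83005 100000 0 false, ivN0 31831 83005 87507 100000 0 false, ivN0 68169 87507 87624 100000 0 false, ivN0 72292 87624 85646 100000 0 false] [ivN0 92653 0 0 100000 0 false] 0 100000 0 0 0 0 false,
  gkN 100000 52476 0 52476 [ivN0 11000 0 0 100000 0 false] [ivN0 31831 60729 93382 100000 0 false, ivN0 68169 93382 98595 100000 0 false, ivN0 92653 98595 99677 100000 0 false] [ivN0 100000 0 0 100000 0 false] 0 100000 0 0 0 0 false]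

/-- Certificate data. -/
def gapG4 : List GCertN := [
  gkN 40771 43557 138438 0 [ivN0 13500 0 0 100000 0 false] [ivN0 15791 29399 37061 100000 0 false, ivN0 18082 37061 41452 100000 0 false, ivN0 21519 41452 45189 100000 0 false, ivN0 24956 45189 47105 100000 0 false, ivN0 31830 47105 48188 100000 0 false] [ivN0 40771 0 0 100000 0 false] 88132 100000 36407 24667 153839 136408 false,
  gkN 45969 45820 117860 0 [ivN0 13500 0 0 100000 0 false] [ivN0 15791 31856 40395 100000 0 false, ivN0 18082 40395 45460 100000 0 false, ivN0 21519 45460 50049 100000 0 false, ivN0 24956 50049 52732 100000 0 false, ivN0 28393 52732 54340 100000 0 false, ivN0 31831 54340 55273 100000 0 false, ivN0 36301 55273 46360 100000 0 false, ivN0 38536 46360 40933 100000 0 false, ivN0 40771 40933 34466 100000 0 false] [ivN0 45969 0 0 100000 0 false] 75032 100000 30284 23958 154561 130285 false,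
  gkN 49412 46982 107296 0 [ivN0 13500 0 0 100000 0 false] [ivN0 14645 33039 38164 100000 0 false, ivN0 15791 38164 41984 100000 0 false, ivN0 18082 41984 47355 100000 0 false, ivN0 19800 47355 50166 100000 0 false, ivN0 21519 50166 52318 100000 0 false, ivN0 24956 52318 55325 100000 0 false, ivN0 28393 55325 57234 100000 0 false, ivN0 31831 57234 58455 100000 0 false, ivN0 35365 58455 52795 100000 0 false, ivN0 38900 52795 46138 100000 0 false, ivN0 42434 46138 37967 100000 0 false, ivN0 44201 37967 32971 100000 0 false, ivN0 45969 32971 26932 100000 0 false] [ivN0 49412 0 0 100000 0 false] 68307 100000 26065 23489 155037 126066 false,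
  gkN 51919 47706 100722 0 [ivN0 13500 0 0 100000 0 false] [ivN0 14645 33747 39006 100000 0 false, ivN0 15791 39006 42935 100000 0 false, ivN0 18082 42935 48484 100000 0 false, ivN0 21519 48484 53662 100000 0 false, ivN0 24956 53662 56853 100000 0 false, ivN0 28393 56853 58929 100000 0 false, ivN0 31831 58929 60309 100000 0 false, ivN0 36226 60309 53957 100000 0 false, ivN0 40621 53957 46329 100000 0 false, ivN0 42818 46329 41825 100000 0 false, ivN0 45016 41825 36636 100000 0 false, ivN0 47214 36636 30419 100000 0 false, ivN0 49412 30419 22330 100000 0 false] [ivN0 51919 0 0 100000 0 false] 64122 100000 22901 23147 155383 122902 false,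
  gkN 54075 48260 95680 0 [ivN0 13500 0 0 100000 0 false] [ivN0 14645 34285 39641 100000 0 false, ivN0 15791 39641 43651 100000 0 false, ivN0 18082 43651 49330 100000 0 false, ivN0 19800 49330 52337 100000 0 false, ivN0 21519 52337 54664 100000 0 false, ivN0 24956 54664 57987 100000 0 false, ivN0 28393 57987 60182 100000 0 false, ivN0 31831 60182 61675 100000 0 false, ivN0 36853 61675 54993 100000 0 false, ivN0 39364 54993 51158 100000 0 false, ivN0 41875 51158 46888 100000 0 false, ivN0 44386 46888 42051 100000 0 false, ivN0 46897 42051 36422 100000 0 false, ivN0 49408 36422 29552 100000 0 false, ivN0 50663 29552 25346 100000 0 false, ivN0 51919 25346 20211 100000 0 false] [ivN0 54075 0 0 100000 0 false] 60912 100000 20114 22853 155680 120115 false,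
  gkN 56231 48762 91120 0 [ivN0 13500 0 0 100000 0 false] [ivN0 14645 34759 40203 100000 0 false, ivN0 15791 40203 44284 100000 0 false, ivN0 18082 44284 50077 100000 0 false, ivN0 19800 50077 53156 100000 0 false, ivN0 21519 53156 55547 100000 0 false, ivN0 24956 55547 58983 100000 0 false, ivN0 28393 58983 61280 100000 0 false, ivN0 31831 61280 62868 100000 0 false, ivN0 34611 62868 59598 100000 0 false, ivN0 37392 59598 56023 100000 0 false, ivN0 40172 56023 52081 100000 0 false, ivN0 42953 52081 47680 100000 0 false, ivN0 45733 47680 42681 100000 0 false, ivN0 48514 42681 36836 100000 0 false, ivN0 51294 36836 29657 100000 0 false, ivN0 52684 29657 25219 100000 0 false, ivN0 54075 25219 19725 100000 0 false] [ivN0 56231 0 0 100000 0 false] 58009 100000 17261 22559 155976 117262 false,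
  gkN 58738 49288 86334 0 [ivN0 13500 0 0 100000 0 false] [ivN0 14645 35253 40785 100000 0 false, ivN0 15791 40785 44938 100000 0 false, ivN0 18082 44938 50848 100000 0 false, ivN0 21519 50848 56453 100000 0 false, ivN0 24956 56453 60003 100000 0 false, ivN0 28393 60003 62401 100000 0 false, ivN0 31831 62401 64082 100000 0 false, ivN0 37931 64082 57185 100000 0 false, ivN0 40981 57185 53209 100000 0 false, ivN0 44031 53209 48768 100000 0 false, ivN0 47081 48768 43723 100000 0 false, ivN0 50131 43723 37830 100000 0 false, ivN0 53181 37830 30605 100000 0 false, ivN0 54706 30605 26159 100000 0 false, ivN0 56231 26159 20698 100000 0 false] [ivN0 58738 0 0 100000 0 false] 54962 100000 13853 22217 156320 113854 false,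
  gkN 62532 49988 79978 0 [ivN0 13500 0 0 100000 0 false] [ivN0 14645 35890 41539 100000 0 false, ivN0 15791 41539 45785 100000 0 false, ivN0 18082 45785 51844 100000 0 false, ivN0 19800 51844 55086 100000 0 false, ivN0 21519 55086 57623 100000 0 false, ivN0 24956 57623 61315 100000 0 false, ivN0 28393 61315 63838 100000 0 false, ivN0 31831 63838 65634 100000 0 false, ivN0 35194 65634 62408 100000 0 false, ivN0 38557 62408 58883 100000 0 false, ivN0 41920 58883 55002 100000 0 false, ivN0 45284 55002 50681 100000 0 false, ivN0 48647 50681 45800 100000 0 false, ivN0 52011 45800 40151 100000 0 false, ivN0 55374 40151 33349 100000 0 false, ivN0 57056 33349 29270 100000 0 false, ivN0 58738 29270 24447 100000 0 false] [ivN0 62532 0 0 100000 0 false] 50916 100000 8492 21700 156839 108493 false,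
  gkN 74047 53287 49979 0 [ivN0 13500 0 0 100000 0 false] [ivN0 14645 38756 44904 100000 0 false, ivN0 15791 44904 49549 100000 0 false, ivN0 18082 49549 56233 100000 0 false, ivN0 21519 56233 62715 100000 0 false, ivN0 24956 62715 66965 100000 0 false, ivN0 28393 66965 69967 100000 0 false, ivN0 31831 69967 72193 100000 0 false, ivN0 39506 72193 68310 100000 0 false, ivN0 47181 68310 63963 100000 0 false, ivN0 54856 63963 59050 100000 0 false, ivN0 62532 59050 53413 100000 0 false] [ivN0 74047 0 0 100000 0 false] 31818 100000 0 0 0 0 false,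
  gkN 98583 63518 0 43030 [ivN0 13500 0 0 100000 0 false] [ivN0 14645 46342 53708 100000 0 false, ivN0 15791 53708 59281 100000 0 false, ivN0 18082 59281 67313 100000 0 false, ivN0 21519 67313 75134 100000 0 false, ivN0 24956 75134 80292 100000 0 false, ivN0 28393 80292 83961 100000 0 false, ivN0 31831 83961 86705 100000 0 false, ivN0 40915 86705 88837 100000 0 false, ivN0 50000 88837 90751 100000 0 false, ivN0 59084 90751 92459 100000 0 false, ivN0 68169 92459 93975 100000 0 false, ivN0 74047 93975 93653 100000 0 false] [ivN0 98583 0 0 100000 0 false] 0 100000 0 0 0 0 false,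
  gkN 100000 66051 0 66051 [ivN0 13500 0 0 100000 0 false] [ivN0 31831 47992 89289 100000 0 false, ivN0 68169 89289 97764 100000 0 false, ivN0 98583 97764 99901 100000 0 false] [ivN0 100000 0 0 100000 0 false] 0 100000 0 0 0 0 false]

/-- Certificate data. -/
def gapG5 : List GCertN := [
  gkN 40186 47480 130690 0 [ivN0 15300 0 0 100000 0 false] [ivN0 17366 22973 31199 100000 0 false, ivN0 19432 31199 36061 100000 0 false, ivN0 22531 36061 40495 100000 0 false, ivN0 25631 40495 43087 100000 0 false, ivN0 31830 43087 45439 100000 0 false] [ivN0 40186 0 0 100000 0 false] 83200 100000 37079 24747 153757 137080 false,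
  gkN 45033 50192 110601 0 [ivN0 15300 0 0 100000 0 false] [ivN0 17366 25080 34236 100000 0 false, ivN0 19432 34236 39782 100000 0 false, ivN0 22531 39782 45050 100000 0 false, ivN0 25631 45050 48366 100000 0 false, ivN0 28731 48366 50558 100000 0 false, ivN0 31831 50558 52031 100000 0 false, ivN0 36008 52031 43553 100000 0 false, ivN0 40186 43553 32305 100000 0 false] [ivN0 45033 0 0 100000 0 false] 70411 100000 31408 24086 154431 131409 false,
  gkN 48242 51572 100385 0 [ivN0 15300 0 0 100000 0 false] [ivN0 17366 26078 35666 100000 0 false, ivN0 19432 35666 41522 100000 0 false, ivN0 22531 41522 47159 100000 0 false, ivN0 25631 47159 50783 100000 0 false, ivN0 28731 50783 53253 100000 0 false, ivN0 31831 53253 54986 100000 0 false, ivN0 35131 54986 49589 100000 0 false, ivN0 38432 49589 43273 100000 0 false, ivN0 41732 43273 35557 100000 0 false, ivN0 45033 35557 25178 100000 0 false] [ivN0 48242 0 0 100000 0 false] 63907 100000 27514 23648 154876 127515 false,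
  gkN 50632 52444 93924 0 [ivN0 15300 0 0 100000 0 false] [ivN0 17366 26692 36540 100000 0 false, ivN0 19432 36540 42581 100000 0 false, ivN0 22531 42581 48434 100000 0 false, ivN0 25631 48434 52237 100000 0 false, ivN0 28731 52237 54865 100000 0 false, ivN0 31831 54865 56744 100000 0 false, ivN0 35933 56744 50701 100000 0 false, ivN0 40036 50701 43490 100000 0 false, ivN0 44139 43490 34388 100000 0 false, ivN0 46190 34388 28584 100000 0 false, ivN0 48242 28584 21071 100000 0 false] [ivN0 50632 0 0 100000 0 false] 59794 100000 24535 23322 155206 124536 false,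
  gkN 52788 53140 88770 0 [ivN0 15300 0 0 100000 0 false] [ivN0 16333 27170 32922 100000 0 false, ivN0 17366 32922 37219 100000 0 false, ivN0 19432 37219 43402 100000 0 false, ivN0 20981 43402 46759 100000 0 false, ivN0 22531 46759 49419 100000 0 false, ivN0 25631 49419 53357 100000 0 false, ivN0 28731 53357 56104 100000 0 false, ivN0 31831 56104 58091 100000 0 false, ivN0 36531 58091 51749 100000 0 false, ivN0 41231 51749 44120 100000 0 false, ivN0 43581 44120 39595 100000 0 false, ivN0 45931 39595 34356 100000 0 false, ivN0 48281 34356 28003 100000 0 false, ivN0 49456 28003 24141 100000 0 false, ivN0 50632 24141 19471 100000 0 false] [ivN0 52788 0 0 100000 0 false] 56513 100000 21786 23028 155503 121787 false,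
  gkN 54944 53763 84152 0 [ivN0 15300 0 0 100000 0 false] [ivN0 16333 27593 33443 100000 0 false, ivN0 17366 33443 37818 100000 0 false, ivN0 19432 37818 44124 100000 0 false, ivN0 22531 44124 50282 100000 0 false, ivN0 25631 50282 54335 100000 0 false, ivN0 28731 54335 57182 100000 0 false, ivN0 31831 57182 59260 100000 0 false, ivN0 37070 59260 52745 100000 0 false, ivN0 42309 52745 44872 100000 0 false, ivN0 44928 44872 40184 100000 0 false, ivN0 47548 40184 34729 100000 0 false, ivN0 50168 34729 28067 100000 0 false, ivN0 51478 28067 23977 100000 0 false, ivN0 52788 23977 18965 100000 0 false] [ivN0 54944 0 0 100000 0 false] 53573 100000 18972 22734 155800 118973 false,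
  gkN 57685 54468 78932 0 [ivN0 15300 0 0 100000 0 false] [ivN0 16333 28059 34018 100000 0 false, ivN0 17366 34018 38479 100000 0 false, ivN0 19432 38479 44920 100000 0 false, ivN0 22531 44920 51233 100000 0 false, ivN0 25631 51233 55410 100000 0 false, ivN0 28731 55410 58363 100000 0 false, ivN0 31831 58363 60539 100000 0 false, ivN0 37609 60539 54020 100000 0 false, ivN0 40498 54020 50290 100000 0 false, ivN0 43387 50290 46149 100000 0 false, ivN0 46276 46149 41472 100000 0 false, ivN0 49165 41472 36052 100000 0 false, ivN0 52054 36052 29482 100000 0 false, ivN0 54944 29482 20689 100000 0 false] [ivN0 57685 0 0 100000 0 false] 50250 100000 15297 22361 156176 115298 false,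
  gkN 62181 55868 68560 0 [ivN0 15300 0 0 100000 0 false] [ivN0 16333 28966 35132 100000 0 false, ivN0 17366 35132 39757 100000 0 false, ivN0 19432 39757 46454 100000 0 false, ivN0 20981 46454 50122 100000 0 false, ivN0 22531 50122 53055 100000 0 false, ivN0 25631 53055 57461 100000 0 false, ivN0 28731 57461 60610 100000 0 false, ivN0 31831 60610 62960 100000 0 false, ivN0 38294 62960 57060 100000 0 false, ivN0 44758 57060 50083 100000 0 false, ivN0 47989 50083 46043 100000 0 false, ivN0 51221 46043 41493 100000 0 false, ivN0 54453 41493 36243 100000 0 false, ivN0 57685 36243 29927 100000 0 false] [ivN0 62181 0 0 100000 0 false] 43647 100000 8864 21748 156791 109000 false,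
  gkN 78727 61682 25490 0 [ivN0 15300 0 0 100000 0 false] [ivN0 16333 32434 39375 100000 0 false, ivN0 17366 39375 44602 100000 0 false, ivN0 19432 44602 52216 100000 0 false, ivN0 22531 52216 59811 100000 0 false, ivN0 25631 59811 64969 100000 0 false, ivN0 28731 64969 68734 100000 0 false, ivN0 31831 68734 71613 100000 0 false, ivN0 47006 71613 67628 100000 0 false, ivN0 62181 67628 63156 100000 0 false] [ivN0 78727 0 0 100000 0 false] 16227 100000 0 0 0 0 false,
  gkN 100000 75287 0 75287 [ivN0 15300 0 0 100000 0 false] [ivN0 31831 39244 85825 100000 0 false, ivN0 68169 85825 97086 100000 0 false, ivN0 78727 97086 98062 100000 0 false] [ivN0 100000 0 0 100000 0 false] 0 100000 0 0 0 0 false]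

/-- Certificate data. -/
def gapG6 : List GCertN := [
  gkN 39718 50112 125604 0 [ivN0 17100 0 0 100000 0 false] [ivN0 18941 21440 28663 100000 0 false, ivN0 20782 28663 33211 100000 0 false, ivN0 23544 33211 37623 100000 0 false, ivN0 26306 37623 40413 100000 0 false, ivN0 31830 40413 43396 100000 0 false] [ivN0 39718 0 0 100000 0 false] 79962 100000 37614 24811 153692 137615 false,
  gkN 44214 53100 106073 0 [ivN0 17100 0 0 100000 0 false] [ivN0 18941 23520 31582 100000 0 false, ivN0 20782 31582 36759 100000 0 false, ivN0 23544 36759 41940 100000 0 false, ivN0 26306 41940 45390 100000 0 false, ivN0 31831 45390 49544 100000 0 false, ivN0 35774 49544 41358 100000 0 false, ivN0 39718 41358 30516 100000 0 false] [ivN0 44214 0 0 100000 0 false] 67528 100000 32383 24198 154317 132384 false,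
  gkN 47189 54614 96178 0 [ivN0 17100 0 0 100000 0 false] [ivN0 18941 24502 32951 100000 0 false, ivN0 20782 32951 38414 100000 0 false, ivN0 23544 38414 43934 100000 0 false, ivN0 26306 43934 47669 100000 0 false, ivN0 29068 47669 50338 100000 0 false, ivN0 31831 50338 52307 100000 0 false, ivN0 34926 52307 47115 100000 0 false, ivN0 38022 47115 41057 100000 0 false, ivN0 41118 41057 33672 100000 0 false, ivN0 42666 33672 29175 100000 0 false, ivN0 44214 29175 23752 100000 0 false] [ivN0 47189 0 0 100000 0 false] 61229 100000 28805 23792 154730 128806 false,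
  gkN 49345 55546 90087 0 [ivN0 17100 0 0 100000 0 false] [ivN0 18020 25086 29980 100000 0 false, ivN0 18941 29980 33764 100000 0 false, ivN0 20782 33764 39392 100000 0 false, ivN0 23544 39392 45108 100000 0 false, ivN0 26306 45108 49004 100000 0 false, ivN0 29068 49004 51815 100000 0 false, ivN0 31831 51815 53914 100000 0 false, ivN0 35670 53914 48085 100000 0 false, ivN0 39510 48085 41153 100000 0 false, ivN0 41429 41153 37087 100000 0 false, ivN0 43349 37087 32423 100000 0 false, ivN0 45269 32423 26851 100000 0 false, ivN0 47189 26851 19616 100000 0 false] [ivN0 49345 0 0 100000 0 false] 57351 100000 26148 23498 155028 126149 false,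
  gkN 51033 56197 85831 0 [ivN0 17100 0 0 100000 0 false] [ivN0 18941 25487 34319 100000 0 false, ivN0 20782 34319 40060 100000 0 false, ivN0 23544 40060 45907 100000 0 false, ivN0 26306 45907 49910 100000 0 false, ivN0 29068 49910 52814 100000 0 false, ivN0 31831 52814 54997 100000 0 false, ivN0 36209 54997 48815 100000 0 false, ivN0 40588 48815 41385 100000 0 false, ivN0 42777 41385 36975 100000 0 false, ivN0 44966 36975 31851 100000 0 false, ivN0 47155 31851 25588 100000 0 false, ivN0 49345 25588 16965 100000 0 false] [ivN0 51033 0 0 100000 0 false] 54642 100000 24028 23268 155261 124029 false,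
  gkN 52721 56789 81960 0 [ivN0 17100 0 0 100000 0 false] [ivN0 18020 25846 30901 100000 0 false, ivN0 18941 30901 34816 100000 0 false, ivN0 20782 34816 40656 100000 0 false, ivN0 22163 40656 43945 100000 0 false, ivN0 23544 43945 46619 100000 0 false, ivN0 26306 46619 50715 100000 0 false, ivN0 29068 50715 53701 100000 0 false, ivN0 31831 53701 55957 100000 0 false, ivN0 35431 55957 51317 100000 0 false, ivN0 39031 51317 46025 100000 0 false, ivN0 42631 46025 39821 100000 0 false, ivN0 46232 39821 32180 100000 0 false, ivN0 48632 32180 25674 100000 0 false, ivN0 49832 25674 21636 100000 0 false, ivN0 51033 21636 16581 100000 0 false] [ivN0 52721 0 0 100000 0 false] 52177 100000 21872 23038 155493 121873 false,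
  gkN 54643 57402 77956 0 [ivN0 17100 0 0 100000 0 false] [ivN0 18020 26209 31341 100000 0 false, ivN0 18941 31341 35319 100000 0 false, ivN0 20782 35319 41260 100000 0 false, ivN0 22163 41260 44611 100000 0 false, ivN0 23544 44611 47339 100000 0 false, ivN0 26306 47339 51529 100000 0 false, ivN0 29068 51529 54596 100000 0 false, ivN0 31831 54596 56925 100000 0 false, ivN0 37053 56925 50542 100000 0 false, ivN0 39664 50542 46895 100000 0 false, ivN0 42276 46895 42840 100000 0 false, ivN0 44887 42840 38253 100000 0 false, ivN0 47498 38253 32909 100000 0 false, ivN0 50109 32909 26353 100000 0 false, ivN0 51415 26353 22294 100000 0 false, ivN0 52721 22294 17248 100000 0 false] [ivN0 54643 0 0 100000 0 false] 49628 100000 19369 22775 155759 119370 false,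
  gkN 57384 58452 71096 0 [ivN0 17100 0 0 100000 0 false] [ivN0 18020 26820 32081 100000 0 false, ivN0 18941 32081 36164 100000 0 false, ivN0 20782 36164 42271 100000 0 false, ivN0 22163 42271 45724 100000 0 false, ivN0 23544 45724 48542 100000 0 false, ivN0 26306 48542 52885 100000 0 false, ivN0 29068 52885 56083 100000 0 false, ivN0 31831 56083 58528 100000 0 false, ivN0 37534 58528 52456 100000 0 false, ivN0 40385 52456 49014 100000 0 false, ivN0 43237 49014 45219 100000 0 false, ivN0 46088 45219 40977 100000 0 false, ivN0 48940 40977 36126 100000 0 false, ivN0 51791 36126 30380 100000 0 false, ivN0 54643 30380 23076 100000 0 false] [ivN0 57384 0 0 100000 0 false] 45261 100000 15589 22402 156134 115707 false,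
  gkN 62348 60006 60938 0 [ivN0 17100 0 0 100000 0 false] [ivN0 18020 27701 33146 100000 0 false, ivN0 18941 33146 37377 100000 0 false, ivN0 20782 37377 43719 100000 0 false, ivN0 22163 43719 47314 100000 0 false, ivN0 23544 47314 50256 100000 0 false, ivN0 26306 50256 54810 100000 0 false, ivN0 29068 54810 58185 100000 0 false, ivN0 31831 58185 60787 100000 0 false, ivN0 38219 60787 55333 100000 0 false, ivN0 44607 55333 48970 100000 0 false, ivN0 47801 48970 45331 100000 0 false, ivN0 50995 45331 41281 100000 0 false, ivN0 54189 41281 36685 100000 0 false, ivN0 57384 36685 31301 100000 0 false] [ivN0 62348 0 0 100000 0 false] 38794 100000 8583 21725 156814 108759 false,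
  gkN 84159 69059 1765 0 [ivN0 17100 0 0 100000 0 false] [ivN0 18941 32321 43674 100000 0 false, ivN0 20782 43674 51161 100000 0 false, ivN0 23544 51161 58943 100000 0 false, ivN0 26306 58943 64430 100000 0 false, ivN0 31831 64430 71783 100000 0 false, ivN0 62348 71783 71257 100000 0 false] [ivN0 84159 0 0 100000 0 false] 1124 100000 0 0 0 0 false,
  gkN 100000 81853 0 81853 [ivN0 17100 0 0 100000 0 false] [ivN0 31831 37801 82985 100000 0 false, ivN0 68169 82985 96546 100000 0 false, ivN0 84159 96546 98296 100000 0 false] [ivN0 100000 0 0 100000 0 false] 0 100000 0 0 0 0 false]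

/-- Certificate data. -/
def gapG7 : List GCertN := [
  gkN 39251 52678 120560 0 [ivN0 18900 0 0 100000 0 false] [ivN0 22132 20222 30690 100000 0 false, ivN0 25365 30690 36069 100000 0 false, ivN0 31830 36069 41342 100000 0 false] [ivN0 39251 0 0 100000 0 false] 76751 100000 38146 24874 153627 138147 false,
  gkN 43513 56005 101106 0 [ivN0 18900 0 0 100000 0 false] [ivN0 22132 22308 34116 100000 0 false, ivN0 25365 34116 40419 100000 0 false, ivN0 28598 40419 44423 100000 0 false, ivN0 31831 44423 47147 100000 0 false, ivN0 35541 47147 39334 100000 0 false, ivN0 39251 39334 29041 100000 0 false] [ivN0 43513 0 0 100000 0 false] 64366 100000 33212 24293 154220 133213 false,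
  gkN 46254 57630 91601 0 [ivN0 18900 0 0 100000 0 false] [ivN0 20516 23259 30633 100000 0 false, ivN0 22132 30633 35658 100000 0 false, ivN0 25365 35658 42355 100000 0 false, ivN0 28598 42355 46677 100000 0 false, ivN0 31831 46677 49678 100000 0 false, ivN0 37672 49678 38866 100000 0 false, ivN0 40592 38866 31789 100000 0 false, ivN0 43513 31789 22271 100000 0 false] [ivN0 46254 0 0 100000 0 false] 58315 100000 29940 23919 154601 129941 false,
  gkN 48293 58654 85613 0 [ivN0 18900 0 0 100000 0 false] [ivN0 20516 23836 31414 100000 0 false, ivN0 22132 31414 36590 100000 0 false, ivN0 25365 36590 43521 100000 0 false, ivN0 28598 43521 48028 100000 0 false, ivN0 31831 48028 51188 100000 0 false, ivN0 35436 51188 45612 100000 0 false, ivN0 39042 45612 39005 100000 0 false, ivN0 42648 39005 30714 100000 0 false, ivN0 44451 30714 25440 100000 0 false, ivN0 46254 25440 18608 100000 0 false] [ivN0 48293 0 0 100000 0 false] 54503 100000 27451 23641 154883 127452 false,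
  gkN 49981 59406 81218 0 [ivN0 18900 0 0 100000 0 false] [ivN0 20516 24248 31972 100000 0 false, ivN0 22132 31972 37256 100000 0 false, ivN0 23748 37256 41225 100000 0 false, ivN0 25365 41225 44352 100000 0 false, ivN0 28598 44352 48988 100000 0 false, ivN0 31831 48988 52258 100000 0 false, ivN0 35946 52258 46367 100000 0 false, ivN0 40062 46367 39324 100000 0 false, ivN0 42119 39324 35162 100000 0 false, ivN0 44177 35162 30342 100000 0 false, ivN0 46235 30342 24480 100000 0 false, ivN0 48293 24480 16504 100000 0 false] [ivN0 49981 0 0 100000 0 false] 51705 100000 25354 23411 155116 125355 false,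
  gkN 51552 60039 77514 0 [ivN0 18900 0 0 100000 0 false] [ivN0 20516 24593 32436 100000 0 false, ivN0 22132 32436 37810 100000 0 false, ivN0 23748 37810 41850 100000 0 false, ivN0 25365 41850 45039 100000 0 false, ivN0 28598 45039 49780 100000 0 false, ivN0 31831 49780 53139 100000 0 false, ivN0 35234 53139 48681 100000 0 false, ivN0 38637 48681 43613 100000 0 false, ivN0 42040 43613 37688 100000 0 false, ivN0 45443 37688 30411 100000 0 false, ivN0 47712 30411 24220 100000 0 false, ivN0 49981 24220 15564 100000 0 false] [ivN0 51552 0 0 100000 0 false] 49347 100000 23369 23197 155333 123370 false,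
  gkN 53357 60699 73655 0 [ivN0 18900 0 0 100000 0 false] [ivN0 20516 24945 32911 100000 0 false, ivN0 22132 32911 38374 100000 0 false, ivN0 23748 38374 42489 100000 0 false, ivN0 25365 42489 45740 100000 0 false, ivN0 28598 45740 50587 100000 0 false, ivN0 31831 50587 54034 100000 0 false, ivN0 36761 54034 47911 100000 0 false, ivN0 41691 47911 40556 100000 0 false, ivN0 44156 40556 36188 100000 0 false, ivN0 46621 36188 31110 100000 0 false, ivN0 49086 31110 24888 100000 0 false, ivN0 50319 24888 21040 100000 0 false, ivN0 51552 21040 16257 100000 0 false] [ivN0 53357 0 0 100000 0 false] 46890 100000 21049 22951 155581 121050 false,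
  gkN 55981 61879 66756 0 [ivN0 18900 0 0 100000 0 false] [ivN0 20516 25561 33740 100000 0 false, ivN0 22132 33740 39361 100000 0 false, ivN0 23748 39361 43601 100000 0 false, ivN0 25365 43601 46961 100000 0 false, ivN0 26981 46961 49701 100000 0 false, ivN0 28598 49701 51987 100000 0 false, ivN0 31831 51987 55585 100000 0 false, ivN0 37212 55585 49795 100000 0 false, ivN0 39903 49795 46527 100000 0 false, ivN0 42594 46527 42936 100000 0 false, ivN0 45284 42936 38935 100000 0 false, ivN0 47975 38935 34377 100000 0 false, ivN0 50666 34377 29003 100000 0 false, ivN0 53357 29003 22229 100000 0 false] [ivN0 55981 0 0 100000 0 false] 42498 100000 17463 22593 155942 117596 false,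
  gkN 60711 63607 56649 0 [ivN0 18900 0 0 100000 0 false] [ivN0 20516 26440 34918 100000 0 false, ivN0 22132 34918 40756 100000 0 false, ivN0 23748 40756 45172 100000 0 false, ivN0 25365 45172 48680 100000 0 false, ivN0 28598 48680 53951 100000 0 false, ivN0 31831 53951 57750 100000 0 false, ivN0 37868 57750 52583 100000 0 false, ivN0 43906 52583 46598 100000 0 false, ivN0 49943 46598 39427 100000 0 false, ivN0 52962 39427 35174 100000 0 false, ivN0 55981 35174 30235 100000 0 false] [ivN0 60711 0 0 100000 0 false] 36064 100000 10876 21948 156591 111099 false,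
  gkN 82873 73279 88 0 [ivN0 18900 0 0 100000 0 false] [ivN0 20516 30857 40798 100000 0 false, ivN0 22132 40798 47674 100000 0 false, ivN0 25365 47674 57072 100000 0 false, ivN0 28598 57072 63395 100000 0 false, ivN0 31831 63395 68015 100000 0 false, ivN0 60711 68015 67987 100000 0 false] [ivN0 82873 0 0 100000 0 false] 56 100000 0 0 0 0 false,
  gkN 100000 88413 0 88413 [ivN0 18900 0 0 100000 0 false] [ivN0 31831 36621 79796 100000 0 false, ivN0 68169 79796 95958 100000 0 false, ivN0 82873 95958 97846 100000 0 false] [ivN0 100000 0 0 100000 0 false] 0 100000 0 0 0 0 false]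

/-- Certificate data. -/
def gapG8 : List GCertN := [
  gkN 39017 55499 114053 0 [ivN0 20700 0 0 100000 0 false] [ivN0 23482 19410 28683 100000 0 false, ivN0 26265 28683 33910 100000 0 false, ivN0 29047 33910 37312 100000 0 false, ivN0 31830 37312 39649 100000 0 false] [ivN0 39017 0 0 100000 0 false] 72608 100000 38412 24906 153595 138413 false,
  gkN 43162 59182 94568 0 [ivN0 20700 0 0 100000 0 false] [ivN0 23482 21490 31948 100000 0 false, ivN0 26265 31948 38007 100000 0 false, ivN0 31831 38007 45037 100000 0 false, ivN0 35424 45037 37551 100000 0 false, ivN0 39017 37551 27725 100000 0 false] [ivN0 43162 0 0 100000 0 false] 60204 100000 33626 24341 154171 133627 false,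
  gkN 46020 61066 84602 0 [ivN0 20700 0 0 100000 0 false] [ivN0 22091 22475 28888 100000 0 false, ivN0 23482 28888 33483 100000 0 false, ivN0 26265 33483 39916 100000 0 false, ivN0 29048 39916 44304 100000 0 false, ivN0 31831 44304 47505 100000 0 false, ivN0 34663 47505 42771 100000 0 false, ivN0 37496 42771 37286 100000 0 false, ivN0 40329 37286 30655 100000 0 false, ivN0 43162 30655 21857 100000 0 false] [ivN0 46020 0 0 100000 0 false] 53859 100000 30223 23951 154568 130224 false,
  gkN 48176 62243 78372 0 [ivN0 20700 0 0 100000 0 false] [ivN0 22091 23072 29669 100000 0 false, ivN0 23482 29669 34405 100000 0 false, ivN0 26265 34405 41058 100000 0 false, ivN0 29048 41058 45620 100000 0 false, ivN0 31831 45620 48969 100000 0 false, ivN0 35378 48969 43652 100000 0 false, ivN0 38925 43652 37384 100000 0 false, ivN0 42472 37384 29566 100000 0 false, ivN0 46020 29566 18308 100000 0 false] [ivN0 48176 0 0 100000 0 false] 49893 100000 27595 23657 154867 127596 false,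
  gkN 50215 63207 73269 0 [ivN0 20700 0 0 100000 0 false] [ivN0 22091 23549 30292 100000 0 false, ivN0 23482 30292 35141 100000 0 false, ivN0 26265 35141 41966 100000 0 false, ivN0 29048 41966 46663 100000 0 false, ivN0 31831 46663 50126 100000 0 false, ivN0 35917 50126 44560 100000 0 false, ivN0 40003 44560 37955 100000 0 false, ivN0 42046 37955 34079 100000 0 false, ivN0 44089 34079 29626 100000 0 false, ivN0 46132 29626 24280 100000 0 false, ivN0 48176 24280 17226 100000 0 false] [ivN0 50215 0 0 100000 0 false] 46644 100000 25060 23379 155148 125061 false,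
  gkN 52488 64145 68310 0 [ivN0 20700 0 0 100000 0 false] [ivN0 22091 23998 30881 100000 0 false, ivN0 23482 30881 35835 100000 0 false, ivN0 24873 35835 39691 100000 0 false, ivN0 26265 39691 42823 100000 0 false, ivN0 29048 42823 47647 100000 0 false, ivN0 31831 47647 51216 100000 0 false, ivN0 36427 51216 45540 100000 0 false, ivN0 41023 45540 38795 100000 0 false, ivN0 43321 38795 34831 100000 0 false, ivN0 45619 34831 30273 100000 0 false, ivN0 47917 30273 24795 100000 0 false, ivN0 50215 24795 17556 100000 0 false] [ivN0 52488 0 0 100000 0 false] 43487 100000 22172 23069 155462 122173 false,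
  gkN 55814 66076 58092 0 [ivN0 20700 0 0 100000 0 false] [ivN0 22091 24903 32062 100000 0 false, ivN0 23482 32062 37225 100000 0 false, ivN0 24873 37225 41252 100000 0 false, ivN0 26265 41252 44530 100000 0 false, ivN0 29048 44530 49598 100000 0 false, ivN0 31831 49598 53370 100000 0 false, ivN0 36995 53370 48290 100000 0 false, ivN0 42159 48290 42398 100000 0 false, ivN0 47323 42398 35287 100000 0 false, ivN0 49905 35287 31020 100000 0 false, ivN0 52488 31020 25975 100000 0 false] [ivN0 55814 0 0 100000 0 false] 36983 100000 17551 22616 155919 117819 false,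
  gkN 62416 69262 41236 0 [ivN0 20700 0 0 100000 0 false] [ivN0 22091 26322 33909 100000 0 false, ivN0 23482 33909 39392 100000 0 false, ivN0 26265 39392 47177 100000 0 false, ivN0 29048 47177 52608 100000 0 false, ivN0 31831 52608 56676 100000 0 false, ivN0 37826 56676 52903 100000 0 false, ivN0 43822 52903 48713 100000 0 false, ivN0 49818 48713 43989 100000 0 false, ivN0 55814 43989 38534 100000 0 false] [ivN0 62416 0 0 100000 0 false] 26252 100000 8227 21716 156823 108661 false,
  gkN 90778 83163 0 32319 [ivN0 20700 0 0 100000 0 false] [ivN0 22091 31736 40892 100000 0 false, ivN0 23482 40892 47517 100000 0 false, ivN0 26265 47517 56938 100000 0 false, ivN0 29048 56938 63527 100000 0 false, ivN0 31831 63527 68477 100000 0 false, ivN0 47123 68477 73382 100000 0 false, ivN0 62416 73382 77666 100000 0 false] [ivN0 90778 0 0 100000 0 false] 0 100000 0 0 0 0 false,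
  gkN 100000 95013 0 95013 [ivN0 20700 0 0 100000 0 false] [ivN0 31831 35643 76190 100000 0 false, ivN0 68169 76190 95316 100000 0 false, ivN0 90778 95316 98666 100000 0 false] [ivN0 100000 0 0 100000 0 false] 0 100000 0 0 0 0 false]

/-- Certificate data. -/
def gapG9 : List GCertN := [
  gkN 38549 58191 108455 0 [ivN0 23200 0 0 100000 0 false] [ivN0 27515 21625 32166 100000 0 false, ivN0 31830 32166 37472 100000 0 false] [ivN0 38549 0 0 100000 0 false] 69045 100000 38942 24970 153529 138943 false,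
  gkN 42460 62226 88962 0 [ivN0 23200 0 0 100000 0 false] [ivN0 27515 24058 36100 100000 0 false, ivN0 31831 36100 42448 100000 0 false, ivN0 35190 42448 35381 100000 0 false, ivN0 38549 35381 26151 100000 0 false] [ivN0 42460 0 0 100000 0 false] 56635 100000 34448 24437 154074 134449 false,
  gkN 45084 64208 79389 0 [ivN0 23200 0 0 100000 0 false] [ivN0 25357 25160 32725 100000 0 false, ivN0 27515 32725 37862 100000 0 false, ivN0 31831 37862 44650 100000 0 false, ivN0 37145 44650 34940 100000 0 false, ivN0 39802 34940 28655 100000 0 false, ivN0 42460 28655 20306 100000 0 false] [ivN0 45084 0 0 100000 0 false] 50541 100000 31347 24079 154438 131348 false,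
  gkN 47123 65476 73263 0 [ivN0 23200 0 0 100000 0 false] [ivN0 25357 25841 33634 100000 0 false, ivN0 27515 33634 38941 100000 0 false, ivN0 31831 38941 45991 100000 0 false, ivN0 35144 45991 40966 100000 0 false, ivN0 38457 40966 35064 100000 0 false, ivN0 41770 35064 27731 100000 0 false, ivN0 45084 27731 17221 100000 0 false] [ivN0 47123 0 0 100000 0 false] 46641 100000 28885 23801 154721 128886 false,
  gkN 49045 66504 68295 0 [ivN0 23200 0 0 100000 0 false] [ivN0 25357 26380 34352 100000 0 false, ivN0 27515 34352 39793 100000 0 false, ivN0 29673 39793 43858 100000 0 false, ivN0 31831 43858 47044 100000 0 false, ivN0 35654 47044 41780 100000 0 false, ivN0 39477 41780 35557 100000 0 false, ivN0 43300 35557 27739 100000 0 false, ivN0 45211 27739 22736 100000 0 false, ivN0 47123 22736 16153 100000 0 false] [ivN0 49045 0 0 100000 0 false] 43478 100000 26521 23539 154986 126522 false,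
  gkN 51084 67453 63712 0 [ivN0 23200 0 0 100000 0 false] [ivN0 25357 26865 34998 100000 0 false, ivN0 27515 34998 40558 100000 0 false, ivN0 31831 40558 47988 100000 0 false, ivN0 36134 47988 42594 100000 0 false, ivN0 40438 42594 36202 100000 0 false, ivN0 44741 36202 28142 100000 0 false, ivN0 46893 28142 22955 100000 0 false, ivN0 49045 22955 16068 100000 0 false] [ivN0 51084 0 0 100000 0 false] 40560 100000 23964 23261 155268 123965 false,
  gkN 54059 69560 53533 0 [ivN0 23200 0 0 100000 0 false] [ivN0 25357 27911 36388 100000 0 false, ivN0 27515 36388 42199 100000 0 false, ivN0 29673 42199 46564 100000 0 false, ivN0 31831 46564 50004 100000 0 false, ivN0 36644 50004 45249 100000 0 false, ivN0 41457 45249 39766 100000 0 false, ivN0 46270 39766 33194 100000 0 false, ivN0 51084 33194 24679 100000 0 false] [ivN0 54059 0 0 100000 0 false] 34080 100000 19833 22855 155678 120136 false,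
  gkN 59959 73071 36573 0 [ivN0 23200 0 0 100000 0 false] [ivN0 25357 29566 38576 100000 0 false, ivN0 27515 38576 44773 100000 0 false, ivN0 29673 44773 49443 100000 0 false, ivN0 31831 49443 53139 100000 0 false, ivN0 42945 53139 46028 100000 0 false, ivN0 48502 46028 41876 100000 0 false, ivN0 54059 41876 37153 100000 0 false] [ivN0 59959 0 0 100000 0 false] 23283 100000 11549 22051 156487 112157 false,
  gkN 87034 85890 0 25355 [ivN0 23200 0 0 100000 0 false] [ivN0 25357 34890 45540 100000 0 false, ivN0 27515 45540 52875 100000 0 false, ivN0 29673 52875 58412 100000 0 false, ivN0 31831 58412 62802 100000 0 false, ivN0 45895 62802 66980 100000 0 false, ivN0 59959 66980 70733 100000 0 false] [ivN0 87034 0 0 100000 0 false] 0 100000 0 0 0 0 false,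
  gkN 100000 101692 0 101692 [ivN0 23200 0 0 100000 0 false] [ivN0 31831 40389 72072 100000 0 false, ivN0 68169 72072 94616 100000 0 false, ivN0 87034 94616 97842 100000 0 false] [ivN0 100000 0 0 100000 0 false] 0 100000 0 0 0 0 false]

/-- Certificate data. -/
def gapG10 : List GCertN := [
  gkN 38198 62746 97528 0 [ivN0 26700 0 0 100000 0 false] [ivN0 31830 24539 34688 100000 0 false] [ivN0 38198 0 0 100000 0 false] 62088 100000 39339 25018 153480 139340 false,
  gkN 42109 67426 77356 0 [ivN0 26700 0 0 100000 0 false] [ivN0 29265 27404 34310 100000 0 false, ivN0 31831 34310 39076 100000 0 false, ivN0 35014 39076 32673 100000 0 false, ivN0 38198 32673 24412 100000 0 false] [ivN0 42109 0 0 100000 0 false] 49246 100000 34858 24485 154025 134859 false,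
  gkN 44967 69782 67200 0 [ivN0 26700 0 0 100000 0 false] [ivN0 29265 28732 36020 100000 0 false, ivN0 31831 36020 41080 100000 0 false, ivN0 36970 41080 32341 100000 0 false, ivN0 39539 32341 26762 100000 0 false, ivN0 42109 26762 19505 100000 0 false] [ivN0 44967 0 0 100000 0 false] 42781 100000 31487 24095 154422 131488 false,
  gkN 47474 71392 60259 0 [ivN0 26700 0 0 100000 0 false] [ivN0 29265 29603 37138 100000 0 false, ivN0 31831 37138 42385 100000 0 false, ivN0 38399 42385 32617 100000 0 false, ivN0 41683 32617 26189 100000 0 false, ivN0 44967 26189 17320 100000 0 false] [ivN0 47474 0 0 100000 0 false] 38362 100000 28457 23753 154769 128458 false,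
  gkN 50332 72865 53912 0 [ivN0 26700 0 0 100000 0 false] [ivN0 29265 30373 38125 100000 0 false, ivN0 31831 38125 43535 100000 0 false, ivN0 35741 43535 38876 100000 0 false, ivN0 39652 38876 33442 100000 0 false, ivN0 43563 33442 26768 100000 0 false, ivN0 47474 26768 17486 100000 0 false] [ivN0 50332 0 0 100000 0 false] 34321 100000 24913 23363 155165 124914 false,
  gkN 54945 76875 36627 0 [ivN0 26700 0 0 100000 0 false] [ivN0 29265 32372 40676 100000 0 false, ivN0 31831 40676 46494 100000 0 false, ivN0 41081 46494 39375 100000 0 false, ivN0 45706 39375 35158 100000 0 false, ivN0 50332 35158 30265 100000 0 false] [ivN0 54945 0 0 100000 0 false] 23317 100000 18402 23200 155330 118972 false,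
  gkN 66226 83956 6106 0 [ivN0 26700 0 0 100000 0 false] [ivN0 29265 35599 44760 100000 0 false, ivN0 31831 44760 51198 100000 0 false, ivN0 54945 51198 48752 100000 0 false] [ivN0 66226 0 0 100000 0 false] 3887 100000 2645 23200 155330 103006 false,
  gkN 100000 111162 0 111162 [ivN0 26700 0 0 100000 0 false] [ivN0 31831 45660 65250 100000 0 false, ivN0 66226 65250 92684 100000 0 false] [ivN0 100000 0 0 100000 0 false] 0 100000 0 0 0 0 false]

/-- Certificate data. -/
def gapG11 : List GCertN := [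
  gkN 38315 72245 72438 0 [ivN0 31700 0 0 100000 0 false] [ivN0 31830 29966 30286 100000 0 false] [ivN0 38315 0 0 100000 0 false] 46115 100000 39207 26700 151749 139208 false,
  gkN 43513 78224 50043 0 [ivN0 31700 0 0 100000 0 false] [ivN0 31831 33330 33692 100000 0 false, ivN0 38315 33692 22663 100000 0 false] [ivN0 43513 0 0 100000 0 false] 31858 100000 33212 26700 151749 133213 false,
  gkN 49296 81644 37235 0 [ivN0 31700 0 0 100000 0 false] [ivN0 31831 35092 35474 100000 0 false, ivN0 37672 35474 29103 100000 0 false, ivN0 43513 29103 20643 100000 0 false] [ivN0 49296 0 0 100000 0 false] 23705 100000 26209 26700 151749 126210 false,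
  gkN 59641 91250 1256 0 [ivN0 31700 0 0 100000 0 false] [ivN0 31831 39571 40003 100000 0 false, ivN0 49296 40003 39497 100000 0 false] [ivN0 59641 0 0 100000 0 false] 800 100000 11592 26700 151749 112601 false,
  gkN 100000 124947 0 124947 [ivN0 31700 0 0 100000 0 false] [ivN0 31831 51838 52394 100000 0 false, ivN0 38783 52394 64416 100000 0 false, ivN0 45736 64416 73505 100000 0 false, ivN0 59641 73505 86354 100000 0 false] [ivN0 100000 0 0 100000 0 false] 0 100000 0 0 0 0 false]

/-- Certificate data. -/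
def gapG12 : List GCertN := [
  gkN 61713 99576 686 0 [ivN0 31830 0 0 100000 0 false] [] [ivN0 61713 0 0 100000 0 false] 437 100000 9672 31700 146482 109673 false,
  gkN 100000 146111 0 146111 [ivN0 31830 0 0 100000 0 false] [ivN0 31831 8874 8908 100000 0 false, ivN0 61713 8908 82888 100000 0 false] [ivN0 100000 0 0 100000 0 false] 0 100000 0 0 0 0 false]

/-- Certificate data. -/
def gapGN : List (ℕ × List GCertN) := [
  (1500, gapG0),
  (4000, gapG1),
  (7500, gapG2),
  (11000, gapG3),
  (13500, gapG4),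
  (15300, gapG5),
  (17100, gapG6),
  (18900, gapG7),
  (20700, gapG8),
  (23200, gapG9),
  (26700, gapG10),
  (31700, gapG11),
  (31830, gapG12)]

def gapG : List (ℚ × List GCert) := toGs gapGN

theorem gapG_ok : gStrips gapGPar (d 26600) (d 36000) (d 12000) (d 31830) (d 31830) (d 100000) (d 200) gapG = true :=
  gStripsN_sound (p := gapGParN) (V0 := 26600) (V1 := 36000) (e := 12000) (A1 := 31830)
    (B0 := 31830) (B1 := 100000) (by decide) gapGN 200 (by decide +kernel)

end Vale.Agent.P232
end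
end

section

section

namespace Vale.Agent.P232

/-- Parameters. -/
def gapHPar : Par := ⟨d 0, d 100000, []⟩

/-- Parameters. -/
def gapHParN : ParN := ⟨0, 100000, []⟩

/-- Certificate data. -/
def gapH0 : List GCertN := [
  gkN 67883 99997 4 0 [ivN0 36000 0 0 100000 0 false] [ivN0 38000 558 544 100000 0 false] [ivN0 67883 0 0 100000 0 false] 3 100000 447 31830 146342 100448 false,
  gkN 100000 146689 0 146689 [ivN0 36000 0 0 100000 0 false] [ivN0 67883 34443 88206 100000 0 false] [ivN0 100000 0 0 100000 0 false] 0 100000 0 0 0 0 false]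

/-- Certificate data. -/
def gapHN : List (ℕ × List GCertN) := [
  (36000, gapH0)]

def gapH : List (ℚ × List GCert) := toGs gapHN

theorem gapH_ok : gStrips gapHPar (d 26600) (d 36000) (d 12000) (d 36000) (d 38000) (d 100000) (d 31830) gapH = true :=
  gStripsN_sound (p := gapHParN) (V0 := 26600) (V1 := 36000) (e := 12000) (A1 := 36000)
    (B0 := 38000) (B1 := 100000) (by decide) gapHN 31830 (by decide +kernel)

end Vale.Agent.P232
end
end

section

section

namespace Vale.Agent.P232

/-- Parameters. -/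
def gapIPar : Par := ⟨d 0, d 100000, []⟩

/-- Parameters. -/
def gapIParN : ParN := ⟨0, 100000, []⟩

/-- Certificate data. -/
def gapI0 : List GCertN := [
  gkN 44164 3003 219627 0 [ivN0 200 0 0 100000 0 false] [ivN0 2176 90078 95467 100000 0 false, ivN0 8107 95467 91104 100000 0 false, ivN0 19968 91104 80621 100000 0 false, ivN0 31830 80621 68439 100000 0 false] [ivN0 44164 0 0 100000 0 false] 100000 91415 30501 24204 154311 132443 false,
  gkN 52052 3014 186325 0 [ivN0 200 0 0 100000 0 false] [ivN0 694 90413 95651 100000 0 false, ivN0 1188 95651 96269 100000 0 false, ivN0 2176 96269 96276 100000 0 false, ivN0 8107 96276 93332 100000 0 false, ivN0 19969 93332 86146 100000 0 false, ivN0 31831 86146 78203 100000 0 false, ivN0 34914 78203 73258 100000 0 false, ivN0 37997 73258 67467 100000 0 false, ivN0 41080 67467 60587 100000 0 false, ivN0 44164 60587 52186 100000 0 false] [ivN0 52052 0 0 100000 0 false] 100000 91415 22731 23129 155401 122732 false,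
  gkN 57718 3019 168025 0 [ivN0 200 0 0 100000 0 false] [ivN0 1188 90600 96571 100000 0 false, ivN0 2176 96571 96686 100000 0 false, ivN0 8107 96686 94407 100000 0 false, ivN0 19969 94407 88701 100000 0 false, ivN0 31831 88701 82507 100000 0 false, ivN0 36886 82507 75996 100000 0 false, ivN0 41941 75996 67817 100000 0 false, ivN0 46996 67817 57259 100000 0 false, ivN0 49524 57259 50636 100000 0 false, ivN0 52052 50636 42585 100000 0 false] [ivN0 57718 0 0 100000 0 false] 100000 93486 15252 22356 156181 115253 false,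
  gkN 61746 3022 157058 0 [ivN0 200 0 0 100000 0 false] [ivN0 1188 90711 96746 100000 0 false, ivN0 2176 96746 96919 100000 0 false, ivN0 8107 96919 95002 100000 0 false, ivN0 19969 95002 90085 100000 0 false, ivN0 31831 90085 84790 100000 0 false, ivN0 38302 84790 77514 100000 0 false, ivN0 44774 77514 67976 100000 0 false, ivN0 48010 67976 62043 100000 0 false, ivN0 51246 62043 55012 100000 0 false, ivN0 54482 55012 46386 100000 0 false, ivN0 57718 46386 35005 100000 0 false] [ivN0 61746 0 0 100000 0 false] 99986 100000 9624 21807 156732 109625 false,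
  gkN 64604 3024 150107 0 [ivN0 200 0 0 100000 0 false] [ivN0 694 90781 96134 100000 0 false, ivN0 1188 96134 96854 100000 0 false, ivN0 2176 96854 97062 100000 0 false, ivN0 8107 97062 95360 100000 0 false, ivN0 19969 95360 90907 100000 0 false, ivN0 31831 90907 86133 100000 0 false, ivN0 39309 86133 78436 100000 0 false, ivN0 43048 78436 73651 100000 0 false, ivN0 46788 73651 68070 100000 0 false, ivN0 50527 68070 61479 100000 0 false, ivN0 54267 61479 53504 100000 0 false, ivN0 58006 53504 43392 100000 0 false, ivN0 59876 43392 37002 100000 0 false, ivN0 61746 37002 28978 100000 0 false] [ivN0 64604 0 0 100000 0 false] 95561 100000 5450 21417 157122 105451 false,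
  gkN 66760 3026 145257 0 [ivN0 200 0 0 100000 0 false] [ivN0 694 90826 96195 100000 0 false, ivN0 1188 96195 96928 100000 0 false, ivN0 2176 96928 97160 100000 0 false, ivN0 8107 97160 95601 100000 0 false, ivN0 19969 95601 91457 100000 0 false, ivN0 31831 91457 87024 100000 0 false, ivN0 37975 87024 81327 100000 0 false, ivN0 44120 81327 74133 100000 0 false, ivN0 47192 74133 69834 100000 0 false, ivN0 50265 69834 64946 100000 0 false, ivN0 53337 64946 59325 100000 0 false, ivN0 56410 59325 52733 100000 0 false, ivN0 58458 52733 47607 100000 0 false, ivN0 60507 47607 41643 100000 0 false, ivN0 62555 41643 34414 100000 0 false, ivN0 64604 34414 24831 100000 0 false] [ivN0 66760 0 0 100000 0 false] 92473 100000 2188 21123 157416 102189 false,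
  gkN 68682 3027 140012 0 [ivN0 200 0 0 100000 0 false] [ivN0 694 90881 96263 100000 0 false, ivN0 1188 96263 97008 100000 0 false, ivN0 2176 97008 97264 100000 0 false, ivN0 8107 97264 95855 100000 0 false, ivN0 19969 95855 92030 100000 0 false, ivN0 31831 92030 87947 100000 0 false, ivN0 36197 87947 84353 100000 0 false, ivN0 40563 84353 80134 100000 0 false, ivN0 44929 80134 75185 100000 0 false, ivN0 49295 75185 69349 100000 0 false, ivN0 53661 69349 62379 100000 0 false, ivN0 55844 62379 58344 100000 0 false, ivN0 58027 58344 53835 100000 0 false, ivN0 60210 53835 48721 100000 0 false, ivN0 62393 48721 42785 100000 0 false, ivN0 64576 42785 35619 100000 0 false, ivN0 66760 35619 26228 100000 0 false] [ivN0 68682 0 0 100000 0 false] 89134 100000 0 0 0 0 false,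
  gkN 70955 3030 130354 0 [ivN0 200 0 0 100000 0 false] [ivN0 694 90975 96384 100000 0 false, ivN0 1188 96384 97150 100000 0 false, ivN0 2176 97150 97450 100000 0 false, ivN0 8107 97450 96301 100000 0 false, ivN0 19969 96301 93026 100000 0 false, ivN0 31831 93026 89541 100000 0 false, ivN0 36373 89541 86344 100000 0 false, ivN0 40915 86344 82601 100000 0 false, ivN0 45457 82601 78234 100000 0 false, ivN0 50000 78234 73128 100000 0 false, ivN0 54542 73128 67119 100000 0 false, ivN0 59084 67119 59935 100000 0 false, ivN0 63626 59935 51081 100000 0 false, ivN0 65897 51081 45733 100000 0 false, ivN0 68169 45733 39446 100000 0 false, ivN0 68682 39446 35949 100000 0 false] [ivN0 70955 0 0 100000 0 false] 82986 100000 0 0 0 0 false,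
  gkN 73480 3033 120091 0 [ivN0 200 0 0 100000 0 false] [ivN0 694 91076 96510 100000 0 false, ivN0 1188 96510 97299 100000 0 false, ivN0 2176 97299 97640 100000 0 false, ivN0 8107 97640 96746 100000 0 false, ivN0 31831 96746 91091 100000 0 false, ivN0 40915 91091 85313 100000 0 false, ivN0 45457 85313 81728 100000 0 false, ivN0 50000 81728 77595 100000 0 false, ivN0 54542 77595 72823 100000 0 false, ivN0 59084 72823 67274 100000 0 false, ivN0 63626 67274 60736 100000 0 false, ivN0 68169 60736 52842 100000 0 false, ivN0 69562 52842 46502 100000 0 false, ivN0 70955 46502 38290 100000 0 false] [ivN0 73480 0 0 100000 0 false] 76452 100000 0 0 0 0 false,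
  gkN 76506 3037 108324 0 [ivN0 200 0 0 100000 0 false] [ivN0 694 91187 96651 100000 0 false, ivN0 1188 96651 97463 100000 0 false, ivN0 2176 97463 97848 100000 0 false, ivN0 3658 97848 97845 100000 0 false, ivN0 8107 97845 97219 100000 0 false, ivN0 19969 97219 95026 100000 0 false, ivN0 31831 95026 92695 100000 0 false, ivN0 36373 92695 90548 100000 0 false, ivN0 40915 90548 88075 100000 0 false, ivN0 45457 88075 85246 100000 0 false, ivN0 50000 85246 82026 100000 0 false, ivN0 54542 82026 78365 100000 0 false, ivN0 59084 78365 74200 100000 0 false, ivN0 63626 74200 69439 100000 0 false, ivN0 68169 69439 63948 100000 0 false, ivN0 69496 63948 59995 100000 0 false, ivN0 70824 59995 55317 100000 0 false, ivN0 72152 55317 49643 100000 0 false, ivN0 73480 49643 42476 100000 0 false] [ivN0 76506 0 0 100000 0 false] 68961 100000 0 0 0 0 false,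
  gkN 80188 3041 94592 0 [ivN0 200 0 0 100000 0 false] [ivN0 694 91320 96814 100000 0 false, ivN0 1188 96814 97648 100000 0 false, ivN0 2176 97648 98079 100000 0 false, ivN0 8107 98079 97722 100000 0 false, ivN0 19969 97722 96090 100000 0 false, ivN0 31831 96090 94345 100000 0 false, ivN0 40915 94345 90870 100000 0 false, ivN0 50000 90870 86407 100000 0 false, ivN0 54542 86407 83756 100000 0 false, ivN0 59084 83756 80791 100000 0 false, ivN0 63626 80791 77475 100000 0 false, ivN0 68169 77475 73760 100000 0 false, ivN0 70253 73760 69513 100000 0 false, ivN0 72337 69513 64211 100000 0 false, ivN0 74421 64211 57348 100000 0 false, ivN0 76506 57348 47911 100000 0 false] [ivN0 80188 0 0 100000 0 false] 60219 100000 0 0 0 0 false,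
  gkN 85052 3046 76989 0 [ivN0 200 0 0 100000 0 false] [ivN0 694 91489 97015 100000 0 false, ivN0 1188 97015 97875 100000 0 false, ivN0 2176 97875 98356 100000 0 false, ivN0 8107 98356 98292 100000 0 false, ivN0 31831 98292 96129 100000 0 false, ivN0 40915 96129 93843 100000 0 false, ivN0 50000 93843 90963 100000 0 false, ivN0 59084 90963 87432 100000 0 false, ivN0 68169 87432 83165 100000 0 false, ivN0 71173 83165 79408 100000 0 false, ivN0 74178 79408 74426 100000 0 false, ivN0 77183 74426 67498 100000 0 false, ivN0 78685 67498 62886 100000 0 false, ivN0 80188 62886 57073 100000 0 false] [ivN0 85052 0 0 100000 0 false] 49013 100000 0 0 0 0 false,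
  gkN 91532 3054 53013 0 [ivN0 200 0 0 100000 0 false] [ivN0 694 91709 97277 100000 0 false, ivN0 1188 97277 98165 100000 0 false, ivN0 2176 98165 98696 100000 0 false, ivN0 3658 98696 98909 100000 0 false, ivN0 8107 98909 98933 100000 0 false, ivN0 14038 98933 98743 100000 0 false, ivN0 31831 98743 97994 100000 0 false, ivN0 40915 97994 96890 100000 0 false, ivN0 50000 96890 95531 100000 0 false, ivN0 59084 95531 93905 100000 0 false, ivN0 68169 93905 91999 100000 0 false, ivN0 72389 91999 89561 100000 0 false, ivN0 76610 89561 86052 100000 0 false, ivN0 78720 86052 83664 100000 0 false, ivN0 80831 83664 80627 100000 0 false, ivN0 82941 80627 76642 100000 0 false, ivN0 85052 76642 71165 100000 0 false] [ivN0 91532 0 0 100000 0 false] 33749 100000 0 0 0 0 false,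
  gkN 97938 3063 22860 0 [ivN0 200 0 0 100000 0 false] [ivN0 694 91988 97590 100000 0 false, ivN0 1188 97590 98499 100000 0 false, ivN0 2176 98499 99068 100000 0 false, ivN0 8107 99068 99524 100000 0 false, ivN0 14038 99524 99552 100000 0 false, ivN0 31831 99552 99464 100000 0 false, ivN0 50000 99464 98944 100000 0 false, ivN0 68169 98944 98246 100000 0 false, ivN0 76930 98246 97013 100000 0 false, ivN0 81310 97013 95925 100000 0 false, ivN0 85691 95925 94119 100000 0 false, ivN0 88611 94119 92087 100000 0 false, ivN0 91532 92087 88527 100000 0 false] [ivN0 97938 0 0 100000 0 false] 14553 100000 0 0 0 0 false,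
  gkN 99800 3068 4868 0 [ivN0 200 0 0 100000 0 false] [ivN0 31831 92154 99893 100000 0 false, ivN0 68169 99893 99795 100000 0 false, ivN0 97938 99795 95143 100000 0 false] [ivN0 99800 0 0 100000 0 false] 3099 100000 0 0 0 0 false]

/-- Certificate data. -/
def gapIN : List (ℕ × List GCertN) := [
  (200, gapI0)]

def gapI : List (ℚ × List GCert) := toGs gapIN

theorem gapI_ok : gStrips gapIPar (d 26600) (d 36000) (d 12000) (d 200) (d 31830) (d 99800) (d 30) gapI = true :=
  gStripsN_sound (p := gapIParN) (V0 := 26600) (V1 := 36000) (e := 12000) (A1 := 200)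
    (B0 := 31830) (B1 := 99800) (by decide) gapIN 30 (by decide +kernel)

end Vale.Agent.P232
end
end

section

section

namespace Vale.Agent.P232

/-- Parameters. -/
def gapSAPar : Par := ⟨d 47000, d 100000, [(d 99621, d 15000), (d 98477, d 30000), (d 96512, d 45000)]⟩

/-- Parameters. -/
def gapSAParN : ParN := ⟨47000, 100000, [(99621, 15000), (98477, 30000), (96512, 45000)]⟩

/-- Certificate data. -/
def gapSA0 : List GCertN := [
  gkN 43813 0 228242 0 [ivN0 30 0 0 100000 0 false] [ivN0 7980 99975 93149 100000 0 false, ivN0 15930 93149 85781 100000 0 false, ivN0 23880 85781 77718 100000 0 false, ivN0 31830 77718 68716 100000 0 false] [ivN0 43813 0 0 100000 0 false] 100000 91415 30035 24252 154262 132859 false,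
  gkN 51000 0 196511 0 [ivN0 30 0 0 100000 0 false] [ivN0 15930 99981 89676 100000 0 false, ivN0 31831 89676 78021 100000 0 false, ivN0 37822 78021 66902 100000 0 false, ivN0 40817 66902 59719 100000 0 false, ivN0 43813 59719 50864 100000 0 false] [ivN0 47406 0 0 100000 0 false, ivN0 51000 0 0 99621 15000 false] 100000 91415 23849 23272 155257 124071 false,
  gkN 55847 0 181082 0 [ivN0 30 0 0 100000 0 false] [ivN0 15930 99984 91308 100000 0 false, ivN0 23880 91308 86645 100000 0 false, ivN0 31831 86645 81716 100000 0 false, ivN0 36623 81716 74846 100000 0 false, ivN0 41415 74846 66149 100000 0 false, ivN0 46207 66149 54762 100000 0 false, ivN0 48603 54762 47476 100000 0 false, ivN0 51000 47249 38841 99621 15000 false] [ivN0 53423 0 0 99621 15000 false, ivN0 55847 0 0 98477 30000 false] 100000 91415 16643 22611 155924 117775 false,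
  gkN 59407 0 172032 0 [ivN0 30 0 0 100000 0 false] [ivN0 15930 99985 92191 100000 0 false, ivN0 31831 92191 83674 100000 0 false, ivN0 37835 83674 75917 100000 0 false, ivN0 40837 75917 71165 100000 0 false, ivN0 43839 71165 65667 100000 0 false, ivN0 46841 65667 59216 100000 0 false, ivN0 49843 59216 51455 100000 0 false, ivN0 52845 51522 42625 99621 15000 false, ivN0 54346 42625 37204 99621 15000 false, ivN0 55847 37106 31223 98477 30000 false] [ivN0 56440 0 0 98477 30000 false, ivN0 57033 0 0 98477 30000 false, ivN0 57627 0 0 98477 30000 false, ivN0 58220 0 0 98477 30000 false, ivN0 58813 0 0 98477 30000 false, ivN0 59407 0 0 98477 30000 false] 100000 91415 10727 22126 156412 112927 false,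
  gkN 62148 0 166262 0 [ivN0 30 0 0 100000 0 false] [ivN0 7980 99986 96425 100000 0 false, ivN0 15930 96425 92727 100000 0 false, ivN0 23880 92727 88875 100000 0 false, ivN0 31831 88875 84847 100000 0 false, ivN0 35278 84847 80992 100000 0 false, ivN0 38725 80992 76515 100000 0 false, ivN0 42172 76515 71300 100000 0 false, ivN0 45619 71300 65170 100000 0 false, ivN0 49066 65170 57836 100000 0 false, ivN0 52513 57756 49445 99621 15000 false, ivN0 54236 49446 44523 99621 15000 false, ivN0 55960 44417 39264 98477 30000 false, ivN0 57683 39264 33225 98477 30000 false, ivN0 59407 33225 25680 98477 30000 false] [ivN0 59955 0 0 98477 30000 false, ivN0 60503 0 0 96512 45000 false, ivN0 61051 0 0 96512 45000 false, ivN0 61599 0 0 96512 45000 false, ivN0 62148 0 0 96512 45000 false] 100000 94477 5719 21752 156787 109048 false,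
  gkN 64070 0 162624 0 [ivN0 30 0 0 100000 0 false] [ivN0 15930 99987 93053 100000 0 false, ivN0 23880 93053 89385 100000 0 false, ivN0 31831 89385 85559 100000 0 false, ivN0 35620 85559 81513 100000 0 false, ivN0 39410 81513 76762 100000 0 false, ivN0 43199 76762 71166 100000 0 false, ivN0 46989 71166 64503 100000 0 false, ivN0 48883 64503 60666 100000 0 false, ivN0 50778 60565 56626 99621 15000 false, ivN0 52673 56626 52261 99621 15000 false, ivN0 54568 52261 47358 99621 15000 false, ivN0 56463 47343 42263 98477 30000 false, ivN0 58358 42263 36376 98477 30000 false, ivN0 60253 36376 29205 98477 30000 false, ivN0 62148 29273 20801 96512 45000 false] [ivN0 63109 0 0 96512 45000 false, ivN0 64070 0 0 96512 45000 false] 100000 96591 2049 21490 157049 106243 false,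
  gkN 65641 0 158277 0 [ivN0 30 0 0 100000 0 false] [ivN0 15930 99988 93432 100000 0 false, ivN0 23880 93432 89976 100000 0 false, ivN0 31831 89976 86381 100000 0 false, ivN0 35860 86381 82331 100000 0 false, ivN0 39890 82331 77548 100000 0 false, ivN0 43920 77548 71886 100000 0 false, ivN0 47950 71886 65116 100000 0 false, ivN0 49965 65116 61203 100000 0 false, ivN0 51980 61270 57278 99621 15000 false, ivN0 53995 57278 52850 99621 15000 false, ivN0 56010 52721 48199 98477 30000 false, ivN0 58025 48199 43109 98477 30000 false, ivN0 60040 43109 37226 98477 30000 false, ivN0 62055 37204 30936 96512 45000 false, ivN0 64070 30936 22963 96512 45000 false] [ivN0 65641 0 0 96512 45000 false] 100000 99243 0 0 0 0 false,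
  gkN 67212 0 150999 0 [ivN0 30 0 0 100000 0 false] [ivN0 7980 99989 97060 100000 0 false, ivN0 15930 97060 94041 100000 0 false, ivN0 23880 94041 90922 100000 0 false, ivN0 31831 90922 87691 100000 0 false, ivN0 36057 87691 83878 100000 0 false, ivN0 40283 83878 79373 100000 0 false, ivN0 44509 79373 74047 100000 0 false, ivN0 48736 74047 67708 100000 0 false, ivN0 51905 67612 62456 99621 15000 false, ivN0 55075 62456 56547 99621 15000 false, ivN0 58244 56626 50432 98477 30000 false, ivN0 59829 50434 46959 98477 30000 false, ivN0 61414 46893 43515 96512 45000 false, ivN0 64584 43512 35750 96512 45000 false, ivN0 65112 35756 34285 96512 45000 false, ivN0 65641 34285 29976 96512 45000 false] [ivN0 67212 0 0 96512 45000 false] 96129 100000 0 0 0 0 false,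
  gkN 68666 0 144491 0 [ivN0 30 0 0 100000 0 false] [ivN0 7980 99990 97312 100000 0 false, ivN0 15930 97312 94558 100000 0 false, ivN0 23880 94558 91722 100000 0 false, ivN0 31831 91722 88795 100000 0 false, ivN0 35147 88795 86144 100000 0 false, ivN0 38464 86144 83133 100000 0 false, ivN0 41781 83133 79721 100000 0 false, ivN0 45098 79721 75854 100000 0 false, ivN0 48415 75854 71458 100000 0 false, ivN0 50073 71458 69031 100000 0 false, ivN0 51732 69093 66704 99621 15000 false, ivN0 55049 66704 61455 99621 15000 false, ivN0 58366 61517 56112 98477 30000 false, ivN0 60024 56113 53143 98477 30000 false, ivN0 61683 53128 50296 96512 45000 false, ivN0 63341 50296 47280 96512 45000 false, ivN0 65000 47280 44042 96512 45000 false, ivN0 65553 44043 41349 96512 45000 false, ivN0 66106 41349 37838 96512 45000 false, ivN0 66659 37838 33813 96512 45000 false, ivN0 67212 33813 29049 96512 45000 false] [ivN0 68666 0 0 96512 45000 false] 91986 100000 0 0 0 0 false,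
  gkN 69886 0 139177 0 [ivN0 30 0 0 100000 0 false] [ivN0 15930 99990 94962 100000 0 false, ivN0 31831 94962 89651 100000 0 false, ivN0 35237 89651 87148 100000 0 false, ivN0 38644 87148 84304 100000 0 false, ivN0 42050 84304 81086 100000 0 false, ivN0 45457 81086 77443 100000 0 false, ivN0 48863 77443 73315 100000 0 false, ivN0 52270 73252 68927 99621 15000 false, ivN0 55677 68927 64067 99621 15000 false, ivN0 59084 64209 59274 98477 30000 false, ivN0 61638 59109 55464 96512 45000 false, ivN0 64193 55464 51528 96512 45000 false, ivN0 65045 51530 50142 96512 45000 false, ivN0 65897 50142 46357 96512 45000 false, ivN0 67033 46357 39950 96512 45000 false, ivN0 68169 39950 31601 96512 45000 false, ivN0 68666 31601 26870 96512 45000 false] [ivN0 69886 0 0 96512 45000 false] 88603 100000 0 0 0 0 false,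
  gkN 70986 0 134494 0 [ivN0 30 0 0 100000 0 false] [ivN0 7980 99991 97675 100000 0 false, ivN0 15930 97675 95303 100000 0 false, ivN0 23880 95303 92871 100000 0 false, ivN0 31831 92871 90372 100000 0 false, ivN0 35237 90372 88056 100000 0 false, ivN0 38644 88056 85432 100000 0 false, ivN0 42050 85432 82471 100000 0 false, ivN0 45457 82471 79134 100000 0 false, ivN0 47160 79134 77310 100000 0 false, ivN0 48863 77310 75373 100000 0 false, ivN0 50566 75316 73411 99621 15000 false, ivN0 52270 73411 71402 99621 15000 false, ivN0 53973 71402 69283 99621 15000 false, ivN0 55677 69210 67170 98477 30000 false, ivN0 57380 67170 65034 98477 30000 false, ivN0 59084 65034 62791 98477 30000 false, ivN0 60361 62791 61034 98477 30000 false, ivN0 61638 61073 59452 96512 45000 false, ivN0 64193 59451 56045 96512 45000 false, ivN0 65045 56047 54859 96512 45000 false, ivN0 65897 54859 51657 96512 45000 false, ivN0 67033 51657 46390 96512 45000 false, ivN0 67601 46390 43342 96512 45000 false, ivN0 68169 43342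 39927 96512 45000 false, ivN0 69027 39927 33801 96512 45000 false, ivN0 69456 33801 30101 96512 45000 false, ivN0 69886 30101 25723 96512 45000 false] [ivN0 70986 0 0 96512 45000 false] 85622 100000 0 0 0 0 false,
  gkN 71935 0 130532 0 [ivN0 30 0 0 100000 0 false] [ivN0 7980 99991 97812 100000 0 false, ivN0 15930 97812 95582 100000 0 false, ivN0 23880 95582 93299 100000 0 false, ivN0 31831 93299 90959 100000 0 false, ivN0 35237 90959 88794 100000 0 false, ivN0 38644 88794 86345 100000 0 false, ivN0 42050 86345 83589 100000 0 false, ivN0 45457 83589 80493 100000 0 false, ivN0 48863 80493 77018 100000 0 false, ivN0 52270 76965 73367 99621 15000 false, ivN0 53973 73367 71428 99621 15000 false, ivN0 55677 71361 69501 98477 30000 false, ivN0 59084 69500 65530 98477 30000 false, ivN0 61638 65399 62528 96512 45000 false, ivN0 64193 62528 59491 96512 45000 false, ivN0 65045 59493 58441 96512 45000 false, ivN0 65897 58441 55624 96512 45000 false, ivN0 67033 55624 51065 96512 45000 false, ivN0 68169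 51065 45630 96512 45000 false, ivN0 68873 45630 41652 96512 45000 false, ivN0 69577 41652 37012 96512 45000 false, ivN0 70281 37012 31397 96512 45000 false, ivN0 70633 31397 28038 96512 45000 false, ivN0 70986 28038 24096 96512 45000 false] [ivN0 71935 0 0 96512 45000 false] 83099 100000 0 0 0 0 false,
  gkN 72746 0 127198 0 [ivN0 30 0 0 100000 0 false] [ivN0 15930 99992 95810 100000 0 false, ivN0 31831 95810 91436 100000 0 false, ivN0 35237 91436 89392 100000 0 false, ivN0 38644 89392 87085 100000 0 false, ivN0 42050 87085 84493 100000 0 false, ivN0 45457 84493 81589 100000 0 false, ivN0 48863 81589 78339 100000 0 false, ivN0 52270 78289 74937 99621 15000 false, ivN0 55677 74937 71244 99621 15000 false, ivN0 59084 71351 67690 98477 30000 false, ivN0 64193 67566 62165 96512 45000 false, ivN0 65045 62171 61216 96512 45000 false, ivN0 65897 61216 58671 96512 45000 false, ivN0 67033 58671 54593 96512 45000 false, ivN0 68169 54593 49814 96512 45000 false, ivN0 69110 49814 45133 96512 45000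 false, ivN0 70052 45133 39511 96512 45000 false, ivN0 70993 39511 32430 96512 45000 false, ivN0 71935 32430 22456 96512 45000 false] [ivN0 72746 0 0 96512 45000 false] 80977 100000 0 0 0 0 false,
  gkN 73534 0 124002 0 [ivN0 30 0 0 100000 0 false] [ivN0 7980 99992 98027 100000 0 false, ivN0 15930 98027 96022 100000 0 false, ivN0 23880 96022 93974 100000 0 false, ivN0 31831 93974 91880 100000 0 false, ivN0 35237 91880 89948 100000 0 false, ivN0 38644 89948 87770 100000 0 false, ivN0 42050 87770 85329 100000 0 false, ivN0 45457 85329 82599 100000 0 false, ivN0 48863 82599 79553 100000 0 false, ivN0 52270 79507 76375 99621 15000 false, ivN0 53973 76375 74698 99621 15000 false, ivN0 55677 74640 73038 98477 30000 false, ivN0 59084 73038 69647 98477 30000 false, ivN0 60361 69648 68308 98477 30000 false, ivN0 64193 68335 64570 96512 45000 false, ivN0 65045 64573 63699 96512 45000 false, ivN0 65897 63699 61381 96512 45000 false, ivN0 67033 61381 57695 96512 45000 false, ivN0 68169 57695 53427 96512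 45000 false, ivN0 69313 53427 48345 96512 45000 false, ivN0 70457 48345 42138 96512 45000 false, ivN0 71029 42138 38425 96512 45000 false, ivN0 71601 38425 34121 96512 45000 false, ivN0 72173 34121 28948 96512 45000 false, ivN0 72746 28948 22276 96512 45000 false] [ivN0 73534 0 0 96512 45000 false] 78942 100000 0 0 0 0 false,
  gkN 74301 0 120931 0 [ivN0 30 0 0 100000 0 false] [ivN0 7980 99993 98125 100000 0 false, ivN0 15930 98125 96220 100000 0 false, ivN0 23880 96220 94278 100000 0 false, ivN0 31831 94278 92294 100000 0 false, ivN0 35237 92294 90466 100000 0 false, ivN0 38644 90466 88408 100000 0 false, ivN0 42050 88408 86105 100000 0 false, ivN0 45457 86105 83535 100000 0 false, ivN0 47160 83535 82142 100000 0 false, ivN0 48863 82142 80674 100000 0 false, ivN0 52270 80630 77698 99621 15000 false, ivN0 54825 77698 75321 99621 15000 false, ivN0 55677 75338 74585 98477 30000 false, ivN0 59084 74584 71433 98477 30000 false, ivN0 60361 71433 70192 98477 30000 false, ivN0 64193 70217 66742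 96512 45000 false, ivN0 65045 66745 65942 96512 45000 false, ivN0 65897 65942 63816 96512 45000 false, ivN0 67033 63816 60457 96512 45000 false, ivN0 68169 60457 56604 96512 45000 false, ivN0 68839 56604 54044 96512 45000 false, ivN0 69510 54044 51218 96512 45000 false, ivN0 70180 51218 48077 96512 45000 false, ivN0 70851 48077 44534 96512 45000 false, ivN0 71521 44534 40482 96512 45000 false, ivN0 72192 40482 35716 96512 45000 false, ivN0 72863 35716 29882 96512 45000 false, ivN0 73198 29882 26346 96512 45000 false, ivN0 73534 26346 22119 96512 45000 false] [ivN0 74301 0 0 96512 45000 false] 76987 100000 0 0 0 0 false,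
  gkN 75047 0 117978 0 [ivN0 30 0 0 100000 0 false] [ivN0 15930 99993 96406 100000 0 false, ivN0 23880 96406 94562 100000 0 false, ivN0 31831 94562 92680 100000 0 false, ivN0 35237 92680 90949 100000 0 false, ivN0 38644 90949 89002 100000 0 false, ivN0 42050 89002 86826 100000 0 false, ivN0 45457 86826 84403 100000 0 false, ivN0 48863 84403 81711 100000 0 false, ivN0 52270 81670 78919 99621 15000 false, ivN0 55677 78919 75919 99621 15000 false, ivN0 59084 76005 73068 98477 30000 false, ivN0 60361 73068 71914 98477 30000 false, ivN0 64193 71937 68717 96512 45000 false, ivN0 65045 68719 67978 96512 45000 false, ivN0 65897 67978 66019 96512 45000 false, ivN0 67033 66019 62938 96512 45000 false, ivN0 68169 62938 59429 96512 45000 false, ivN0 69702 59429 53810 96512 45000 false, ivN0 70468 53810 50499 96512 45000 false, ivN0 71235 50499 46735 96512 45000 false, ivN0 72001 46735 42387 96512 45000 false, ivN0 72768 42387 37216 96512 45000 false, ivN0 73534 37216 30791 96512 45000 false, ivN0 73917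 30791 26818 96512 45000 false, ivN0 74301 26818 21964 96512 45000 false] [ivN0 75047 0 0 96512 45000 false] 75107 100000 0 0 0 0 false,
  gkN 75772 0 115139 0 [ivN0 30 0 0 100000 0 false] [ivN0 15930 99993 96580 100000 0 false, ivN0 31831 96580 93041 100000 0 false, ivN0 35237 93041 91399 100000 0 false, ivN0 38644 91399 89555 100000 0 false, ivN0 42050 89555 87497 100000 0 false, ivN0 45457 87497 85209 100000 0 false, ivN0 48863 85209 82672 100000 0 false, ivN0 52270 82634 80047 99621 15000 false, ivN0 55677 80047 77234 99621 15000 false, ivN0 59084 77315 74569 98477 30000 false, ivN0 64193 74477 70517 96512 45000 false, ivN0 65045 70521 69833 96512 45000 false, ivN0 65897 69833 68020 96512 45000 false, ivN0 68169 68020 61963 96512 45000 false, ivN0 69888 61963 56171 96512 45000 false, ivN0 71608 56171 48773 96512 45000 false, ivN0 72467 48773 44174 96512 45000 false, ivN0 73327 44174 38645 96512 45000 false, ivN0 74187 38645 31665 96512 45000 false, ivN0 75047 31665 21807 96512 45000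 false] [ivN0 75772 0 0 96512 45000 false] 73300 100000 0 0 0 0 false,
  gkN 76571 0 112043 0 [ivN0 30 0 0 100000 0 false] [ivN0 15930 99994 96764 100000 0 false, ivN0 31831 96764 93424 100000 0 false, ivN0 35237 93424 91876 100000 0 false, ivN0 38644 91876 90140 100000 0 false, ivN0 42050 90140 88205 100000 0 false, ivN0 45457 88205 86058 100000 0 false, ivN0 48863 86058 83682 100000 0 false, ivN0 52270 83646 81229 99621 15000 false, ivN0 55677 81229 78608 99621 15000 false, ivN0 59084 78683 76132 98477 30000 false, ivN0 64193 76046 72384 96512 45000 false, ivN0 65045 72388 71753 96512 45000 false, ivN0 65897 71753 70084 96512 45000 false, ivN0 68169 70084 64546 96512 45000 false, ivN0 70069 64546 58697 96512 45000 false, ivN0 71970 58697 51145 96512 45000 false, ivN0 72920 51145 46408 96512 45000 false, ivN0 73871 46408 40677 96512 45000 false, ivN0 74821 40677 33400 96512 45000 false, ivN0 75772 33400 23036 96512 45000 false] [ivN0 76571 0 0 96512 45000 false] 71329 100000 0 0 0 0 false,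
  gkN 77526 0 108384 0 [ivN0 30 0 0 100000 0 false] [ivN0 15930 99994 96975 100000 0 false, ivN0 31831 96975 93860 100000 0 false, ivN0 35237 93860 92419 100000 0 false, ivN0 38644 92419 90806 100000 0 false, ivN0 42050 90806 89010 100000 0 false, ivN0 45457 89010 87020 100000 0 false, ivN0 48863 87020 84824 100000 0 false, ivN0 52270 84791 82563 99621 15000 false, ivN0 55677 82563 80154 99621 15000 false, ivN0 59084 80223 77885 98477 30000 false, ivN0 64193 77807 74466 96512 45000 false, ivN0 65045 74470 73893 96512 45000 false, ivN0 65897 73893 72379 96512 45000 false, ivN0 68169 72379 67387 96512 45000 false, ivN0 69219 67387 64650 96512 45000 false, ivN0 70269 64650 61562 96512 45000 false, ivN0 71319 61562 58040 96512 45000 false, ivN0 72370 58040 53963 96512 45000 false, ivN0 73420 53963 49160 96512 45000 false, ivN0 74470 49160 43329 96512 45000 false, ivN0 75520 43329 35895 96512 45000 false, ivN0 76045 35895 31198 96512 45000 false, ivN0 76571 31198 25349 96512 45000 false] [ivN0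 77526 0 0 96512 45000 false] 68999 100000 0 0 0 0 false,
  gkN 78705 0 103922 0 [ivN0 30 0 0 100000 0 false] [ivN0 15930 99994 97223 100000 0 false, ivN0 31831 97223 94370 100000 0 false, ivN0 35237 94370 93054 100000 0 false, ivN0 38644 93054 91581 100000 0 false, ivN0 42050 91581 89946 100000 0 false, ivN0 45457 89946 88138 100000 0 false, ivN0 48863 88138 86147 100000 0 false, ivN0 52270 86117 84103 99621 15000 false, ivN0 55677 84103 81933 99621 15000 false, ivN0 59084 81995 79896 98477 30000 false, ivN0 64193 79826 76841 96512 45000 false, ivN0 65045 76844 76330 96512 45000 false, ivN0 65897 76330 74984 96512 45000 false, ivN0 67033 74984 72900 96512 45000 false, ivN0 68169 72900 70578 96512 45000 false, ivN0 69338 70578 67895 96512 45000 false, ivN0 70508 67895 64847 96512 45000 false, ivN0 71677 64847 61353 96512 45000 false, ivN0 72847 61353 57284 96512 45000 false, ivN0 74016 57284 52460 96512 45000 false, ivN0 74601 52460 49674 96512 45000 false, ivN0 75186 49674 46567 96512 45000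 false, ivN0 75771 46567 43059 96512 45000 false, ivN0 76356 43059 39028 96512 45000 false, ivN0 76941 39028 34270 96512 45000 false, ivN0 77526 34270 28399 96512 45000 false] [ivN0 78705 0 0 96512 45000 false] 66159 100000 0 0 0 0 false,
  gkN 80153 0 98515 0 [ivN0 30 0 0 100000 0 false] [ivN0 15930 99995 97508 100000 0 false, ivN0 31831 97508 94956 100000 0 false, ivN0 38644 94956 92469 100000 0 false, ivN0 45457 92469 89412 100000 0 false, ivN0 48863 89412 87651 100000 0 false, ivN0 52270 87625 85849 99621 15000 false, ivN0 55677 85849 83941 99621 15000 false, ivN0 59084 83996 82158 98477 30000 false, ivN0 64193 82097 79496 96512 45000 false, ivN0 65045 79498 79053 96512 45000 false, ivN0 65897 79053 77886 96512 45000 false, ivN0 68169 77886 74094 96512 45000 false, ivN0 70803 74094 68525 96512 45000 false, ivN0 72120 68525 65089 96512 45000 false, ivN0 73437 65089 61057 96512 45000 false, ivN0 74754 61057 56231 96512 45000 false, ivN0 76071 56231 50290 96512 45000 false, ivN0 77388 50290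 42637 96512 45000 false, ivN0 78046 42637 37799 96512 45000 false, ivN0 78705 37799 31838 96512 45000 false] [ivN0 80153 0 0 96512 45000 false] 62717 100000 0 0 0 0 false,
  gkN 82117 0 91277 0 [ivN0 30 0 0 100000 0 false] [ivN0 15930 99996 97864 100000 0 false, ivN0 31831 97864 95686 100000 0 false, ivN0 38644 95686 93572 100000 0 false, ivN0 42050 93572 92340 100000 0 false, ivN0 45457 92340 90985 100000 0 false, ivN0 48863 90985 89502 100000 0 false, ivN0 52270 89480 87990 99621 15000 false, ivN0 55677 87990 86396 99621 15000 false, ivN0 59084 86441 84911 98477 30000 false, ivN0 64193 84860 82707 96512 45000 false, ivN0 65045 82710 82342 96512 45000 false, ivN0 65897 82342 81382 96512 45000 false, ivN0 68169 81382 78283 96512 45000 false, ivN0 69667 78283 75872 96512 45000 false, ivN0 71165 75872 73089 96512 45000 false, ivN0 72663 73089 69841 96512 45000 false, ivN0 74161 69841 65993 96512 45000 false, ivN0 75659 65993 61345 96512 45000 false, ivN0 77157 61345 55574 96512 45000 false,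 ivN0 78655 55574 48098 96512 45000 false, ivN0 79404 48098 43376 96512 45000 false, ivN0 80153 43376 37622 96512 45000 false] [ivN0 82117 0 0 96512 45000 false] 58109 100000 0 0 0 0 false,
  gkN 84853 0 81296 0 [ivN0 30 0 0 100000 0 false] [ivN0 15930 99996 98310 100000 0 false, ivN0 31831 98310 96593 100000 0 false, ivN0 35237 96593 95809 100000 0 false, ivN0 38644 95809 94936 100000 0 false, ivN0 42050 94936 93975 100000 0 false, ivN0 45457 93975 92921 100000 0 false, ivN0 48863 92921 91771 100000 0 false, ivN0 52270 91754 90603 99621 15000 false, ivN0 55677 90603 89378 99621 15000 false, ivN0 59084 89413 88242 98477 30000 false, ivN0 64193 88204 86566 96512 45000 false, ivN0 65045 86568 86289 96512 45000 false, ivN0 65897 86289 85564 96512 45000 false, ivN0 68169 85564 83239 96512 45000 false, ivN0 69912 83239 81133 96512 45000 false, ivN0 71656 81133 78670 96512 45000 false, ivN0 73399 78670 75758 96512 45000 false, ivN0 75143 75758 72258 96512 45000 false, ivN0 76014 72258 70229 96512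 45000 false, ivN0 76886 70229 67968 96512 45000 false, ivN0 77758 67968 65430 96512 45000 false, ivN0 78630 65430 62558 96512 45000 false, ivN0 79501 62558 59275 96512 45000 false, ivN0 80373 59275 55461 96512 45000 false, ivN0 81245 55461 50951 96512 45000 false, ivN0 82117 50951 45468 96512 45000 false] [ivN0 84853 0 0 96512 45000 false] 51755 100000 0 0 0 0 false,
  gkN 88627 0 67444 0 [ivN0 30 0 0 100000 0 false] [ivN0 31831 99997 97668 100000 0 false, ivN0 38644 97668 96543 100000 0 false, ivN0 45457 96543 95184 100000 0 false, ivN0 52270 95184 93580 100000 0 false, ivN0 59084 93587 92068 98477 30000 false, ivN0 64193 92043 90967 96512 45000 false, ivN0 65897 90968 90312 96512 45000 false, ivN0 68169 90312 88804 96512 45000 false, ivN0 70254 88804 87164 96512 45000 false, ivN0 72340 87164 85209 96512 45000 false, ivN0 74425 85209 82850 96512 45000 false, ivN0 76511 82850 79947 96512 45000 false, ivN0 78596 79947 76297 96512 45000 false, ivN0 80682 76297 71561 96512 45000 false, ivN0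 81724 71561 68620 96512 45000 false, ivN0 82767 68620 65149 96512 45000 false, ivN0 83810 65149 60977 96512 45000 false, ivN0 84853 60977 55834 96512 45000 false] [ivN0 88627 0 0 96512 45000 false] 42936 100000 0 0 0 0 false,
  gkN 93456 0 48516 0 [ivN0 30 0 0 100000 0 false] [ivN0 31831 99998 98800 100000 0 false, ivN0 45457 98800 97537 100000 0 false, ivN0 52270 97537 96731 100000 0 false, ivN0 59084 96734 95977 98477 30000 false, ivN0 65897 95964 95110 96512 45000 false, ivN0 68169 95110 94372 96512 45000 false, ivN0 72004 94372 92803 96512 45000 false, ivN0 75840 92803 90643 96512 45000 false, ivN0 79676 90643 87519 96512 45000 false, ivN0 81594 87519 85381 96512 45000 false, ivN0 83512 85381 82648 96512 45000 false, ivN0 86069 82648 77562 96512 45000 false, ivN0 87348 77562 74039 96512 45000 false, ivN0 88627 74039 69465 96512 45000 false] [ivN0 93456 0 0 96512 45000 false] 30886 100000 0 0 0 0 false,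
  gkN 97981 0 25704 0 [ivN0 30 0 0 100000 0 false] [ivN0 31831 99999 99664 100000 0 false, ivN0 45457 99664 99315 100000 0 false, ivN0 59084 99306 98872 99621 15000 false, ivN0 65897 98883 98651 96512 45000 false, ivN0 68169 98651 98452 96512 45000 false, ivN0 72910 98452 97914 96512 45000 false, ivN0 77651 97914 97121 96512 45000 false, ivN0 82392 97121 95860 96512 45000 false, ivN0 84763 95860 94912 96512 45000 false, ivN0 87134 94912 93589 96512 45000 false, ivN0 90295 93589 90737 96512 45000 false, ivN0 91875 90737 88403 96512 45000 false, ivN0 93456 88403 84812 96512 45000 false] [ivN0 97981 0 0 96512 45000 false] 16364 100000 0 0 0 0 false,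
  gkN 99800 0 7942 0 [ivN0 30 0 0 100000 0 false] [ivN0 31831 99999 99968 100000 0 false, ivN0 68169 99963 99853 98477 30000 false, ivN0 90528 99853 99127 96512 45000 false, ivN0 97981 99127 95106 96512 45000 false] [ivN0 99800 0 0 96512 45000 false] 5056 100000 0 0 0 0 false]

/-- Certificate data. -/
def gapSAN : List (ℕ × List GCertN) := [
  (30, gapSA0)]

def gapSA : List (ℚ × List GCert) := toGs gapSAN

theorem gapSA_ok : gStrips gapSAPar (d 26600) (d 36000) (d 12000) (d 30) (d 31830) (d 99800) (d 0) gapSA = true :=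
  gStripsN_sound (p := gapSAParN) (V0 := 26600) (V1 := 36000) (e := 12000) (A1 := 30)
    (B0 := 31830) (B1 := 99800) (by decide) gapSAN 0 (by decide +kernel)

end Vale.Agent.P232
end
end

section

section

namespace Vale.Agent.P232

/-- Parameters. -/
def gapSBPar : Par := ⟨d 50000, d 53000, [(d 99831, d 10000), (d 98946, d 25000), (d 97263, d 40000)]⟩

/-- Parameters. -/
def gapSBParN : ParN := ⟨50000, 53000, [(99831, 10000), (98946, 25000), (97263, 40000)]⟩

/-- Certificate data. -/
def gapSB0 : List GCertN := [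
  gkN 45334 0 220584 0 [ivN0 30 0 0 100000 0 false] [ivN0 15930 99976 86791 100000 0 true, ivN0 31830 86791 71204 100000 0 true] [ivN0 45334 0 0 100000 0 true] 100000 91415 44768 24045 184937 144769 true,
  gkN 53339 0 187789 0 [ivN0 30 0 0 100000 0 false] [ivN0 7980 99983 95416 100000 0 true, ivN0 15930 95416 90619 100000 0 true, ivN0 23880 90619 85553 100000 0 true, ivN0 31831 85553 80168 100000 0 true, ivN0 35206 80168 75027 100000 0 true, ivN0 38582 75027 68924 100000 0 true, ivN0 41958 68924 61577 100000 0 true, ivN0 45334 61577 52464 100000 0 true] [ivN0 48002 0 0 100000 0 true, ivN0 50670 0 0 100000 0 true, ivN0 53339 0 0 99831 10000 true] 100000 91415 29500 22953 186997 129665 true,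
  gkN 58771 0 172089 0 [ivN0 30 0 0 100000 0 false] [ivN0 15930 99985 92186 100000 0 true, ivN0 23880 92186 88027 100000 0 true, ivN0 31831 88027 83662 100000 0 true, ivN0 37208 83662 76811 100000 0 true, ivN0 42585 76811 68039 100000 0 true, ivN0 45273 68039 62690 100000 0 true, ivN0 47962 62690 56458 100000 0 true, ivN0 50650 56458 49016 100000 0 true, ivN0 53339 48854 40027 99831 10000 true] [ivN0 55149 0 0 99831 10000 true, ivN0 56960 0 0 98946 25000 true, ivN0 58771 0 0 98946 25000 true] 100000 91415 18277 22213 188394 119416 true,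
  gkN 62565 0 163492 0 [ivN0 30 0 0 100000 0 false] [ivN0 7980 99987 96545 100000 0 true, ivN0 15930 96545 92976 100000 0 true, ivN0 23880 92976 89264 100000 0 true, ivN0 31831 89264 85391 100000 0 true, ivN0 35198 85391 81783 100000 0 true, ivN0 38566 81783 77617 100000 0 true, ivN0 41933 77617 72800 100000 0 true, ivN0 45301 72800 67190 100000 0 true, ivN0 48668 67190 60571 100000 0 true, ivN0 52036 60571 52557 100000 0 true, ivN0 55403 52604 43080 99831 10000 true, ivN0 57087 42939 37585 98946 25000 true, ivN0 58771 37585 31212 98946 25000 true] [ivN0 59719 0 0 98946 25000 true, ivN0 60668 0 0 98946 25000 true, ivN0 61616 0 0 97263 40000 true, ivN0 62565 0 0 97263 40000 true] 100000 96078 9968 21695 189371 112258 true,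
  gkN 64955 0 158948 0 [ivN0 30 0 0 100000 0 false] [ivN0 15930 99987 93375 100000 0 true, ivN0 23880 93375 89886 100000 0 true, ivN0 31831 89886 86256 100000 0 true, ivN0 35672 86256 82371 100000 0 true, ivN0 39514 82371 77815 100000 0 true, ivN0 43356 77815 72463 100000 0 true, ivN0 47198 72463 66120 100000 0 true, ivN0 51039 66120 58469 100000 0 true, ivN0 54881 58395 49384 99831 10000 true, ivN0 56802 49150 44190 98946 25000 true, ivN0 58723 44190 38481 98946 25000 true, ivN0 60644 38481 31623 98946 25000 true, ivN0 62565 31378 23410 97263 40000 true] [ivN0 63760 0 0 97263 40000 true, ivN0 64955 0 0 97263 40000 true] 100000 98825 4502 21369 189986 107748 true,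
  gkN 66409 0 156344 0 [ivN0 30 0 0 100000 0 false] [ivN0 7980 99988 96845 100000 0 true, ivN0 15930 96845 93597 100000 0 true, ivN0 23880 93597 90233 100000 0 true, ivN0 31831 90233 86737 100000 0 true, ivN0 34936 86737 83765 100000 0 true, ivN0 38041 83765 80391 100000 0 true, ivN0 41146 80391 76562 100000 0 true, ivN0 44252 76562 72203 100000 0 true, ivN0 47357 72203 67216 100000 0 true, ivN0 50463 67216 61444 100000 0 true, ivN0 53568 61319 54882 99831 10000 true, ivN0 55121 54883 51224 99831 10000 true, ivN0 56674 51056 47375 98946 25000 true, ivN0 58744 47375 41864 98946 25000 true, ivN0 60814 41864 35368 98946 25000 true, ivN0 62884 35218 28012 97263 40000 true, ivN0 63919 28014 23568 97263 40000 true, ivN0 64955 23568 18027 97263 40000 true] [ivN0 65682 0 0 97263 40000 true, ivN0 66409 0 0 97263 40000 true] 99532 100000 1178 21171 190360 105005 true,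
  gkN 67746 0 151274 0 [ivN0 30 0 0 100000 0 false] [ivN0 7980 99989 97050 100000 0 true, ivN0 15930 97050 94019 100000 0 true, ivN0 23880 94019 90887 100000 0 true, ivN0 31831 90887 87643 100000 0 true, ivN0 36153 87643 83719 100000 0 true, ivN0 40475 83719 79063 100000 0 true, ivN0 44797 79063 73537 100000 0 true, ivN0 49120 73537 66922 100000 0 true, ivN0 51281 66922 63104 100000 0 true, ivN0 53442 63065 59051 99831 10000 true, ivN0 55603 59051 54589 99831 10000 true, ivN0 57764 54532 49980 98946 25000 true, ivN0 59925 49980 44855 98946 25000 true, ivN0 62086 44855 38937 98946 25000 true, ivN0 64247 39212 33011 97263 40000 true, ivN0 66409 33011 25256 97263 40000 true] [ivN0 66743 0 0 97263 40000 true, ivN0 67077 0 0 97263 40000 true, ivN0 67411 0 0 97263 40000 true, ivN0 67746 0 0 97263 40000 true] 96304 100000 0 0 0 0 false,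
  gkN 69200 0 144131 0 [ivN0 30 0 0 100000 0 false] [ivN0 15930 99990 94586 100000 0 true, ivN0 31831 94586 88854 100000 0 true, ivN0 35198 88854 86176 100000 0 true, ivN0 38565 86176 83128 100000 0 true, ivN0 41932 83128 79670 100000 0 true, ivN0 45299 79670 75744 100000 0 true, ivN0 48666 75744 71274 100000 0 true, ivN0 52033 71274 66148 100000 0 true, ivN0 55400 66177 60590 99831 10000 true, ivN0 58767 60511 54644 98946 25000 true, ivN0 62134 54644 47835 98946 25000 true, ivN0 65501 48048 40910 97263 40000 true, ivN0 66623 40913 38216 97263 40000 true, ivN0 67184 38216 35410 97263 40000 true, ivN0 67746 35410 30363 97263 40000 true] [ivN0 68109 0 0 97263 40000 true, ivN0 68473 0 0 97263 40000 true, ivN0 68836 0 0 97263 40000 true, ivN0 69200 0 0 97263 40000 true] 91757 100000 0 0 0 0 false,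
  gkN 70537 0 137823 0 [ivN0 30 0 0 100000 0 false] [ivN0 15930 99990 95062 100000 0 true, ivN0 31831 95062 89863 100000 0 true, ivN0 38644 89863 84636 100000 0 true, ivN0 42050 84636 81493 100000 0 true, ivN0 45457 81493 77941 100000 0 true, ivN0 48863 77941 73923 100000 0 true, ivN0 52270 73923 69355 100000 0 true, ivN0 55677 69399 64484 99831 10000 true, ivN0 59084 64453 59391 98946 25000 true, ivN0 62490 59391 53664 98946 25000 true, ivN0 65897 53908 48142 97263 40000 true, ivN0 67033 48145 45624 97263 40000 true, ivN0 68169 45624 38236 97263 40000 true, ivN0 69200 38238 29247 97263 40000 true] [ivN0 69467 0 0 97263 40000 true, ivN0 69734 0 0 97263 40000 true, ivN0 70002 0 0 97263 40000 true, ivN0 70269 0 0 97263 40000 true, ivN0 70537 0 0 97263 40000 true] 87741 100000 0 0 0 0 false,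
  gkN 71728 0 132399 0 [ivN0 30 0 0 100000 0 false] [ivN0 15930 99991 95452 100000 0 true, ivN0 31831 95452 90685 100000 0 true, ivN0 38644 90685 85919 100000 0 true, ivN0 45457 85919 79861 100000 0 true, ivN0 48863 79861 76253 100000 0 true, ivN0 52270 76253 72184 100000 0 true, ivN0 55677 72223 67889 99831 10000 true, ivN0 59084 67862 63456 98946 25000 true, ivN0 62490 63456 58559 98946 25000 true, ivN0 65897 58766 53948 97263 40000 true, ivN0 67033 53951 51890 97263 40000 true, ivN0 68169 51890 46052 97263 40000 true, ivN0 69353 46051 38394 97263 40000 true, ivN0 70537 38394 27757 97263 40000 true] [ivN0 71132 0 0 97263 40000 true, ivN0 71728 0 0 97263 40000 true] 84288 100000 0 0 0 0 false,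
  gkN 72873 0 127357 0 [ivN0 30 0 0 100000 0 false] [ivN0 7980 99992 97918 100000 0 true, ivN0 15930 97918 95799 100000 0 true, ivN0 23880 95799 93632 100000 0 true, ivN0 31831 93632 91414 100000 0 true, ivN0 35237 91414 89364 100000 0 true, ivN0 38644 89364 87050 100000 0 true, ivN0 42050 87050 84451 100000 0 true, ivN0 45457 84451 81537 100000 0 true, ivN0 48863 81537 78277 100000 0 true, ivN0 50566 78277 76503 100000 0 true, ivN0 52270 76503 74622 100000 0 true, ivN0 55677 74656 70794 99831 10000 true, ivN0 59084 70770 66880 98946 25000 true, ivN0 60787 66881 64798 98946 25000 true, ivN0 62490 64740 62792 97263 40000 true, ivN0 65897 62790 58652 97263 40000 true, ivN0 67033 58655 56908 97263 40000 true, ivN0 68169 56908 52052 97263 40000 true, ivN0 69058 52055 47595 97263 40000 true, ivN0 69948 47595 42323 97263 40000 true, ivN0 70393 42329 39283 97263 40000 true, ivN0 70838 39283 35867 97263 40000 true, ivN0 71283 35867 31958 97263 40000 true, ivN0 71728 31958 27338 97263 40000 true]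 [ivN0 71918 0 0 97263 40000 true, ivN0 72109 0 0 97263 40000 true, ivN0 72300 0 0 97263 40000 true, ivN0 72491 0 0 97263 40000 true, ivN0 72682 0 0 97263 40000 true, ivN0 72873 0 0 97263 40000 true] 81078 100000 0 0 0 0 false,
  gkN 73868 0 123100 0 [ivN0 30 0 0 100000 0 false] [ivN0 15930 99992 96081 100000 0 true, ivN0 31831 96081 92003 100000 0 true, ivN0 35237 92003 90102 100000 0 true, ivN0 38644 90102 87960 100000 0 true, ivN0 42050 87960 85560 100000 0 true, ivN0 45457 85560 82877 100000 0 true, ivN0 48863 82877 79887 100000 0 true, ivN0 52270 79887 76549 100000 0 true, ivN0 55677 76580 73073 99831 10000 true, ivN0 59084 73051 69543 98946 25000 true, ivN0 62490 69543 65725 98946 25000 true, ivN0 65897 65884 62220 97263 40000 true, ivN0 67033 62222 60687 97263 40000 true, ivN0 68169 60687 56468 97263 40000 true, ivN0 69345 56468 51318 97263 40000 true, ivN0 70521 51318 45055 97263 40000 true, ivN0 71697 45055 37050 97263 40000 true, ivN0 72873 37050 25613 97263 40000 true] [ivN0 73072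 0 0 97263 40000 true, ivN0 73271 0 0 97263 40000 true, ivN0 73470 0 0 97263 40000 true, ivN0 73669 0 0 97263 40000 true, ivN0 73868 0 0 97263 40000 true] 78368 100000 0 0 0 0 false,
  gkN 74828 0 119100 0 [ivN0 30 0 0 100000 0 false] [ivN0 15930 99993 96336 100000 0 true, ivN0 31831 96336 92535 100000 0 true, ivN0 35237 92535 90767 100000 0 true, ivN0 38644 90767 88778 100000 0 true, ivN0 42050 88778 86555 100000 0 true, ivN0 45457 86555 84076 100000 0 true, ivN0 48863 84076 81321 100000 0 true, ivN0 52270 81321 78259 100000 0 true, ivN0 55677 78287 75084 99831 10000 true, ivN0 59084 75064 71878 98946 25000 true, ivN0 60787 71878 70190 98946 25000 true, ivN0 63342 70143 67774 97263 40000 true, ivN0 65897 67774 65293 97263 40000 true, ivN0 67033 65294 63928 97263 40000 true, ivN0 68169 63928 60201 97263 40000 true, ivN0 69593 60197 54671 97263 40000 true, ivN0 70305 54680 51454 97263 40000 true, ivN0 71018 51454 47818 97263 40000 true, ivN0 71730 47818 43668 97263 40000 true, ivN0 72443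 43668 38810 97263 40000 true, ivN0 73155 38810 32931 97263 40000 true, ivN0 73868 32931 25275 97263 40000 true] [ivN0 74060 0 0 97263 40000 true, ivN0 74252 0 0 97263 40000 true, ivN0 74444 0 0 97263 40000 true, ivN0 74636 0 0 97263 40000 true, ivN0 74828 0 0 97263 40000 true] 75821 100000 0 0 0 0 false,
  gkN 75754 0 115335 0 [ivN0 30 0 0 100000 0 false] [ivN0 15930 99993 96568 100000 0 true, ivN0 31831 96568 93017 100000 0 true, ivN0 35237 93017 91369 100000 0 true, ivN0 38644 91369 89518 100000 0 true, ivN0 42050 89518 87452 100000 0 true, ivN0 45457 87452 85154 100000 0 true, ivN0 48863 85154 82607 100000 0 true, ivN0 52270 82607 79784 100000 0 true, ivN0 55677 79811 76870 99831 10000 true, ivN0 59084 76852 73940 98946 25000 true, ivN0 60787 73941 72404 98946 25000 true, ivN0 65897 72358 67969 97263 40000 true, ivN0 67033 67973 66744 97263 40000 true, ivN0 68169 66744 63410 97263 40000 true, ivN0 69833 63404 57604 97263 40000 true, ivN0 71498 57604 50268 97263 40000 true, ivN0 72330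 50283 45777 97263 40000 true, ivN0 73163 45777 40429 97263 40000 true, ivN0 73995 40429 33828 97263 40000 true, ivN0 74828 33828 24931 97263 40000 true] [ivN0 75291 0 0 97263 40000 true, ivN0 75754 0 0 97263 40000 true] 73425 100000 0 0 0 0 false,
  gkN 76741 0 111425 0 [ivN0 30 0 0 100000 0 false] [ivN0 15930 99994 96801 100000 0 true, ivN0 31831 96801 93498 100000 0 true, ivN0 35237 93498 91969 100000 0 true, ivN0 38644 91969 90254 100000 0 true, ivN0 42050 90254 88344 100000 0 true, ivN0 45457 88344 86223 100000 0 true, ivN0 48863 86223 83878 100000 0 true, ivN0 52270 83878 81288 100000 0 true, ivN0 55677 81313 78624 99831 10000 true, ivN0 59084 78607 75956 98946 25000 true, ivN0 60787 75956 74561 98946 25000 true, ivN0 65897 74520 70558 97263 40000 true, ivN0 67033 70561 69457 97263 40000 true, ivN0 68169 69457 66478 97263 40000 true, ivN0 70065 66470 60543 97263 40000 true, ivN0 71013 60556 57014 97263 40000 true, ivN0 71961 57014 52957 97263 40000 true, ivN0 72909 52957 48228 97263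 40000 true, ivN0 73857 48228 42571 97263 40000 true, ivN0 74805 42571 35501 97263 40000 true, ivN0 75279 35511 31139 97263 40000 true, ivN0 75754 31139 25822 97263 40000 true] [ivN0 76247 0 0 97263 40000 true, ivN0 76741 0 0 97263 40000 true] 70935 100000 0 0 0 0 false,
  gkN 77870 0 107076 0 [ivN0 30 0 0 100000 0 false] [ivN0 7980 99994 98533 100000 0 true, ivN0 15930 98533 97049 100000 0 true, ivN0 23880 97049 95543 100000 0 true, ivN0 31831 95543 94012 100000 0 true, ivN0 35237 94012 92608 100000 0 true, ivN0 38644 92608 91037 100000 0 true, ivN0 42050 91037 89290 100000 0 true, ivN0 45457 89290 87354 100000 0 true, ivN0 48863 87354 85220 100000 0 true, ivN0 52270 85220 82870 100000 0 true, ivN0 55677 82892 80461 99831 10000 true, ivN0 59084 80446 78058 98946 25000 true, ivN0 60787 78059 76807 98946 25000 true, ivN0 63342 76772 75033 97263 40000 true, ivN0 65897 75033 73233 97263 40000 true, ivN0 67033 73234 72253 97263 40000 true, ivN0 68169 72253 69617 97263 40000 true, ivN0 69240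 69617 66825 97263 40000 true, ivN0 70312 66825 63671 97263 40000 true, ivN0 71383 63671 60080 97263 40000 true, ivN0 72455 60080 55934 97263 40000 true, ivN0 73526 55934 51071 97263 40000 true, ivN0 74062 51077 48294 97263 40000 true, ivN0 74598 48294 45213 97263 40000 true, ivN0 75133 45213 41769 97263 40000 true, ivN0 75669 41769 37840 97263 40000 true, ivN0 76205 37840 33252 97263 40000 true, ivN0 76741 33252 27668 97263 40000 true] [ivN0 77870 0 0 97263 40000 false] 68167 100000 0 0 0 0 false,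
  gkN 79202 0 102058 0 [ivN0 30 0 0 100000 0 false] [ivN0 15930 99995 97323 100000 0 true, ivN0 31831 97323 94576 100000 0 true, ivN0 35237 94576 93309 100000 0 true, ivN0 38644 93309 91894 100000 0 true, ivN0 42050 91894 90323 100000 0 true, ivN0 45457 90323 88587 100000 0 true, ivN0 48863 88587 86678 100000 0 true, ivN0 52270 86678 84582 100000 0 true, ivN0 55677 84602 82442 99831 10000 true, ivN0 59084 82429 80316 98946 25000 true, ivN0 60787 80316 79212 98946 25000 true, ivN0 65897 79180 76073 97263 40000 true, ivN0 67033 76076 75219 97263 40000 true, ivN0 68169 75219 72926 97263 40000 true, ivN0 69381 72926 70174 97263 40000 true, ivN0 70594 70174 67043 97263 40000 true, ivN0 71806 67043 63451 97263 40000 true, ivN0 73019 63451 59271 97263 40000 true, ivN0 74231 59271 54331 97263 40000 true, ivN0 75444 54331 48330 97263 40000 true, ivN0 76657 48330 40729 97263 40000 true, ivN0 77263 40743 36012 97263 40000 true, ivN0 77870 36012 30249 97263 40000 true] [ivN0 79202 0 0 97263 40000 false]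 64972 100000 0 0 0 0 false,
  gkN 80857 0 95909 0 [ivN0 30 0 0 100000 0 false] [ivN0 15930 99995 97640 100000 0 true, ivN0 31831 97640 95226 100000 0 true, ivN0 38644 95226 92878 100000 0 true, ivN0 45457 92878 89995 100000 0 true, ivN0 52270 89995 86526 100000 0 true, ivN0 55677 86543 84682 99831 10000 true, ivN0 59084 84671 82858 98946 25000 true, ivN0 65897 82735 79242 97263 40000 true, ivN0 67033 79246 78520 97263 40000 true, ivN0 68169 78520 76586 97263 40000 true, ivN0 69548 76584 73940 97263 40000 true, ivN0 70927 73940 70907 97263 40000 true, ivN0 72306 70907 67396 97263 40000 true, ivN0 73685 67396 63279 97263 40000 true, ivN0 75064 63279 58370 97263 40000 true, ivN0 76443 58370 52373 97263 40000 true, ivN0 77822 52373 44749 97263 40000 true, ivN0 78512 44770 40008 97263 40000 false, ivN0 79202 40008 34187 97263 40000 false] [ivN0 80857 0 0 97263 40000 false] 61058 100000 0 0 0 0 false,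
  gkN 83121 0 87606 0 [ivN0 30 0 0 100000 0 false] [ivN0 15930 99996 98034 100000 0 true, ivN0 31831 98034 96033 100000 0 true, ivN0 36373 96033 94787 100000 0 true, ivN0 40915 94787 93355 100000 0 true, ivN0 45457 93355 91728 100000 0 true, ivN0 50000 91728 89896 100000 0 true, ivN0 53406 89859 88422 99831 10000 true, ivN0 56813 88422 86879 99831 10000 true, ivN0 60219 86917 85431 98946 25000 true, ivN0 63626 85383 83993 97263 40000 true, ivN0 66181 83993 82922 97263 40000 true, ivN0 67033 82922 82466 97263 40000 true, ivN0 68169 82466 80934 97263 40000 true, ivN0 69755 80931 78518 97263 40000 true, ivN0 71341 78518 75722 97263 40000 true, ivN0 72927 75722 72454 97263 40000 true, ivN0 74513 72454 68587 97263 40000 true, ivN0 76099 68587 63941 97263 40000 true, ivN0 77685 63941 58234 97263 40000 true, ivN0 78478 58250 54855 97263 40000 false, ivN0 79271 54855 50933 97263 40000 false, ivN0 80064 50933 46312 97263 40000 false, ivN0 80857 46312 40701 97263 40000 false] [ivN0 83121 0 0 97263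 40000 false] 55772 100000 0 0 0 0 false,
  gkN 86224 0 76297 0 [ivN0 30 0 0 100000 0 false] [ivN0 31831 99997 97006 100000 0 true, ivN0 40915 97006 95002 100000 0 true, ivN0 45457 95002 93793 100000 0 true, ivN0 50000 93793 92437 100000 0 true, ivN0 56813 92410 90222 99831 10000 true, ivN0 63626 90250 88036 98946 25000 true, ivN0 67033 88125 87013 97263 40000 true, ivN0 68169 87024 85927 97263 40000 true, ivN0 70038 85924 83877 97263 40000 true, ivN0 71907 83877 81472 97263 40000 true, ivN0 73776 81472 78620 97263 40000 true, ivN0 75645 78620 75202 97263 40000 true, ivN0 77514 75202 71042 97263 40000 true, ivN0 79383 71054 65851 97263 40000 false, ivN0 81252 65851 58949 97263 40000 false, ivN0 82186 58949 54535 97263 40000 false, ivN0 83121 54535 49145 97263 40000 false] [ivN0 86224 0 0 97263 40000 false] 48572 100000 0 0 0 0 false,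
  gkN 90501 0 60361 0 [ivN0 30 0 0 100000 0 false] [ivN0 31831 99998 98136 100000 0 true, ivN0 36373 98136 97560 100000 0 true, ivN0 40915 97560 96902 100000 0 true, ivN0 45457 96902 96162 100000 0 true, ivN0 50000 96162 95336 100000 0 true, ivN0 56813 95320 93999 99831 10000 true, ivN0 60219 94016 93367 98946 25000 true, ivN0 63626 93347 92746 97263 40000 true, ivN0 67033 92746 92086 97263 40000 true, ivN0 68169 92093 91445 97263 40000 true, ivN0 70425 91442 89974 97263 40000 true, ivN0 72682 89974 88213 97263 40000 true, ivN0 74939 88213 86082 97263 40000 true, ivN0 76067 86088 84854 97263 40000 true, ivN0 77196 84854 83484 97263 40000 true, ivN0 78324 83482 81961 97263 40000 false, ivN0 79453 81961 80229 97263 40000 false, ivN0 80581 80229 78243 97263 40000 false, ivN0 81710 78243 75937 97263 40000 false, ivN0 82838 75937 73231 97263 40000 false, ivN0 83967 73231 70000 97263 40000 false, ivN0 85095 70000 66073 97263 40000 false, ivN0 86224 66073 61164 97263 40000 false] [ivN0 90501 0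 0 97263 40000 false] 38427 100000 0 0 0 0 false,
  gkN 95501 0 39366 0 [ivN0 30 0 0 100000 0 false] [ivN0 31831 99999 99211 100000 0 true, ivN0 40915 99211 98694 100000 0 true, ivN0 50000 98694 98043 100000 0 true, ivN0 63626 98000 96958 98946 25000 true, ivN0 68169 96980 96448 97263 40000 true, ivN0 72356 96449 95267 97263 40000 true, ivN0 76543 95267 93629 97263 40000 true, ivN0 80730 93637 91278 97263 40000 false, ivN0 82824 91278 89609 97263 40000 false, ivN0 84918 89609 87415 97263 40000 false, ivN0 87709 87415 83142 97263 40000 false, ivN0 89105 83142 80032 97263 40000 false, ivN0 90501 80032 75807 97263 40000 false] [ivN0 95501 0 0 97263 40000 false] 25061 100000 0 0 0 0 false,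
  gkN 99103 0 16938 0 [ivN0 30 0 0 100000 0 false] [ivN0 31831 99999 99854 100000 0 true, ivN0 50000 99854 99640 100000 0 true, ivN0 68169 99632 99334 98946 25000 true, ivN0 78418 99331 98690 97263 40000 false, ivN0 83543 98690 98044 97263 40000 false, ivN0 88668 98044 96780 97263 40000 false, ivN0 92084 96780 94983 97263 40000 false, ivN0 93792 94983 93305 97263 40000 false, ivN0 95501 93305 90270 97263 40000 false] [ivN0 99103 0 0 97263 40000 false] 10783 100000 0 0 0 0 false,
  gkN 99800 0 7942 0 [ivN0 30 0 0 100000 0 false] [ivN0 31831 99999 99968 100000 0 true, ivN0 68169 99964 99853 98946 25000 false, ivN0 91369 99853 99024 97263 40000 false, ivN0 99103 99024 88327 97263 40000 false] [ivN0 99800 0 0 97263 40000 false] 5056 100000 0 0 0 0 false]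

/-- Certificate data. -/
def gapSBN : List (ℕ × List GCertN) := [
  (30, gapSB0)]

def gapSB : List (ℚ × List GCert) := toGs gapSBN

theorem gapSB_ok : gStrips gapSBPar (d 26600) (d 36000) (d 12000) (d 30) (d 31830) (d 99800) (d 0) gapSB = true :=
  gStripsN_sound (p := gapSBParN) (V0 := 26600) (V1 := 36000) (e := 12000) (A1 := 30)
    (B0 := 31830) (B1 := 99800) (by decide) gapSBN 0 (by decide +kernel)

end Vale.Agent.P232
end
end

section

section

namespace Vale.Agent.P232

/-- Parameters. -/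
def gapSCPar : Par := ⟨d 54000, d 50000, [(d 99831, d 10000), (d 98946, d 25000), (d 97263, d 40000)]⟩

/-- Parameters. -/
def gapSCParN : ParN := ⟨54000, 50000, [(99831, 10000), (98946, 25000), (97263, 40000)]⟩

/-- Certificate data. -/
def gapSC0 : List GCertN := [
  gkN 45685 0 218890 0 [ivN0 30 0 0 100000 0 false] [ivN0 15930 99977 87008 100000 0 true, ivN0 31830 87008 71732 100000 0 true] [ivN0 45685 0 0 100000 0 true] 100000 91415 47898 23997 191275 147899 true,
  gkN 53924 0 185446 0 [ivN0 30 0 0 100000 0 false] [ivN0 15930 99983 90863 100000 0 true, ivN0 23880 90863 85941 100000 0 true, ivN0 31831 85941 80718 100000 0 true, ivN0 35294 80718 75605 100000 0 true, ivN0 38758 75605 69526 100000 0 true, ivN0 42221 69526 62205 100000 0 true, ivN0 45685 62205 53125 100000 0 true] [ivN0 53924 0 0 100000 0 true] 100000 91415 31420 22874 193521 131421 true,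
  gkN 59473 0 168779 0 [ivN0 30 0 0 100000 0 false] [ivN0 15930 99986 92496 100000 0 true, ivN0 31831 92496 84342 100000 0 true, ivN0 37354 84342 77622 100000 0 true, ivN0 42877 77622 69014 100000 0 true, ivN0 48400 69014 57679 100000 0 true, ivN0 51162 57679 50433 100000 0 true, ivN0 53924 50433 41433 100000 0 true] [ivN0 56698 0 0 100000 0 true, ivN0 59473 0 0 99831 10000 true] 100000 93068 19944 22117 195035 120323 true,
  gkN 63267 0 160056 0 [ivN0 30 0 0 100000 0 false] [ivN0 7980 99987 96691 100000 0 true, ivN0 15930 96691 93279 100000 0 true, ivN0 23880 93279 89736 100000 0 true, ivN0 31831 89736 86048 100000 0 true, ivN0 35286 86048 82524 100000 0 true, ivN0 38741 82524 78454 100000 0 true, ivN0 42196 78454 73747 100000 0 true, ivN0 43924 73747 71116 100000 0 true, ivN0 45652 71116 68271 100000 0 true, ivN0 47379 68271 65187 100000 0 true, ivN0 49107 65187 61824 100000 0 true, ivN0 50834 61824 58138 100000 0 true, ivN0 52562 58138 54058 100000 0 true, ivN0 54289 54058 49493 100000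 0 true, ivN0 56017 49493 44287 100000 0 true, ivN0 57745 44346 38635 99831 10000 true, ivN0 59473 38635 31733 99831 10000 true] [ivN0 60421 0 0 98946 25000 true, ivN0 61370 0 0 98946 25000 true, ivN0 62318 0 0 98946 25000 true, ivN0 63267 0 0 98946 25000 true] 100000 98140 11472 21599 196071 112735 true,
  gkN 65540 0 155445 0 [ivN0 30 0 0 100000 0 false] [ivN0 7980 99988 96882 100000 0 true, ivN0 15930 96882 93673 100000 0 true, ivN0 23880 93673 90350 100000 0 true, ivN0 31831 90350 86900 100000 0 true, ivN0 34778 86900 84127 100000 0 true, ivN0 37725 84127 81000 100000 0 true, ivN0 40672 81000 77478 100000 0 true, ivN0 43619 77478 73502 100000 0 true, ivN0 46566 73502 68996 100000 0 true, ivN0 49513 68996 63846 100000 0 true, ivN0 52460 63846 57880 100000 0 true, ivN0 55408 57880 50811 100000 0 true, ivN0 57372 50770 45533 99831 10000 true, ivN0 59337 45533 39422 99831 10000 true, ivN0 61302 39241 32528 98946 25000 true, ivN0 63267 32528 23829 98946 25000 true] [ivN0 64403 0 0 98946 25000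 true, ivN0 65540 0 0 97263 40000 true] 98959 100000 6309 21290 196689 108189 true,
  gkN 66760 0 153335 0 [ivN0 30 0 0 100000 0 false] [ivN0 15930 99988 93849 100000 0 true, ivN0 31831 93849 87279 100000 0 true, ivN0 34991 87279 84387 100000 0 true, ivN0 38151 84387 81104 100000 0 true, ivN0 41311 81104 77378 100000 0 true, ivN0 44471 77378 73144 100000 0 true, ivN0 47631 73144 68307 100000 0 true, ivN0 50791 68307 62726 100000 0 true, ivN0 53951 62726 56182 100000 0 true, ivN0 57112 55969 48505 99831 10000 true, ivN0 59219 48505 42574 99831 10000 true, ivN0 61326 42377 35964 98946 25000 true, ivN0 63433 35964 27955 98946 25000 true, ivN0 64486 27955 22853 98946 25000 true, ivN0 65540 22853 16140 98946 25000 true] [ivN0 66760 0 0 97263 40000 true] 97616 100000 3381 21123 197023 105749 true,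
  gkN 67395 0 152267 0 [ivN0 30 0 0 100000 0 false] [ivN0 7980 99988 97010 100000 0 true, ivN0 15930 97010 93938 100000 0 true, ivN0 23880 93938 90761 100000 0 true, ivN0 31831 90761 87469 100000 0 true, ivN0 35105 87469 84514 100000 0 true, ivN0 38380 84514 81146 100000 0 true, ivN0 41654 81146 77312 100000 0 true, ivN0 44929 77312 72936 100000 0 true, ivN0 48203 72936 67917 100000 0 true, ivN0 51478 67917 62096 100000 0 true, ivN0 54752 62096 55222 100000 0 true, ivN0 56389 55222 51261 100000 0 true, ivN0 58027 51361 47218 99831 10000 true, ivN0 59664 47218 42564 99831 10000 true, ivN0 61301 42496 37686 98946 25000 true, ivN0 62938 37686 32076 98946 25000 true, ivN0 64576 32076 25136 98946 25000 true, ivN0 65668 25137 19084 98946 25000 true, ivN0 66214 19414 16063 97263 40000 true, ivN0 66760 16063 11786 97263 40000 true] [ivN0 67395 0 0 97263 40000 true] 96936 100000 1857 21037 197195 104479 true,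
  gkN 67796 0 150466 0 [ivN0 30 0 0 100000 0 false] [ivN0 7980 99989 97082 100000 0 true, ivN0 15930 97082 94085 100000 0 true, ivN0 23880 94085 90989 100000 0 true, ivN0 31831 90989 87784 100000 0 true, ivN0 34053 87784 85875 100000 0 true, ivN0 36276 85875 83789 100000 0 true, ivN0 38499 83789 81512 100000 0 true, ivN0 40722 81512 79029 100000 0 true, ivN0 42944 79029 76320 100000 0 true, ivN0 45167 76320 73357 100000 0 true, ivN0 47390 73357 70110 100000 0 true, ivN0 49613 70110 66537 100000 0 true, ivN0 51835 66537 62585 100000 0 true, ivN0 54058 62585 58172 100000 0 true, ivN0 55169 58172 55760 100000 0 true, ivN0 56281 55696 53264 99831 10000 true, ivN0 57392 53264 50675 99831 10000 true, ivN0 58504 50675 47899 99831 10000 true, ivN0 59615 47899 44907 99831 10000 true, ivN0 60726 44831 41892 98946 25000 true, ivN0 61837 41892 38697 98946 25000 true, ivN0 62949 38697 35175 98946 25000 true, ivN0 64060 35175 31223 98946 25000 true, ivN0 65172 31223 26642 98946 25000 true, ivN0 66283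 26617 21734 97263 40000 true, ivN0 66839 21735 18813 97263 40000 true, ivN0 67395 18813 15338 97263 40000 true] [ivN0 67796 0 0 97263 40000 true] 95790 100000 888 20982 197305 103677 true,
  gkN 67963 0 149059 0 [ivN0 30 0 0 100000 0 false] [ivN0 15930 99989 94198 100000 0 true, ivN0 23880 94198 91165 100000 0 true, ivN0 31831 91165 88027 100000 0 true, ivN0 36326 88027 84071 100000 0 true, ivN0 40822 84071 79356 100000 0 true, ivN0 45317 79356 73736 100000 0 true, ivN0 47565 73736 70520 100000 0 true, ivN0 49813 70520 66983 100000 0 true, ivN0 52060 66983 63073 100000 0 true, ivN0 54308 63073 58710 100000 0 true, ivN0 56556 58710 53788 100000 0 true, ivN0 58804 53902 48627 99831 10000 true, ivN0 61052 48368 42831 98946 25000 true, ivN0 63300 42831 36321 98946 25000 true, ivN0 65548 36321 28181 98946 25000 true, ivN0 66672 28339 23841 97263 40000 true, ivN0 67796 23841 18244 97263 40000 true] [ivN0 67963 0 0 97263 40000 true] 94894 100000 487 20959 197351 103343 true,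
  gkN 68130 0 148790 0 [ivN0 30 0 0 100000 0 false] [ivN0 7980 99989 97147 100000 0 true, ivN0 15930 97147 94220 100000 0 true, ivN0 23880 94220 91198 100000 0 true, ivN0 31831 91198 88073 100000 0 true, ivN0 34089 88073 86182 100000 0 true, ivN0 36347 86182 84114 100000 0 true, ivN0 38605 84114 81857 100000 0 true, ivN0 40864 81857 79392 100000 0 true, ivN0 43122 79392 76702 100000 0 true, ivN0 45380 76702 73762 100000 0 true, ivN0 47638 73762 70540 100000 0 true, ivN0 49897 70540 66993 100000 0 true, ivN0 52155 66993 63071 100000 0 true, ivN0 54413 63071 58696 100000 0 true, ivN0 56671 58696 53758 100000 0 true, ivN0 58930 53888 48594 99831 10000 true, ivN0 60059 48594 45648 99831 10000 true, ivN0 61188 45689 42816 98946 25000 true, ivN0 62317 42816 39702 98946 25000 true, ivN0 63446 39702 36289 98946 25000 true, ivN0 64575 36289 32481 98946 25000 true, ivN0 65704 32481 28121 98946 25000 true, ivN0 66833 28352 23850 97263 40000 true, ivN0 67963 23850 18242 97263 40000 true] [ivN0 68130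 0 0 97263 40000 true] 94723 100000 92 20936 197397 103009 true,
  gkN 68999 0 146770 0 [ivN0 30 0 0 100000 0 false] [ivN0 7980 99989 97225 100000 0 true, ivN0 15930 97225 94380 100000 0 true, ivN0 23880 94380 91447 100000 0 true, ivN0 31831 91447 88416 100000 0 true, ivN0 35234 88416 85590 100000 0 true, ivN0 38637 85590 82366 100000 0 true, ivN0 42040 82366 78694 100000 0 true, ivN0 45443 78694 74508 100000 0 true, ivN0 47144 74508 72196 100000 0 true, ivN0 48846 72196 69716 100000 0 true, ivN0 50547 69716 67053 100000 0 true, ivN0 52249 67053 64181 100000 0 true, ivN0 53950 64181 61074 100000 0 true, ivN0 55652 61074 57691 100000 0 true, ivN0 57353 57687 54200 99831 10000 true, ivN0 59055 54200 50375 99831 10000 true, ivN0 60189 50376 47601 99831 10000 true, ivN0 61323 47671 44985 98946 25000 true, ivN0 63592 44985 38964 98946 25000 true, ivN0 64726 38965 35525 98946 25000 true, ivN0 65861 35344 31939 97263 40000 true, ivN0 66995 31939 28112 97263 40000 true, ivN0 68130 28112 23653 97263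 40000 true] [ivN0 68564 0 0 97263 40000 true, ivN0 68999 0 0 97263 40000 true] 93437 100000 0 0 0 0 false,
  gkN 70219 0 140745 0 [ivN0 30 0 0 100000 0 false] [ivN0 7980 99990 97451 100000 0 true, ivN0 15930 97451 94844 100000 0 true, ivN0 23880 94844 92164 100000 0 true, ivN0 31831 92164 89403 100000 0 true, ivN0 35237 89403 86835 100000 0 true, ivN0 38644 86835 83915 100000 0 true, ivN0 42050 83915 80606 100000 0 true, ivN0 45457 80606 76855 100000 0 true, ivN0 47160 76855 74795 100000 0 true, ivN0 48863 74795 72597 100000 0 true, ivN0 50566 72597 70249 100000 0 true, ivN0 52270 70249 67733 100000 0 true, ivN0 53973 67733 65034 100000 0 true, ivN0 55677 65034 62123 100000 0 true, ivN0 57380 62121 59159 99831 10000 true, ivN0 59084 59159 55959 99831 10000 true, ivN0 60219 55959 53676 99831 10000 true, ivN0 61355 53739 51561 98946 25000 true, ivN0 63626 51561 46832 98946 25000 true, ivN0 64761 46832 44242 98946 25000 true, ivN0 65897 44118 41660 97263 40000 true, ivN0 67033 41660 39036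 97263 40000 true, ivN0 68169 39036 36201 97263 40000 true, ivN0 68584 36212 32584 97263 40000 true, ivN0 68999 32584 28361 97263 40000 true] [ivN0 69609 0 0 97263 40000 true, ivN0 70219 0 0 97263 40000 true] 89601 100000 0 0 0 0 false,
  gkN 71423 0 135001 0 [ivN0 30 0 0 100000 0 false] [ivN0 15930 99991 95267 100000 0 true, ivN0 31831 95267 90296 100000 0 true, ivN0 36373 90296 87113 100000 0 true, ivN0 40915 87113 83360 100000 0 true, ivN0 45457 83360 78955 100000 0 true, ivN0 50000 78955 73781 100000 0 true, ivN0 52271 73781 70854 100000 0 true, ivN0 54542 70854 67663 100000 0 true, ivN0 56813 67570 64269 99831 10000 true, ivN0 59084 64269 60668 99831 10000 true, ivN0 61355 60540 56970 98946 25000 true, ivN0 63626 56970 53079 98946 25000 true, ivN0 65897 53079 48797 98946 25000 true, ivN0 68169 48951 44748 97263 40000 true, ivN0 69194 44782 37750 97263 40000 true, ivN0 70219 37750 28266 97263 40000 true] [ivN0 70821 0 0 97263 40000 true, ivN0 71423 0 0 97263 40000 true] 85944 100000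 0 0 0 0 false,
  gkN 72580 0 129663 0 [ivN0 30 0 0 100000 0 false] [ivN0 15930 99991 95642 100000 0 true, ivN0 31831 95642 91085 100000 0 true, ivN0 36373 91085 88180 100000 0 true, ivN0 40915 88180 84767 100000 0 true, ivN0 45457 84767 80783 100000 0 true, ivN0 50000 80783 76137 100000 0 true, ivN0 54542 76137 70700 100000 0 true, ivN0 56813 70619 67716 99831 10000 true, ivN0 59084 67716 64579 99831 10000 true, ivN0 63626 64467 58086 98946 25000 true, ivN0 65897 58088 54513 98946 25000 true, ivN0 68169 54641 51208 97263 40000 true, ivN0 68982 51239 46948 97263 40000 true, ivN0 69796 46948 41907 97263 40000 true, ivN0 70609 41907 35790 97263 40000 true, ivN0 71423 35790 27837 97263 40000 true] [ivN0 71712 0 0 97263 40000 true, ivN0 72001 0 0 97263 40000 true, ivN0 72290 0 0 97263 40000 true, ivN0 72580 0 0 97263 40000 true] 82546 100000 0 0 0 0 false,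
  gkN 73691 0 124693 0 [ivN0 30 0 0 100000 0 false] [ivN0 15930 99992 95977 100000 0 true, ivN0 31831 95977 91785 100000 0 true, ivN0 36373 91785 89123 100000 0 true, ivN0 40915 89123 86006 100000 0 true, ivN0 45457 86006 82384 100000 0 true, ivN0 50000 82384 78185 100000 0 true, ivN0 52271 78185 75840 100000 0 true, ivN0 54542 75840 73311 100000 0 true, ivN0 56813 73239 70658 99831 10000 true, ivN0 59084 70658 67888 99831 10000 true, ivN0 63626 67790 62227 98946 25000 true, ivN0 65897 62228 59162 98946 25000 true, ivN0 68169 59271 56365 97263 40000 true, ivN0 69271 56388 51436 97263 40000 true, ivN0 70374 51436 45452 97263 40000 true, ivN0 71477 45452 37894 97263 40000 true, ivN0 72028 37905 33193 97263 40000 true, ivN0 72580 33193 27416 97263 40000 true] [ivN0 72802 0 0 97263 40000 true, ivN0 73024 0 0 97263 40000 true, ivN0 73246 0 0 97263 40000 true, ivN0 73468 0 0 97263 40000 true, ivN0 73691 0 0 97263 40000 true] 79382 100000 0 0 0 0 false,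
  gkN 74759 0 120054 0 [ivN0 30 0 0 100000 0 false] [ivN0 15930 99993 96276 100000 0 true, ivN0 31831 96276 92410 100000 0 true, ivN0 36373 92410 89962 100000 0 true, ivN0 40915 89962 87104 100000 0 true, ivN0 45457 87104 83796 100000 0 true, ivN0 50000 83796 79979 100000 0 true, ivN0 52271 79979 77858 100000 0 true, ivN0 54542 77858 75580 100000 0 true, ivN0 56813 75515 73200 99831 10000 true, ivN0 59084 73200 70728 99831 10000 true, ivN0 63626 70641 65724 98946 25000 true, ivN0 65897 65725 63046 98946 25000 true, ivN0 68169 63140 60624 97263 40000 true, ivN0 69549 60640 55235 97263 40000 true, ivN0 70930 55235 48543 97263 40000 true, ivN0 71620 48555 44526 97263 40000 true, ivN0 72310 44526 39841 97263 40000 true, ivN0 73000 39841 34211 97263 40000 true, ivN0 73691 34211 27014 97263 40000 true] [ivN0 74047 0 0 97263 40000 true, ivN0 74403 0 0 97263 40000 true, ivN0 74759 0 0 97263 40000 true] 76429 100000 0 0 0 0 false,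
  gkN 75785 0 115721 0 [ivN0 30 0 0 100000 0 false] [ivN0 15930 99993 96545 100000 0 true, ivN0 31831 96545 92968 100000 0 true, ivN0 36373 92968 90710 100000 0 true, ivN0 40915 90710 88080 100000 0 true, ivN0 45457 88080 85046 100000 0 true, ivN0 50000 85046 81560 100000 0 true, ivN0 54542 81560 77564 100000 0 true, ivN0 59084 77505 73189 99831 10000 true, ivN0 63626 73111 68719 98946 25000 true, ivN0 65897 68720 66347 98946 25000 true, ivN0 68169 66430 64215 97263 40000 true, ivN0 69816 64225 58509 97263 40000 true, ivN0 71464 58509 51278 97263 40000 true, ivN0 73111 51278 41591 97263 40000 true, ivN0 73935 41614 35166 97263 40000 true, ivN0 74759 35166 26611 97263 40000 true] [ivN0 75101 0 0 97263 40000 true, ivN0 75443 0 0 97263 40000 true, ivN0 75785 0 0 97263 40000 true] 73670 100000 0 0 0 0 false,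
  gkN 76865 0 111285 0 [ivN0 30 0 0 100000 0 false] [ivN0 15930 99994 96809 100000 0 true, ivN0 31831 96809 93515 100000 0 true, ivN0 36373 93515 91441 100000 0 true, ivN0 40915 91441 89032 100000 0 true, ivN0 45457 89032 86261 100000 0 true, ivN0 50000 86261 83089 100000 0 true, ivN0 54542 83089 79472 100000 0 true, ivN0 59084 79418 75537 99831 10000 true, ivN0 63626 75467 71548 98946 25000 true, ivN0 65897 71549 69447 98946 25000 true, ivN0 68169 69520 67568 97263 40000 true, ivN0 70073 67574 61715 97263 40000 true, ivN0 71025 61728 58220 97263 40000 true, ivN0 71977 58220 54196 97263 40000 true, ivN0 72929 54196 49503 97263 40000 true, ivN0 73881 49503 43890 97263 40000 true, ivN0 74833 43890 36894 97263 40000 true, ivN0 75785 36894 27405 97263 40000 true] [ivN0 76055 0 0 97263 40000 true, ivN0 76325 0 0 97263 40000 true, ivN0 76595 0 0 97263 40000 true, ivN0 76865 0 0 97263 40000 true] 70846 100000 0 0 0 0 false,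
  gkN 78077 0 106453 0 [ivN0 30 0 0 100000 0 false] [ivN0 15930 99994 97084 100000 0 true, ivN0 31831 97084 94084 100000 0 true, ivN0 36373 94084 92199 100000 0 true, ivN0 40915 92199 90016 100000 0 true, ivN0 45457 90016 87512 100000 0 true, ivN0 50000 87512 84657 100000 0 true, ivN0 52271 84657 83088 100000 0 true, ivN0 54542 83088 81417 100000 0 true, ivN0 59084 81370 77914 99831 10000 true, ivN0 62490 77852 75284 98946 25000 true, ivN0 65897 75284 72544 98946 25000 true, ivN0 68169 72609 70902 97263 40000 true, ivN0 69256 70915 68157 97263 40000 true, ivN0 70343 68157 65036 97263 40000 true, ivN0 71430 65036 61470 97263 40000 true, ivN0 72517 61470 57345 97263 40000 true, ivN0 73604 57345 52491 97263 40000 true, ivN0 74691 52491 46631 97263 40000 true, ivN0 75234 46640 43194 97263 40000 true, ivN0 75778 43194 39264 97263 40000 true, ivN0 76321 39264 34692 97263 40000 true, ivN0 76865 34692 29143 97263 40000 true] [ivN0 77168 0 0 97263 40000 true, ivN0 77471 0 0 97263 40000 true, ivN0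 77774 0 0 97263 40000 true, ivN0 78077 0 0 97263 40000 true] 67770 100000 0 0 0 0 false,
  gkN 79482 0 101036 0 [ivN0 30 0 0 100000 0 false] [ivN0 15930 99995 97377 100000 0 true, ivN0 31831 97377 94687 100000 0 true, ivN0 36373 94687 93002 100000 0 true, ivN0 40915 93002 91055 100000 0 true, ivN0 45457 91055 88829 100000 0 true, ivN0 50000 88829 86301 100000 0 true, ivN0 54542 86301 83445 100000 0 true, ivN0 59084 83403 80376 99831 10000 true, ivN0 65897 80321 75712 98946 25000 true, ivN0 68169 75769 74299 97263 40000 true, ivN0 69407 74309 71597 97263 40000 true, ivN0 70646 71596 68497 97263 40000 true, ivN0 71884 68497 64926 97263 40000 true, ivN0 73123 64926 60755 97263 40000 true, ivN0 74361 60755 55803 97263 40000 true, ivN0 75600 55803 49763 97263 40000 true, ivN0 76838 49763 42091 97263 40000 true, ivN0 77457 42107 37319 97263 40000 true, ivN0 78077 37319 31487 97263 40000 true] [ivN0 78311 0 0 97263 40000 true, ivN0 78545 0 0 97263 40000 true, ivN0 78779 0 0 97263 40000 true, ivN0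 79013 0 0 97263 40000 true, ivN0 79247 0 0 97263 40000 true, ivN0 79482 0 0 97263 40000 true] 64322 100000 0 0 0 0 false,
  gkN 81274 0 94372 0 [ivN0 30 0 0 100000 0 false] [ivN0 15930 99995 97715 100000 0 true, ivN0 31831 97715 95381 100000 0 true, ivN0 36373 95381 93924 100000 0 true, ivN0 40915 93924 92244 100000 0 true, ivN0 45457 92244 90331 100000 0 true, ivN0 50000 90331 88167 100000 0 true, ivN0 54542 88167 85735 100000 0 true, ivN0 59084 85699 83138 99831 10000 true, ivN0 65897 83091 79225 98946 25000 true, ivN0 68169 79273 78050 97263 40000 true, ivN0 69583 78057 75471 97263 40000 true, ivN0 70997 75471 72490 97263 40000 true, ivN0 72411 72490 69020 97263 40000 true, ivN0 73825 69020 64931 97263 40000 true, ivN0 75239 64931 60029 97263 40000 true, ivN0 76653 60029 54007 97263 40000 true, ivN0 77360 54020 50435 97263 40000 true, ivN0 78067 50435 46327 97263 40000 true, ivN0 78774 46327 41524 97263 40000 true, ivN0 79482 41523 35707 97263 40000 true] [ivN0 81274 0 0 97263 40000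 false] 60079 100000 0 0 0 0 false,
  gkN 83706 0 85473 0 [ivN0 30 0 0 100000 0 false] [ivN0 15930 99996 98130 100000 0 true, ivN0 31831 98130 96227 100000 0 true, ivN0 36373 96227 95044 100000 0 true, ivN0 40915 95044 93685 100000 0 true, ivN0 45457 93685 92143 100000 0 true, ivN0 50000 92143 90407 100000 0 true, ivN0 54542 90407 88468 100000 0 true, ivN0 59084 88440 86411 99831 10000 true, ivN0 62490 86375 84894 98946 25000 true, ivN0 65897 84894 83342 98946 25000 true, ivN0 68169 83378 82426 97263 40000 true, ivN0 69807 82431 80089 97263 40000 true, ivN0 71445 80089 77358 97263 40000 true, ivN0 73083 77358 74142 97263 40000 true, ivN0 73902 74149 72321 97263 40000 true, ivN0 74721 72321 70317 97263 40000 true, ivN0 75540 70317 68113 97263 40000 true, ivN0 76359 68113 65675 97263 40000 true, ivN0 77178 65675 62962 97263 40000 true, ivN0 77997 62962 59921 97263 40000 true, ivN0 78816 59921 56480 97263 40000 true, ivN0 79635 56480 52536 97263 40000 true, ivN0 80454 52520 47948 97263 40000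 false, ivN0 81274 47948 42392 97263 40000 false] [ivN0 83706 0 0 97263 40000 false] 54414 100000 0 0 0 0 false,
  gkN 87078 0 73169 0 [ivN0 30 0 0 100000 0 false] [ivN0 15930 99997 98633 100000 0 true, ivN0 31831 98633 97249 100000 0 true, ivN0 36373 97249 96393 100000 0 true, ivN0 40915 96393 95413 100000 0 true, ivN0 45457 95413 94306 100000 0 true, ivN0 50000 94306 93067 100000 0 true, ivN0 54542 93067 91691 100000 0 true, ivN0 59084 91671 90242 99831 10000 true, ivN0 65897 90216 88101 98946 25000 true, ivN0 68169 88127 87468 97263 40000 true, ivN0 70111 87470 85536 97263 40000 true, ivN0 72053 85536 83244 97263 40000 true, ivN0 73995 83244 80500 97263 40000 true, ivN0 75937 80500 77176 97263 40000 true, ivN0 76908 77185 75252 97263 40000 true, ivN0 77879 75252 73099 97263 40000 true, ivN0 78850 73099 70687 97263 40000 true, ivN0 79821 70687 67966 97263 40000 true, ivN0 80792 67965 64876 97263 40000 false, ivN0 81763 64876 61262 97263 40000 false, ivN0 82734 61262 56957 97263 40000 false,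 ivN0 83706 56957 51690 97263 40000 false] [ivN0 87078 0 0 97263 40000 false] 46581 100000 0 0 0 0 false,
  gkN 91583 0 56148 0 [ivN0 30 0 0 100000 0 false] [ivN0 31831 99998 98389 100000 0 true, ivN0 40915 98389 97325 100000 0 true, ivN0 50000 97325 95978 100000 0 true, ivN0 59084 95978 94336 100000 0 true, ivN0 68169 94361 92763 98946 25000 true, ivN0 70532 92825 91503 97263 40000 true, ivN0 72896 91503 89897 97263 40000 true, ivN0 75259 89897 87928 97263 40000 true, ivN0 77623 87928 85482 97263 40000 true, ivN0 79986 85482 82399 97263 40000 true, ivN0 82350 82414 78385 97263 40000 false, ivN0 83532 78385 75816 97263 40000 false, ivN0 84714 75816 72723 97263 40000 false, ivN0 85896 72723 68923 97263 40000 false, ivN0 87078 68923 64120 97263 40000 false] [ivN0 91583 0 0 97263 40000 false] 35745 100000 0 0 0 0 false,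
  gkN 96514 0 34288 0 [ivN0 30 0 0 100000 0 false] [ivN0 31831 99999 99402 100000 0 true, ivN0 50000 99402 98519 100000 0 true, ivN0 59084 98519 97926 100000 0 true, ivN0 68169 97935 97364 98946 25000 true, ivN0 72559 97382 96437 97263 40000 true, ivN0 76949 96437 95091 97263 40000 true, ivN0 81339 95072 93130 97263 40000 false, ivN0 85729 93130 89848 97263 40000 false, ivN0 88656 89848 86064 97263 40000 false, ivN0 90119 86064 83211 97263 40000 false, ivN0 91583 83211 79188 97263 40000 false] [ivN0 96514 0 0 97263 40000 false] 21828 100000 0 0 0 0 false,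
  gkN 99484 0 12798 0 [ivN0 30 0 0 100000 0 false] [ivN0 31831 99999 99916 100000 0 true, ivN0 50000 99916 99795 100000 0 true, ivN0 68169 99786 99628 98946 25000 true, ivN0 78798 99636 99221 97263 40000 true, ivN0 84112 99233 98832 97263 40000 false, ivN0 89427 98832 98008 97263 40000 false, ivN0 92084 98008 97167 97263 40000 false, ivN0 94742 97167 95446 97263 40000 false, ivN0 96514 95446 92773 97263 40000 false] [ivN0 99484 0 0 97263 40000 false] 8147 100000 0 0 0 0 false,
  gkN 99800 0 7942 0 [ivN0 30 0 0 100000 0 false] [ivN0 31831 99999 99968 100000 0 true, ivN0 68169 99963 99853 98946 25000 false, ivN0 91655 99853 98984 97263 40000 false, ivN0 99484 98984 78415 97263 40000 false] [ivN0 99800 0 0 97263 40000 false] 5056 100000 0 0 0 0 false]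

/-- Certificate data. -/
def gapSCN : List (ℕ × List GCertN) := [
  (30, gapSC0)]

def gapSC : List (ℚ × List GCert) := toGs gapSCN

theorem gapSC_ok : gStrips gapSCPar (d 26600) (d 36000) (d 12000) (d 30) (d 31830) (d 99800) (d 0) gapSC = true :=
  gStripsN_sound (p := gapSCParN) (V0 := 26600) (V1 := 36000) (e := 12000) (A1 := 30)
    (B0 := 31830) (B1 := 99800) (by decide) gapSCN 0 (by decide +kernel)

end Vale.Agent.P232
end
end

section

section

namespace Vale.Agent.P232

/-- Parameters. -/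
def gapSDPar : Par := ⟨d 58000, d 46000, [(d 99831, d 10000), (d 98946, d 25000), (d 97263, d 40000)]⟩

/-- Parameters. -/
def gapSDParN : ParN := ⟨58000, 46000, [(99831, 10000), (98946, 25000), (97263, 40000)]⟩

/-- Certificate data. -/
def gapSD0 : List GCertN := [
  gkN 46270 0 216122 0 [ivN0 30 0 0 100000 0 false] [ivN0 15930 99977 87358 100000 0 true, ivN0 23880 87358 80309 100000 0 true, ivN0 31830 80309 72577 100000 0 true] [ivN0 46270 0 0 100000 0 true] 100000 91415 52478 23917 201526 152932 true,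
  gkN 54977 0 181894 0 [ivN0 30 0 0 100000 0 false] [ivN0 15930 99984 91226 100000 0 true, ivN0 31831 91226 81533 100000 0 true, ivN0 35440 81533 76449 100000 0 true, ivN0 39050 76449 70390 100000 0 true, ivN0 42660 70390 63078 100000 0 true, ivN0 46270 63078 54006 100000 0 true] [ivN0 54977 0 0 100000 0 true] 100000 91415 34003 22730 204106 134004 true,
  gkN 60877 0 164460 0 [ivN0 30 0 0 100000 0 false] [ivN0 15930 99987 92889 100000 0 true, ivN0 31831 92889 85203 100000 0 true, ivN0 37617 85203 78566 100000 0 true, ivN0 43404 78566 70032 100000 0 true, ivN0 46297 70032 64828 100000 0 true, ivN0 49190 64828 58783 100000 0 true, ivN0 52083 58783 51605 100000 0 true, ivN0 54977 51605 42721 100000 0 true] [ivN0 57927 0 0 100000 0 true, ivN0 60877 0 0 99831 10000 true] 100000 95512 21059 21925 205856 121178 true,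
  gkN 64671 0 155577 0 [ivN0 30 0 0 100000 0 false] [ivN0 15930 99988 93662 100000 0 true, ivN0 31831 93662 86876 100000 0 true, ivN0 35461 86876 83404 100000 0 true, ivN0 39092 83404 79379 100000 0 true, ivN0 42723 79379 74713 100000 0 true, ivN0 46354 74713 69276 100000 0 true, ivN0 49984 69276 62871 100000 0 true, ivN0 53615 62871 55157 100000 0 true, ivN0 55430 55157 50628 100000 0 true, ivN0 57246 50628 45475 100000 0 true, ivN0 59061 45475 39459 100000 0 true, ivN0 60877 39324 32421 99831 10000 true] [ivN0 62774 0 0 99831 10000 true, ivN0 64671 0 0 98946 25000 true] 99043 100000 12316 21408 206980 112930 true,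
  gkN 66944 0 151144 0 [ivN0 30 0 0 100000 0 false] [ivN0 15930 99989 94029 100000 0 true, ivN0 31831 94029 87666 100000 0 true, ivN0 37988 87666 81873 100000 0 true, ivN0 41067 81873 78404 100000 0 true, ivN0 44146 78404 74484 100000 0 true, ivN0 47224 74484 70038 100000 0 true, ivN0 50303 70038 64957 100000 0 true, ivN0 53382 64957 59077 100000 0 true, ivN0 56461 59077 52129 100000 0 true, ivN0 58513 52129 46675 100000 0 true, ivN0 60566 46675 40250 100000 0 true, ivN0 62618 40431 33088 99831 10000 true, ivN0 64671 33088 23240 99831 10000 true] [ivN0 65807 0 0 98946 25000 true, ivN0 66944 0 0 98946 25000 true] 96221 100000 6806 21098 207654 107989 true,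
  gkN 68281 0 148674 0 [ivN0 30 0 0 100000 0 false] [ivN0 15930 99989 94229 100000 0 true, ivN0 23880 94229 91213 100000 0 true, ivN0 31831 91213 88093 100000 0 true, ivN0 35122 88093 85283 100000 0 true, ivN0 38414 85283 82086 100000 0 true, ivN0 41706 82086 78455 100000 0 true, ivN0 44998 78455 74325 100000 0 true, ivN0 48289 74325 69611 100000 0 true, ivN0 51581 69611 64179 100000 0 true, ivN0 54873 64179 57830 100000 0 true, ivN0 58165 57830 50218 100000 0 true, ivN0 60359 50218 44125 100000 0 true, ivN0 62554 44247 37417 99831 10000 true, ivN0 63651 37417 33394 99831 10000 true, ivN0 64749 33295 29142 98946 25000 true, ivN0 65846 29142 24248 98946 25000 true, ivN0 66944 24248 18005 98946 25000 true] [ivN0 68281 0 0 98946 25000 true] 94649 100000 3565 20916 208050 105082 true,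
  gkN 69033 0 147327 0 [ivN0 30 0 0 100000 0 false] [ivN0 7980 99989 97204 100000 0 true, ivN0 15930 97204 94336 100000 0 true, ivN0 23880 94336 91379 100000 0 true, ivN0 31831 91379 88322 100000 0 true, ivN0 36373 88322 84429 100000 0 true, ivN0 38644 84429 82210 100000 0 true, ivN0 40915 82210 79790 100000 0 true, ivN0 43186 79790 77148 100000 0 true, ivN0 45457 77148 74262 100000 0 true, ivN0 47728 74262 71102 100000 0 true, ivN0 50000 71102 67629 100000 0 true, ivN0 52271 67629 63793 100000 0 true, ivN0 54542 63793 59523 100000 0 true, ivN0 56813 59523 54718 100000 0 true, ivN0 59084 54718 49222 100000 0 true, ivN0 61355 49129 43085 99831 10000 true, ivN0 63626 43085 35803 99831 10000 true, ivN0 64761 35703 31805 98946 25000 true, ivN0 65897 31805 27308 98946 25000 true, ivN0 67033 27308 21854 98946 25000 true, ivN0 67601 21854 18512 98946 25000 true, ivN0 68169 18512 14394 98946 25000 true, ivN0 68225 14394 13921 98946 25000 true, ivN0 68281 13921 13431 98946 25000 true] [ivN0 68431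 0 0 98946 25000 true, ivN0 68581 0 0 98946 25000 true, ivN0 68732 0 0 98946 25000 true, ivN0 68882 0 0 98946 25000 true, ivN0 69033 0 0 98946 25000 true] 93791 100000 1742 20813 208273 103447 true,
  gkN 69434 0 144466 0 [ivN0 30 0 0 100000 0 false] [ivN0 15930 99990 94560 100000 0 true, ivN0 31831 94560 88799 100000 0 true, ivN0 35237 88799 86073 100000 0 true, ivN0 38644 86073 82965 100000 0 true, ivN0 42050 82965 79433 100000 0 true, ivN0 45457 79433 75415 100000 0 true, ivN0 48863 75415 70830 100000 0 true, ivN0 52270 70830 65558 100000 0 true, ivN0 55677 65558 59416 100000 0 true, ivN0 59084 59416 52098 100000 0 true, ivN0 61355 52013 46578 99831 10000 true, ivN0 63626 46578 40214 99831 10000 true, ivN0 65897 40128 33191 98946 25000 true, ivN0 67033 33191 29049 98946 25000 true, ivN0 68169 29049 24162 98946 25000 true, ivN0 69033 24162 19611 98946 25000 true] [ivN0 69434 0 0 97263 40000 true] 91970 100000 728 20759 208391 102576 true,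
  gkN 70420 0 142619 0 [ivN0 30 0 0 100000 0 false] [ivN0 7980 99990 97382 100000 0 true, ivN0 15930 97382 94702 100000 0 true, ivN0 23880 94702 91945 100000 0 true, ivN0 31831 91945 89101 100000 0 true, ivN0 34102 89101 87375 100000 0 true, ivN0 36373 87375 85492 100000 0 true, ivN0 38644 85492 83441 100000 0 true, ivN0 40915 83441 81209 100000 0 true, ivN0 43186 81209 78781 100000 0 true, ivN0 45457 78781 76138 100000 0 true, ivN0 47728 76138 73256 100000 0 true, ivN0 50000 73256 70106 100000 0 true, ivN0 52271 70106 66652 100000 0 true, ivN0 54542 66652 62842 100000 0 true, ivN0 56813 62842 58606 100000 0 true, ivN0 59084 58606 53846 100000 0 true, ivN0 61355 53766 48667 99831 10000 true, ivN0 63626 48667 42780 99831 10000 true, ivN0 65897 42701 36438 98946 25000 true, ivN0 67033 36438 32809 98946 25000 true, ivN0 68169 32809 28689 98946 25000 true, ivN0 69434 28688 23202 98946 25000 true] [ivN0 69631 0 0 97263 40000 true, ivN0 69828 0 0 97263 40000 true, ivN0 70025 0 0 97263 40000 true,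 ivN0 70222 0 0 97263 40000 true, ivN0 70420 0 0 97263 40000 true] 90794 100000 0 0 0 0 false,
  gkN 71845 0 135478 0 [ivN0 30 0 0 100000 0 false] [ivN0 15930 99991 95232 100000 0 true, ivN0 31831 95232 90223 100000 0 true, ivN0 36373 90223 87015 100000 0 true, ivN0 40915 87015 83231 100000 0 true, ivN0 45457 83231 78786 100000 0 true, ivN0 50000 78786 73562 100000 0 true, ivN0 54542 73562 67378 100000 0 true, ivN0 59084 67378 59938 100000 0 true, ivN0 61355 59873 55799 99831 10000 true, ivN0 63626 55799 51262 99831 10000 true, ivN0 65897 51202 46630 98946 25000 true, ivN0 68169 46630 41460 98946 25000 true, ivN0 69857 41461 36466 98946 25000 true, ivN0 70420 36501 31242 97263 40000 true] [ivN0 70705 0 0 97263 40000 true, ivN0 70990 0 0 97263 40000 true, ivN0 71275 0 0 97263 40000 true, ivN0 71560 0 0 97263 40000 true, ivN0 71845 0 0 97263 40000 true] 86248 100000 0 0 0 0 false,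
  gkN 73421 0 127901 0 [ivN0 30 0 0 100000 0 false] [ivN0 15930 99992 95762 100000 0 true, ivN0 31831 95762 91337 100000 0 true, ivN0 36373 91337 88519 100000 0 true, ivN0 40915 88519 85214 100000 0 true, ivN0 45457 85214 81361 100000 0 true, ivN0 50000 81361 76878 100000 0 true, ivN0 54542 76878 71648 100000 0 true, ivN0 59084 71648 65492 100000 0 true, ivN0 63626 65439 58560 99831 10000 true, ivN0 65897 58514 55002 98946 25000 true, ivN0 68169 55002 51179 98946 25000 true, ivN0 69088 51180 49530 98946 25000 true, ivN0 70007 49500 46808 97263 40000 true, ivN0 70926 46808 40730 97263 40000 true, ivN0 71845 40730 32961 97263 40000 true] [ivN0 72370 0 0 97263 40000 true, ivN0 72895 0 0 97263 40000 true, ivN0 73421 0 0 97263 40000 true] 81424 100000 0 0 0 0 false,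
  gkN 75014 0 120571 0 [ivN0 30 0 0 100000 0 false] [ivN0 15930 99993 96243 100000 0 true, ivN0 31831 96243 92342 100000 0 true, ivN0 36373 92342 89870 100000 0 true, ivN0 40915 89870 86985 100000 0 true, ivN0 45457 86985 83642 100000 0 true, ivN0 50000 83642 79785 100000 0 true, ivN0 54542 79785 75335 100000 0 true, ivN0 59084 75335 70179 100000 0 true, ivN0 63626 70135 64505 99831 10000 true, ivN0 68169 64466 58659 98946 25000 true, ivN0 69482 58661 56832 98946 25000 true, ivN0 70795 56877 51540 97263 40000 true, ivN0 72108 51540 43877 97263 40000 true, ivN0 72764 43892 39130 97263 40000 true, ivN0 73421 39130 33366 97263 40000 true] [ivN0 73686 0 0 97263 40000 true, ivN0 73952 0 0 97263 40000 true, ivN0 74217 0 0 97263 40000 true, ivN0 74483 0 0 97263 40000 true, ivN0 74748 0 0 97263 40000 true, ivN0 75014 0 0 97263 40000 true] 76758 100000 0 0 0 0 false,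
  gkN 76610 0 113528 0 [ivN0 30 0 0 100000 0 false] [ivN0 15930 99993 96677 100000 0 true, ivN0 31831 96677 93242 100000 0 true, ivN0 36373 93242 91076 100000 0 true, ivN0 40915 91076 88557 100000 0 true, ivN0 45457 88557 85654 100000 0 true, ivN0 50000 85654 82327 100000 0 true, ivN0 54542 82327 78522 100000 0 true, ivN0 59084 78522 74166 100000 0 true, ivN0 63626 74129 69448 99831 10000 true, ivN0 68169 69417 64690 98946 25000 true, ivN0 69880 64691 62463 98946 25000 true, ivN0 71591 62463 55708 97263 40000 true, ivN0 73302 55708 46767 97263 40000 true, ivN0 74158 46792 40993 97263 40000 true, ivN0 75014 40993 33664 97263 40000 true] [ivN0 75546 0 0 97263 40000 true, ivN0 76078 0 0 97263 40000 true, ivN0 76610 0 0 97263 40000 true] 72274 100000 0 0 0 0 false,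
  gkN 78287 0 106440 0 [ivN0 30 0 0 100000 0 false] [ivN0 15930 99994 97085 100000 0 true, ivN0 31831 97085 94085 100000 0 true, ivN0 36373 94085 92201 100000 0 true, ivN0 40915 92201 90018 100000 0 true, ivN0 45457 90018 87515 100000 0 true, ivN0 50000 87515 84661 100000 0 true, ivN0 54542 84661 81422 100000 0 true, ivN0 59084 81422 77749 100000 0 true, ivN0 63626 77718 73820 99831 10000 true, ivN0 68169 73793 69916 98946 25000 true, ivN0 69751 69917 68474 98946 25000 true, ivN0 70279 68484 66976 97263 40000 true, ivN0 72389 66956 59790 97263 40000 true, ivN0 74499 59790 49954 97263 40000 true, ivN0 75554 49990 43399 97263 40000 true, ivN0 76610 43399 34765 97263 40000 true] [ivN0 77029 0 0 97263 40000 true, ivN0 77448 0 0 97263 40000 true, ivN0 77867 0 0 97263 40000 true, ivN0 78287 0 0 97263 40000 true] 67762 100000 0 0 0 0 false,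
  gkN 80181 0 98790 0 [ivN0 30 0 0 100000 0 false] [ivN0 15930 99995 97494 100000 0 true, ivN0 31831 97494 94927 100000 0 true, ivN0 36373 94927 93321 100000 0 true, ivN0 40915 93321 91467 100000 0 true, ivN0 45457 91467 89349 100000 0 true, ivN0 50000 89349 86949 100000 0 true, ivN0 54542 86949 84242 100000 0 true, ivN0 59084 84242 81197 100000 0 true, ivN0 63626 81172 77974 99831 10000 true, ivN0 68169 77953 74810 98946 25000 true, ivN0 69433 74811 73893 98946 25000 true, ivN0 70698 73913 71444 97263 40000 true, ivN0 71963 71444 68088 97263 40000 true, ivN0 73228 68088 64164 97263 40000 true, ivN0 74492 64164 59509 97263 40000 true, ivN0 75757 59509 53852 97263 40000 true, ivN0 77022 53852 46738 97263 40000 true, ivN0 78287 46738 37199 97263 40000 true] [ivN0 78760 0 0 97263 40000 true, ivN0 79234 0 0 97263 40000 true, ivN0 79707 0 0 97263 40000 true, ivN0 80181 0 0 97263 40000 true] 62892 100000 0 0 0 0 false,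
  gkN 82448 0 90097 0 [ivN0 30 0 0 100000 0 false] [ivN0 31831 99996 95799 100000 0 true, ivN0 36373 95799 94477 100000 0 true, ivN0 40915 94477 92957 100000 0 true, ivN0 45457 92957 91228 100000 0 true, ivN0 50000 91228 89278 100000 0 true, ivN0 54542 89278 87093 100000 0 true, ivN0 59084 87093 84653 100000 0 true, ivN0 63626 84633 82094 99831 10000 true, ivN0 68169 82077 79608 98946 25000 true, ivN0 69670 79609 78757 98946 25000 true, ivN0 71922 78788 74497 97263 40000 true, ivN0 74175 74497 68923 97263 40000 true, ivN0 75676 68938 64264 97263 40000 true, ivN0 77178 64264 58486 97263 40000 true, ivN0 78679 58486 51090 97263 40000 true, ivN0 80181 51090 40980 97263 40000 true] [ivN0 80634 0 0 97263 40000 true, ivN0 81087 0 0 97263 40000 true, ivN0 81541 0 0 97263 40000 true, ivN0 81994 0 0 97263 40000 true, ivN0 82448 0 0 97263 40000 true] 57358 100000 0 0 0 0 false,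
  gkN 85472 0 79041 0 [ivN0 30 0 0 100000 0 false] [ivN0 31831 99997 96783 100000 0 true, ivN0 36373 96783 95778 100000 0 true, ivN0 40915 95778 94626 100000 0 true, ivN0 45457 94626 93322 100000 0 true, ivN0 50000 93322 91859 100000 0 true, ivN0 54542 91859 90230 100000 0 true, ivN0 59084 90230 88425 100000 0 true, ivN0 63626 88410 86548 99831 10000 true, ivN0 68169 86536 84742 98946 25000 true, ivN0 69953 84742 83835 98946 25000 true, ivN0 71738 83835 81370 97263 40000 true, ivN0 73523 81370 78426 97263 40000 true, ivN0 75308 78426 74865 97263 40000 true, ivN0 77093 74865 70486 97263 40000 true, ivN0 78878 70486 64979 97263 40000 true, ivN0 79770 64998 61676 97263 40000 true, ivN0 80663 61676 57843 97263 40000 true, ivN0 81555 57843 53360 97263 40000 true, ivN0 82448 53360 47986 97263 40000 true] [ivN0 85472 0 0 97263 40000 false] 50319 100000 0 0 0 0 false,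
  gkN 89538 0 64028 0 [ivN0 30 0 0 100000 0 false] [ivN0 31831 99998 97901 100000 0 true, ivN0 40915 97901 96507 100000 0 true, ivN0 50000 96507 94737 100000 0 true, ivN0 59084 94737 92568 100000 0 true, ivN0 63626 92558 91396 99831 10000 true, ivN0 68169 91389 90279 98946 25000 true, ivN0 70331 90247 89421 97263 40000 true, ivN0 72494 89421 87504 97263 40000 true, ivN0 74657 87504 85160 97263 40000 true, ivN0 76820 85160 82253 97263 40000 true, ivN0 78983 82253 78589 97263 40000 true, ivN0 81146 78589 73867 97263 40000 true, ivN0 82227 73889 70993 97263 40000 true, ivN0 83309 70993 67619 97263 40000 true, ivN0 84390 67630 63612 97263 40000 false, ivN0 85472 63612 58635 97263 40000 false] [ivN0 89538 0 0 97263 40000 false] 40761 100000 0 0 0 0 false,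
  gkN 94534 0 43835 0 [ivN0 30 0 0 100000 0 false] [ivN0 31831 99999 99021 100000 0 true, ivN0 40915 99021 98378 100000 0 true, ivN0 50000 98378 97568 100000 0 true, ivN0 59084 97568 96587 100000 0 true, ivN0 63626 96583 96063 99831 10000 true, ivN0 68169 96060 95566 98946 25000 true, ivN0 70172 95567 95244 98946 25000 true, ivN0 72175 95244 94483 97263 40000 true, ivN0 74178 94483 93580 97263 40000 true, ivN0 76182 93580 92498 97263 40000 true, ivN0 78185 92498 91193 97263 40000 true, ivN0 80188 91193 89602 97263 40000 true, ivN0 82191 89602 87639 97263 40000 true, ivN0 84195 87635 85186 97263 40000 false, ivN0 85530 85186 83113 97263 40000 false, ivN0 86866 83113 80536 97263 40000 false, ivN0 88202 80536 77245 97263 40000 false, ivN0 89538 77245 72890 97263 40000 false] [ivN0 94534 0 0 97263 40000 false] 27906 100000 0 0 0 0 false,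
  gkN 98639 0 20963 0 [ivN0 30 0 0 100000 0 false] [ivN0 31831 99999 99777 100000 0 true, ivN0 50000 99777 99449 100000 0 true, ivN0 68169 99438 98990 99831 10000 true, ivN0 73112 99000 98673 97263 40000 true, ivN0 78055 98673 98068 97263 40000 true, ivN0 82998 98068 97109 97263 40000 true, ivN0 85470 97124 96419 97263 40000 false, ivN0 87942 96419 95408 97263 40000 false, ivN0 89590 95408 94453 97263 40000 false, ivN0 91238 94453 93118 97263 40000 false, ivN0 92886 93118 91123 97263 40000 false, ivN0 94534 91123 87823 97263 40000 false] [ivN0 98639 0 0 97263 40000 false] 13345 100000 0 0 0 0 false,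
  gkN 99800 0 7942 0 [ivN0 30 0 0 100000 0 false] [ivN0 31831 99999 99968 100000 0 true, ivN0 68169 99968 99853 100000 0 false, ivN0 91021 99853 99069 97263 40000 false, ivN0 98639 99069 92545 97263 40000 false] [ivN0 99800 0 0 97263 40000 false] 5056 100000 0 0 0 0 false]

/-- Certificate data. -/
def gapSDN : List (ℕ × List GCertN) := [
  (30, gapSD0)]

def gapSD : List (ℚ × List GCert) := toGs gapSDN

theorem gapSD_ok : gStrips gapSDPar (d 26600) (d 36000) (d 12000) (d 30) (d 31830) (d 99800) (d 0) gapSD = true :=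
  gStripsN_sound (p := gapSDParN) (V0 := 26600) (V1 := 36000) (e := 12000) (A1 := 30)
    (B0 := 31830) (B1 := 99800) (by decide) gapSDN 0 (by decide +kernel)

end Vale.Agent.P232
end
end

section

section

namespace Vale.Agent.P232

/-- Parameters. -/
def gapSEPar : Par := ⟨d 100000, d 42000, []⟩

/-- Parameters. -/
def gapSEParN : ParN := ⟨100000, 42000, []⟩

/-- Certificate data. -/
def gapSE0 : List GCertN := [
  gkN 46855 0 213424 0 [ivN0 30 0 0 100000 0 false] [ivN0 15930 99978 87694 100000 0 true, ivN0 31830 87694 73382 100000 0 true] [ivN0 46855 0 0 100000 0 true] 100000 91415 58162 23837 214327 159522 true,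
  gkN 56264 0 177733 0 [ivN0 30 0 0 100000 0 false] [ivN0 7980 99984 95904 100000 0 true, ivN0 15930 95904 91641 100000 0 true, ivN0 23880 91641 87171 100000 0 true, ivN0 31831 87171 82458 100000 0 true, ivN0 35587 82458 77456 100000 0 true, ivN0 39343 77456 71487 100000 0 true, ivN0 43099 71487 64282 100000 0 true, ivN0 46855 64282 55362 100000 0 true] [ivN0 56264 0 0 100000 0 true] 100000 91415 37119 22554 217381 137120 true,
  gkN 62515 0 159961 0 [ivN0 30 0 0 100000 0 false] [ivN0 15930 99987 93287 100000 0 true, ivN0 31831 93287 86066 100000 0 true, ivN0 37939 86066 79479 100000 0 true, ivN0 44047 79479 70962 100000 0 true, ivN0 50155 70962 59694 100000 0 true, ivN0 53209 59694 52494 100000 0 true, ivN0 56264 52494 43588 100000 0 true] [ivN0 62515 0 0 100000 0 true] 100000 98199 22235 21702 219410 122236 true,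
  gkN 66543 0 150278 0 [ivN0 30 0 0 100000 0 false] [ivN0 7980 99989 97089 100000 0 true, ivN0 15930 97089 94100 100000 0 true, ivN0 23880 94100 91013 100000 0 true, ivN0 31831 91013 87816 100000 0 true, ivN0 35666 87816 84422 100000 0 true, ivN0 39502 84422 80473 100000 0 true, ivN0 43337 80473 75885 100000 0 true, ivN0 47173 75885 70530 100000 0 true, ivN0 49090 70530 67511 100000 0 true, ivN0 51008 67511 64219 100000 0 true, ivN0 52926 64219 60613 100000 0 true, ivN0 54844 60613 56632 100000 0 true, ivN0 56761 56632 52192 100000 0 true, ivN0 58679 52192 47159 100000 0 true, ivN0 60597 47159 41320 100000 0 true, ivN0 62515 41320 34265 100000 0 true] [ivN0 66543 0 0 100000 0 true] 95670 100000 12645 21153 220717 112646 true,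
  gkN 69167 0 144577 0 [ivN0 30 0 0 100000 0 false] [ivN0 7980 99990 97309 100000 0 true, ivN0 15930 97309 94552 100000 0 true, ivN0 23880 94552 91712 100000 0 true, ivN0 31831 91712 88781 100000 0 true, ivN0 34000 88781 87084 100000 0 true, ivN0 36170 87084 85237 100000 0 true, ivN0 38339 85237 83232 100000 0 true, ivN0 40509 83232 81055 100000 0 true, ivN0 42678 81055 78694 100000 0 true, ivN0 44848 78694 76130 100000 0 true, ivN0 47017 76130 73343 100000 0 true, ivN0 49187 73343 70305 100000 0 true, ivN0 51356 70305 66985 100000 0 true, ivN0 53526 66985 63335 100000 0 true, ivN0 55695 63335 59297 100000 0 true, ivN0 57865 59297 54782 100000 0 true, ivN0 60034 54782 49664 100000 0 true, ivN0 62204 49664 43727 100000 0 true, ivN0 63288 43727 40345 100000 0 true, ivN0 64373 40345 36582 100000 0 true, ivN0 65458 36582 32307 100000 0 true, ivN0 66543 32307 27284 100000 0 true] [ivN0 69167 0 0 100000 0 true] 92041 100000 6397 20795 221570 106398 true,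
  gkN 70855 0 141133 0 [ivN0 30 0 0 100000 0 false] [ivN0 7980 99990 97437 100000 0 true, ivN0 15930 97437 94815 100000 0 true, ivN0 23880 94815 92119 100000 0 true, ivN0 31831 92119 89341 100000 0 true, ivN0 36373 89341 85818 100000 0 true, ivN0 40915 85818 81642 100000 0 true, ivN0 45457 81642 76708 100000 0 true, ivN0 47728 76708 73909 100000 0 true, ivN0 50000 73909 70854 100000 0 true, ivN0 52271 70854 67511 100000 0 true, ivN0 54542 67511 63832 100000 0 true, ivN0 56813 63832 59756 100000 0 true, ivN0 59084 59756 55196 100000 0 true, ivN0 61355 55196 50017 100000 0 true, ivN0 63626 50017 44005 100000 0 true, ivN0 65897 44005 36749 100000 0 true, ivN0 67033 36749 32400 100000 0 true, ivN0 68169 32400 27273 100000 0 true, ivN0 69167 27273 21698 100000 0 true] [ivN0 70855 0 0 100000 0 true] 89848 100000 2378 20565 222117 102379 true,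
  gkN 72485 0 135885 0 [ivN0 30 0 0 100000 0 false] [ivN0 7980 99991 97626 100000 0 true, ivN0 15930 97626 95203 100000 0 true, ivN0 23880 95203 92717 100000 0 true, ivN0 31831 92717 90161 100000 0 true, ivN0 34102 90161 88615 100000 0 true, ivN0 36373 88615 86931 100000 0 true, ivN0 38644 86931 85103 100000 0 true, ivN0 40915 85103 83120 100000 0 true, ivN0 43186 83120 80970 100000 0 true, ivN0 45457 80970 78641 100000 0 true, ivN0 47728 78641 76117 100000 0 true, ivN0 50000 76117 73374 100000 0 true, ivN0 52271 73374 70391 100000 0 true, ivN0 54542 70391 67134 100000 0 true, ivN0 56813 67134 63561 100000 0 true, ivN0 59084 63561 59616 100000 0 true, ivN0 61355 59616 55218 100000 0 true, ivN0 62490 55218 52815 100000 0 true, ivN0 63626 52815 50249 100000 0 true, ivN0 64761 50249 47496 100000 0 true, ivN0 65897 47496 44517 100000 0 true, ivN0 67033 44517 41267 100000 0 true, ivN0 68169 41267 37675 100000 0 true, ivN0 69512 37675 32832 100000 0 true, ivN0 70183 32832 30081 100000 0 true,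 ivN0 70855 30081 27016 100000 0 true] [ivN0 71398 0 0 100000 0 true, ivN0 71941 0 0 100000 0 true, ivN0 72485 0 0 100000 0 true] 86507 100000 0 0 0 0 false,
  gkN 74559 0 125482 0 [ivN0 30 0 0 100000 0 false] [ivN0 15930 99992 95924 100000 0 true, ivN0 31831 95924 91676 100000 0 true, ivN0 36373 91676 88976 100000 0 true, ivN0 40915 88976 85814 100000 0 true, ivN0 45457 85814 82136 100000 0 true, ivN0 50000 82136 77868 100000 0 true, ivN0 54542 77868 72910 100000 0 true, ivN0 59084 72910 67106 100000 0 true, ivN0 63626 67106 60213 100000 0 true, ivN0 68169 60213 51797 100000 0 true, ivN0 71406 51797 44402 100000 0 true, ivN0 71945 44402 42594 100000 0 true, ivN0 72485 42594 38374 100000 0 true] [ivN0 73003 0 0 100000 0 true, ivN0 73522 0 0 100000 0 true, ivN0 74040 0 0 100000 0 true, ivN0 74559 0 0 100000 0 true] 79884 100000 0 0 0 0 false,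
  gkN 76872 0 114543 0 [ivN0 30 0 0 100000 0 false] [ivN0 15930 99993 96616 100000 0 true, ivN0 23880 96616 94882 100000 0 true, ivN0 31831 94882 93116 100000 0 true, ivN0 36373 93116 90907 100000 0 true, ivN0 40915 90907 88338 100000 0 true, ivN0 45457 88338 85375 100000 0 true, ivN0 47728 85375 83733 100000 0 true, ivN0 50000 83733 81975 100000 0 true, ivN0 52271 81975 80095 100000 0 true, ivN0 54542 80095 78083 100000 0 true, ivN0 56813 78083 75928 100000 0 true, ivN0 59084 75928 73619 100000 0 true, ivN0 61355 73619 71140 100000 0 true, ivN0 63626 71140 68473 100000 0 true, ivN0 65897 68473 65595 100000 0 true, ivN0 68169 65595 62474 100000 0 true, ivN0 71364 62474 57603 100000 0 true, ivN0 71763 57603 56949 100000 0 true, ivN0 72162 56949 55376 100000 0 true, ivN0 72961 55372 51302 100000 0 true, ivN0 73760 51302 46546 100000 0 true, ivN0 74559 46546 40829 100000 0 true] [ivN0 75021 0 0 100000 0 true, ivN0 75484 0 0 100000 0 true, ivN0 75946 0 0 100000 0 true, ivN0 76409 0 0 100000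 0 true, ivN0 76872 0 0 100000 0 true] 72920 100000 0 0 0 0 false,
  gkN 79246 0 103979 0 [ivN0 30 0 0 100000 0 false] [ivN0 15930 99994 97220 100000 0 true, ivN0 31831 97220 94363 100000 0 true, ivN0 36373 94363 92572 100000 0 true, ivN0 40915 92572 90499 100000 0 true, ivN0 45457 90499 88124 100000 0 true, ivN0 50000 88124 85423 100000 0 true, ivN0 54542 85423 82363 100000 0 true, ivN0 59084 82363 78903 100000 0 true, ivN0 63626 78903 74987 100000 0 true, ivN0 68169 74987 70539 100000 0 true, ivN0 71432 70539 66957 100000 0 true, ivN0 72520 66957 64252 100000 0 true, ivN0 74696 64228 55272 100000 0 true, ivN0 75784 55308 49407 100000 0 true, ivN0 76872 49407 41929 100000 0 true] [ivN0 77267 0 0 100000 0 true, ivN0 77663 0 0 100000 0 true, ivN0 78059 0 0 100000 0 true, ivN0 78454 0 0 100000 0 true, ivN0 78850 0 0 100000 0 true, ivN0 79246 0 0 100000 0 true] 66195 100000 0 0 0 0 false,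
  gkN 81859 0 93057 0 [ivN0 30 0 0 100000 0 false] [ivN0 31831 99995 95512 100000 0 true, ivN0 36373 95512 94097 100000 0 true, ivN0 40915 94097 92468 100000 0 true, ivN0 45457 92468 90612 100000 0 true, ivN0 50000 90612 88516 100000 0 true, ivN0 54542 88516 86162 100000 0 true, ivN0 59084 86162 83528 100000 0 true, ivN0 63626 83528 80587 100000 0 true, ivN0 68169 80587 77303 100000 0 true, ivN0 71283 77303 74831 100000 0 true, ivN0 72322 74831 73262 100000 0 true, ivN0 73707 73258 69640 100000 0 true, ivN0 75091 69640 65313 100000 0 true, ivN0 76476 65313 60027 100000 0 true, ivN0 77861 60027 53378 100000 0 true, ivN0 79246 53378 44582 100000 0 true] [ivN0 79899 0 0 100000 0 true, ivN0 80552 0 0 100000 0 true, ivN0 81205 0 0 100000 0 true, ivN0 81859 0 0 100000 0 true] 59242 100000 0 0 0 0 false,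
  gkN 84984 0 80880 0 [ivN0 30 0 0 100000 0 false] [ivN0 31831 99996 96629 100000 0 true, ivN0 40915 96629 94365 100000 0 true, ivN0 50000 94365 91458 100000 0 true, ivN0 54542 91458 89744 100000 0 true, ivN0 59084 89744 87842 100000 0 true, ivN0 63626 87842 85742 100000 0 true, ivN0 68169 85742 83427 100000 0 true, ivN0 71591 83427 81530 100000 0 true, ivN0 73302 81530 78917 100000 0 true, ivN0 75014 78917 75456 100000 0 true, ivN0 76725 75456 71203 100000 0 true, ivN0 78436 71203 65859 100000 0 true, ivN0 80147 65859 58923 100000 0 true, ivN0 81003 58949 54617 100000 0 true, ivN0 81859 54617 49450 100000 0 true] [ivN0 82484 0 0 100000 0 true, ivN0 83109 0 0 100000 0 true, ivN0 83734 0 0 100000 0 true, ivN0 84359 0 0 100000 0 true, ivN0 84984 0 0 100000 0 true] 51490 100000 0 0 0 0 false,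
  gkN 89072 0 65781 0 [ivN0 30 0 0 100000 0 false] [ivN0 31831 99997 97783 100000 0 true, ivN0 36373 97783 97095 100000 0 true, ivN0 40915 97095 96310 100000 0 true, ivN0 45457 96310 95424 100000 0 true, ivN0 50000 95424 94436 100000 0 true, ivN0 54542 94436 93342 100000 0 true, ivN0 59084 93342 92138 100000 0 true, ivN0 63626 92138 90819 100000 0 true, ivN0 68169 90819 89382 100000 0 true, ivN0 71321 89382 88311 100000 0 true, ivN0 72372 88311 87614 100000 0 true, ivN0 74474 87608 85253 100000 0 true, ivN0 76576 85253 82320 100000 0 true, ivN0 78678 82320 78600 100000 0 true, ivN0 80780 78600 73770 100000 0 true, ivN0 81831 73794 70812 100000 0 true, ivN0 82882 70812 67323 100000 0 true, ivN0 83933 67323 63181 100000 0 true, ivN0 84984 63181 58170 100000 0 true] [ivN0 89072 0 0 100000 0 false] 41877 100000 0 0 0 0 false,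
  gkN 94044 0 45996 0 [ivN0 30 0 0 100000 0 false] [ivN0 31831 99998 98922 100000 0 true, ivN0 40915 98922 98213 100000 0 true, ivN0 50000 98213 97319 100000 0 true, ivN0 59084 97319 96236 100000 0 true, ivN0 68169 96236 94957 100000 0 true, ivN0 72088 94957 94264 100000 0 true, ivN0 76007 94264 92145 100000 0 true, ivN0 79926 92145 89005 100000 0 true, ivN0 81886 89035 86885 100000 0 true, ivN0 83846 86885 84162 100000 0 true, ivN0 86459 84078 79261 100000 0 false, ivN0 87765 79261 75897 100000 0 false, ivN0 89072 75897 71490 100000 0 false] [ivN0 94044 0 0 100000 0 false] 29282 100000 0 0 0 0 false,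
  gkN 98351 0 23142 0 [ivN0 30 0 0 100000 0 false] [ivN0 31831 99999 99728 100000 0 true, ivN0 50000 99728 99328 100000 0 true, ivN0 68169 99328 98747 100000 0 true, ivN0 73020 98747 98472 100000 0 true, ivN0 77872 98472 97752 100000 0 true, ivN0 82723 97752 96586 100000 0 true, ivN0 87575 96564 94592 100000 0 false, ivN0 90809 94592 92035 100000 0 false, ivN0 94044 92035 86421 100000 0 false] [ivN0 98351 0 0 100000 0 false] 14733 100000 0 0 0 0 false,
  gkN 99800 0 7942 0 [ivN0 30 0 0 100000 0 false] [ivN0 31831 99999 99968 100000 0 true, ivN0 68169 99968 99852 100000 0 true, ivN0 90805 99853 99095 100000 0 false, ivN0 98351 99095 93926 100000 0 false] [ivN0 99800 0 0 100000 0 false] 5056 100000 0 0 0 0 false]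

/-- Certificate data. -/
def gapSEN : List (ℕ × List GCertN) := [
  (30, gapSE0)]

def gapSE : List (ℚ × List GCert) := toGs gapSEN

theorem gapSE_ok : gStrips gapSEPar (d 26600) (d 36000) (d 12000) (d 30) (d 31830) (d 99800) (d 0) gapSE = true :=
  gStripsN_sound (p := gapSEParN) (V0 := 26600) (V1 := 36000) (e := 12000) (A1 := 30)
    (B0 := 31830) (B1 := 99800) (by decide) gapSEN 0 (by decide +kernel)

end Vale.Agent.P232
end
end

section

section

open MeasureTheory Set

namespace Vale.Agent.P232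

theorem cast_d' (z : ℤ) : ((d z : ℚ) : ℝ) = (z : ℝ) / 100000 := by
  unfold d
  rw [Rat.mkRat_eq_div]
  push_cast
  norm_num

/-- `P` is strictly larger than the value of the tube and of the slab. -/
def Str (V : ℝ) (P : ENNReal) : Prop :=
  ∃ x, min (2 * Real.sqrt (Real.pi * V)) 2 < x ∧ ENNReal.ofReal x ≤ P

theorem two_sqrt_le {V : ℝ} (h : V ≤ 0.306) : 2 * Real.sqrt (Real.pi * V) ≤ 1.963 := by
  have p2 := Real.pi_lt_d6
  have : Real.sqrt (Real.pi * V) ≤ 0.9815 := by
    rw [Real.sqrt_le_left (by norm_num)]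
    have hpi := Real.pi_pos
    nlinarith
  linarith only [this]

/-- The corner `m → 0`, `M → 1`. -/
theorem corner' {m M V : ℝ} {P : ENNReal} (hl : LineHyp m M V P) (hm0 : 0 ≤ m)
    (hm : m ≤ 0.002) (hM : 0.998 ≤ M) (hM1 : M ≤ 1) (hV1 : V ≤ 0.5) :
    Str V P ∨ (m = 0 ∧ M = 1 ∧ ENNReal.ofReal 2 ≤ P) := by
  rcases le_or_gt 0.305 V with h | h
  · have hc := corner hl hm0 hm hM hM1 h hV1
    have s0 := Real.sqrt_nonneg m
    have s1 := Real.sqrt_nonneg (1 - M)
    rcases (add_nonneg s0 s1).eq_or_lt with h0 | h0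
    · right
      have a0 : Real.sqrt m = 0 := by linarith only [s0, s1, h0]
      have a1 : Real.sqrt (1 - M) = 0 := by linarith only [s0, s1, h0]
      rw [Real.sqrt_eq_zero hm0] at a0
      rw [Real.sqrt_eq_zero (by linarith only [hM1])] at a1
      refine ⟨a0, by linarith only [hM1, a1], le_trans (ENNReal.ofReal_le_ofReal ?_) hc⟩
      linarith only [s0, s1]
    · left
      exact ⟨_, lt_of_le_of_lt (min_le_right _ _) (by linarith only [h0]), hc⟩
  · left
    have key := hl 0 0 (fun u _ => by simp) (fun u _ => by simpa using I2_nonneg u)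
    refine ⟨_, ?_, key⟩
    refine lt_of_le_of_lt ((min_le_left _ _).trans (two_sqrt_le (by linarith only [h]))) ?_
    simp
    linarith only [hm, hM]

theorem d_eq (z : ℤ) (r : ℝ) (h : (z : ℝ) / 100000 = r) : ((d z : ℚ) : ℝ) = r := by
  rw [cast_d', h]

theorem real_G2 {m M V : ℝ} {P : ENNReal} (hL : LineHyp m M V P)
    (hl : SlackHyp (fun u => 2 * qmin gapEPar.y gapEPar.H gapEPar.T u)
      (fun u => 2 * pBf gapEPar.H u) m M V 0 P)
    (hm0 : 0 ≤ m) (hmV : m ≤ V) (hVM : V ≤ M) (hM1 : M ≤ 1) (hV0 : 0.266 ≤ V) (hV1 : V < 0.36)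
    (hM : 0.38 < M) :
    Str V P ∨ (m = 0 ∧ M = 1 ∧ ENNReal.ofReal 2 ≤ P) := by
  have hVp : 0 ≤ V := hm0.trans hmV
  have k0 : ((d 26600 : ℚ) : ℝ) ≤ V := (d_eq 26600 0.266 (by norm_num)).trans_le hV0
  have k1 : V ≤ ((d 36000 : ℚ) : ℝ) := hV1.le.trans_eq (d_eq 36000 0.36 (by norm_num)).symm
  have k2 : ((d 38000 : ℚ) : ℝ) < M := (d_eq 38000 0.38 (by norm_num)).trans_lt hM
  have e0 : ((d 0 : ℚ) : ℝ) = 0 := d_eq 0 0 (by norm_num)
  rcases lt_or_ge m 0.002 with hm | hm
  · rcases lt_or_ge 0.998 M with hM2 | hM2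
    · exact corner' hL hm0 hm.le hM2.le hM1 (by linarith only [hV1])
    · left
      refine gStrips_sound (by decide +kernel) (by decide +kernel) (by decide +kernel) gapE _
        gapE_ok (m := m) (M := M) (V := V) ?_ hVp k0 k1 hmV hVM (e0.trans_le hm0)
        (hm.trans_eq (d_eq 200 0.002 (by norm_num)).symm) k2
        (hM2.trans_eq (d_eq 99800 0.998 (by norm_num)).symm)
      rw [e0]; exact hl
  · left
    refine gStrips_sound (by decide +kernel) (by decide +kernel) (by decide +kernel) gapF _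
      gapF_ok (m := m) (M := M) (V := V) ?_ hVp k0 k1 hmV hVM
      ((d_eq 200 0.002 (by norm_num)).trans_le hm)
      ((hmV.trans_lt hV1).trans_eq (d_eq 36000 0.36 (by norm_num)).symm) k2
      (hM1.trans_eq (d_eq 100000 1 (by norm_num)).symm)
    rw [e0]; exact hl

/-- Case G1 with all slices nearly in the flat part. -/
theorem G1_const {m M V : ℝ} {P : ENNReal}
    (hl : SlackHyp (fun u => 2 * qmin 0 1 [] u) (fun u => 2 * pBf 1 u) m M V 0.12 P)
    (hmM : m ≤ M) (hm : 0.3183 ≤ m) (hM : M ≤ 0.38) : Str V P := by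
  have p1 := Real.pi_gt_d6
  have p2 := Real.pi_lt_d6
  have hpi := Real.pi_pos
  have hQ0 : ∀ u ∈ Icc m M, (1.98 : ℝ) ≤ 2 * qmin 0 1 [] u := by
    intro u hu
    refine le_trans ?_ (I2_le_qmin one_pos 0 [] u)
    unfold I2
    have hu0 : 0.3183 ≤ u := hm.trans hu.1
    have hu1 : u ≤ 0.38 := hu.2.trans hM
    refine le_min (le_min ?_ ?_) (by norm_num)
    · have : 0.99 ≤ Real.sqrt (Real.pi * u) := by
        apply Real.le_sqrt_of_sq_le
        nlinarith only [p1, p2, hu0]
      linarith only [this]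
    · have : 0.99 ≤ Real.sqrt (Real.pi * (1 - u)) := by
        apply Real.le_sqrt_of_sq_le
        nlinarith only [p1, p2, hu1]
      linarith only [this]
  have key := hl 1.98 0 0.7 (by norm_num) (Or.inr (by linarith only [hM, p1, p2])) (fun u _ => by norm_num)
    (fun u hu => by
      have := hQ0 u hu
      simpa using this) (fun u hu => by
      have hu' : u ∈ Icc m M := ⟨(le_max_left _ _).trans hu.1, hu.2⟩
      have hu1 : u ≤ 0.38 := hu'.2.trans hM
      have h1 : qmin 0 1 [] u ≤ 1 := (min_le_left _ _).trans ((min_le_right _ _).trans (le_refl _))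
      have h2 : 1.395 ≤ pBf 1 u := by
        refine le_trans ?_ (sqrt_le_pBf one_pos u)
        apply Real.le_sqrt_of_sq_le
        nlinarith only [p1, p2, hu1]
      simp only [zero_mul, add_zero]
      linarith only [h2, h1, p2, p1])
  refine ⟨_, ?_, key⟩
  refine lt_of_le_of_lt (min_le_right _ _) ?_
  have : 0 ≤ ∫ u in m..M, Real.sqrt (1 - (((1.98 : ℝ) + 0 * u) / (2 * qmin 0 1 [] u)) ^ 2) :=
    intervalIntegral.integral_nonneg hmM fun u _ => Real.sqrt_nonneg _
  simp only at *
  norm_num at *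
  linarith only [p1, p2, this]

/-- The family of line bounds of case G1. -/
def G1Hyp (y m M V e : ℝ) (P : ENNReal) : Prop :=
  ∀ y1 y2 : ℝ, y1 < 1 → y1 ≤ y → y ≤ y2 → ∀ T : List (ℚ × ℚ),
    (∀ p ∈ T, 0 ≤ (p.2 : ℝ) ∧ (p.2 : ℝ) ≤ 1 ∧ (p.1 : ℝ) ≤ arcA (p.2 : ℝ)) →
    SlackHyp (fun u => 2 * qmin y2 (1 - y1) T u) (fun u => 2 * pBf (1 - y1) u) m M V e P

theorem tan_S1 : ∀ p ∈ gapSAPar.T, 0 ≤ ((p.2 : ℚ) : ℝ) ∧ ((p.2 : ℚ) : ℝ) ≤ 1 ∧
    ((p.1 : ℚ) : ℝ) ≤ arcA (p.2 : ℝ) := by
  intro p hp
  simp only [gapSAPar, List.mem_cons, List.not_mem_nil, or_false] at hp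
  rcases hp with rfl | rfl | rfl
  · refine ⟨?_, ?_, arc15⟩ <;> rw [cast_d'] <;> norm_num
  · refine ⟨?_, ?_, arc30⟩ <;> rw [cast_d'] <;> norm_num
  · refine ⟨?_, ?_, arc45⟩ <;> rw [cast_d'] <;> norm_num

theorem tan_S2 : ∀ p ∈ gapSBPar.T, 0 ≤ ((p.2 : ℚ) : ℝ) ∧ ((p.2 : ℚ) : ℝ) ≤ 1 ∧
    ((p.1 : ℚ) : ℝ) ≤ arcA (p.2 : ℝ) := by
  intro p hp
  simp only [gapSBPar, List.mem_cons, List.not_mem_nil, or_false] at hp
  rcases hp with rfl | rfl | rfl
  · refine ⟨?_, ?_, arc10⟩ <;> rw [cast_d'] <;> norm_num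
  · refine ⟨?_, ?_, arc25⟩ <;> rw [cast_d'] <;> norm_num
  · refine ⟨?_, ?_, arc40⟩ <;> rw [cast_d'] <;> norm_num

theorem tan_E : ∀ p ∈ gapEPar.T, 0 ≤ ((p.2 : ℚ) : ℝ) ∧ ((p.2 : ℚ) : ℝ) ≤ 1 ∧
    ((p.1 : ℚ) : ℝ) ≤ arcA (p.2 : ℝ) := by
  intro p hp
  simp only [gapEPar, List.mem_cons, List.not_mem_nil, or_false] at hp
  rcases hp with rfl | rfl | rfl | rfl
  · refine ⟨?_, ?_, arc60⟩ <;> rw [cast_d'] <;> norm_num
  · refine ⟨?_, ?_, arc70⟩ <;> rw [cast_d'] <;> norm_num
  · refine ⟨?_, ?_, arc80⟩ <;> rw [cast_d'] <;> norm_num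
  · refine ⟨?_, ?_, arc87⟩ <;> rw [cast_d'] <;> norm_num

theorem real_G1 {y m M V : ℝ} {P : ENNReal} (hL : LineHyp m M V P)
    (hy0 : 0 ≤ y) (hy1 : y ≤ 1) (hl : G1Hyp y m M V 0.12 P)
    (hm0 : 0 ≤ m) (hmV : m ≤ V) (hVM : V ≤ M) (hM1 : M ≤ 1) (hV0 : 0.266 ≤ V) (hV1 : V < 0.36)
    (hM : 0.3183 < M) :
    Str V P ∨ (m = 0 ∧ M = 1 ∧ ENNReal.ofReal 2 ≤ P) := by
  have hbase : SlackHyp (fun u => 2 * qmin 0 1 [] u) (fun u => 2 * pBf 1 u) m M V 0.12 P := by
    have := hl 0 1 one_pos hy0 hy1 [] (fun p hp => absurd hp (List.not_mem_nil))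
    rw [sub_zero] at this
    exact this
  have he : ((d 12000 : ℚ) : ℝ) = 0.12 := d_eq _ _ (by norm_num)
  have hVp : 0 ≤ V := hm0.trans hmV
  have k0 : ((d 26600 : ℚ) : ℝ) ≤ V := (d_eq 26600 0.266 (by norm_num)).trans_le hV0
  have k1 : V ≤ ((d 36000 : ℚ) : ℝ) := hV1.le.trans_eq (d_eq 36000 0.36 (by norm_num)).symm
  have k2 : ((d 31830 : ℚ) : ℝ) < M :=
    (d_eq 31830 0.3183 (by norm_num)).trans_lt hM
  have e0 : ((d 0 : ℚ) : ℝ) = 0 := d_eq 0 0 (by norm_num)
  have e1 : ((d 100000 : ℚ) : ℝ) = 1 := d_eq 100000 1 (by norm_num)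
  have kM : M ≤ ((d 100000 : ℚ) : ℝ) := hM1.trans_eq e1.symm
  rcases lt_or_ge m 0.002 with hm | hm
  · rcases lt_or_ge 0.998 M with hM2 | hM2
    · exact corner' hL hm0 hm.le hM2.le hM1 (by linarith only [hV1])
    left
    have k4 : M ≤ ((d 99800 : ℚ) : ℝ) := hM2.trans_eq (d_eq 99800 0.998 (by norm_num)).symm
    rcases lt_or_ge m 0.0003 with hm3 | hm3
    · have k3 : ((d 0 : ℚ) : ℝ) ≤ m := e0.trans_le hm0
      have k5 : m < ((d 30 : ℚ) : ℝ) := hm3.trans_eq (d_eq 30 0.0003 (by norm_num)).symm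
      rcases le_or_gt y 0.47 with hy | hy
      · refine gStrips_sound (p := gapSAPar) (by decide +kernel) (by decide +kernel)
          (by decide +kernel) gapSA _ gapSA_ok (m := m) (M := M) (V := V) ?_ hVp k0 k1
          hmV hVM k3 k5 k2 k4
        have := hl 0 0.47 one_pos hy0 hy gapSAPar.T tan_S1
        rw [he, show (gapSAPar.y : ℝ) = 0.47 from d_eq 47000 _ (by norm_num),
          show (gapSAPar.H : ℝ) = 1 - 0 from d_eq 100000 _ (by norm_num)]
        exact this
      rcases le_or_gt y 0.5 with hy2 | hy2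
      · refine gStrips_sound (p := gapSBPar) (by decide +kernel) (by decide +kernel)
          (by decide +kernel) gapSB _ gapSB_ok (m := m) (M := M) (V := V) ?_ hVp k0 k1
          hmV hVM k3 k5 k2 k4
        have := hl 0.47 0.5 (by norm_num) hy.le hy2 gapSBPar.T tan_S2
        rw [he, show (gapSBPar.y : ℝ) = 0.5 from d_eq 50000 _ (by norm_num),
          show (gapSBPar.H : ℝ) = 1 - 0.47 from d_eq 53000 _ (by norm_num)]
        exact this
      rcases le_or_gt y 0.54 with hy3 | hy3
      · refine gStrips_sound (p := gapSCPar) (by decide +kernel) (by decide +kernel)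
          (by decide +kernel) gapSC _ gapSC_ok (m := m) (M := M) (V := V) ?_ hVp k0 k1
          hmV hVM k3 k5 k2 k4
        have := hl 0.5 0.54 (by norm_num) hy2.le hy3 gapSCPar.T tan_S2
        rw [he, show (gapSCPar.y : ℝ) = 0.54 from d_eq 54000 _ (by norm_num),
          show (gapSCPar.H : ℝ) = 1 - 0.5 from d_eq 50000 _ (by norm_num)]
        exact this
      rcases le_or_gt y 0.58 with hy4 | hy4
      · refine gStrips_sound (p := gapSDPar) (by decide +kernel) (by decide +kernel)
          (by decide +kernel) gapSD _ gapSD_ok (m := m) (M := M) (V := V) ?_ hVp k0 k1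
          hmV hVM k3 k5 k2 k4
        have := hl 0.54 0.58 (by norm_num) hy3.le hy4 gapSDPar.T tan_S2
        rw [he, show (gapSDPar.y : ℝ) = 0.58 from d_eq 58000 _ (by norm_num),
          show (gapSDPar.H : ℝ) = 1 - 0.54 from d_eq 46000 _ (by norm_num)]
        exact this
      · refine gStrips_sound (p := gapSEPar) (by decide +kernel) (by decide +kernel)
          (by decide +kernel) gapSE _ gapSE_ok (m := m) (M := M) (V := V) ?_ hVp k0 k1
          hmV hVM k3 k5 k2 k4
        have := hl 0.58 1 (by norm_num) hy4.le hy1 gapSEPar.T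
            (fun p hp => absurd hp (List.not_mem_nil))
        rw [he, show (gapSEPar.y : ℝ) = 1 from e1,
          show (gapSEPar.H : ℝ) = 1 - 0.58 from d_eq 42000 _ (by norm_num)]
        exact this
    · refine gStrips_sound (p := gapIPar) (by decide +kernel) (by decide +kernel)
          (by decide +kernel) gapI _ gapI_ok (m := m) (M := M) (V := V) ?_ hVp k0 k1
          hmV hVM ((d_eq 30 0.0003 (by norm_num)).trans_le hm3)
          (hm.trans_eq (d_eq 200 0.002 (by norm_num)).symm) k2 k4
      rw [he, show (gapIPar.y : ℝ) = 0 from e0, show (gapIPar.H : ℝ) = 1 from e1]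
      exact hbase
  left
  have k6 : ((d 200 : ℚ) : ℝ) ≤ m := (d_eq 200 0.002 (by norm_num)).trans_le hm
  rcases lt_or_ge m 0.3183 with hm4 | hm4
  · refine gStrips_sound (p := gapGPar) (by decide +kernel) (by decide +kernel)
        (by decide +kernel) gapG _ gapG_ok (m := m) (M := M) (V := V) ?_ hVp k0 k1
        hmV hVM k6 (hm4.trans_eq (d_eq 31830 0.3183 (by norm_num)).symm) k2 kM
    rw [he, show (gapGPar.y : ℝ) = 0 from e0, show (gapGPar.H : ℝ) = 1 from e1]
    exact hbase
  rcases le_or_gt M 0.38 with hM5 | hM5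
  · exact G1_const hbase (hmV.trans hVM) hm4 hM5
  · refine gStrips_sound (p := gapHPar) (by decide +kernel) (by decide +kernel)
        (by decide +kernel) gapH _ gapH_ok (m := m) (M := M) (V := V) ?_ hVp k0 k1
        hmV hVM ((d_eq 31830 0.3183 (by norm_num)).trans_le hm4)
        ((hmV.trans_lt hV1).trans_eq (d_eq 36000 0.36 (by norm_num)).symm)
        ((d_eq 38000 0.38 (by norm_num)).trans_lt hM5) kM
    rw [he, show (gapHPar.y : ℝ) = 0 from e0, show (gapHPar.H : ℝ) = 1 from e1]
    exact hbase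

end Vale.Agent.P232
end
end

section

section

open MeasureTheory Set Filter Topology ContinuousLinearMap

namespace Vale.Agent.P232

/-- squared distance to the centre of the cube -/
noncomputable def qd {n : ℕ} (x : Fin n → ℝ) : ℝ := ∑ i, (x i - 1 / 2) ^ 2

theorem contDiff_qd {n : ℕ} : ContDiff ℝ 2 (qd (n := n)) := by
  unfold qd
  fun_prop

theorem qd_nonneg {n : ℕ} (x : Fin n → ℝ) : 0 ≤ qd x := Finset.sum_nonneg fun _ _ => sq_nonneg _

theorem hasFDerivAt_qd_single {n : ℕ} (x : Fin n → ℝ) (i : Fin n) :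
    fderiv ℝ (qd (n := n)) x (Pi.single i 1) = 2 * (x i - 1 / 2) := by
  have h : HasDerivAt (fun t : ℝ => qd (x + t • Pi.single i (1 : ℝ))) (2 * (x i - 1 / 2)) 0 := by
    unfold qd
    have h1 : ∀ j ∈ Finset.univ, HasDerivAt (fun t : ℝ => ((x + t • Pi.single i (1 : ℝ) : Fin n → ℝ) j - 1 / 2) ^ 2)
        (if j = i then 2 * (x i - 1 / 2) else 0) 0 := by
      intro j _
      by_cases hj : j = i
      · subst hj
        simp only [Pi.add_apply, Pi.smul_apply, Pi.single_eq_same, smul_eq_mul, mul_one, if_true]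
        have := (((hasDerivAt_id (0 : ℝ)).const_add (x j)).sub_const (1 / 2)).fun_pow 2
        simpa using this
      · simp only [Pi.add_apply, Pi.smul_apply, smul_eq_mul, if_neg hj]
        rw [Pi.single_eq_of_ne hj]
        simpa using hasDerivAt_const (0 : ℝ) ((x j - 1 / 2) ^ 2)
    have h2 := HasDerivAt.fun_sum h1
    simpa using h2
  have h3 : HasFDerivAt (qd (n := n)) (fderiv ℝ qd x) (x + (0 : ℝ) • Pi.single i (1 : ℝ)) := by
    simpa using ((contDiff_qd (n := n)).differentiable two_ne_zero x).hasFDerivAt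
  have h4 : HasDerivAt (fun t : ℝ => x + t • (Pi.single i (1 : ℝ) : Fin n → ℝ)) (Pi.single i (1 : ℝ)) 0 := by
    simpa using ((hasDerivAt_id (0 : ℝ)).smul_const (Pi.single i (1 : ℝ) : Fin n → ℝ)).const_add x
  have h5 := h3.comp_hasDerivAt (0 : ℝ) h4
  exact h5.unique h

/-- smooth cutoff -/
noncomputable def cutoff (R R' s : ℝ) : ℝ :=
  Real.smoothTransition ((R' ^ 2 - s) / (R' ^ 2 - R ^ 2))

theorem contDiff_cutoff (R R' : ℝ) {n : ℕ∞} : ContDiff ℝ n (cutoff R R') := by
  unfold cutoff
  exact Real.smoothTransition.contDiff.comp ((contDiff_const.sub contDiff_id).div_const _)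

theorem cutoff_of_le {R R' s : ℝ} (h : R ^ 2 < R' ^ 2) (hs : s ≤ R ^ 2) : cutoff R R' s = 1 := by
  unfold cutoff
  apply Real.smoothTransition.one_of_one_le
  rw [le_div_iff₀ (by linarith)]
  linarith

theorem cutoff_of_ge {R R' s : ℝ} (h : R ^ 2 < R' ^ 2) (hs : R' ^ 2 ≤ s) : cutoff R R' s = 0 := by
  unfold cutoff
  apply Real.smoothTransition.zero_of_nonpos
  apply div_nonpos_of_nonpos_of_nonneg <;> linarith

theorem cutoff_nonneg (R R' s : ℝ) : 0 ≤ cutoff R R' s := Real.smoothTransition.nonneg _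

theorem cutoff_le_one (R R' s : ℝ) : cutoff R R' s ≤ 1 := Real.smoothTransition.le_one _

/-- The cutoff function of the ball. -/
noncomputable def cutBall {n : ℕ} (R R' : ℝ) (x : Fin n → ℝ) : ℝ := cutoff R R' (qd x)

theorem contDiff_cutBall {n : ℕ} (R R' : ℝ) : ContDiff ℝ 1 (cutBall (n := n) R R') :=
  (contDiff_cutoff R R' (n := 1)).comp (contDiff_qd.of_le one_le_two)

theorem differentiable_cutoff (R R' : ℝ) : Differentiable ℝ (cutoff R R') :=
  (contDiff_cutoff R R' (n := 1)).differentiable one_ne_zero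

theorem fderiv_cutBall {n : ℕ} (R R' : ℝ) (x : Fin n → ℝ) (i : Fin n) :
    fderiv ℝ (cutBall (n := n) R R') x (Pi.single i 1) =
      deriv (cutoff R R') (qd x) * (2 * (x i - 1 / 2)) := by
  have h1 : HasFDerivAt (qd (n := n)) (fderiv ℝ qd x) x :=
    ((contDiff_qd (n := n)).differentiable two_ne_zero x).hasFDerivAt
  have h2 := (differentiable_cutoff R R' (qd x)).hasDerivAt.comp_hasFDerivAt x h1
  have h3 : fderiv ℝ (cutBall (n := n) R R') x = _ := h2.fderiv
  rw [h3]
  simp only [smul_apply, hasFDerivAt_qd_single, smul_eq_mul]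

theorem deriv_cutoff_nonpos {R R' : ℝ} (h : R ^ 2 < R' ^ 2) (s : ℝ) :
    deriv (cutoff R R') s ≤ 0 := by
  have hanti : Antitone (cutoff R R') := by
    intro a b hab
    unfold cutoff
    apply Real.smoothTransition.monotone
    apply div_le_div_of_nonneg_right _ (by linarith)
    linarith
  exact hanti.deriv_nonpos

/-- The radial profile of the gradient of the cutoff. -/
noncomputable def radF (R R' r : ℝ) : ℝ := - (deriv (cutoff R R') (r ^ 2) * (2 * r))

theorem gradNorm_cutBall {n : ℕ} {R R' : ℝ} (h : R ^ 2 < R' ^ 2) (x : Fin n → ℝ) :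
    gradNorm (cutBall (n := n) R R') x = radF R R' (Real.sqrt (qd x)) := by
  unfold gradNorm radF
  simp_rw [fderiv_cutBall]
  have h1 : ∑ i, (deriv (cutoff R R') (qd x) * (2 * (x i - 1 / 2))) ^ 2 =
      (2 * deriv (cutoff R R') (qd x)) ^ 2 * qd x := by
    unfold qd
    rw [Finset.mul_sum]
    apply Finset.sum_congr rfl
    intro i _
    ring
  rw [h1, Real.sqrt_mul (sq_nonneg _), Real.sqrt_sq_eq_abs, Real.sq_sqrt (qd_nonneg x),
    abs_of_nonpos (by linarith only [deriv_cutoff_nonpos h (qd x)])]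
  ring

theorem hasDerivAt_cutoff_sq (R R' r : ℝ) :
    HasDerivAt (fun r => - cutoff R R' (r ^ 2)) (radF R R' r) r := by
  unfold radF
  have h0 : HasDerivAt (fun r : ℝ => r ^ 2) (2 * r) r := by
    simpa using (hasDerivAt_id r).fun_pow 2
  have h1 := (differentiable_cutoff R R' (r ^ 2)).hasDerivAt.comp r h0
  exact h1.neg

theorem continuous_radF (R R' : ℝ) : Continuous (radF R R') := by
  unfold radF
  have := (contDiff_cutoff R R' (n := 1)).continuous_deriv le_rfl
  fun_prop

theorem radF_nonneg {R R' : ℝ} (h : R ^ 2 < R' ^ 2) {r : ℝ} (hr : 0 ≤ r) : 0 ≤ radF R R' r := by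
  unfold radF
  have := deriv_cutoff_nonpos h (r ^ 2)
  linarith only [mul_nonneg (sub_nonneg.2 hr) (sub_nonneg.2 this)]

theorem radF_eq_zero {R R' : ℝ} (hR : 0 < R) (h : R < R') {r : ℝ} (hr : R' < r) :
    radF R R' r = 0 := by
  have h1 : deriv (cutoff R R') (r ^ 2) = 0 := by
    have h2 : cutoff R R' =ᶠ[𝓝 (r ^ 2)] fun _ => 0 := by
      have : R' ^ 2 < r ^ 2 := by nlinarith
      filter_upwards [Ioi_mem_nhds this] with s hs
      exact cutoff_of_ge (by linarith only [mul_pos (sub_pos.2 h) (sub_pos.2 h), mul_pos (sub_pos.2 hR) (sub_pos.2 h)]) (le_of_lt hs)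
    rw [h2.deriv_eq]
    simp
  unfold radF
  rw [h1]
  ring

theorem integral_radF {R R' : ℝ} (hR : 0 < R) (h : R < R') :
    ∫ r in (0 : ℝ)..R', radF R R' r = 1 := by
  rw [intervalIntegral.integral_eq_sub_of_hasDerivAt (fun r _ => hasDerivAt_cutoff_sq R R' r)
    ((continuous_radF R R').intervalIntegrable _ _)]
  have h1 : R ^ 2 < R' ^ 2 := by nlinarith
  rw [cutoff_of_ge h1 le_rfl, cutoff_of_le h1 (by nlinarith only [])]
  ring

theorem integral_radF_pow_le {R R' : ℝ} (hR : 0 < R) (h : R < R') (m : ℕ) :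
    ∫ r in Ioi (0 : ℝ), r ^ m * radF R R' r ≤ R' ^ m := by
  have h0 : ∀ r ∈ Ioi (0 : ℝ), r ^ m * radF R R' r =
      (Ioc (0 : ℝ) R').indicator (fun r => r ^ m * radF R R' r) r := by
    intro r hr
    by_cases hr' : r ≤ R'
    · rw [indicator_of_mem (show r ∈ Ioc (0 : ℝ) R' from ⟨hr, hr'⟩)]
    · rw [indicator_of_notMem (fun h => hr' h.2), radF_eq_zero hR h (not_le.mp hr'), mul_zero]
  rw [setIntegral_congr_fun measurableSet_Ioi h0, setIntegral_indicator measurableSet_Ioc]
  have h1 : Ioi (0 : ℝ) ∩ Ioc 0 R' = Ioc 0 R' := by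
    ext r; simp only [mem_inter_iff, mem_Ioi, mem_Ioc]; tauto
  rw [h1, ← intervalIntegral.integral_of_le (by linarith)]
  calc ∫ r in (0 : ℝ)..R', r ^ m * radF R R' r ≤ ∫ r in (0 : ℝ)..R', R' ^ m * radF R R' r := by
        apply intervalIntegral.integral_mono_on (by linarith)
        · exact ((continuous_pow m).mul (continuous_radF R R')).intervalIntegrable _ _
        · exact (continuous_const.mul (continuous_radF R R')).intervalIntegrable _ _
        · intro r hr
          have := radF_nonneg (R := R) (R' := R') (by linarith [mul_pos (sub_pos.2 h) (sub_pos.2 h), mul_pos (sub_pos.2 hR) (sub_pos.2 h)]) hr.1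
          gcongr
          · exact hr.1
          · exact hr.2
    _ = R' ^ m := by
        rw [intervalIntegral.integral_const_mul, integral_radF hR h, mul_one]

/-- The volume of the Euclidean unit ball. -/
noncomputable def omega (n : ℕ) : ℝ :=
  volume.real (Metric.ball (0 : EuclideanSpace ℝ (Fin n)) 1)

theorem integral_comp_qd {n : ℕ} (f : ℝ → ℝ) :
    ∫ x : Fin n → ℝ, f (Real.sqrt (qd x)) = ∫ x : EuclideanSpace ℝ (Fin n), f ‖x‖ := by
  have h1 : ∫ x : Fin n → ℝ, f (Real.sqrt (qd x)) =
      ∫ x : Fin n → ℝ, f (Real.sqrt (∑ i, x i ^ 2)) := by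
    rw [← integral_add_right_eq_self _ (fun _ => (1 / 2 : ℝ))]
    congr 1
    ext x
    simp [qd]
  rw [h1, ← (PiLp.volume_preserving_ofLp (Fin n)).integral_comp
    (MeasurableEquiv.toLp 2 (Fin n → ℝ)).symm.measurableEmbedding]
  congr 1
  ext x
  rw [EuclideanSpace.norm_eq]
  simp

theorem integral_gradNorm_cutBall_le {n : ℕ} {R R' : ℝ} (hR : 0 < R) (h : R < R') :
    ∫ x : Fin (n + 1) → ℝ, gradNorm (cutBall (n := n + 1) R R') x ≤
      (n + 1) * omega (n + 1) * R' ^ n := by
  simp_rw [gradNorm_cutBall (n := n + 1) (R := R) (R' := R') (by linarith only [mul_pos (sub_pos.2 h) (sub_pos.2 h), mul_pos (sub_pos.2 hR) (sub_pos.2 h)])]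
  rw [integral_comp_qd (radF R R')]
  rw [integral_fun_norm_addHaar]
  simp only [finrank_euclideanSpace, Fintype.card_fin, add_tsub_cancel_right, smul_eq_mul,
    nsmul_eq_mul]
  have h1 := integral_radF_pow_le hR h n
  have h2 : 0 ≤ omega (n + 1) := measureReal_nonneg
  push_cast
  unfold omega at *
  rw [mul_assoc]
  gcongr

end Vale.Agent.P232
end
end

section

section

open MeasureTheory Set Filter Topology ContinuousLinearMap

namespace Vale.Agent.P232

/-- The periodic family of Euclidean balls of radius `R` centred at the centres of the unit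
cells. -/
def ballT (n : ℕ) (R : ℝ) : Set (Fin n → ℝ) := {x | ∑ i, (Int.fract (x i) - 1 / 2) ^ 2 < R ^ 2}

theorem isPeriodic_ballT (n : ℕ) (R : ℝ) : IsPeriodic (ballT n R) := by
  intro x k
  unfold ballT
  simp [Int.fract_add_intCast]

theorem measurableSet_ballT (n : ℕ) (R : ℝ) : MeasurableSet (ballT n R) := by
  unfold ballT
  apply measurableSet_lt _ measurable_const
  apply Finset.measurable_sum
  intro i _
  exact ((measurable_fract.comp (measurable_pi_apply i)).sub_const _).pow_const 2

theorem ballT_inter_cube {n : ℕ} {R : ℝ} (hR0 : 0 ≤ R) (hR : R ≤ 1 / 2) :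
    ballT n R ∩ cube n = {x | qd x < R ^ 2} := by
  ext x
  simp only [mem_inter_iff, ballT, cube, mem_ofPred_eq]
  constructor
  · rintro ⟨h1, h2⟩
    have : ∀ i, Int.fract (x i) = x i := fun i => Int.fract_eq_self.mpr (h2 i)
    simp_rw [this] at h1
    exact h1
  · intro h
    have h2 : ∀ i, 0 ≤ x i ∧ x i < 1 := by
      intro i
      have h3 : (x i - 1 / 2) ^ 2 ≤ qd x :=
        Finset.single_le_sum (f := fun i => (x i - 1 / 2) ^ 2) (fun j _ => sq_nonneg _)
          (Finset.mem_univ i)
      have h4 : (x i - 1 / 2) ^ 2 < (1 / 2) ^ 2 := by nlinarith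
      have h5 := abs_lt_of_sq_lt_sq h4 (by norm_num)
      rw [abs_lt] at h5
      constructor <;> linarith only [h5.1, h5.2]
    refine ⟨?_, h2⟩
    have : ∀ i, Int.fract (x i) = x i := fun i => Int.fract_eq_self.mpr (h2 i)
    simp_rw [this]
    exact h

theorem volume_qd_lt {n : ℕ} {R : ℝ} (hR : 0 < R) :
    (volume {x : Fin (n + 1) → ℝ | qd x < R ^ 2}).toReal = omega (n + 1) * R ^ (n + 1) := by
  have h1 : volume {x : Fin (n + 1) → ℝ | qd x < R ^ 2} =
      volume {x : Fin (n + 1) → ℝ | ∑ i, x i ^ 2 < R ^ 2} := by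
    rw [← measure_preimage_add_right volume (fun _ => (1 / 2 : ℝ))
      {x : Fin (n + 1) → ℝ | qd x < R ^ 2}]
    congr 1
    ext x
    simp [qd]
  have h2 : {x : Fin (n + 1) → ℝ | ∑ i, x i ^ 2 < R ^ 2} =
      (WithLp.toLp 2) ⁻¹' (Metric.ball (0 : EuclideanSpace ℝ (Fin (n + 1))) R) := by
    ext x
    simp only [mem_ofPred_eq, mem_preimage, mem_ball_zero_iff]
    rw [EuclideanSpace.norm_eq, Real.sqrt_lt' hR]
    simp
  rw [h1, h2, (PiLp.volume_preserving_toLp (Fin (n + 1))).measure_preimage
    measurableSet_ball.nullMeasurableSet, Measure.addHaar_ball _ _ hR.le]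
  rw [ENNReal.toReal_mul, ENNReal.toReal_ofReal (by positivity)]
  simp [omega, Measure.real, mul_comm]

theorem vol_ballT {n : ℕ} {R : ℝ} (hR0 : 0 < R) (hR : R ≤ 1 / 2) :
    vol (ballT (n + 1) R) = omega (n + 1) * R ^ (n + 1) := by
  unfold vol
  rw [ballT_inter_cube hR0.le hR, volume_qd_lt hR0]

theorem volume_qd_lt_ne_top {n : ℕ} {R : ℝ} (hR : 0 < R) :
    volume {x : Fin (n + 1) → ℝ | qd x < R ^ 2} ≠ ⊤ := by
  have hc : {x : Fin (n + 1) → ℝ | qd x < R ^ 2} ⊆
      Metric.closedBall (fun _ => (1 / 2 : ℝ)) R := by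
    intro x hx
    rw [Metric.mem_closedBall, dist_pi_le_iff hR.le]
    intro i
    rw [Real.dist_eq]
    have h3 : (x i - 1 / 2) ^ 2 ≤ qd x :=
      Finset.single_le_sum (f := fun i => (x i - 1 / 2) ^ 2) (fun j _ => sq_nonneg _)
        (Finset.mem_univ i)
    exact abs_le_of_sq_le_sq (h3.trans (le_of_lt hx)) hR.le
  exact ((measure_mono hc).trans_lt (isCompact_closedBall _ _).measure_lt_top).ne

theorem measurableSet_qd_lt {n : ℕ} (R : ℝ) : MeasurableSet {x : Fin n → ℝ | qd x < R ^ 2} :=
  measurableSet_lt contDiff_qd.continuous.measurable measurable_const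

theorem hasCompactSupport_cutBall {n : ℕ} {R R' : ℝ} (hR : 0 < R) (h : R < R') :
    HasCompactSupport (cutBall (n := n) R R') := by
  apply HasCompactSupport.of_support_subset_isCompact
    (K := Metric.closedBall (fun _ => (1 / 2 : ℝ)) R') (isCompact_closedBall _ _)
  intro x hx
  by_contra hx'
  apply hx
  apply cutoff_of_ge (by linarith only [mul_pos (sub_pos.2 h) (sub_pos.2 h), mul_pos (sub_pos.2 hR) (sub_pos.2 h)])
  by_contra hq
  apply hx'
  rw [Metric.mem_closedBall, dist_pi_le_iff (by linarith)]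
  intro i
  rw [Real.dist_eq]
  have h3 : (x i - 1 / 2) ^ 2 ≤ qd x :=
    Finset.single_le_sum (f := fun i => (x i - 1 / 2) ^ 2) (fun j _ => sq_nonneg _)
      (Finset.mem_univ i)
  exact abs_le_of_sq_le_sq (by linarith only [hq, h3]) (by linarith only [hR, h])

theorem tsupport_cutBall_mul {n : ℕ} {R R' : ℝ} (hR : 0 < R) (h : R < R')
    {f : (Fin n → ℝ) → ℝ} (hf : Continuous f) :
    Integrable (fun x => cutBall (n := n) R R' x * f x) := by
  apply Continuous.integrable_of_hasCompactSupport
  · exact (contDiff_cutBall R R').continuous.mul hf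
  · exact (hasCompactSupport_cutBall hR h).mul_right

theorem integral_cutBall_divergence_le {n : ℕ} {R R' : ℝ} (hR : 0 < R) (h : R < R')
    {X : (Fin (n + 1) → ℝ) → (Fin (n + 1) → ℝ)} (hX : TestField X) :
    ∫ x, cutBall (n := n + 1) R R' x * divergence X x ≤
      (n + 1) * omega (n + 1) * R' ^ n := by
  set g := cutBall (n := n + 1) R R' with hg
  have hgc : ContDiff ℝ 1 g := contDiff_cutBall R R'
  have hcs : HasCompactSupport g := hasCompactSupport_cutBall hR h
  have hfd := hX.contDiff.continuous_fderiv one_ne_zero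
  have hgd := hgc.continuous_fderiv one_ne_zero
  have hXc := hX.contDiff.continuous
  have hXi : ∀ i, ContDiff ℝ 1 (fun x => X x i) := fun i => contDiff_pi.mp hX.contDiff i
  have hXi' : ∀ i x, fderiv ℝ (fun x => X x i) x (Pi.single i 1) =
      fderiv ℝ X x (Pi.single i 1) i := by
    intro i x
    rw [fderiv_apply (hX.contDiff.differentiable one_ne_zero x)]
    rfl
  have hparts : ∀ i, ∫ x, g x * fderiv ℝ X x (Pi.single i 1) i =
      - ∫ x, fderiv ℝ g x (Pi.single i 1) * X x i := by
    intro i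
    simp_rw [← hXi']
    apply integral_mul_fderiv_eq_neg_fderiv_mul_of_integrable
    · apply Continuous.integrable_of_hasCompactSupport
      · exact (hgd.clm_apply continuous_const).mul (hXi i).continuous
      · apply HasCompactSupport.mul_right
        exact (hcs.fderiv_apply ℝ _)
    · apply Continuous.integrable_of_hasCompactSupport
      · exact hgc.continuous.mul (((hXi i).continuous_fderiv one_ne_zero).clm_apply continuous_const)
      · exact hcs.mul_right
    · apply Continuous.integrable_of_hasCompactSupport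
      · exact hgc.continuous.mul (hXi i).continuous
      · exact hcs.mul_right
    · intro x _
      exact hgc.differentiable one_ne_zero x
    · intro x _
      exact (hXi i).differentiable one_ne_zero x
  have h1 : ∫ x, g x * divergence X x = ∑ i, ∫ x, g x * fderiv ℝ X x (Pi.single i 1) i := by
    unfold divergence
    simp_rw [Finset.mul_sum]
    rw [integral_finsetSum]
    intro i _
    exact tsupport_cutBall_mul hR h ((continuous_apply i).comp (hfd.clm_apply continuous_const))
  have hint : ∀ i, Integrable (fun x => fderiv ℝ g x (Pi.single i 1) * X x i) := by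
    intro i
    apply Continuous.integrable_of_hasCompactSupport
    · exact (hgd.clm_apply continuous_const).mul (hXi i).continuous
    · apply HasCompactSupport.mul_right
      exact (hcs.fderiv_apply ℝ _)
  have h2 : ∫ x, g x * divergence X x =
      ∫ x, - ∑ i, fderiv ℝ g x (Pi.single i 1) * X x i := by
    rw [h1, integral_neg, integral_finsetSum _ (fun i _ => hint i), ← Finset.sum_neg_distrib]
    exact Finset.sum_congr rfl fun i _ => hparts i
  have hgn : HasCompactSupport (gradNorm g) := by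
    have := (hcs.fderiv (𝕜 := ℝ)).comp_left
      (g := fun L : (Fin (n + 1) → ℝ) →L[ℝ] ℝ => Real.sqrt (∑ i, (L (Pi.single i 1)) ^ 2))
      (by simp)
    exact this
  rw [h2]
  refine le_trans (integral_mono ?_ ?_ ?_) (integral_gradNorm_cutBall_le hR h)
  · exact (integrable_finsetSum _ fun i _ => hint i).neg
  · exact (continuous_gradNorm hgc).integrable_of_hasCompactSupport hgn
  · intro x
    have h1 := abs_sum_mul_le (fun i => fderiv ℝ g x (Pi.single i 1)) (X x)
    have h2 : Real.sqrt (∑ i, X x i ^ 2) ≤ 1 :=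
      Real.sqrt_le_iff.mpr ⟨zero_le_one, by simpa using hX.bound x⟩
    have h3 : |∑ i, fderiv ℝ g x (Pi.single i 1) * X x i| ≤ gradNorm g x := by
      refine h1.trans ?_
      exact mul_le_of_le_one_right (Real.sqrt_nonneg _) h2
    have h4 := neg_le_abs (∑ i, fderiv ℝ g x (Pi.single i 1) * X x i)
    exact h4.trans h3

theorem integral_divergence_ball_le {n : ℕ} {R : ℝ} (hR : 0 < R)
    {X : (Fin (n + 1) → ℝ) → (Fin (n + 1) → ℝ)} (hX : TestField X) :
    ∫ x in {x | qd x < R ^ 2}, divergence X x ≤ (n + 1) * omega (n + 1) * R ^ n := by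
  obtain ⟨K, hK⟩ := exists_bound_divergence hX
  have hK0 : 0 ≤ K := (abs_nonneg _).trans (hK 0)
  have hdc := continuous_divergence hX.contDiff
  have key : ∀ R' ∈ Ioi R, ∫ x in {x | qd x < R ^ 2}, divergence X x ≤
      (n + 1) * omega (n + 1) * R' ^ n + K * (omega (n + 1) * R' ^ (n + 1) -
        omega (n + 1) * R ^ (n + 1)) := by
    intro R' hR'
    have hlt : R < R' := hR'
    have hR'0 : 0 < R' := hR.trans hlt
    have h1 := integral_cutBall_divergence_le hR hlt hX
    set g := cutBall (n := n + 1) R R' with hg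
    have hsq : R ^ 2 < R' ^ 2 := by nlinarith only [hR, hlt]
    have hg1 : ∀ x, qd x < R ^ 2 → g x = 1 := fun x hx => cutoff_of_le hsq hx.le
    have hg0 : ∀ x, ¬ qd x < R' ^ 2 → g x = 0 := fun x hx => cutoff_of_ge hsq (not_lt.mp hx)
    set B := {x : Fin (n + 1) → ℝ | qd x < R ^ 2} with hB
    set B' := {x : Fin (n + 1) → ℝ | qd x < R' ^ 2} with hB'
    have hBB' : B ⊆ B' := fun x hx => lt_trans (show qd x < R ^ 2 from hx) hsq
    have hBm : MeasurableSet B := measurableSet_qd_lt R
    have hB'm : MeasurableSet B' := measurableSet_qd_lt R'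
    have hv' : volume B' ≠ ⊤ := volume_qd_lt_ne_top hR'0
    have hv : volume B ≠ ⊤ := volume_qd_lt_ne_top hR
    have hint : Integrable (fun x => g x * divergence X x) := tsupport_cutBall_mul hR hlt hdc
    have e1 : ∫ x in B', g x * divergence X x = ∫ x, g x * divergence X x := by
      apply setIntegral_eq_integral_of_forall_compl_eq_zero
      intro x hx
      rw [hg0 x hx, zero_mul]
    have e2 : ∫ x in B, g x * divergence X x = ∫ x in B, divergence X x := by
      apply setIntegral_congr_fun hBm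
      intro x hx
      simp only
      rw [hg1 x hx, one_mul]
    have e3 : ∫ x in B' \ B, g x * divergence X x =
        (∫ x in B', g x * divergence X x) - ∫ x in B, g x * divergence X x :=
      setIntegral_sdiff hBm hint.integrableOn hBB'
    have e4 : ‖∫ x in B' \ B, g x * divergence X x‖ ≤ K * volume.real (B' \ B) := by
      apply norm_setIntegral_le_of_norm_le_const
      · exact (measure_mono sdiff_subset).trans_lt hv'.lt_top
      · intro x _
        have h5 : 0 ≤ g x := cutoff_nonneg R R' (qd x)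
        have h3 : g x ≤ 1 := cutoff_le_one R R' (qd x)
        rw [norm_mul, Real.norm_eq_abs, Real.norm_eq_abs, abs_of_nonneg h5]
        have h4 := hK x
        calc g x * |divergence X x| ≤ 1 * K := by gcongr
          _ = K := one_mul K
    have e5 : volume.real (B' \ B) = omega (n + 1) * R' ^ (n + 1) -
        omega (n + 1) * R ^ (n + 1) := by
      rw [measureReal_sdiff hBB' hBm hv']
      unfold Measure.real
      rw [volume_qd_lt hR'0, volume_qd_lt hR]
    rw [e5, Real.norm_eq_abs] at e4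
    have e6 := neg_le_of_abs_le e4
    rw [e3, e1, e2] at e6
    linarith only [h1, e6]
  have hlim : Tendsto (fun R' : ℝ => (n + 1) * omega (n + 1) * R' ^ n +
      K * (omega (n + 1) * R' ^ (n + 1) - omega (n + 1) * R ^ (n + 1))) (𝓝[>] R)
      (𝓝 ((n + 1) * omega (n + 1) * R ^ n +
      K * (omega (n + 1) * R ^ (n + 1) - omega (n + 1) * R ^ (n + 1)))) := by
    apply Tendsto.mono_left _ nhdsWithin_le_nhds
    apply Continuous.tendsto (f := fun R' : ℝ => (n + 1) * omega (n + 1) * R' ^ n +
      K * (omega (n + 1) * R' ^ (n + 1) - omega (n + 1) * R ^ (n + 1)))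
    fun_prop
  have h2 := ge_of_tendsto hlim (by filter_upwards [self_mem_nhdsWithin] with R' h using key R' h)
  simpa using h2

theorem perimeter_ballT_le {n : ℕ} {R : ℝ} (hR0 : 0 < R) (hR : R ≤ 1 / 2) :
    perimeter (ballT (n + 1) R) ≤ ENNReal.ofReal ((n + 1) * omega (n + 1) * R ^ n) := by
  unfold perimeter
  apply iSup₂_le
  intro X hX
  apply ENNReal.ofReal_le_ofReal
  rw [ballT_inter_cube hR0.le hR]
  exact integral_divergence_ball_le hR0 hX

end Vale.Agent.P232
end
end

section

section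

open MeasureTheory Set Filter Topology ContinuousLinearMap

namespace Vale.Agent.P232

theorem omega_three : omega 3 = 4 / 3 * Real.pi := by
  unfold omega Measure.real
  rw [EuclideanSpace.volume_ball_fin_three]
  simp
  rw [ENNReal.toReal_ofReal (by positivity)]
  ring

theorem omega_two : omega 2 = Real.pi := by
  unfold omega Measure.real
  rw [EuclideanSpace.volume_ball_fin_two]
  simp [Real.pi_pos.le]

theorem omega_one : omega 1 = 2 := by
  unfold omega Measure.real
  rw [InnerProductSpace.volume_ball_of_dim_odd (k := 0) (by simp)]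
  simp

theorem profile_le {n : ℕ} {V : ℝ} {E : Set (Fin n → ℝ)} (hE : MeasurableSet E)
    (hp : IsPeriodic E) (hV : vol E = V) : profile n V ≤ perimeter E := by
  unfold profile
  exact iInf₂_le_of_le E hE (iInf₂_le_of_le hp hV le_rfl)

theorem profile_le_compl {n : ℕ} {V : ℝ} {E : Set (Fin n → ℝ)} (hE : MeasurableSet E)
    (hp : IsPeriodic E) (hV : vol E = 1 - V) : profile n V ≤ perimeter E := by
  rw [← perimeter_compl hE]
  exact profile_le hE.compl hp.compl (by rw [vol_compl hE, hV]; ring)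

theorem exists_ball {v : ℝ} (hv0 : 0 < v) (hv : v ≤ 1 / 2) :
    ∃ E : Set (Fin 3 → ℝ), MeasurableSet E ∧ IsPeriodic E ∧ vol E = v ∧
      perimeter E ≤ ENNReal.ofReal ((36 * Real.pi) ^ (1 / 3 : ℝ) * v ^ (2 / 3 : ℝ)) := by
  set R : ℝ := (3 * v / (4 * Real.pi)) ^ (1 / 3 : ℝ) with hR
  have hpi := Real.pi_gt_three
  have hpos : 0 < 3 * v / (4 * Real.pi) := by positivity
  have hR0 : 0 < R := Real.rpow_pos_of_pos hpos _
  have hR3 : R ^ 3 = 3 * v / (4 * Real.pi) := by
    rw [hR, ← Real.rpow_natCast, ← Real.rpow_mul hpos.le]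
    norm_num
  have hR2 : R ≤ 1 / 2 := by
    by_contra h
    push Not at h
    have h1 : (1 / 2 : ℝ) ^ 3 < R ^ 3 := by gcongr
    rw [hR3, lt_div_iff₀ (by positivity)] at h1
    linarith only [hv, hpi, h1]
  refine ⟨ballT 3 R, measurableSet_ballT _ _, isPeriodic_ballT _ _, ?_, ?_⟩
  · rw [vol_ballT (n := 2) hR0 hR2, omega_three, hR3]
    field_simp
  · refine (perimeter_ballT_le (n := 2) hR0 hR2).trans ?_
    apply ENNReal.ofReal_le_ofReal
    apply le_of_eq
    push_cast
    rw [omega_three]
    have h1 : (36 * Real.pi) ^ (1 / 3 : ℝ) * v ^ (2 / 3 : ℝ) =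
        (4 * Real.pi) * ((3 * v / (4 * Real.pi)) ^ (2 / 3 : ℝ)) := by
      rw [Real.div_rpow (by positivity) (by positivity), Real.mul_rpow (by norm_num) hv0.le]
      have h2 : (36 * Real.pi) ^ (1 / 3 : ℝ) = (4 * Real.pi) ^ (1 / 3 : ℝ) * 3 ^ (2 / 3 : ℝ) := by
        rw [show (36 : ℝ) * Real.pi = (4 * Real.pi) * 9 by ring, Real.mul_rpow (by positivity)
          (by norm_num)]
        congr 1
        rw [show (9 : ℝ) = 3 ^ (2 : ℝ) by norm_num, ← Real.rpow_mul (by norm_num)]
        norm_num
      have h3 : (4 * Real.pi) ^ (1 / 3 : ℝ) * (4 * Real.pi) ^ (2 / 3 : ℝ) = 4 * Real.pi := by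
        rw [← Real.rpow_add (by positivity)]
        norm_num
      have h4 : (4 * Real.pi) ^ (2 / 3 : ℝ) ≠ 0 := (Real.rpow_pos_of_pos (by positivity) _).ne'
      rw [h2]
      have h5 : (4 * Real.pi) ^ (1 / 3 : ℝ) * 3 ^ (2 / 3 : ℝ) * v ^ (2 / 3 : ℝ) =
          ((4 * Real.pi) ^ (1 / 3 : ℝ) * (4 * Real.pi) ^ (2 / 3 : ℝ)) *
            (3 ^ (2 / 3 : ℝ) * v ^ (2 / 3 : ℝ) / (4 * Real.pi) ^ (2 / 3 : ℝ)) := by
        field_simp
      rw [h5, h3]
    rw [h1]
    have h5 : R ^ 2 = (3 * v / (4 * Real.pi)) ^ (2 / 3 : ℝ) := by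
      rw [hR, ← Real.rpow_natCast, ← Real.rpow_mul hpos.le]
      norm_num
    rw [h5]
    ring

theorem exists_tube {v : ℝ} (hv0 : 0 < v) (hv : v ≤ 1 / 2) :
    ∃ E : Set (Fin 3 → ℝ), MeasurableSet E ∧ IsPeriodic E ∧ vol E = v ∧
      perimeter E ≤ ENNReal.ofReal (2 * Real.sqrt (Real.pi * v)) := by
  set R : ℝ := Real.sqrt (v / Real.pi) with hR
  have hpi := Real.pi_gt_three
  have hpos : 0 < v / Real.pi := by positivity
  have hR0 : 0 < R := Real.sqrt_pos.mpr hpos
  have hR2 : R ^ 2 = v / Real.pi := Real.sq_sqrt hpos.le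
  have hR3 : R ≤ 1 / 2 := by
    apply Real.sqrt_le_iff.mpr ⟨by norm_num, ?_⟩
    rw [div_le_iff₀ (by positivity)]
    linarith only [hv0, hv, hpi]
  refine ⟨cylT 2 (ballT 2 R), measurableSet_cylT _ (measurableSet_ballT _ _),
    isPeriodic_cylT _ (isPeriodic_ballT _ _), ?_, ?_⟩
  · rw [vol_cylT _ (measurableSet_ballT _ _), vol_ballT (n := 1) hR0 hR3, omega_two, hR2]
    field_simp
  · refine (perimeter_cylT_le _ (measurableSet_ballT _ _)).trans ?_
    refine (perimeter_ballT_le (n := 1) hR0 hR3).trans ?_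
    apply ENNReal.ofReal_le_ofReal
    apply le_of_eq
    push_cast
    rw [omega_two]
    have h1 : Real.sqrt (Real.pi * v) = Real.pi * R := by
      rw [show Real.pi * v = Real.pi ^ 2 * (v / Real.pi) by field_simp,
        Real.sqrt_mul (by positivity), Real.sqrt_sq (by positivity)]
    rw [h1]
    ring

theorem exists_slab {v : ℝ} (hv0 : 0 < v) (hv : v ≤ 1 / 2) :
    ∃ E : Set (Fin 3 → ℝ), MeasurableSet E ∧ IsPeriodic E ∧ vol E = v ∧
      perimeter E ≤ ENNReal.ofReal 2 := by
  have hR0 : 0 < v / 2 := by positivity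
  have hR3 : v / 2 ≤ 1 / 2 := by linarith only [hv0, hv]
  refine ⟨cylT 2 (cylT 1 (ballT 1 (v / 2))),
    measurableSet_cylT _ (measurableSet_cylT _ (measurableSet_ballT _ _)),
    isPeriodic_cylT _ (isPeriodic_cylT _ (isPeriodic_ballT _ _)), ?_, ?_⟩
  · rw [vol_cylT _ (measurableSet_cylT _ (measurableSet_ballT _ _)),
      vol_cylT _ (measurableSet_ballT _ _), vol_ballT (n := 0) hR0 hR3, omega_one]
    ring
  · refine (perimeter_cylT_le _ (measurableSet_cylT _ (measurableSet_ballT _ _))).trans ?_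
    refine (perimeter_cylT_le _ (measurableSet_ballT _ _)).trans ?_
    refine (perimeter_ballT_le (n := 0) hR0 hR3).trans ?_
    apply ENNReal.ofReal_le_ofReal
    apply le_of_eq
    push_cast
    rw [omega_one]
    ring

theorem profile_le_J {V : ℝ} (h0 : 0 < V) (h1 : V < 1) :
    profile 3 V ≤ ENNReal.ofReal (J V) := by
  set v := min V (1 - V) with hv
  have hv0 : 0 < v := lt_min h0 (by linarith)
  have hv2 : v ≤ 1 / 2 := by
    rcases le_total V (1 / 2) with h | h
    · exact (min_le_left _ _).trans h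
    · exact (min_le_right _ _).trans (by linarith only [h])
  have key : ∀ c : ℝ, (∃ E : Set (Fin 3 → ℝ), MeasurableSet E ∧ IsPeriodic E ∧ vol E = v ∧
      perimeter E ≤ ENNReal.ofReal c) → profile 3 V ≤ ENNReal.ofReal c := by
    rintro c ⟨E, hE, hp, hvol, hper⟩
    rcases le_total V (1 - V) with h | h
    · rw [min_eq_left h] at hv
      exact (profile_le hE hp (hvol.trans hv)).trans hper
    · rw [min_eq_right h] at hv
      exact (profile_le_compl hE hp (hvol.trans hv)).trans hper
  unfold J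
  rw [← hv, ENNReal.ofReal_min, ENNReal.ofReal_min]
  exact le_min (le_min (key _ (exists_ball hv0 hv2)) (key _ (exists_tube hv0 hv2)))
    (key _ (exists_slab hv0 hv2))

end Vale.Agent.P232
end
end

section

section

open MeasureTheory Set

namespace Vale.Agent.P232

theorem cast_d (z : ℤ) : ((d z : ℚ) : ℝ) = (z : ℝ) / 100000 := by
  unfold d
  rw [Rat.mkRat_eq_div]
  push_cast
  norm_num

theorem ofReal_le_of_low {E : Set (Fin 3 → ℝ)} (hE : MeasurableSet E) (hp : IsPeriodic E)
    (h0 : 0 < vol E) (h1 : vol E ≤ 0.267) :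
    ENNReal.ofReal (J0 (vol E)) ≤ perimeter E := by
  obtain ⟨m, M, hm0, hmV, hVM, hM1, hB, hJ, hL⟩ := geometric_bounds hE hp h0
  have hpi := Real.pi_pos
  have p1 := Real.pi_gt_d6
  have p2 := Real.pi_lt_d6
  rcases le_or_gt M (1 / Real.pi) with hM | hM
  · exact hJ hM
  have hM' : 0.318309 < M := by
    refine lt_of_le_of_lt ?_ hM
    rw [le_div_iff₀ hpi]
    linarith only [p1, p2]
  rcases lt_or_ge m 0.0035 with hm | hm
  · -- small `m`
    refine le_trans (ENNReal.ofReal_le_ofReal ?_) hB
    have e : m = Real.pi * (Real.sqrt (m / Real.pi)) ^ 2 := by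
      rw [Real.sq_sqrt (by positivity)]
      field_simp
    have := small_m (ρ := Real.sqrt (m / Real.pi)) (R := Real.sqrt (M / Real.pi)) (V := vol E)
      h0.le (Real.sqrt_nonneg _) ?_ ?_
    · rw [← e] at this
      exact this
    · rw [Real.sqrt_le_left (by norm_num), div_le_iff₀ hpi]
      linarith only [p1, p2, hm]
    · apply Real.le_sqrt_of_sq_le
      rw [le_div_iff₀ hpi]
      linarith only [p1, p2, hM']
  · obtain ⟨a, a2, b, C, k1, k2, k3, k4, k5, k6⟩ := strips_sound low (d 350) low_ok (m := m)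
      (M := M) (by rw [cast_d]; norm_num at hm ⊢; linarith only [hm])
      (by rw [cast_d]; norm_num at h1 ⊢; linarith only [hmV, p1, p2, h1]) (by rw [cast_d]; norm_num at hM' ⊢; linarith only [p1, p2, hM'])
      (by simpa using hM1)
    have hb := base_sound k1 (P := perimeter E) (V := vol E) hL k3 k4 k5.le k6
    refine le_trans (ENNReal.ofReal_le_ofReal ?_) hb
    have ha0 : (0 : ℝ) ≤ a := by
      simp only [baseOK, lineOK, Bool.and_eq_true, decide_eq_true_eq] at k1
      obtain ⟨⟨⟨⟨⟨⟨⟨x1, x2⟩, x3⟩, x4⟩, ⟨⟨y1, y2⟩, y3⟩, y4⟩, h5⟩, h6⟩, h7⟩ := k1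
      have x3' : ((C.c : ℝ) + C.l * a) ^ 2 ≤ (piL : ℝ) * a := by exact_mod_cast x3
      have hpL : (0 : ℝ) < (piL : ℝ) := by norm_num [piL]
      exact nonneg_of_mul_nonneg_right ((sq_nonneg _).trans x3') hpL
    exact finLow_sound k2 ha0 (k3.trans hmV) (by rw [cast_d]; norm_num at h1 ⊢; linarith only [h1])

theorem two_le_of_slab {E : Set (Fin 3 → ℝ)} (hE : MeasurableSet E) (hp : IsPeriodic E)
    (h0 : 0.36 ≤ vol E) (h1 : vol E ≤ 0.5) : ENNReal.ofReal 2 ≤ perimeter E := by
  obtain ⟨m, M, hm0, hmV, hVM, hM1, hB, hJ, hL⟩ := geometric_bounds hE hp (by linarith only [h0])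
  have hfin : ∀ {a a2 b : ℚ} {C : Cert}, baseOK a a2 b C = true →
      finSlab (d 36000) (d 50000) a b C = true → (a : ℝ) ≤ m → m ≤ (a2 : ℝ) → (b : ℝ) < M →
      M ≤ (C.b2 : ℝ) → ENNReal.ofReal 2 ≤ perimeter E := by
    intro a a2 b C k1 k2 k3 k4 k5 k6
    have hb := base_sound k1 (P := perimeter E) (V := vol E) hL k3 k4 k5.le k6
    refine le_trans (ENNReal.ofReal_le_ofReal ?_) hb
    exact finSlab_sound k2 (by rw [cast_d]; norm_num at h0 ⊢; linarith only [h0])
      (by rw [cast_d]; norm_num at h1 ⊢; linarith only [h1]) (k3.trans hmV) (hVM.trans k6)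
  rcases lt_or_ge m 0.002 with hm | hm
  · rcases lt_or_ge 0.998 M with hM | hM
    · refine le_trans (ENNReal.ofReal_le_ofReal ?_)
        (corner hL hm0 hm.le hM.le hM1 (by linarith only [h0]) h1)
      have := Real.sqrt_nonneg m
      have := Real.sqrt_nonneg (1 - M)
      linarith
    · obtain ⟨a, a2, b, C, k1, k2, k3, k4, k5, k6⟩ := strips_sound slabA 0 slabA_ok (m := m)
        (M := M) (by simpa using hm0)
        (by rw [cast_d]; norm_num at hm ⊢; linarith only [hm])
        (by rw [cast_d]; norm_num at h0 ⊢; linarith only [hVM, h0])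
        (by rw [cast_d]; norm_num at hM ⊢; linarith only [hM])
      exact hfin k1 k2 k3 k4 k5 k6
  · rcases lt_or_ge m 0.3163 with hm3 | hm3
    · obtain ⟨a, a2, b, C, k1, k2, k3, k4, k5, k6⟩ := strips_sound slabB (d 200) slabB_ok (m := m)
        (M := M) (by rw [cast_d]; norm_num at hm ⊢; linarith only [hm])
        (by rw [cast_d]; norm_num at hm3 ⊢; linarith only [hm3])
        (by rw [cast_d]; norm_num at h0 ⊢; linarith only [hVM, h0])
        (by simpa using hM1)
      exact hfin k1 k2 k3 k4 k5 k6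
    · rcases lt_or_ge 0.72 M with hM | hM
      · obtain ⟨a, a2, b, C, k1, k2, k3, k4, k5, k6⟩ := strips_sound slabC (d 31620) slabC_ok
          (m := m) (M := M) (by rw [cast_d]; norm_num at hm3 ⊢; linarith only [hm3])
          (by rw [cast_d]; norm_num at h1 ⊢; linarith only [hmV, h1])
          (by rw [cast_d]; norm_num at hM ⊢; linarith only [hM])
          (by simpa using hM1)
        exact hfin k1 k2 k3 k4 k5 k6
      · exact slab_mid hL (by linarith only [hm3]) hM hmV hVM h0 h1

theorem J_one_sub (V : ℝ) : J (1 - V) = J V := by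
  unfold J
  rw [sub_sub_cancel, min_comm (1 - V) V]

theorem J_le_J0 {V : ℝ} (h : V ≤ 1 / 2) : J V ≤ J0 V := by
  unfold J J0
  rw [min_eq_left (by linarith : V ≤ 1 - V)]
  exact min_le_left _ _

theorem J_le_two (V : ℝ) : J V ≤ 2 := min_le_right _ _

theorem J_le_perimeter_half {E : Set (Fin 3 → ℝ)} (hE : MeasurableSet E) (hp : IsPeriodic E)
    (h : (0 < vol E ∧ vol E ≤ 0.267) ∨ (0.36 ≤ vol E ∧ vol E ≤ 0.5)) :
    ENNReal.ofReal (J (vol E)) ≤ perimeter E := by
  rcases h with ⟨h0, h1⟩ | ⟨h0, h1⟩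
  · refine (ENNReal.ofReal_le_ofReal (J_le_J0 (by linarith only [h0, h1]))).trans (ofReal_le_of_low hE hp h0 h1)
  · exact (ENNReal.ofReal_le_ofReal (J_le_two _)).trans (two_le_of_slab hE hp h0 h1)

theorem J_le_perimeter {E : Set (Fin 3 → ℝ)} (hE : MeasurableSet E) (hp : IsPeriodic E)
    (h : (0 < vol E ∧ vol E ≤ 0.267) ∨ (0.36 ≤ vol E ∧ vol E ≤ 0.64) ∨
      (0.733 ≤ vol E ∧ vol E < 1)) :
    ENNReal.ofReal (J (vol E)) ≤ perimeter E := by
  have hc : ((0 < vol Eᶜ ∧ vol Eᶜ ≤ 0.267) ∨ (0.36 ≤ vol Eᶜ ∧ vol Eᶜ ≤ 0.5)) →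
      ENNReal.ofReal (J (vol E)) ≤ perimeter E := by
    intro h
    have := J_le_perimeter_half hE.compl hp.compl h
    rwa [vol_compl hE, J_one_sub, perimeter_compl hE] at this
  rcases h with ⟨h0, h1⟩ | ⟨h0, h1⟩ | ⟨h0, h1⟩
  · exact J_le_perimeter_half hE hp (Or.inl ⟨h0, h1⟩)
  · rcases le_total (vol E) 0.5 with h2 | h2
    · exact J_le_perimeter_half hE hp (Or.inr ⟨h0, h2⟩)
    · apply hc
      rw [vol_compl hE]
      right
      constructor <;> norm_num at h1 h2 ⊢ <;> linarith
  · apply hc
    rw [vol_compl hE]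
    left
    constructor
    · linarith
    · norm_num at h0 ⊢; linarith

end Vale.Agent.P232
end
end

section

section

open MeasureTheory Set

namespace Vale.Agent.P232

theorem continuousOn_line_div {Q : ℝ → ℝ} (hQc : Continuous Q) (hQ : ∀ u, I2 u ≤ Q u)
    (hQ0 : Q 0 = 0) (hQ1 : Q 1 = 0) {m M F H : ℝ} (hm : 0 ≤ m) (hM : M ≤ 1)
    (h0 : ∀ u ∈ Icc m M, 0 ≤ F + H * u) (h1 : ∀ u ∈ Icc m M, F + H * u ≤ Q u) :
    ContinuousOn (fun u => (F + H * u) / Q u) (Icc m M) := by
  have aux : ∀ (H : ℝ) (Q : ℝ → ℝ), (∀ u, I2 u ≤ Q u) →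
      ContinuousWithinAt (fun u => (H * u) / Q u) (Ici 0) 0 := by
    intro H Q hQ
    have h0 : (fun u => (H * u) / Q u) 0 = 0 := by simp
    unfold ContinuousWithinAt
    rw [h0]
    have h2 := (continuousAt_zero_aux (H := |H|))
    unfold ContinuousWithinAt at h2
    simp only [mul_zero, zero_div] at h2
    apply squeeze_zero_norm' _ h2
    have hmem : Ico (0 : ℝ) 1 ∈ nhdsWithin (0 : ℝ) (Ici 0) := Ico_mem_nhdsGE (by norm_num)
    filter_upwards [hmem] with u hu
    rcases hu.1.eq_or_lt with h | h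
    · rw [← h]; simp
    · have hI := I2_pos h hu.2
      have hQu : 0 < Q u := hI.trans_le (hQ u)
      rw [Real.norm_eq_abs, abs_div, abs_mul, abs_of_nonneg hu.1, abs_of_pos hQu]
      have : 0 ≤ |H| * u := by positivity
      exact div_le_div_of_nonneg_left this hI (hQ u)
  intro u hu
  have hu0 : 0 ≤ u := hm.trans hu.1
  have hu1 : u ≤ 1 := hu.2.trans hM
  rcases hu0.eq_or_lt with h | h
  · have hF : F = 0 := by
      have a1 := h0 u hu
      have a2 := h1 u hu
      rw [← h, hQ0] at a2
      rw [← h] at a1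
      linarith
    rw [← h, hF]
    simp only [zero_add]
    exact (aux H Q hQ).mono (fun x hx => hm.trans hx.1)
  rcases hu1.eq_or_lt with h' | h'
  · have hF : F + H = 0 := by
      have a1 := h0 u hu
      have a2 := h1 u hu
      rw [h', hQ1] at a2
      rw [h'] at a1
      linarith
    rw [h']
    have e : (fun u => (F + H * u) / Q u) =
        (fun u => (F * u) / (fun v => Q (1 - v)) u) ∘ (fun u => 1 - u) := by
      ext x
      simp only [Function.comp, sub_sub_cancel]
      congr 1
      linear_combination x * hF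
    rw [e]
    have h2 : ContinuousWithinAt (fun u : ℝ => (F * u) / (fun v => Q (1 - v)) u) (Ici 0)
        ((fun u : ℝ => 1 - u) 1) := by
      have : (fun u : ℝ => 1 - u) 1 = 0 := by norm_num
      rw [this]
      exact aux F (fun v => Q (1 - v)) (fun v => by
        have := hQ (1 - v)
        rwa [I2_one_sub] at this)
    apply ContinuousWithinAt.comp h2
    · exact (by fun_prop : Continuous (fun u : ℝ => 1 - u)).continuousWithinAt
    · intro x hx
      simp only [mem_Ici]
      linarith [hx.2]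
  · apply ContinuousAt.continuousWithinAt
    apply ContinuousAt.div (by fun_prop) hQc.continuousAt
    exact ((I2_pos h h').trans_le (hQ u)).ne'

theorem arcA_zero : arcA 0 = 1 := by
  unfold arcA
  simp

theorem exists_tan {y : ℝ} (T : List (ℚ × ℚ))
    (hT : ∀ p ∈ T, 0 ≤ (p.2 : ℝ) ∧ (p.2 : ℝ) ≤ 1 ∧ (p.1 : ℝ) ≤ arcA (p.2 : ℝ)) (u : ℝ) :
    ∃ s ∈ Icc (0 : ℝ) 1, Lf y T u ≤ arcA s + s * (u - y) := by
  induction T with
  | nil => exact ⟨0, ⟨le_rfl, zero_le_one⟩, by rw [arcA_zero]; simp [Lf]⟩
  | cons p T ih =>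
    obtain ⟨s, hs, h⟩ := ih (fun q hq => hT q (List.mem_cons_of_mem _ hq))
    simp only [Lf]
    rcases le_total ((p.1 : ℝ) + p.2 * (u - y)) (Lf y T u) with h1 | h1
    · rw [max_eq_right h1]; exact ⟨s, hs, h⟩
    · rw [max_eq_left h1]
      obtain ⟨a, b, c⟩ := hT p (List.mem_cons_self ..)
      exact ⟨p.2, ⟨a, b⟩, by linarith⟩

theorem qK_eq_pBf {Y : ℝ} (hY : 0 < Y) {v : ℝ} (hv : v ≤ 1) : qK Y v = 2 * pBf Y v := by
  rw [qK_eq hY hv]
  rfl

theorem continuous_two_qmin (y H : ℝ) (T : List (ℚ × ℚ)) :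
    Continuous (fun u => 2 * qmin y H T u) := (continuous_qmin y H T).const_smul (2 : ℝ)

theorem two_qmin_le {y H u : ℝ} {T : List (ℚ × ℚ)} (hH : 0 < H)
    (hT : ∀ p ∈ T, 0 ≤ (p.2 : ℝ) ∧ (p.2 : ℝ) ≤ 1 ∧ (p.1 : ℝ) ≤ arcA (p.2 : ℝ)) (hu : u ≤ 1) :
    2 * qmin y H T u ≤ qC u ∧ 2 * qmin y H T u ≤ qK H u ∧
      ∃ s ∈ Icc (0 : ℝ) 1, 2 * qmin y H T u ≤ 2 * (arcA s + s * (u - y)) := by
  refine ⟨?_, ?_, ?_⟩
  · have : qmin y H T u ≤ Real.sqrt (Real.pi * u) := (min_le_left _ _).trans (min_le_left _ _)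
    unfold qC; linarith
  · rw [qK_eq_pBf hH hu]
    have : qmin y H T u ≤ pBf H u := min_le_right _ _
    linarith
  · obtain ⟨s, hs, h⟩ := exists_tan (y := y) T hT u
    have : qmin y H T u ≤ Lf y T u := (min_le_left _ _).trans (min_le_right _ _)
    exact ⟨s, hs, by linarith⟩

theorem slackHyp_of_mid {m M V e y1 y2 : ℝ} {P : ENNReal} (hm0 : 0 ≤ m) (hM1 : M ≤ 1)
    (he0 : 0 ≤ e) (he1 : e < 1) (heV : e < V) (hy1 : y1 < 1)
    (h : ∀ (I : ℝ → ℝ) (F H D : ℝ), (∀ u ∈ Icc m M, 0 ≤ F + H * u) →
        (∀ u ∈ Icc m M, F + H * u ≤ I u) →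
        ContinuousOn (fun u => (F + H * u) / I u) (Icc m M) →
        (∀ u ∈ Icc m M, I u ≤ qC u ∧ I u ≤ qK (1 - y1) u ∧
          ∃ s ∈ Icc (0 : ℝ) 1, I u ≤ 2 * (arcA s + s * (u - y2))) →
        (∀ u ∈ Icc m M, V ≤ e * M + (1 - e) * u → 0 < I u ∨ D ≤ 0) →
        (∀ u ∈ Icc m M, V ≤ e * M + (1 - e) * u →
          D * I u ≤ (F + H * u) * (qK (1 - y1) u - I u)) →
        ENNReal.ofReal (2 * (∫ u in m..M, Real.sqrt (1 - ((F + H * u) / I u) ^ 2)) + F +
          H * V + D * e) ≤ P) (T : List (ℚ × ℚ))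
    (hT : ∀ p ∈ T, 0 ≤ (p.2 : ℝ) ∧ (p.2 : ℝ) ≤ 1 ∧ (p.1 : ℝ) ≤ arcA (p.2 : ℝ)) :
    SlackHyp (fun u => 2 * qmin y2 (1 - y1) T u) (fun u => 2 * pBf (1 - y1) u) m M V e P := by
  have hH : 0 < 1 - y1 := by linarith
  intro F H D hD0 hD1 k0 k1 k2
  refine h (fun u => 2 * qmin y2 (1 - y1) T u) F H D k0 k1 ?_ ?_ ?_ ?_
  · exact continuousOn_line_div (continuous_two_qmin _ _ _) (fun u => I2_le_qmin hH _ _ u)
      (by rw [qmin_zero hH]; simp) (by rw [qmin_one hH]; simp) hm0 hM1 k0 k1
  · intro u hu
    exact two_qmin_le hH hT (hu.2.trans hM1)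
  · intro u hu hV
    rcases hD1 with h1 | h1
    · right; rw [h1]
    · left
      have hu1 : u < 1 := lt_of_le_of_lt hu.2 h1
      have hu0 : 0 < u := by
        by_contra hc
        push Not at hc
        have : (1 - e) * u ≤ 0 := mul_nonpos_of_nonneg_of_nonpos (by linarith) hc
        have : e * M ≤ e * 1 := mul_le_mul_of_nonneg_left hM1 he0
        linarith
      have := qmin_pos hH y2 T hu0 hu1
      linarith
  · intro u hu hV
    have hu' : u ∈ Icc (max m ((V - e * M) / (1 - e))) M := by
      refine ⟨max_le hu.1 ?_, hu.2⟩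
      rw [div_le_iff₀ (by linarith)]
      linarith
    have := k2 u hu'
    rw [qK_eq_pBf hH (hu.2.trans hM1)]
    simp only at this ⊢
    linarith

theorem gapE_y : (gapEPar.y : ℝ) = 0.12 := by
  show ((d 12000 : ℚ) : ℝ) = _
  rw [cast_d']; norm_num

theorem gapE_H : (gapEPar.H : ℝ) = 1 := by
  show ((d 100000 : ℚ) : ℝ) = _
  rw [cast_d']; norm_num

/-- The far bound is above the disc bound for areas at most `0.38`. -/
theorem tube_le_far {u : ℝ} (h0 : 0.3183 ≤ u) (h1 : u ≤ 0.38) :
    Real.sqrt (Real.pi * u) ≤ arcA ((d 70000 : ℚ) : ℝ) + ((d 70000 : ℚ) : ℝ) * (u - 0.12) := by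
  have hA := arc70
  have p2 := Real.pi_lt_d6
  have hpi := Real.pi_pos
  have e1 : ((d 91090 : ℚ) : ℝ) = 0.9109 := by rw [cast_d']; norm_num
  have e2 : ((d 70000 : ℚ) : ℝ) = 0.7 := by rw [cast_d']; norm_num
  rw [e1] at hA
  refine le_trans ?_ (add_le_add_left hA _)
  rw [e2]
  rw [Real.sqrt_le_left (by linarith only [h0])]
  nlinarith only [h0, h1, p2]


theorem qmin_one_le_qB {y u : ℝ} {T : List (ℚ × ℚ)} : 2 * qmin y 1 T u ≤ qB u := by
  have hpi := Real.pi_gt_three
  unfold qB
  rcases le_or_gt u (1 / 2) with h | h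
  · have h1 : qmin y 1 T u ≤ Real.sqrt (Real.pi * u) := (min_le_left _ _).trans (min_le_left _ _)
    have h2 : Real.sqrt (Real.pi * u) ≤ Real.sqrt (Real.pi * (1 - u)) := by
      apply Real.sqrt_le_sqrt
      nlinarith only [hpi, h]
    linarith
  · have h1 : qmin y 1 T u ≤ pBf 1 u := min_le_right _ _
    have h2 : pBf 1 u = Real.sqrt (Real.pi * (1 - u)) := by
      unfold pBf
      rw [min_eq_left (by linarith), max_eq_right (by linarith only [hpi, h])]
      simp
    linarith

/-- Slices of case G2 with area at most `0.38`. -/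
theorem tube_slice {A : Set (Fin 2 → ℝ)} (hA : MeasurableSet A) (hAd : IsDown A) (c : Fin 2)
    (hv : vol A ≤ 0.38) (hfar : far (c.succAbove 0) A ≤ 0.12)
    (h : (0 < far c A ∧ 0 < far (c.succAbove 0) A) ∨ far c A = 0) :
    ENNReal.ofReal (2 * Real.sqrt (Real.pi * vol A)) ≤ perimeter A := by
  have p1 := Real.pi_gt_d6
  have hpi := Real.pi_pos
  rcases h with ⟨a1, a2⟩ | a1
  · refine le_trans (ENNReal.ofReal_le_ofReal ?_) (Far2D.disc_compl_bound c hA hAd a1 a2)
    apply mul_le_mul_of_nonneg_left _ (by norm_num)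
    apply Real.sqrt_le_sqrt
    apply mul_le_mul_of_nonneg_left _ hpi.le
    linarith only [hv, hfar, a2]
  · rcases (far_nonneg (c.succAbove 0) A).eq_or_lt with h0 | h0
    · exact Far2D.disc_bound c hA hAd a1 h0.symm
    · rcases le_or_gt (vol A) 0.3183 with h1 | h1
      · have harc := Far2D.arc_bound (c.succAbove 0) hA hAd h0 (by rw [fin2_invol]; exact a1)
          le_rfl zero_le_one
        refine le_trans (ENNReal.ofReal_le_ofReal ?_) harc
        rw [arcA_zero]
        have : Real.sqrt (Real.pi * vol A) ≤ 1 := by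
          have p2 := Real.pi_lt_d6
          exact Real.sqrt_le_one.2 (by nlinarith only [hv, p1, h1, p2])
        linarith only [this]
      · have harc := Far2D.arc_bound (c.succAbove 0) hA hAd h0 (by rw [fin2_invol]; exact a1)
          (s := ((d 70000 : ℚ) : ℝ)) (by rw [cast_d']; norm_num) (by rw [cast_d']; norm_num)
        refine le_trans (ENNReal.ofReal_le_ofReal ?_) harc
        have := tube_le_far h1.le hv
        have h2 : ((d 70000 : ℚ) : ℝ) * (vol A - 0.12) ≤
            ((d 70000 : ℚ) : ℝ) * (vol A - far (c.succAbove 0) A) := by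
          apply mul_le_mul_of_nonneg_left
          · linarith only [hfar]
          · rw [cast_d']; norm_num
        linarith only [this, h2]

theorem gap_cases {E : Set (Fin 3 → ℝ)} (hE : MeasurableSet E) (hd : IsDown E)
    (hV0 : 0.266 ≤ vol E) (hV1 : vol E < 0.36) :
    Str (vol E) (perimeter E) ∨ ∃ j : Fin 3, (EssBd (sv j E) 0 1 ∧ ENNReal.ofReal 2 ≤ perimeter E) ∨
      (∀ᵐ t ∂mu, ENNReal.ofReal (2 * Real.sqrt (Real.pi * sv j E t)) ≤
        perimeter (slice j E t)) := by
  have hp := hd.isPeriodic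
  have hpi := Real.pi_pos
  have p2 := Real.pi_lt_d6
  have he : (0 : ℝ) < 0.12 := by norm_num
  rcases dichotomy hE hd he with ⟨j, c, b, y, hb, hb1, hy0, hy1, h1, h2⟩ | ⟨j, c, b, h0, h1, h2⟩
  · obtain ⟨m, M, hm0, hmM, hM1, hess⟩ := exists_essBd (sv_nonneg j E) (sv_le_one j E)
    obtain ⟨hv1, hv2⟩ := hess.vol_mem hE
    rcases le_or_gt M (1 / Real.pi) with hM | hM
    · right
      refine ⟨j, Or.inr ?_⟩
      filter_upwards [hess.upper] with t ht
      rw [← I2_eq_of_le (ht.trans hM)]
      exact I2_le_perimeter (measurableSet_slice j hE t) (isPeriodic_slice j hp t)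
    have hM' : 0.3183 < M := by
      refine lt_of_le_of_lt ?_ hM
      rw [le_div_iff₀ hpi]
      linarith only [p2]
    have hL : LineHyp m M (vol E) (perimeter E) := fun F H k0 k1 =>
      line_bound_I2 j hE hp hess hm0 hmM hM1 k0 k1
    have hG : G1Hyp y m M (vol E) 0.12 (perimeter E) := by
      intro y1 y2 l1 l2 l3 T hT
      refine slackHyp_of_mid hm0 hM1 (by norm_num) (by norm_num) (by linarith only [hV0]) l1 ?_ T hT
      intro I F H D k0 k1 kc kI kpos kD
      exact case_one' hE hd he hb hb1 h1 h2 hess hmM l1 l2 l3 k0 k1 kc kI kpos kD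
    rcases real_G1 hL hy0 hy1 hG hm0 hv1 hv2 hM1 hV0 hV1 hM' with h | ⟨h3, h4, h5⟩
    · exact Or.inl h
    · rw [h3, h4] at hess
      exact Or.inr ⟨j, Or.inl ⟨hess, h5⟩⟩
  · obtain ⟨m, M, hm0, hmM, hM1, hess⟩ := exists_essBd (sv_nonneg j E) (sv_le_one j E)
    obtain ⟨hv1, hv2⟩ := hess.vol_mem hE
    rcases le_or_gt M 0.38 with hM | hM
    · right
      refine ⟨j, Or.inr ?_⟩
      filter_upwards [hess.upper, ae_nr_pos, ae_nr_lt, ae_two_nr_ne b] with t ht ht0 ht1 htb
      refine tube_slice (measurableSet_slice j hE t) (hd.slice j t) c (ht.trans hM)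
        (h0 t ht0 ht1) ?_
      rcases lt_or_gt_of_ne htb with hlt | hgt
      · exact Or.inl (h1 t ht0 hlt)
      · exact Or.inr (h2 t hgt ht1)
    have hL : LineHyp m M (vol E) (perimeter E) := fun F H k0 k1 =>
      line_bound_I2 j hE hp hess hm0 hmM hM1 k0 k1
    have hG : SlackHyp (fun u => 2 * qmin gapEPar.y gapEPar.H gapEPar.T u)
        (fun u => 2 * pBf gapEPar.H u) m M (vol E) 0 (perimeter E) := by
      rw [gapE_y, gapE_H]
      intro F H D _ _ k0 k1 _
      rw [mul_zero, add_zero]
      refine case_two hE hd h0 h1 h2 hess hmM k0 k1 ?_ ?_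
      · exact continuousOn_line_div (continuous_two_qmin _ _ _)
          (fun u => I2_le_qmin one_pos _ _ u)
          (by rw [qmin_zero one_pos]; simp) (by rw [qmin_one one_pos]; simp) hm0 hM1 k0 k1
      · intro u hu
        have hu1 : u ≤ 1 := hu.2.trans hM1
        obtain ⟨a1, a2, a3⟩ := two_qmin_le (y := 0.12) (H := 1) (u := u) one_pos tan_E hu1
        refine ⟨a1, ?_, a3⟩
        exact qmin_one_le_qB
    rcases real_G2 hL hG hm0 hv1 hv2 hM1 hV0 hV1 hM with h | ⟨h3, h4, h5⟩
    · exact Or.inl h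
    · rw [h3, h4] at hess
      exact Or.inr ⟨j, Or.inl ⟨hess, h5⟩⟩

end Vale.Agent.P232
end
end

section

section

open MeasureTheory Set Filter Topology
open scoped Pointwise Convolution

namespace Vale.Agent.P232

/-- The geodesic ball of centre `c` and radius `r` in the torus (for `r ≤ 1/2`). -/
def tball {n : ℕ} (c : Fin n → ℝ) (r : ℝ) : Set (Fin n → ℝ) :=
  {x | ∑ i, nr (x i - c i) ^ 2 < r ^ 2}

theorem measurableSet_tball {n : ℕ} (c : Fin n → ℝ) (r : ℝ) : MeasurableSet (tball c r) := by
  unfold tball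
  apply measurableSet_lt _ measurable_const
  apply Finset.measurable_sum
  intro i _
  exact (measurable_nr.comp ((measurable_pi_apply i).sub_const _)).pow_const 2

theorem isPeriodic_tball {n : ℕ} (c : Fin n → ℝ) (r : ℝ) : IsPeriodic (tball c r) := by
  intro x k
  unfold tball
  simp only [mem_ofPred_eq]
  have : ∀ i, nr (x i + (k i : ℝ) - c i) = nr (x i - c i) := fun i => by
    rw [show x i + (k i : ℝ) - c i = (x i - c i) + k i by ring, nr_add_int]
  simp_rw [this]

theorem nr_sq_eq (u : ℝ) : nr u ^ 2 = (Int.fract (u + 1 / 2) - 1 / 2) ^ 2 := by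
  unfold nr
  rw [sq_abs, round_eq, Int.fract]
  ring

theorem slice_tball {n : ℕ} (i : Fin (n + 1)) (c : Fin (n + 1) → ℝ) (r t : ℝ) :
    slice i (tball c r) t =
      tball (fun j => c (i.succAbove j)) (Real.sqrt (r ^ 2 - nr (t - c i) ^ 2)) := by
  ext y
  unfold slice tball
  simp only [mem_ofPred_eq]
  rw [Fin.sum_univ_succAbove _ i]
  simp only [Fin.insertNth_apply_same, Fin.insertNth_apply_succAbove]
  have hs : 0 ≤ ∑ j, nr (y j - c (i.succAbove j)) ^ 2 := Finset.sum_nonneg fun _ _ => sq_nonneg _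
  rcases le_or_gt 0 (r ^ 2 - nr (t - c i) ^ 2) with h | h
  · rw [Real.sq_sqrt h]
    constructor <;> intro h' <;> linarith
  · rw [Real.sqrt_eq_zero'.mpr h.le]
    constructor
    · intro h'; linarith
    · intro h'
      norm_num at h'
      linarith

theorem vol_shift {n : ℕ} {E : Set (Fin n → ℝ)} (hE : MeasurableSet E) (hp : IsPeriodic E)
    (z : Fin n → ℝ) : vol {x | x + z ∈ E} = vol E := by
  have hE' : MeasurableSet {x : Fin n → ℝ | x + z ∈ E} := (measurable_id.add_const z) hE
  rw [vol_eq_integral hE, vol_eq_integral hE', ← integral_cube_add (perFun_indicator hp) z]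
  rfl

theorem vol_tball {n : ℕ} (c : Fin (n + 1) → ℝ) {r : ℝ} (h0 : 0 ≤ r) (h1 : r ≤ 1 / 2) :
    vol (tball c r) = omega (n + 1) * r ^ (n + 1) := by
  rcases h0.eq_or_lt with h | h
  · rw [← h]
    have : tball c 0 = ∅ := by
      ext x
      simp only [tball, mem_ofPred_eq, mem_empty_iff_false, iff_false, not_lt]
      have : 0 ≤ ∑ i, nr (x i - c i) ^ 2 := Finset.sum_nonneg fun _ _ => sq_nonneg _
      simpa using this
    rw [this]
    simp [vol]
  · rw [← vol_ballT h h1, ← vol_shift (measurableSet_ballT (n + 1) r) (isPeriodic_ballT (n + 1) r)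
      (fun i => 1 / 2 - c i)]
    congr 1
    ext x
    simp only [tball, ballT, mem_ofPred_eq, Pi.add_apply]
    have : ∀ i, nr (x i - c i) ^ 2 = (Int.fract (x i + (1 / 2 - c i)) - 1 / 2) ^ 2 := fun i => by
      rw [nr_sq_eq]
      congr 3
      ring
    simp_rw [this]

/-- The slices of a ball in the two-torus. -/
theorem sv_tball_two (i : Fin 2) (c : Fin 2 → ℝ) {r : ℝ} (h0 : 0 ≤ r) (h1 : r ≤ 1 / 2) (t : ℝ) :
    sv i (tball c r) t = 2 * Real.sqrt (r ^ 2 - nr (t - c i) ^ 2) := by
  unfold sv
  rw [slice_tball, vol_tball (n := 0) _ (Real.sqrt_nonneg _), zero_add, omega_one, pow_one]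
  refine (Real.sqrt_le_sqrt (y := r ^ 2) ?_).trans ?_
  · linarith only [sq_nonneg (nr (t - c i))]
  · rw [Real.sqrt_sq h0]; exact h1

/-- The slices of a ball in the three-torus. -/
theorem sv_tball_three (i : Fin 3) (c : Fin 3 → ℝ) {r : ℝ} (h0 : 0 ≤ r) (h1 : r ≤ 1 / 2) (t : ℝ) :
    sv i (tball c r) t = Real.pi * max 0 (r ^ 2 - nr (t - c i) ^ 2) := by
  unfold sv
  rw [slice_tball, vol_tball (n := 1) _ (Real.sqrt_nonneg _), omega_two]
  · congr 1
    rcases le_or_gt 0 (r ^ 2 - nr (t - c i) ^ 2) with h | h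
    · rw [max_eq_right h, ← Real.sq_sqrt h]
      simp
    · rw [max_eq_left h.le, Real.sqrt_eq_zero'.mpr h.le]
      norm_num
  · refine (Real.sqrt_le_sqrt (y := r ^ 2) ?_).trans ?_
    · linarith only [sq_nonneg (nr (t - c i))]
    · rw [Real.sqrt_sq h0]; exact h1

/-- The moments of a set in terms of the volumes of its slices. -/
theorem integral_moment {n : ℕ} (i : Fin (n + 1)) {E : Set (Fin (n + 1) → ℝ)}
    (hE : MeasurableSet E) {φ : ℝ → ℝ} (hφ : Measurable φ) {K : ℝ} (hK : ∀ t, |φ t| ≤ K) :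
    ∫ x in cube (n + 1), E.indicator (fun _ => (1 : ℝ)) x * φ (x i) = ∫ t, φ t * sv i E t ∂mu := by
  rw [integral_cube_succ i]
  · apply integral_congr_ae
    filter_upwards with t
    simp only [Fin.insertNth_apply_same]
    rw [integral_mul_const, mul_comm]
    congr 1
    unfold sv
    rw [vol_eq_integral (measurableSet_slice i hE t)]
    rfl
  · apply Integrable.mono' (integrable_const K)
    · exact ((measurable_indicator' hE).mul
        (hφ.comp (measurable_pi_apply i))).aestronglyMeasurable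
    · filter_upwards with x
      rw [Real.norm_eq_abs, abs_mul, abs_of_nonneg (indicator_nonneg' _ _)]
      have := hK (x i)
      have h1 := indicator_le_one' E x
      have h2 := indicator_nonneg' E x
      nlinarith only [abs_nonneg (φ (x i)), this, h1]

/-- A set whose slices in all directions have the same volumes as those of a ball is a ball. -/
theorem bathtub_gen {n : ℕ} {E : Set (Fin (n + 1) → ℝ)} (hE : MeasurableSet E)
    (hp : IsPeriodic E) (c : Fin (n + 1) → ℝ) (r : ℝ)
    (h : ∀ i, ∀ᵐ t ∂mu, sv i E t = sv i (tball c r) t) : E =ᵐ[volume] tball c r := by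
  set B := tball c r with hB
  have hBm : MeasurableSet B := measurableSet_tball c r
  apply ae_eq_of_ae_cube hp (isPeriodic_tball c r)
  set a : (Fin (n + 1) → ℝ) → ℝ := E.indicator (fun _ => (1 : ℝ)) with ha
  set b : (Fin (n + 1) → ℝ) → ℝ := B.indicator (fun _ => (1 : ℝ)) with hb
  have hma : Measurable a := measurable_indicator' hE
  have hmb : Measurable b := measurable_indicator' hBm
  have hφm : ∀ i : Fin (n + 1), Measurable fun t : ℝ => nr (t - c i) ^ 2 := fun i =>
    (measurable_nr.comp (measurable_id.sub_const _)).pow_const 2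
  have hφb : ∀ (i : Fin (n + 1)) (t : ℝ), |nr (t - c i) ^ 2| ≤ 1 := fun i t => by
    have h1 := nr_nonneg (t - c i)
    have h2 := nr_le_half (t - c i)
    rw [abs_of_nonneg (sq_nonneg _)]
    nlinarith only [h1, h2]
  have hmom : ∀ i, ∫ x in cube (n + 1), a x * nr (x i - c i) ^ 2 =
      ∫ x in cube (n + 1), b x * nr (x i - c i) ^ 2 := by
    intro i
    rw [integral_moment i hE (hφm i) (hφb i), integral_moment i hBm (hφm i) (hφb i)]
    apply integral_congr_ae
    filter_upwards [h i] with t ht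
    rw [ht]
  have hvol : ∫ x in cube (n + 1), a x = ∫ x in cube (n + 1), b x := by
    rw [← vol_eq_integral hE, ← vol_eq_integral hBm, vol_eq_integral_sv 0 hE,
      vol_eq_integral_sv 0 hBm]
    exact integral_congr_ae (h 0)
  have hint : ∀ {u : (Fin (n + 1) → ℝ) → ℝ}, Measurable u → (∀ x, 0 ≤ u x) → (∀ x, u x ≤ 1) →
      ∀ i, IntegrableOn (fun x => u x * nr (x i - c i) ^ 2) (cube (n + 1)) := by
    intro u hu h0 h1 i
    apply Integrable.mono' (integrable_const (1 : ℝ))
    · exact (hu.mul ((hφm i).comp (measurable_pi_apply i))).aestronglyMeasurable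
    · filter_upwards with x
      rw [Real.norm_eq_abs, abs_mul, abs_of_nonneg (h0 x)]
      exact mul_le_one₀ (h1 x) (abs_nonneg _) (hφb i _)
  have hint0 : ∀ {u : (Fin (n + 1) → ℝ) → ℝ}, Measurable u → (∀ x, 0 ≤ u x) → (∀ x, u x ≤ 1) →
      IntegrableOn u (cube (n + 1)) := by
    intro u hu h0 h1
    apply Integrable.mono' (integrable_const (1 : ℝ)) hu.aestronglyMeasurable
    filter_upwards with x
    rw [Real.norm_eq_abs, abs_of_nonneg (h0 x)]
    exact h1 x
  have ha0 : ∀ x, 0 ≤ a x := indicator_nonneg' E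
  have ha1 : ∀ x, a x ≤ 1 := indicator_le_one' E
  have hb0 : ∀ x, 0 ≤ b x := indicator_nonneg' B
  have hb1 : ∀ x, b x ≤ 1 := indicator_le_one' B
  set Φ : (Fin (n + 1) → ℝ) → ℝ := fun x => ∑ i, nr (x i - c i) ^ 2 - r ^ 2 with hΦ
  have hmul : ∀ {u : (Fin (n + 1) → ℝ) → ℝ}, Measurable u → (∀ x, 0 ≤ u x) → (∀ x, u x ≤ 1) →
      IntegrableOn (fun x => u x * Φ x) (cube (n + 1)) ∧
      ∫ x in cube (n + 1), u x * Φ x =
        ∑ i, (∫ x in cube (n + 1), u x * nr (x i - c i) ^ 2) -
          r ^ 2 * ∫ x in cube (n + 1), u x := by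
    intro u hu h0 h1
    have e : ∀ x, u x * Φ x = (∑ i, u x * nr (x i - c i) ^ 2) - r ^ 2 * u x := fun x => by
      rw [hΦ]; simp only; rw [mul_sub, Finset.mul_sum]; ring
    simp_rw [e]
    have i1 : IntegrableOn (fun x => ∑ i, u x * nr (x i - c i) ^ 2) (cube (n + 1)) :=
      integrable_finsetSum _ fun i _ => hint hu h0 h1 i
    have i2 : IntegrableOn (fun x => r ^ 2 * u x) (cube (n + 1)) :=
      (hint0 hu h0 h1).const_mul _
    refine ⟨i1.sub i2, ?_⟩
    rw [integral_sub i1 i2, integral_finsetSum _ fun i _ => hint hu h0 h1 i, integral_const_mul]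
  obtain ⟨iA, eA⟩ := hmul hma ha0 ha1
  obtain ⟨iB, eB⟩ := hmul hmb hb0 hb1
  have hzero : ∫ x in cube (n + 1), (a x - b x) * Φ x = 0 := by
    have e : ∀ x, (a x - b x) * Φ x = a x * Φ x - b x * Φ x := fun x => by ring
    simp_rw [e]
    rw [integral_sub iA iB, eA, eB, hvol]
    simp_rw [hmom]
    ring
  have hDnn : ∀ x, 0 ≤ (a x - b x) * Φ x := by
    intro x
    by_cases hxB : x ∈ B
    · have h1 : b x = 1 := by rw [hb]; simp [hxB]
      have h2 : Φ x < 0 := by
        have : ∑ i, nr (x i - c i) ^ 2 < r ^ 2 := hxB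
        simp only [hΦ]; linarith
      have := ha1 x
      nlinarith only [h1, h2, this]
    · have h1 : b x = 0 := by rw [hb]; simp [hxB]
      have h2 : 0 ≤ Φ x := by
        have : ¬ (∑ i, nr (x i - c i) ^ 2 < r ^ 2) := hxB
        push Not at this
        simp only [hΦ]; linarith
      have := ha0 x
      nlinarith only [h1, h2, this]
  have hDint : IntegrableOn (fun x => (a x - b x) * Φ x) (cube (n + 1)) := by
    have e : (fun x => (a x - b x) * Φ x) = fun x => a x * Φ x - b x * Φ x := by
      ext x; ring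
    rw [e]
    exact iA.sub iB
  have hD := (integral_eq_zero_iff_of_nonneg hDnn hDint).mp hzero
  -- `b ≤ a` almost everywhere
  have hba : ∀ᵐ x ∂(volume.restrict (cube (n + 1))), b x ≤ a x := by
    filter_upwards [hD] with x hx
    have hx' : (a x - b x) * Φ x = 0 := hx
    by_cases hxB : x ∈ B
    · have h2 : Φ x < 0 := by
        have : ∑ i, nr (x i - c i) ^ 2 < r ^ 2 := hxB
        simp only [hΦ]; linarith
      rcases mul_eq_zero.mp hx' with h | h
      · linarith
      · exact absurd h h2.ne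
    · have h1 : b x = 0 := by rw [hb]; simp [hxB]
      rw [h1]; exact ha0 x
  have hab0 : ∫ x in cube (n + 1), (a x - b x) = 0 := by
    rw [integral_sub (hint0 hma ha0 ha1) (hint0 hmb hb0 hb1), hvol, sub_self]
  have hab := (integral_eq_zero_iff_of_nonneg_ae (by
    filter_upwards [hba] with x hx
    simp only [Pi.zero_apply, Pi.sub_apply]; linarith)
    ((hint0 hma ha0 ha1).sub (hint0 hmb hb0 hb1))).mp hab0
  filter_upwards [hab] with x hx
  have h3 : a x = b x := by
    have : a x - b x = 0 := hx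
    linarith
  have h4 : x ∈ E ↔ x ∈ B := by
    simp only [ha, hb] at h3
    by_cases hxA : x ∈ E <;> by_cases hxB : x ∈ B
    · simp [hxA, hxB]
    · simp [hxA, hxB] at h3
    · simp [hxA, hxB] at h3
    · simp [hxA, hxB]
  exact propext h4

/-- Two-dimensional sets whose slices have the volumes of the slices of discs. -/
theorem bathtub2 {F : Set (Fin 2 → ℝ)} (hF : MeasurableSet F) (hp : IsPeriodic F) {R : ℝ}
    (h0 : 0 < R) (h1 : R ≤ 1 / 2)
    (h : ∀ i, ∃ z, ∀ᵐ t ∂mu, sv i F t = 2 * Real.sqrt (R ^ 2 - nr (t - z) ^ 2)) :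
    ∃ c, F =ᵐ[volume] tball c R := by
  choose c hc using h
  refine ⟨c, bathtub_gen hF hp c R fun i => ?_⟩
  filter_upwards [hc i] with t ht
  rw [ht, sv_tball_two i c h0.le h1]

/-- Three-dimensional sets whose slices have the volumes of the slices of balls. -/
theorem bathtub3 {F : Set (Fin 3 → ℝ)} (hF : MeasurableSet F) (hp : IsPeriodic F) {R : ℝ}
    (h0 : 0 < R) (h1 : R ≤ 1 / 2)
    (h : ∀ i, ∃ z, ∀ᵐ t ∂mu, sv i F t = Real.pi * max 0 (R ^ 2 - nr (t - z) ^ 2)) :
    ∃ c, F =ᵐ[volume] tball c R := by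
  choose c hc using h
  refine ⟨c, bathtub_gen hF hp c R fun i => ?_⟩
  filter_upwards [hc i] with t ht
  rw [ht, sv_tball_three i c h0.le h1]

end Vale.Agent.P232
end
end

section

section

/-! Classification of the minimizers that are no cylinders. -/

open MeasureTheory Set Filter Topology
open scoped Pointwise Convolution

namespace Vale.Agent.P232

theorem ball_radius {V : ℝ} (h0 : 0 < V) (h1 : V ≤ 1 / 2) :
    ∃ R : ℝ, 0 < R ∧ R ≤ 1 / 2 ∧ V = 4 / 3 * Real.pi * R ^ 3 ∧
      (36 * Real.pi) ^ (1 / 3 : ℝ) * V ^ (2 / 3 : ℝ) = 4 * Real.pi * R ^ 2 := by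
  have hpi := Real.pi_pos
  have hpi3 := Real.pi_gt_three
  set W : ℝ := 3 * V / (4 * Real.pi) with hW
  have hW0 : 0 < W := by positivity
  set R : ℝ := W ^ (1 / 3 : ℝ) with hR
  have hR0 : 0 < R := Real.rpow_pos_of_pos hW0 _
  have hR3 : R ^ 3 = W := by
    rw [hR, ← Real.rpow_natCast, ← Real.rpow_mul hW0.le]
    norm_num
  have hV : V = 4 / 3 * Real.pi * R ^ 3 := by
    rw [hR3, hW]; field_simp
  refine ⟨R, hR0, ?_, hV, ?_⟩
  · by_contra hcon
    push Not at hcon
    have h2 : (1 / 2 : ℝ) ^ 3 < R ^ 3 := pow_lt_pow_left₀ hcon (by norm_num) (by norm_num)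
    nlinarith only [h0, h1, hpi, hpi3, hV, h2]
  · have h3 : ((36 * Real.pi) ^ (1 / 3 : ℝ) * V ^ (2 / 3 : ℝ)) ^ 3 = (4 * Real.pi * R ^ 2) ^ 3 := by
      rw [ball_cube h0.le, hV]
      ring
    exact (pow_left_inj₀ (by positivity) (by positivity) (by norm_num)).mp h3

/-- With vanishing essential infimum the perimeter is at least that of the ball. -/
theorem ball_le_perimeter {k : Fin 3} {E : Set (Fin 3 → ℝ)} (hE : MeasurableSet E)
    (hp : IsPeriodic E) (h0 : 0 < vol E)
    (hper : ∀ᵐ t ∂mu, ENNReal.ofReal (2 * Real.sqrt (Real.pi * sv k E t)) ≤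
      perimeter (slice k E t)) {M : ℝ} (hess : EssBd (sv k E) 0 M) :
    ENNReal.ofReal ((36 * Real.pi) ^ (1 / 3 : ℝ) * vol E ^ (2 / 3 : ℝ)) ≤ perimeter E := by
  have hpi := Real.pi_pos
  have hvol := vol_eq_integral_sv k hE
  have hM : 0 < M := by
    by_contra hM
    push Not at hM
    have : ∀ᵐ t ∂mu, sv k E t = 0 := by
      filter_upwards [hess.upper] with t ht
      exact le_antisymm (ht.trans hM) (sv_nonneg _ _ _)
    rw [integral_congr_ae this] at hvol
    simp at hvol
    linarith
  set R := Real.sqrt (M / Real.pi) with hR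
  have hR0 : 0 < R := Real.sqrt_pos.mpr (by positivity)
  have hMR : M = Real.pi * R ^ 2 := by rw [hR, Real.sq_sqrt (by positivity)]; field_simp
  have hβc := continuous_tubeBeta le_rfl hR0
  have key := slicing_affine k hE hp (α := fun u => Real.sqrt (1 - tubeBeta 0 R u ^ 2))
    (β := tubeBeta 0 R) (by fun_prop) hβc (fun _ => Real.sqrt_nonneg _)
    (fun _ => tubeBeta_nonneg _ _ _) (fun u => by
      rw [Real.sq_sqrt]
      · linarith
      · have := tubeBeta_nonneg 0 R u; have := tubeBeta_le_one 0 R u; nlinarith) hess hM.le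
    (F := 0) (H := 2 / R) (by
      filter_upwards [hess.lower, hess.upper, hper] with t h1 h2 h3
      have hs0 := sv_nonneg k E t
      refine ⟨by positivity, ?_⟩
      refine le_trans ?_ (mul_le_mul_right h3 _)
      rw [← ENNReal.ofReal_mul (tubeBeta_nonneg _ _ _)]
      apply ENNReal.ofReal_le_ofReal
      set v := sv k E t with hv
      rcases hs0.eq_or_lt with h | h
      · rw [← h]; simp
      · set s := Real.sqrt (v / Real.pi) with hs
        have hsp : 0 < s := Real.sqrt_pos.mpr (by positivity)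
        have hvs : v = Real.pi * s ^ 2 := by rw [hs, Real.sq_sqrt (by positivity)]; field_simp
        have hsR : s ≤ R := Real.sqrt_le_sqrt (by gcongr)
        have e1 : Real.sqrt (Real.pi * v) = Real.pi * s := by
          rw [hvs, show Real.pi * (Real.pi * s ^ 2) = (Real.pi * s) ^ 2 by ring,
            Real.sqrt_sq (by positivity)]
        rw [e1]
        have e2 := tubeBeta_eq le_rfl hR0 hsp.le hsp hsR
        rw [← hvs] at e2
        rw [e2, hvs]
        apply le_of_eq
        field_simp
        ring)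
  refine le_trans (ENNReal.ofReal_le_ofReal ?_) key
  have h1 := tube_integral le_rfl hR0 hR0.le
  rw [← hMR] at h1
  have h2 := ball_le h0.le hR0
  have e3 : 2 * vol E / R = 2 / R * vol E := by ring
  simp only [zero_pow two_ne_zero, mul_zero, sub_zero] at h1
  linarith only [h2, e3, h1]

/-- A set of small perimeter is a ball, or its slices in some direction have constant area. -/
theorem ball_or_const' {E : Set (Fin 3 → ℝ)} (hE : MeasurableSet E) (hp : IsPeriodic E)
    (h0 : 0 < vol E) (h1 : vol E ≤ 1 / 2) {P : ℝ} (hPJ : P ≤ J0 (vol E))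
    (hP : perimeter E ≤ ENNReal.ofReal P)
    (hS : ∀ E' : Set (Fin 3 → ℝ), MeasurableSet E' → IsDown E' → vol E' = vol E →
      perimeter E' ≤ ENNReal.ofReal P →
      (∃ k, ∀ᵐ t ∂mu, sv k E' t = vol E) ∨ ∀ k, far k E' = 0) :
    (∃ k, ∀ᵐ t ∂mu, sv k E t = vol E) ∨
      (ENNReal.ofReal ((36 * Real.pi) ^ (1 / 3 : ℝ) * vol E ^ (2 / 3 : ℝ)) ≤ perimeter E ∧
      ∃ (c : Fin 3 → ℝ) (R : ℝ), 0 < R ∧ R ≤ 1 / 2 ∧ vol E = 4 / 3 * Real.pi * R ^ 3 ∧
        E =ᵐ[volume] tball c R) := by
  by_cases hc : ∃ k, ∀ᵐ t ∂mu, sv k E t = vol E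
  · exact Or.inl hc
  right
  obtain ⟨R, hR0, hR1, hV, hball⟩ := ball_radius h0 h1
  have hPE : perimeter E ≤ ENNReal.ofReal (J0 (vol E)) := hP.trans (ENNReal.ofReal_le_ofReal hPJ)
  have hPR : perimeter E ≤ ENNReal.ofReal (4 * Real.pi * R ^ 2) := by
    refine hPE.trans (ENNReal.ofReal_le_ofReal ?_)
    rw [← hball]
    exact min_le_left _ _
  have key : ∀ j, ENNReal.ofReal ((36 * Real.pi) ^ (1 / 3 : ℝ) * vol E ^ (2 / 3 : ℝ)) ≤
      perimeter E ∧ ∃ z : ℝ, ∀ᵐ t ∂mu,
        sv j E t = Real.pi * max 0 (R ^ 2 - nr (t - z) ^ 2) := by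
    intro j
    obtain ⟨F, E', hF, hpF, hvF, hPF, hsvF, hdF, hE', hdE', hvE', hPE', htr, hsv⟩ :=
      exists_sym j hE hp
    have hfar : ∀ k, far k E' = 0 := by
      rcases hS E' hE' hdE' hvE' (hPE'.trans hP) with ⟨k, hk⟩ | h
      · exact absurd ⟨k, htr k _ hk⟩ hc
      · exact h
    have hb := slice_bound j hF hdF hsv hfar
    have h0F : 0 < vol F := by rw [hvF]; exact h0
    rcases essInf_zero_or hF hpF h0F hb (by rw [hvF]; exact hPF.trans hPE) with h2 | ⟨M, hM⟩
    · exfalso
      apply hc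
      refine ⟨j, ?_⟩
      filter_upwards [h2] with t ht
      rw [← hsvF, ht, hvF]
    · obtain ⟨z, hz⟩ := marginal_ball hF hpF hM hb hR0 hR1 (by rw [hvF]; exact hV)
        (hPF.trans hPR)
      refine ⟨?_, z, ?_⟩
      · have h3 := ball_le_perimeter hF hpF h0F hb hM
        rw [hvF] at h3
        exact h3.trans hPF
      · filter_upwards [hz] with t ht
        rw [← hsvF, ht]
        rfl
  obtain ⟨c, hcE⟩ := bathtub3 hE hp hR0 hR1 fun j => (key j).2
  exact ⟨(key 0).1, c, R, hR0, hR1, hV, hcE⟩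

end Vale.Agent.P232
end
end

section

section

open MeasureTheory Set Filter Topology
open scoped Pointwise Convolution

namespace Vale.Agent.P232

/-- A periodic property that holds almost everywhere in an interval of length one. -/
theorem ae_of_ae_Ioo {p : ℝ → Prop} (hp : ∀ (t : ℝ) (k : ℤ), p (t + k) → p t) (a : ℝ)
    (h : ∀ᵐ t : ℝ, t ∈ Ioo a (a + 1) → p t) : ∀ᵐ t : ℝ, p t := by
  have h2 : ∀ k : ℤ, ∀ᵐ t : ℝ, t + k ∈ Ioo a (a + 1) → p (t + k) := by
    intro k
    exact (measurePreserving_add_right volume (k : ℝ)).quasiMeasurePreserving.ae h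
  have h3 : ∀ k : ℤ, ∀ᵐ t : ℝ, t ≠ a + k := fun k => by
    have : volume ({a + (k : ℝ)} : Set ℝ) = 0 := measure_singleton _
    rw [ae_iff]
    simp
  filter_upwards [ae_all_iff.mpr h2, ae_all_iff.mpr h3] with t ht ht3
  refine hp t (-⌊t - a⌋) (ht _ ?_)
  have e1 := Int.floor_le (t - a)
  have e2 := Int.lt_floor_add_one (t - a)
  have e3 := ht3 ⌊t - a⌋
  push_cast
  constructor
  · rcases e1.lt_or_eq with h | h
    · linarith
    · exfalso; apply e3; linarith
  · linarith

theorem nr_eq_one_sub {t : ℝ} (h0 : 1 / 2 < |t|) (h1 : |t| ≤ 1) : nr t = 1 - |t| := by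
  rcases abs_cases t with ⟨h, h'⟩ | ⟨h, h'⟩
  · rw [h] at h0 h1 ⊢
    have e : t = (t - 1) + ((1 : ℤ) : ℝ) := by push_cast; ring
    rw [e, nr_add_int, nr_of_abs_lt (by rw [abs_lt]; constructor <;> linarith),
      abs_of_nonpos (by linarith)]
    push_cast
    ring
  · rw [h] at h0 h1 ⊢
    have e : t = (t + 1) + ((-1 : ℤ) : ℝ) := by push_cast; ring
    rw [e, nr_add_int, nr_of_abs_lt (by rw [abs_lt]; constructor <;> linarith),
      abs_of_nonneg (by linarith)]
    push_cast
    ring

/-- One-dimensional sets of perimeter at most two are arcs. -/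
theorem arc_of_perimeter_le {A : Set (Fin 1 → ℝ)} (hA : MeasurableSet A) (hp : IsPeriodic A)
    (h0 : 0 < vol A) (h1 : vol A < 1) (h : perimeter A ≤ ENNReal.ofReal 2) :
    ∃ c : ℝ, A =ᵐ[volume] {x | 2 * nr (x 0 - c) < vol A} := by
  have hsv : ∀ t, sv 0 A t = A.indicator (fun _ => (1 : ℝ)) (fun _ => t) := sv_fin_one A
  set v : ℝ → ℝ := sv 0 A with hv
  have hv01 : ∀ t, v t = 0 ∨ v t = 1 := by
    intro t
    rw [hsv]
    by_cases ht : (fun _ => t) ∈ A
    · right; simp [ht]
    · left; simp [ht]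
  have hgood := ae_goodPt 0 hA
  have hvper : ∀ t, v (t + 1) = v t := fun t => by
    rw [hv]; unfold sv; rw [slice_add_one 0 hp]
  -- no two alternations
  have key : ∀ x1 y1 x2 y2 : ℝ, GoodPt 0 A x1 → GoodPt 0 A y1 → GoodPt 0 A x2 → GoodPt 0 A y2 →
      v x1 = 1 → v y1 = 0 → v x2 = 1 → v y2 = 0 → x1 < y1 → y1 < x2 → x2 < y2 → y2 < x1 + 1 →
      False := by
    intro x1 y1 x2 y2 g1 g2 g3 g4 v1 v2 v3 v4 l1 l2 l3 l4
    set σ : ℕ → ℝ := fun j => if j = 0 then x1 else if j = 1 then y1 else if j = 2 then x2 else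
      if j = 3 then y2 else x1 + 1 with hσ
    have hσm : Monotone σ := by
      apply monotone_nat_of_le_succ
      intro j
      rcases j with _ | _ | _ | _ | j
      · simpa [hσ] using l1.le
      · simpa [hσ] using l2.le
      · simpa [hσ] using l3.le
      · simpa [hσ] using l4.le
      · simp [hσ]
    have hσg : ∀ j, GoodPt 0 A (σ j) := by
      intro j
      rcases j with _ | _ | _ | _ | j
      · simpa [hσ] using g1
      · simpa [hσ] using g2
      · simpa [hσ] using g3
      · simpa [hσ] using g4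
      · simp only [hσ]
        exact goodPt_add_one 0 hp g1
    have hs := slicing 0 hA hp (α := fun _ => 1) (β := fun _ => 0) continuous_const
      continuous_const (fun _ => zero_le_one) (fun _ => le_rfl) (fun _ => by norm_num)
      hσm (N := 4) (by simp [hσ]) hσg
    simp only [ENNReal.ofReal_zero, zero_mul, lintegral_zero, add_zero] at hs
    have hsum : ∑ j ∈ Finset.range 4, |prim (fun _ => (1 : ℝ)) (sv 0 A (σ (j + 1))) -
        prim (fun _ => (1 : ℝ)) (sv 0 A (σ j))| = 4 := by
      have hpr : ∀ u, prim (fun _ => (1 : ℝ)) u = u := fun u => by simp [prim]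
      simp only [hpr, Finset.sum_range_succ, Finset.sum_range_zero, zero_add]
      change |v (σ 1) - v (σ 0)| + |v (σ 2) - v (σ 1)| + |v (σ 3) - v (σ 2)| +
        |v (σ 4) - v (σ 3)| = 4
      have e0 : v (σ 0) = 1 := by simpa [hσ] using v1
      have e1 : v (σ 1) = 0 := by simpa [hσ] using v2
      have e2 : v (σ 2) = 1 := by simpa [hσ] using v3
      have e3 : v (σ 3) = 0 := by simpa [hσ] using v4
      have e4 : v (σ 4) = 1 := by
        simp only [hσ]
        rw [show v (if 4 = 0 then x1 else if 4 = 1 then y1 else if 4 = 2 then x2 else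
          if 4 = 3 then y2 else x1 + 1) = v (x1 + 1) by simp, hvper, v1]
      rw [e0, e1, e2, e3, e4]
      norm_num
    rw [hsum] at hs
    have := hs.trans h
    rw [ENNReal.ofReal_le_ofReal_iff (by norm_num)] at this
    norm_num at this
  -- a good point outside
  have hmv : vol A = ∫ t, v t ∂mu := vol_eq_integral_sv 0 hA
  obtain ⟨y0, hy0, gy0⟩ : ∃ y0, v y0 = 0 ∧ GoodPt 0 A y0 := by
    by_contra hcon
    push Not at hcon
    have : ∀ᵐ t ∂mu, v t = 1 := by
      filter_upwards [ae_restrict_of_ae hgood] with t ht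
      rcases hv01 t with h | h
      · exact absurd ht (hcon t h)
      · exact h
    rw [hmv, integral_congr_ae this] at h1
    simp at h1
  set S : Set ℝ := {t | GoodPt 0 A t ∧ v t = 1 ∧ t ∈ Ioo y0 (y0 + 1)} with hS
  have hmv2 : vol A = ∫ t in y0..(y0 + 1), v t := vol_eq_intervalIntegral 0 hA hp y0
  have hy01 : y0 ≤ y0 + 1 := by linarith
  have hSne : S.Nonempty := by
    by_contra hcon
    rw [not_nonempty_iff_eq_empty] at hcon
    have : ∫ t in y0..(y0 + 1), v t = ∫ t in y0..(y0 + 1), (0 : ℝ) := by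
      apply intervalIntegral.integral_congr_ae
      filter_upwards [hgood, Far2D.ae_ne (y0 + 1)] with t ht ht2 ht3
      rw [uIoc_of_le hy01] at ht3
      rcases hv01 t with h | h
      · exact h
      · exfalso
        have : t ∈ S := ⟨ht, h, ht3.1, lt_of_le_of_ne ht3.2 ht2⟩
        rw [hcon] at this
        exact this
    rw [hmv2, this] at h0
    simp at h0
  have hSb : BddBelow S := ⟨y0, fun t ht => ht.2.2.1.le⟩
  have hSa : BddAbove S := ⟨y0 + 1, fun t ht => ht.2.2.2.le⟩
  set a := sInf S with ha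
  set b := sSup S with hb
  have hay : y0 ≤ a := le_csInf hSne fun t ht => ht.2.2.1.le
  have hby : b ≤ y0 + 1 := csSup_le hSne fun t ht => ht.2.2.2.le
  have hab : a ≤ b := by
    obtain ⟨t, ht⟩ := hSne
    exact (csInf_le hSb ht).trans (le_csSup hSa ht)
  have hin : ∀ z, GoodPt 0 A z → a < z → z < b → v z = 1 := by
    intro z gz hz1 hz2
    rcases hv01 z with hz | hz
    · exfalso
      obtain ⟨x1, hx1, hx1z⟩ := exists_lt_of_csInf_lt hSne hz1
      obtain ⟨x2, hx2, hx2z⟩ := exists_lt_of_lt_csSup hSne hz2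
      refine key x1 z x2 (y0 + 1) hx1.1 gz hx2.1 (goodPt_add_one 0 hp gy0) hx1.2.1 hz hx2.2.1
        (by rw [hvper, hy0]) hx1z hx2z hx2.2.2.2 (by linarith [hx1.2.2.1])
    · exact hz
  have hout : ∀ z, GoodPt 0 A z → z ∈ Ioo y0 (y0 + 1) → (z < a ∨ b < z) → v z = 0 := by
    intro z gz hz hz2
    rcases hv01 z with h | h
    · exact h
    · exfalso
      have hzS : z ∈ S := ⟨gz, h, hz⟩
      rcases hz2 with h2 | h2
      · exact absurd (csInf_le hSb hzS) (not_le.mpr h2)
      · exact absurd (le_csSup hSa hzS) (not_le.mpr h2)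
  have hae : ∀ᵐ t : ℝ, t ∈ Ioo y0 (y0 + 1) → (v t = 1 ↔ t ∈ Ioo a b) := by
    filter_upwards [hgood, Far2D.ae_ne a, Far2D.ae_ne b] with t ht hta htb hty
    constructor
    · intro h
      by_contra hcon
      have : t < a ∨ b < t := by
        by_contra hc
        push Not at hc
        exact hcon ⟨lt_of_le_of_ne hc.1 (Ne.symm hta), lt_of_le_of_ne hc.2 htb⟩
      rw [hout t ht hty this] at h
      exact zero_ne_one h
    · intro h
      exact hin t ht h.1 h.2
  have hvol : vol A = b - a := by
    rw [hmv2]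
    have e1 : ∫ t in y0..(y0 + 1), v t = ∫ t in y0..(y0 + 1), (Ioo a b).indicator (fun _ => (1 : ℝ)) t := by
      apply intervalIntegral.integral_congr_ae
      filter_upwards [hae, Far2D.ae_ne (y0 + 1)] with t ht ht2 ht3
      rw [uIoc_of_le hy01] at ht3
      have ht4 := ht ⟨ht3.1, lt_of_le_of_ne ht3.2 ht2⟩
      by_cases htab : t ∈ Ioo a b
      · rw [indicator_of_mem htab]
        exact ht4.mpr htab
      · rw [indicator_of_notMem htab]
        rcases hv01 t with h | h
        · exact h
        · exact absurd (ht4.mp h) htab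
    rw [e1, intervalIntegral.integral_of_le hy01, integral_indicator measurableSet_Ioo]
    rw [Measure.restrict_restrict measurableSet_Ioo]
    have e2 : Ioo a b ∩ Ioc y0 (y0 + 1) = Ioo a b := by
      apply inter_eq_self_of_subset_left
      intro t ht
      exact ⟨by linarith [ht.1], by linarith [ht.2]⟩
    rw [e2]
    simp [Measure.real, hab]
  set c := (a + b) / 2 with hc
  refine ⟨c, ?_⟩
  -- the statement on the line
  have hline : ∀ᵐ t : ℝ, (v t = 1 ↔ 2 * nr (t - c) < vol A) := by
    apply ae_of_ae_Ioo (p := fun t => v t = 1 ↔ 2 * nr (t - c) < vol A) _ y0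
    · filter_upwards [hae] with t ht hty
      rw [ht hty, hvol]
      have h2 : nr (t - c) < (b - a) / 2 ↔ |t - c| < (b - a) / 2 := by
        have hle : |t - c| < 1 - (b - a) / 2 := by
          rw [abs_lt, hc]
          constructor <;> linarith [hty.1, hty.2]
        rcases lt_or_ge (|t - c|) (1 / 2) with h3 | h3
        · rw [nr_of_abs_lt h3]
        · rcases h3.eq_or_lt with h4 | h4
          · have e5 : nr (t - c) = 1 / 2 := by
              rcases abs_cases (t - c) with ⟨h5, h6⟩ | ⟨h5, h6⟩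
              · have : t - c = 1 / 2 := by linarith only [h3, h4, h5]
                rw [this, nr_half]
              · have : t - c = 1 / 2 + ((-1 : ℤ) : ℝ) := by push_cast; linarith only [h3, h4, h5]
                rw [this, nr_add_int, nr_half]
            rw [e5, ← h4]
          · rw [nr_eq_one_sub h4 (by linarith only [hab, hle])]
            constructor <;> intro h5 <;> linarith
      rw [show (2 * nr (t - c) < b - a ↔ nr (t - c) < (b - a) / 2) by
        constructor <;> intro h5 <;> linarith only [h5], h2, abs_lt, mem_Ioo, hc]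
      constructor
      · rintro ⟨h5, h6⟩
        constructor <;> linarith
      · rintro ⟨h5, h6⟩
        constructor <;> linarith
    · intro t k ht
      have e1 : v (t + k) = v t := by
        rw [hv]; unfold sv; rw [slice_add_int 0 hp]
      have e2 : nr (t + k - c) = nr (t - c) := by
        rw [show t + k - c = (t - c) + k by ring, nr_add_int]
      rwa [e1, e2] at ht
  have hmp := volume_preserving_funUnique (Fin 1) ℝ
  have h5 := hmp.quasiMeasurePreserving.ae hline
  filter_upwards [h5] with x hx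
  have e1 : (MeasurableEquiv.funUnique (Fin 1) ℝ) x = x 0 := rfl
  rw [e1] at hx
  have e2 : (fun _ => x 0) = x := by
    ext j; fin_cases j; rfl
  have e3 : v (x 0) = 1 ↔ x ∈ A := by
    rw [hsv, e2]
    by_cases hxA : x ∈ A <;> simp [hxA]
  rw [e3] at hx
  exact propext hx

end Vale.Agent.P232
end
end

section

section

/-! Classification of the minimizers in the two-torus. -/

open MeasureTheory Set Filter Topology
open scoped Pointwise Convolution

namespace Vale.Agent.P232

/-- The cylinder over `A` in direction `i`. -/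
def cyl {n : ℕ} (i : Fin (n + 1)) (A : Set (Fin n → ℝ)) : Set (Fin (n + 1) → ℝ) :=
  {x | (fun j => x (i.succAbove j)) ∈ A}

theorem measurableSet_cyl {n : ℕ} (i : Fin (n + 1)) {A : Set (Fin n → ℝ)}
    (hA : MeasurableSet A) : MeasurableSet (cyl i A) :=
  (measurable_pi_iff.mpr fun _ => measurable_pi_apply _) hA

theorem slice_cyl {n : ℕ} (i : Fin (n + 1)) (A : Set (Fin n → ℝ)) (t : ℝ) :
    slice i (cyl i A) t = A := by
  ext y
  simp [slice, cyl]

theorem cyl_congr {n : ℕ} (i : Fin (n + 1)) {A B : Set (Fin n → ℝ)}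
    (hA : MeasurableSet A) (hB : MeasurableSet B) (h : A =ᵐ[volume] B) :
    cyl i A =ᵐ[volume] cyl i B := by
  apply ae_eq_of_slices i (measurableSet_cyl i hA) (measurableSet_cyl i hB)
  filter_upwards with t
  rw [slice_cyl, slice_cyl]
  exact h

theorem two_le_of_slices (i : Fin 2) {F : Set (Fin 2 → ℝ)} (hF : MeasurableSet F)
    (hp : IsPeriodic F) (hsl : ∀ᵐ t ∂mu, 0 < sv i F t ∧ sv i F t < 1) :
    ENNReal.ofReal 2 ≤ perimeter F := by
  have h2 : (2 : ENNReal) ≤ ∫⁻ t in Ico (0 : ℝ) 1, perimeter (slice i F t) := by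
    have e : (2 : ENNReal) = ∫⁻ _ in Ico (0 : ℝ) 1, (2 : ENNReal) := by simp
    rw [e]
    apply lintegral_mono_ae
    filter_upwards [hsl] with t ht
    exact two_le_perimeter_one (measurableSet_slice i hF t) (isPeriodic_slice i hp t) ht.1 ht.2
  obtain ⟨m, M, hm0, hmM, hM1, hess⟩ := exists_essBd (sv_nonneg i F) (sv_le_one i F)
  have h3 := slicing_ess i hF hp (α := fun _ => 0) (β := fun _ => 1) continuous_const
    continuous_const (fun _ => le_rfl) (fun _ => zero_le_one) (fun _ => by norm_num) hess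
  simp only [prim_const, zero_mul, sub_self, mul_zero, ENNReal.ofReal_zero, ENNReal.ofReal_one,
    one_mul, zero_add] at h3
  have e2 : ENNReal.ofReal 2 = 2 := by simp
  rw [e2]
  exact h2.trans h3

/-- All slices nontrivial: the set is a strip. -/
theorem strip_of_slices (i : Fin 2) {F : Set (Fin 2 → ℝ)} (hF : MeasurableSet F)
    (hp : IsPeriodic F) (h0 : 0 < vol F) (h1 : vol F < 1)
    (hsl : ∀ᵐ t ∂mu, 0 < sv i F t ∧ sv i F t < 1) (hP : perimeter F ≤ ENNReal.ofReal 2) :
    ∃ c : ℝ, F =ᵐ[volume] {x | 2 * nr (x (i.succAbove 0) - c) < vol F} := by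
  have hfin : perimeter F ≠ ⊤ := ne_top_of_le_ne_top ENNReal.ofReal_ne_top hP
  have h2 : (2 : ENNReal) ≤ ∫⁻ t in Ico (0 : ℝ) 1, perimeter (slice i F t) := by
    have e : (2 : ENNReal) = ∫⁻ _ in Ico (0 : ℝ) 1, (2 : ENNReal) := by simp
    rw [e]
    apply lintegral_mono_ae
    filter_upwards [hsl] with t ht
    exact two_le_perimeter_one (measurableSet_slice i hF t) (isPeriodic_slice i hp t) ht.1 ht.2
  have hP2 : perimeter F ≤ 2 := by simpa using hP
  obtain ⟨G, hG, hpG, hvG, hPG, hFG⟩ := cylinder_of_perimeter_le i hF hp hfin (hP2.trans h2)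
  obtain ⟨c, hc⟩ := arc_of_perimeter_le hG hpG (by rw [hvG]; exact h0) (by rw [hvG]; exact h1)
    (hPG.trans hP)
  refine ⟨c, hFG.trans ?_⟩
  have hx0 : Measurable (fun x : Fin 1 → ℝ => x 0 - c) :=
    (measurable_pi_apply (0 : Fin 1)).sub measurable_const
  have hms : MeasurableSet {x : Fin 1 → ℝ | 2 * nr (x 0 - c) < vol G} :=
    measurableSet_lt ((measurable_nr.comp hx0).const_mul 2) measurable_const
  refine (cyl_congr i hG hms hc).trans (Eq.eventuallyEq ?_)
  ext x
  simp only [cyl, mem_ofPred_eq, hvG]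

theorem insertNth_swap_two (i : Fin 2) (t s : ℝ) :
    i.insertNth (α := fun _ => ℝ) t (fun _ => s) =
      (i.succAbove 0).insertNth (α := fun _ => ℝ) s (fun _ => t) := by
  ext k
  fin_cases i <;> fin_cases k <;> rfl

theorem colH_eq_sv (i : Fin 2) {F : Set (Fin 2 → ℝ)} (hF : MeasurableSet F) (t : ℝ) :
    colH (i.succAbove 0) F (fun _ => t) = sv i F t := by
  have h1 : sv i F t = vol (slice i F t) := rfl
  rw [h1, vol_eq_integral_sv 0 (measurableSet_slice i hF t)]
  unfold colH colMean
  apply setIntegral_congr_fun measurableSet_Ico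
  intro s _
  simp only
  rw [sv_fin_one, ← insertNth_swap_two]
  by_cases h : i.insertNth (α := fun _ => ℝ) t (fun _ => s) ∈ F
  · rw [indicator_of_mem h, indicator_of_mem]
    exact h
  · rw [indicator_of_notMem h, indicator_of_notMem]
    exact h

theorem ae_cube_one {p : (Fin 1 → ℝ) → Prop} (hp : MeasurableSet {y | p y})
    (h : ∀ᵐ t ∂mu, p (fun _ => t)) : ∀ᵐ y ∂(volume.restrict (cube 1)), p y := by
  have hB : MeasurableSet {y : Fin 1 → ℝ | ¬ p y} := hp.compl
  have h1 : vol {y : Fin 1 → ℝ | ¬ p y} = 0 := by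
    rw [vol_eq_integral_sv 0 hB]
    have h2 : ∀ᵐ t ∂mu, sv 0 {y : Fin 1 → ℝ | ¬ p y} t = 0 := by
      filter_upwards [h] with t ht
      rw [sv_fin_one, indicator_of_notMem]
      simpa using ht
    rw [integral_congr_ae h2]
    simp
  rw [ae_iff, Measure.restrict_apply hB]
  unfold vol at h1
  rw [ENNReal.toReal_eq_zero_iff] at h1
  rcases h1 with h1 | h1
  · exact h1
  · exfalso
    have h2 : volume ({y : Fin 1 → ℝ | ¬ p y} ∩ cube 1) ≤ 1 := by
      rw [← volume_cube 1]
      exact measure_mono inter_subset_right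
    rw [h1] at h2
    exact absurd h2 (by simp)

/-- Slices that are full or empty: the slices in the other direction have constant length. -/
theorem sv_const_of_zero_one (i : Fin 2) {F : Set (Fin 2 → ℝ)} (hF : MeasurableSet F)
    (h : ∀ᵐ t ∂mu, sv i F t = 0 ∨ sv i F t = 1) :
    ∀ᵐ s ∂mu, sv (i.succAbove 0) F s = vol F := by
  set o := i.succAbove 0 with ho
  have hcm := measurable_colH o hF
  have h1 : ∀ᵐ y ∂(volume.restrict (cube 1)), colH o F y = 0 ∨ colH o F y = 1 := by
    apply ae_cube_one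
    · exact (hcm (measurableSet_singleton 0)).union (hcm (measurableSet_singleton 1))
    · filter_upwards [h] with t ht
      rw [colH_eq_sv i hF]
      exact ht
  set c := vol {y | 1 / 2 < colH o F y} with hc
  have h2 : ∀ᵐ s ∂mu, sv o F s = c := by
    filter_upwards [ae_slice_of_colH o hF h1] with t ht
    rw [hc]
    unfold sv vol
    congr 1
    rw [← Measure.restrict_apply' (measurableSet_cube 1),
      ← Measure.restrict_apply' (measurableSet_cube 1)]
    apply measure_congr
    filter_upwards [ht] with y hy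
    exact propext hy
  have h3 : vol F = c := by
    rw [vol_eq_integral_sv o hF, integral_congr_ae h2]
    simp
  rw [h3]
  exact h2

theorem mass_eq_zero_of_corner (i : Fin 2) {F : Set (Fin 2 → ℝ)} (hF : MeasurableSet F)
    (hp : IsPeriodic F) (hess : EssBd (sv i F) 0 1) (hP : perimeter F ≤ ENNReal.ofReal 2) :
    ∀ᵐ t ∂mu, sv i F t = 0 ∨ sv i F t = 1 := by
  set Q := ∫⁻ t in Ico (0 : ℝ) 1, perimeter (slice i F t) with hQ
  have key : ∀ a b : ℝ, 0 ≤ a → 0 ≤ b → a ^ 2 + b ^ 2 ≤ 1 →
      ENNReal.ofReal (2 * a) + ENNReal.ofReal b * Q ≤ ENNReal.ofReal 2 := by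
    intro a b ha hb hab
    have h1 := slicing_ess i hF hp (α := fun _ => a) (β := fun _ => b) continuous_const
      continuous_const (fun _ => ha) (fun _ => hb) (fun _ => hab) hess
    simp only [prim_const, mul_one, mul_zero, sub_zero] at h1
    refine le_trans ?_ (h1.trans hP)
    gcongr
    rw [hQ, ← lintegral_const_mul' _ _ ENNReal.ofReal_ne_top]
  have hQ2 : Q ≤ ENNReal.ofReal 2 := by
    have h1 := key 0 1 le_rfl zero_le_one (by norm_num)
    simpa using h1
  have hQfin : Q ≠ ⊤ := ne_top_of_le_ne_top ENNReal.ofReal_ne_top hQ2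
  set q := Q.toReal with hq
  have hq0 : 0 ≤ q := ENNReal.toReal_nonneg
  have hQq : Q = ENNReal.ofReal q := (ENNReal.ofReal_toReal hQfin).symm
  have key2 : ∀ b : ℝ, 0 < b → b ≤ 1 → q ≤ 2 * b := by
    intro b hb0 hb1
    have hb2 : b ^ 2 ≤ 1 := by nlinarith only [hb0, hb1]
    have h1 := key (1 - b ^ 2) b (by linarith) hb0.le (by nlinarith only [sq_nonneg b, hb2])
    rw [hQq, ← ENNReal.ofReal_mul hb0.le, ← ENNReal.ofReal_add (by linarith) (by positivity),
      ENNReal.ofReal_le_ofReal_iff (by norm_num)] at h1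
    have h2 : b * q ≤ b * (2 * b) := by linarith only [h1]
    exact le_of_mul_le_mul_left h2 hb0
  have hq1 : q = 0 := by
    apply le_antisymm _ hq0
    apply le_of_forall_pos_le_add
    intro ε hε
    have h1 := key2 (min 1 (ε / 2)) (by positivity) (min_le_left _ _)
    have h2 := min_le_right 1 (ε / 2)
    linarith
  have hQ0 : Q = 0 := by rw [hQq, hq1, ENNReal.ofReal_zero]
  have hms : Measurable (sv i F) := measurable_sv i hF
  have hset : MeasurableSet {t | 0 < sv i F t ∧ sv i F t < 1} :=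
    (measurableSet_lt measurable_const hms).inter (measurableSet_lt hms measurable_const)
  have h3 : ∫⁻ t in Ico (0 : ℝ) 1, {t | 0 < sv i F t ∧ sv i F t < 1}.indicator (fun _ => 2) t
      ≤ Q := by
    apply lintegral_mono
    intro t
    by_cases ht : t ∈ {t | 0 < sv i F t ∧ sv i F t < 1}
    · rw [indicator_of_mem ht]
      exact two_le_perimeter_one (measurableSet_slice i hF t) (isPeriodic_slice i hp t) ht.1 ht.2
    · rw [indicator_of_notMem ht]
      exact bot_le
  rw [hQ0, lintegral_indicator hset, setLIntegral_const, nonpos_iff_eq_zero] at h3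
  have h4 : (volume.restrict (Ico (0 : ℝ) 1)) {t | 0 < sv i F t ∧ sv i F t < 1} = 0 := by
    rcases mul_eq_zero.mp h3 with h | h
    · exact absurd h (by norm_num)
    · exact h
  have h5 : ∀ᵐ t ∂mu, ¬ (0 < sv i F t ∧ sv i F t < 1) := by
    rw [ae_iff]
    simpa using h4
  filter_upwards [h5] with t ht
  have h6 := sv_nonneg i F t
  have h7 := sv_le_one i F t
  by_cases h8 : 0 < sv i F t
  · right
    by_contra h9
    exact ht ⟨h8, lt_of_le_of_ne h7 h9⟩
  · left
    linarith

/-- The minimizers in the two-torus, area at most `1 / 2`, with the values of the perimeter. -/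
theorem class2D_le' {F : Set (Fin 2 → ℝ)} (hF : MeasurableSet F) (hp : IsPeriodic F)
    (h0 : 0 < vol F) (h1 : vol F ≤ 1 / 2) (hP : perimeter F ≤ ENNReal.ofReal (I2 (vol F))) :
    (ENNReal.ofReal 2 ≤ perimeter F ∧
      ∃ (i : Fin 2) (c : ℝ), F =ᵐ[volume] {x | 2 * nr (x i - c) < vol F}) ∨
      (ENNReal.ofReal (2 * Real.sqrt (Real.pi * vol F)) ≤ perimeter F ∧
      ∃ (c : Fin 2 → ℝ) (R : ℝ), 0 < R ∧ R ≤ 1 / 2 ∧ vol F = Real.pi * R ^ 2 ∧
        F =ᵐ[volume] tball c R) := by
  have hpi := Real.pi_pos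
  have hpi3 := Real.pi_gt_three
  have hP2 : perimeter F ≤ ENNReal.ofReal 2 :=
    hP.trans (ENNReal.ofReal_le_ofReal (min_le_right _ _))
  by_cases hS : ∃ i : Fin 2, ∀ᵐ t ∂mu, 0 < sv i F t ∧ sv i F t < 1
  · obtain ⟨i, hi⟩ := hS
    obtain ⟨c, hc⟩ := strip_of_slices i hF hp h0 (by linarith) hi hP2
    exact Or.inl ⟨two_le_of_slices i hF hp hi, _, c, hc⟩
  right
  -- in both directions there are empty slices and no full slices
  have hdir : ∀ i : Fin 2, (∃ M, EssBd (sv i F) 0 M) ∧ ∀ᵐ t ∂mu, sv i F t < 1 := by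
    intro i
    obtain ⟨m, M, hm0, hmM, hM1, hess⟩ := exists_essBd (sv_nonneg i F) (sv_le_one i F)
    have hM : ¬ (∀ᵐ t ∂mu, sv i F t < 1) → M = 1 := by
      intro h
      by_contra hne
      apply h
      filter_upwards [hess.upper] with t ht
      exact ht.trans_lt (lt_of_le_of_ne hM1 hne)
    have hm : ¬ (∀ᵐ t ∂mu, 0 < sv i F t) → m = 0 := by
      intro h
      by_contra hne
      apply h
      filter_upwards [hess.lower] with t ht
      exact (lt_of_le_of_ne hm0 (Ne.symm hne)).trans_le ht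
    by_cases hA : ∀ᵐ t ∂mu, 0 < sv i F t
    · by_cases hB : ∀ᵐ t ∂mu, sv i F t < 1
      · exfalso
        apply hS
        refine ⟨i, ?_⟩
        filter_upwards [hA, hB] with t h1 h2
        exact ⟨h1, h2⟩
      · exfalso
        have hc := hess.compl hF
        rw [hM hB, sub_self] at hc
        have h2 : ∀ᵐ t ∂mu, sv i Fᶜ t < 1 := by
          filter_upwards [hA] with t ht
          rw [sv_compl i hF]
          linarith only [ht]
        have h3 := disc_bound hF.compl (isPeriodic_compl hp) hc h2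
        rw [vol_compl hF, perimeter_compl hF] at h3
        have h4 := h3.trans hP2
        rw [ENNReal.ofReal_le_ofReal_iff (by norm_num)] at h4
        have h5 : Real.sqrt (Real.pi * (1 - vol F)) ≤ 1 := by linarith
        have h6 := (Real.sqrt_le_iff.mp h5).2
        nlinarith only [h0, h1, hpi, hpi3, h6]
    · by_cases hB : ∀ᵐ t ∂mu, sv i F t < 1
      · rw [hm hA] at hess
        exact ⟨⟨M, hess⟩, hB⟩
      · exfalso
        rw [hm hA, hM hB] at hess
        have h2 := sv_const_of_zero_one i hF (mass_eq_zero_of_corner i hF hp hess hP2)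
        apply hS
        refine ⟨i.succAbove 0, ?_⟩
        filter_upwards [h2] with t ht
        rw [ht]
        exact ⟨h0, by linarith⟩
  set R := Real.sqrt (vol F / Real.pi) with hR
  have hR0 : 0 < R := Real.sqrt_pos.mpr (by positivity)
  have hR2 : vol F = Real.pi * R ^ 2 := by
    rw [hR, Real.sq_sqrt (by positivity)]; field_simp
  have hsq : Real.sqrt (Real.pi * vol F) = Real.pi * R := by
    rw [hR2, show Real.pi * (Real.pi * R ^ 2) = (Real.pi * R) ^ 2 by ring,
      Real.sqrt_sq (by positivity)]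
  have hR1 : R ≤ 1 / 2 := by
    obtain ⟨⟨M, hM⟩, h2⟩ := hdir 0
    have h3 := (disc_bound hF hp hM h2).trans hP2
    rw [ENNReal.ofReal_le_ofReal_iff (by norm_num), hsq] at h3
    nlinarith only [h0, h1, hpi, hpi3, h3]
  have hPR : perimeter F ≤ ENNReal.ofReal (2 * Real.pi * R) := by
    refine hP.trans (ENNReal.ofReal_le_ofReal ?_)
    refine ((min_le_left _ _).trans (min_le_left _ _)).trans (le_of_eq ?_)
    rw [hsq]
    ring
  have hmarg : ∀ i, ∃ z : ℝ, ∀ᵐ t ∂mu, sv i F t = 2 * Real.sqrt (R ^ 2 - nr (t - z) ^ 2) := by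
    intro i
    obtain ⟨⟨M, hM⟩, h2⟩ := hdir i
    exact marginal_disc hF hp hM h2 hR0 hR1 hR2 hPR
  obtain ⟨c, hc⟩ := bathtub2 hF hp hR0 hR1 hmarg
  obtain ⟨⟨M, hM⟩, h2⟩ := hdir 0
  exact ⟨disc_bound hF hp hM h2, c, R, hR0, hR1, hR2, hc⟩

end Vale.Agent.P232
end
end

section

section

open MeasureTheory Set Filter Topology

namespace Vale.Agent.P232

/-! ### Strictness of the one-direction bounds -/

/-- All the one-direction information about a set, with the direction. -/
theorem geometric_bounds' {E : Set (Fin 3 → ℝ)} (hE : MeasurableSet E)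
    (hp : IsPeriodic E) (hV : 0 < vol E) :
    ∃ (k : Fin 3) (m M : ℝ), 0 ≤ m ∧ m ≤ vol E ∧ vol E ≤ M ∧ M ≤ 1 ∧ EssBd (sv k E) m M ∧
      (m = 0 → ∀ j, ∃ M', EssBd (sv j E) 0 M') ∧
      ENNReal.ofReal (Bf (Real.sqrt (m / Real.pi)) (Real.sqrt (M / Real.pi)) (vol E) - 4 * m) ≤
        perimeter E ∧
      (M ≤ 1 / Real.pi → ∀ᵐ t ∂mu, ENNReal.ofReal (2 * Real.sqrt (Real.pi * sv k E t)) ≤
        perimeter (slice k E t)) ∧
      LineHyp m M (vol E) (perimeter E) := by
  have hex : ∀ i : Fin 3, ∃ p : ℝ × ℝ, 0 ≤ p.1 ∧ p.1 ≤ p.2 ∧ p.2 ≤ 1 ∧ EssBd (sv i E) p.1 p.2 := by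
    intro i
    obtain ⟨m, M, h1, h2, h3, h4⟩ := exists_essBd (sv_nonneg i E) (sv_le_one i E)
    exact ⟨(m, M), h1, h2, h3, h4⟩
  choose p hp0 hp1 hp2 hp3 using hex
  obtain ⟨k, hk⟩ := Finite.exists_max (fun i => (p i).1)
  obtain ⟨hv1, hv2⟩ := (hp3 k).vol_mem hE
  refine ⟨k, (p k).1, (p k).2, hp0 k, hv1, hv2, hp2 k, hp3 k, ?_, ?_, ?_, ?_⟩
  · intro h j
    have h1 : (p j).1 = 0 := le_antisymm (by rw [← h]; exact hk j) (hp0 j)
    refine ⟨(p j).2, ?_⟩
    rw [← h1]
    exact hp3 j
  · have h := zcut_bound k hE hp (hp3 (k.succAbove 0)) (hp3 (k.succAbove 1)) (hp3 k)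
      (hV.trans_le hv2)
    have h0 := hk (k.succAbove 0)
    have h1 := hk (k.succAbove 1)
    have h2 : ENNReal.ofReal (2 * (p (k.succAbove 0)).1 + 2 * (p (k.succAbove 1)).1) ≤
        ENNReal.ofReal (4 * (p k).1) := ENNReal.ofReal_le_ofReal (by linarith)
    have h3 := h.trans (add_le_add le_rfl h2)
    rw [ENNReal.ofReal_sub _ (by have := hp0 k; positivity)]
    exact tsub_le_iff_right.mpr h3
  · intro hM
    filter_upwards [(hp3 k).upper] with t ht
    rw [← I2_eq_of_le (ht.trans hM)]
    exact I2_le_perimeter (measurableSet_slice k hE t) (isPeriodic_slice k hp t)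
  · intro F H h0 h1
    exact line_bound_I2 k hE hp (hp3 k) (hp0 k) (hp1 k) (hp2 k) h0 h1

theorem small_m_aux_lt {ρ R : ℝ} (hρ0 : 0 ≤ ρ) (hρ : ρ ≤ 0.0334) (hR : 0.3183 ≤ R)
    (h : 3 * (R + ρ) > 1) (h2 : 9 * (R + ρ) ≤ 4) :
    0 < (9 * (R + ρ) - 4) ^ 2 + 27 * (8 * (R + ρ) - 3) * (R - ρ) ^ 2 -
      648 * (R + ρ) * ρ ^ 2 := by
  set x := 3 * (R + ρ) - 1 with hx
  have hx0 : 0 < x := by rw [hx]; linarith only [h]
  have hR' : R = (x + 1) / 3 - ρ := by rw [hx]; ring
  have e : (9 * (R + ρ) - 4) ^ 2 + 27 * (8 * (R + ρ) - 3) * (R - ρ) ^ 2 -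
      648 * (R + ρ) * ρ ^ 2 = 8 * x ^ 2 * (x + 3) +
        108 * ρ * ((1 - 8 * x) * R / 3 - 2 * (x + 1) * ρ) := by
    rw [hx]; ring
  rw [e]
  have hx3 : 0 < 8 * x ^ 3 := by positivity
  rcases le_or_gt (8 * x) 1 with h8 | h8
  · have k1 : 0.0393 - 0.9158 * x ≤ (1 - 8 * x) * R / 3 - 2 * (x + 1) * ρ := by
      have := mul_le_mul_of_nonneg_left hR (sub_nonneg.2 h8)
      have := mul_le_mul_of_nonneg_left hρ (by linarith only [h] : (0 : ℝ) ≤ x + 1)
      nlinarith
    have k2 : ρ * (0.0393 - 0.9158 * x) ≤ ρ * ((1 - 8 * x) * R / 3 - 2 * (x + 1) * ρ) :=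
      mul_le_mul_of_nonneg_left k1 hρ0
    have k3 : 0 ≤ 24 * x ^ 2 + 108 * (ρ * (0.0393 - 0.9158 * x)) := by
      rcases le_or_gt (0.9158 * x) 0.0393 with h9 | h9
      · have : 0 ≤ ρ * (0.0393 - 0.9158 * x) := mul_nonneg hρ0 (by linarith only [h9])
        positivity
      · have : 0.0334 * (0.0393 - 0.9158 * x) ≤ ρ * (0.0393 - 0.9158 * x) :=
          mul_le_mul_of_nonpos_right hρ (by linarith only [h9])
        linarith only [sq_nonneg (x - 0.069), h, this]
    linarith only [k2, k3, hx3]
  · have hR2 : R ≤ 0.4445 := by linarith only [hρ0, h, h2]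
    have k1 : 0.0813 - 1.2526 * x ≤ (1 - 8 * x) * R / 3 - 2 * (x + 1) * ρ := by
      have := mul_le_mul_of_nonneg_left hR2 (by linarith only [h8] : (0 : ℝ) ≤ 8 * x - 1)
      have := mul_le_mul_of_nonneg_left hρ (by linarith only [h] : (0 : ℝ) ≤ x + 1)
      nlinarith
    have k2 : ρ * (0.0813 - 1.2526 * x) ≤ ρ * ((1 - 8 * x) * R / 3 - 2 * (x + 1) * ρ) :=
      mul_le_mul_of_nonneg_left k1 hρ0
    have k3 : 0 ≤ 24 * x ^ 2 + 108 * (ρ * (0.0813 - 1.2526 * x)) := by
      have : 0.0334 * (0.0813 - 1.2526 * x) ≤ ρ * (0.0813 - 1.2526 * x) :=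
          mul_le_mul_of_nonpos_right hρ (by linarith only [h, h8])
      nlinarith only [sq_nonneg (x - 0.094), this]
    linarith only [k2, k3, hx3]

theorem small_m_lt {ρ R V : ℝ} (hV : 0 ≤ V) (hρ0 : 0 < ρ) (hρ : ρ ≤ 0.0334) (hR : 0.3183 ≤ R) :
    J0 V < Bf ρ R V - 4 * (Real.pi * ρ ^ 2) := by
  have hpi := Real.pi_pos
  have hσ : 0 < R + ρ := by linarith only [hρ0, hρ, hR]
  have eB : Bf ρ R V - 4 * (Real.pi * ρ ^ 2) = 2 * V / (R + ρ) +
      Real.pi * (4 / 3 * (R - ρ) ^ 2 + 2 * (ρ * R) / (R + ρ) - 4 * ρ ^ 2) := by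
    unfold Bf
    rw [add_comm ρ R]
    ring
  rw [eB]
  rcases le_or_gt (3 * (R + ρ)) 1 with h | h
  · refine (J0_le_ball hV hσ).trans_lt ?_
    have k1 : 4 / 3 * (R + ρ) ^ 2 < 4 / 3 * (R - ρ) ^ 2 + 2 * (ρ * R) / (R + ρ) - 4 * ρ ^ 2 := by
      have : 16 / 3 * (ρ * R) + 4 * ρ ^ 2 < 2 * (ρ * R) / (R + ρ) := by
        rw [lt_div_iff₀ hσ]
        have h0 : (8 / 3 * R + 2 * ρ) * (R + ρ) < R := by
          have : (8 / 3 * R + 2 * ρ) * (R + ρ) ≤ (8 / 3 * R + 2 * ρ) * (1 / 3) :=
            mul_le_mul_of_nonneg_left (by linarith only [h]) (by positivity)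
          linarith only [hρ0, hR, h, this]
        linarith only [mul_lt_mul_of_pos_left h0 hρ0]
      linarith only [this]
    have k2 := mul_lt_mul_of_pos_left k1 hpi
    linarith only [k2]
  rcases le_or_gt 4 (9 * (R + ρ)) with h2 | h2
  · refine (J0_le_tube hV hσ).trans_lt ?_
    have k1 : (R + ρ) / 2 < 4 / 3 * (R - ρ) ^ 2 + 2 * (ρ * R) / (R + ρ) - 4 * ρ ^ 2 := by
      have e1 : 2 * (ρ * R) / (R + ρ) = (R + ρ) / 2 - (R - ρ) ^ 2 / (2 * (R + ρ)) := by
        field_simp
        ring
      rw [e1]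
      have h3 : (R - ρ) ^ 2 / (2 * (R + ρ)) ≤ (R - ρ) ^ 2 * (9 / 8) := by
        rw [div_le_iff₀ (by positivity)]
        have := sq_nonneg (R - ρ)
        nlinarith only [h2]
      have h4 : 0.37 ^ 2 ≤ (R - ρ) ^ 2 := by
        apply pow_le_pow_left₀ (by norm_num)
        linarith only [hρ0, hρ, h2]
      have h5 : ρ ^ 2 ≤ 0.0334 ^ 2 := pow_le_pow_left₀ hρ0.le hρ 2
      norm_num at h4 h5
      linarith only [hρ0, hρ, h3, h4, h5]
    have k2 := mul_lt_mul_of_pos_left k1 hpi
    linarith only [k2]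
  · have b1 := J0_le_ball (σ := 1 / 3) hV (by norm_num)
    have b2 := J0_le_tube (σ := 4 / 9) hV (by norm_num)
    set θ : ℝ := (2 / (R + ρ) - 9 / 2) / (3 / 2) with hθ
    have i1 : 2 / (R + ρ) ≤ 6 := by
      rw [div_le_iff₀ hσ]; linarith only [h]
    have i2 : 9 / 2 ≤ 2 / (R + ρ) := by
      rw [le_div_iff₀ hσ]; linarith only [h2]
    have t0 : 0 ≤ θ := by rw [hθ]; apply div_nonneg _ (by norm_num); linarith only [i2]
    have t1 : θ ≤ 1 := by rw [hθ, div_le_one (by norm_num)]; linarith only [i1]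
    have b3 : J0 V ≤ 4 * Real.pi / 9 + 2 / (R + ρ) * (V - 4 * Real.pi / 81) := by
      have e1 : 4 * Real.pi / 9 + 2 / (R + ρ) * (V - 4 * Real.pi / 81) =
          θ * (4 * Real.pi / 3 * (1 / 3) ^ 2 + 2 * V / (1 / 3)) +
            (1 - θ) * (2 * V / (4 / 9) + Real.pi * (4 / 9) / 2) := by
        rw [hθ]; ring
      rw [e1]
      linarith only [mul_le_mul_of_nonneg_left b1 t0,
        mul_le_mul_of_nonneg_left b2 (sub_nonneg.2 t1)]
    refine b3.trans_lt ?_
    have k1 : 4 / 9 - 2 / (R + ρ) * (4 / 81) <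
        4 / 3 * (R - ρ) ^ 2 + 2 * (ρ * R) / (R + ρ) - 4 * ρ ^ 2 := by
      have haux := small_m_aux_lt hρ0.le hρ hR h h2.le
      have e2 : 4 / 3 * (R - ρ) ^ 2 + 2 * (ρ * R) / (R + ρ) - 4 * ρ ^ 2 -
          (4 / 9 - 2 / (R + ρ) * (4 / 81)) =
          ((9 * (R + ρ) - 4) ^ 2 + 27 * (8 * (R + ρ) - 3) * (R - ρ) ^ 2 -
            648 * (R + ρ) * ρ ^ 2) / (162 * (R + ρ)) := by
        field_simp
        ring
      have : 0 < 4 / 3 * (R - ρ) ^ 2 + 2 * (ρ * R) / (R + ρ) - 4 * ρ ^ 2 -
          (4 / 9 - 2 / (R + ρ) * (4 / 81)) := by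
        rw [e2]; positivity
      linarith only [this]
    have k2 := mul_lt_mul_of_pos_left k1 hpi
    have e3 : 2 / (R + ρ) * (V - 4 * Real.pi / 81) = 2 * V / (R + ρ) -
        Real.pi * (2 / (R + ρ) * (4 / 81)) := by ring
    rw [e3]
    linarith only [k2]

theorem finLow_sound_lt {V1 a b : ℚ} {C : Cert} (h : finLow V1 a b C = true) {V : ℝ}
    (hV0 : (a : ℝ) ≤ V) (hV1 : V ≤ (V1 : ℝ)) (hVp : 0 < V) :
    J0 V < 2 * ((C.c : ℝ) + C.l * V + ((trap C.p C.L : ℚ) : ℝ)) := by
  simp only [finLow, Bool.and_eq_true, decide_eq_true_eq] at h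
  obtain ⟨⟨⟨⟨⟨h1, h2⟩, h3⟩, h4⟩, h5⟩, h6⟩ := h
  have g1 : (0 : ℝ) < (C.r : ℝ) := by exact_mod_cast h1
  have g2 : (0 : ℝ) < (C.t : ℝ) := by exact_mod_cast h2
  have g3 : (0 : ℝ) ≤ (C.th : ℝ) := by exact_mod_cast h3
  have g4 : (C.th : ℝ) ≤ 1 := by exact_mod_cast h4
  have g5 : (C.th : ℝ) * (2 * piU / 3 * (C.r : ℝ) ^ 2 + a / C.r) +
      (1 - C.th) * ((piU * a / C.t + C.t) / 2) ≤ C.c + C.l * a + ((trap C.p C.L : ℚ) : ℝ) := by
    exact_mod_cast h5
  have g6 : (C.th : ℝ) * (2 * piU / 3 * (C.r : ℝ) ^ 2 + V1 / C.r) +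
      (1 - C.th) * ((piU * V1 / C.t + C.t) / 2) ≤ C.c + C.l * V1 + ((trap C.p C.L : ℚ) : ℝ) := by
    exact_mod_cast h6
  have hb := ball_le hVp.le g1
  have ht := tube_le hVp.le g2
  have hpi : Real.pi < ((piU : ℚ) : ℝ) := by
    have := Real.pi_lt_d6
    have e : ((piU : ℚ) : ℝ) = 3.141593 := by norm_num [piU]
    rw [e]; exact this
  set T : ℝ := ((trap C.p C.L : ℚ) : ℝ) with hT
  set th : ℝ := (C.th : ℝ)
  set r : ℝ := (C.r : ℝ)
  set t : ℝ := (C.t : ℝ)
  set c : ℝ := (C.c : ℝ)
  set l : ℝ := (C.l : ℝ)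
  set pu : ℝ := (piU : ℝ)
  have i1 : J0 V ≤ th * (4 * Real.pi / 3 * r ^ 2 + 2 * V / r) +
      (1 - th) * (Real.pi * V / t + t) := by
    have j1 : J0 V ≤ 4 * Real.pi / 3 * r ^ 2 + 2 * V / r := (min_le_left _ _).trans hb
    have j2 : J0 V ≤ Real.pi * V / t + t := (min_le_right _ _).trans ht
    linarith only [mul_le_mul_of_nonneg_left j1 g3,
      mul_le_mul_of_nonneg_left j2 (sub_nonneg.2 g4)]
  have i2 : th * (4 * Real.pi / 3 * r ^ 2 + 2 * V / r) + (1 - th) * (Real.pi * V / t + t) <
      2 * (th * (2 * pu / 3 * r ^ 2 + V / r) + (1 - th) * ((pu * V / t + t) / 2)) := by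
    have j1 : 4 * Real.pi / 3 * r ^ 2 < 4 * pu / 3 * r ^ 2 := by gcongr
    have j2 : Real.pi * V / t < pu * V / t := by gcongr
    have e : 2 * (th * (2 * pu / 3 * r ^ 2 + V / r) + (1 - th) * ((pu * V / t + t) / 2)) =
      th * (4 * pu / 3 * r ^ 2 + 2 * V / r) + (1 - th) * (pu * V / t + t) := by ring
    rw [e]
    rcases g3.eq_or_lt with h | h
    · rw [← h]
      linarith only [j2]
    · have j3 := mul_lt_mul_of_pos_left j1 h
      have j4 := mul_le_mul_of_nonneg_left j2.le (sub_nonneg.2 g4)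
      linarith only [j3, j4]
  -- the difference of the two affine functions
  have i3 : th * (2 * pu / 3 * r ^ 2 + V / r) + (1 - th) * ((pu * V / t + t) / 2) ≤
      c + l * V + T := by
    set s : ℝ := th / r + (1 - th) * (pu / t / 2) with hs
    have e : ∀ v : ℝ, th * (2 * pu / 3 * r ^ 2 + v / r) + (1 - th) * ((pu * v / t + t) / 2) =
        th * (2 * pu / 3 * r ^ 2) + (1 - th) * (t / 2) + s * v := by
      intro v; rw [hs]; ring
    rw [e] at g5 g6 ⊢
    rcases (hV0.trans hV1).eq_or_lt with h7 | h7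
    · have : V = a := le_antisymm (by rw [h7]; exact hV1) hV0
      rw [this]; exact g5
    · have h8 : (0 : ℝ) < V1 - a := by linarith only [h7]
      have h9 : 0 ≤ (V1 - a) * (c + l * V + T -
          (th * (2 * pu / 3 * r ^ 2) + (1 - th) * (t / 2) + s * V)) := by
        have k1 := mul_nonneg (sub_nonneg.2 hV1) (sub_nonneg.2 g5)
        have k2 := mul_nonneg (sub_nonneg.2 hV0) (sub_nonneg.2 g6)
        linarith only [k1, k2]
      linarith only [nonneg_of_mul_nonneg_right h9 h8]
  linarith only [i1, i2, i3]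

theorem EssBd.ne_of_pos {v : ℝ → ℝ} {m M M' : ℝ} (h : EssBd v m M) (hm : 0 < m)
    (h' : EssBd v 0 M') : False := by
  obtain ⟨t, ht1, ht2⟩ := ((h'.inf m hm).and_eventually h.lower).exists
  linarith

/-- Strictness for small volumes. -/
theorem strict_low {E : Set (Fin 3 → ℝ)} (hE : MeasurableSet E) (hp : IsPeriodic E)
    (h0 : 0 < vol E) (h1 : vol E ≤ 0.267) (hP : perimeter E ≤ ENNReal.ofReal (J0 (vol E))) :
    (∃ k, ∀ᵐ t ∂mu, sv k E t = vol E) ∨ ∀ j, ∃ M, EssBd (sv j E) 0 M := by
  obtain ⟨k, m, M, hm0, hmV, hVM, hM1, hess, hz, hB, hJ, hL⟩ := geometric_bounds' hE hp h0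
  have hpi := Real.pi_pos
  have p1 := Real.pi_gt_d6
  have p2 := Real.pi_lt_d6
  have hJ0 : 0 ≤ J0 (vol E) := by
    unfold J0
    exact le_min (by positivity) (by positivity)
  have hcon : ∀ x : ℝ, ENNReal.ofReal x ≤ perimeter E → J0 (vol E) < x → False := by
    intro x hx1 hx2
    have := (ENNReal.ofReal_le_ofReal_iff hJ0).mp (hx1.trans hP)
    linarith only [hx2, this]
  rcases hm0.eq_or_lt with hm | hmpos
  · exact Or.inr (hz hm.symm)
  left
  refine ⟨k, ?_⟩
  rcases le_or_gt M (1 / Real.pi) with hM | hM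
  · rcases J0_eq_cases hE hp (hJ hM) h0 hP with h | ⟨⟨M', h⟩, _⟩
    · exact h
    · exact (hess.ne_of_pos hmpos h).elim
  exfalso
  have hM' : 0.318309 < M := by
    refine lt_of_le_of_lt ?_ hM
    rw [le_div_iff₀ hpi]
    linarith only [p1, p2]
  rcases lt_or_ge m 0.0035 with hm | hm
  · -- small `m`
    refine hcon _ hB ?_
    have e : m = Real.pi * (Real.sqrt (m / Real.pi)) ^ 2 := by
      rw [Real.sq_sqrt (by positivity)]
      field_simp
    have := small_m_lt (ρ := Real.sqrt (m / Real.pi)) (R := Real.sqrt (M / Real.pi)) (V := vol E)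
      h0.le (Real.sqrt_pos.mpr (by positivity)) ?_ ?_
    · rw [← e] at this
      exact this
    · rw [Real.sqrt_le_left (by norm_num), div_le_iff₀ hpi]
      linarith only [p1, hmpos, hm]
    · apply Real.le_sqrt_of_sq_le
      rw [le_div_iff₀ hpi]
      linarith only [p2, hmpos, hM', hm]
  · obtain ⟨a, a2, b, C, k1, k2, k3, k4, k5, k6⟩ := strips_sound low (d 350) low_ok (m := m)
      (M := M) (by rw [cast_d]; norm_num at hm ⊢; linarith only [hm])
      (by rw [cast_d]; norm_num at h1 ⊢; linarith only [hmV, p1, p2, h1]) (by rw [cast_d]; norm_num at hM' ⊢; linarith only [p1, p2, hM'])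
      (by simpa using hM1)
    have hb := base_sound k1 (P := perimeter E) (V := vol E) hL k3 k4 k5.le k6
    refine hcon _ hb ?_
    exact finLow_sound_lt k2 (k3.trans hmV) (by rw [cast_d]; norm_num at h1 ⊢; linarith only [h1]) h0

end Vale.Agent.P232
end
end

section

section

open MeasureTheory Set Filter Topology

namespace Vale.Agent.P232

/-- Check an additional property of all certificates of a strip. -/
def cellsAll (q : ℚ → ℚ → Cert → Bool) (a : ℚ) : ℚ → List Cert → Bool
  | _, [] => true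
  | b, C :: Cs => q a b C && cellsAll q a C.b2 Cs

/-- Check an additional property of all certificates. -/
def stripsAll (q : ℚ → ℚ → Cert → Bool) (B0 : ℚ) : ℚ → List (ℚ × List Cert) → Bool
  | _, [] => true
  | a, S :: Ss => cellsAll q a B0 S.2 && stripsAll q B0 S.1 Ss

theorem cellsOK_and {fin q : ℚ → ℚ → Cert → Bool} {B1 a a2 : ℚ} (Cs : List Cert) (b : ℚ)
    (h : cellsOK fin B1 a a2 b Cs = true) (h2 : cellsAll q a b Cs = true) :
    cellsOK (fun a b C => fin a b C && q a b C) B1 a a2 b Cs = true := by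
  induction Cs generalizing b with
  | nil => simpa [cellsOK] using h
  | cons C Cs ih =>
    simp only [cellsOK, cellsAll, Bool.and_eq_true] at h h2 ⊢
    exact ⟨⟨h.1.1, h.1.2, h2.1⟩, ih C.b2 h.2 h2.2⟩

theorem stripsOK_and {fin q : ℚ → ℚ → Cert → Bool} {A1 B0 B1 : ℚ} (Ss : List (ℚ × List Cert))
    (a : ℚ) (h : stripsOK fin A1 B0 B1 a Ss = true) (h2 : stripsAll q B0 a Ss = true) :
    stripsOK (fun a b C => fin a b C && q a b C) A1 B0 B1 a Ss = true := by
  induction Ss generalizing a with
  | nil => simpa [stripsOK] using h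
  | cons S Ss ih =>
    simp only [stripsOK, stripsAll, Bool.and_eq_true] at h h2 ⊢
    exact ⟨cellsOK_and S.2 B0 h.1 h2.1, ih S.1 h.2 h2.2⟩

/-- Strict final check for the range of slabs. -/
def finSlabS (V0 V1 : ℚ) (a _b : ℚ) (C : Cert) : Bool :=
  (decide (1 < C.c + C.l * V0 + trap C.p C.L) ||
    (decide (V0 ≤ a) && decide (1 < C.c + C.l * a + trap C.p C.L))) &&
  (decide (1 < C.c + C.l * V1 + trap C.p C.L) ||
    (decide (C.b2 ≤ V1) && decide (1 < C.c + C.l * C.b2 + trap C.p C.L)))

theorem affine_gt {c l x y v T : ℝ} (h1 : 1 < c + l * x + T) (h2 : 1 < c + l * y + T)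
    (hx : x ≤ v) (hy : v ≤ y) : 1 < c + l * v + T := by
  rcases (hx.trans hy).eq_or_lt with h7 | h7
  · have : v = x := le_antisymm (by rw [h7]; exact hy) hx
    rw [this]; exact h1
  · have h8 : (0 : ℝ) < y - x := by linarith
    have h9 : 0 < (y - x) * (c + l * v + T - 1) := by
      have e : (y - x) * (c + l * v + T - 1) =
          (y - v) * (c + l * x + T - 1) + (v - x) * (c + l * y + T - 1) := by ring
      rw [e]
      rcases hy.eq_or_lt with h | h
      · have k2 := mul_pos (by linarith : 0 < v - x) (sub_pos.2 h2)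
        rw [h, sub_self, zero_mul, zero_add]
        rw [h] at k2
        exact k2
      · have k1 := mul_pos (sub_pos.2 h) (sub_pos.2 h1)
        have k2 := mul_nonneg (sub_nonneg.2 hx) (sub_pos.2 h2).le
        linarith
    have := (mul_pos_iff_of_pos_left h8).mp h9
    linarith

theorem finSlabS_sound {V0 V1 a b : ℚ} {C : Cert} (h : finSlabS V0 V1 a b C = true) {V : ℝ}
    (hV0 : (V0 : ℝ) ≤ V) (hV1 : V ≤ (V1 : ℝ)) (ha : (a : ℝ) ≤ V) (hb : V ≤ (C.b2 : ℝ)) :
    2 < 2 * ((C.c : ℝ) + C.l * V + ((trap C.p C.L : ℚ) : ℝ)) := by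
  simp only [finSlabS, Bool.and_eq_true, Bool.or_eq_true, decide_eq_true_eq] at h
  obtain ⟨h1, h2⟩ := h
  have k1 : ∃ x : ℝ, x ≤ V ∧ 1 < (C.c : ℝ) + C.l * x + ((trap C.p C.L : ℚ) : ℝ) := by
    rcases h1 with h | ⟨_, h⟩
    · exact ⟨V0, hV0, by exact_mod_cast h⟩
    · exact ⟨a, ha, by exact_mod_cast h⟩
  have k2 : ∃ y : ℝ, V ≤ y ∧ 1 < (C.c : ℝ) + C.l * y + ((trap C.p C.L : ℚ) : ℝ) := by
    rcases h2 with h | ⟨_, h⟩
    · exact ⟨V1, hV1, by exact_mod_cast h⟩
    · exact ⟨C.b2, hb, by exact_mod_cast h⟩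
  obtain ⟨x, hx, h3⟩ := k1
  obtain ⟨y, hy, h4⟩ := k2
  have := affine_gt h3 h4 hx hy
  linarith

theorem slabA_S : stripsAll (finSlabS (d 36000) (d 50000)) (d 35990) 0 slabA = true := by
  decide +kernel

theorem slabB_S : stripsAll (finSlabS (d 36000) (d 50000)) (d 35990) (d 200) slabB = true := by
  decide +kernel

theorem slabC_S : stripsAll (finSlabS (d 36000) (d 50000)) (d 72000) (d 31620) slabC = true := by
  decide +kernel

theorem one_lt_aux {τ D : ℝ} (h0 : 0 ≤ τ) (h1 : τ < 1) (hD : 0 ≤ D)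
    (h : 1 - τ < D ^ 2 * (1 + τ)) : 1 < τ + D * Real.sqrt (1 - τ ^ 2) := by
  have h2 : 0 ≤ 1 - τ ^ 2 := by nlinarith only [h0, h1]
  have h3 : (1 - τ) ^ 2 < (D * Real.sqrt (1 - τ ^ 2)) ^ 2 := by
    rw [mul_pow, Real.sq_sqrt h2]
    have := mul_lt_mul_of_pos_left h (sub_pos.2 h1)
    linarith only [this]
  have h4 := abs_lt_of_sq_lt_sq' h3 (by positivity)
  linarith [h4.2]

/-- A horizontal line, strict version. -/
theorem const_line_lt {m M V m' M' τ : ℝ} {P : ENNReal} (hl : LineHyp m M V P)
    (hmM : m ≤ M) (h0 : 0 ≤ τ) (h1 : τ < 1)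
    (a1 : τ ^ 2 ≤ Real.pi * m) (a2 : τ ^ 2 ≤ Real.pi * (1 - m))
    (a3 : τ ^ 2 ≤ Real.pi * M) (a4 : τ ^ 2 ≤ Real.pi * (1 - M))
    (b1 : m ≤ m') (b2 : m' < M') (b3 : M' ≤ M) (c1 : 1 ≤ Real.pi * m')
    (c2 : 1 ≤ Real.pi * (1 - M')) (hD : 1 - τ < (M' - m') ^ 2 * (1 + τ)) :
    ENNReal.ofReal 2 < P := by
  have hpi := Real.pi_pos
  have hline := fun (u : ℝ) (hu : u ∈ Icc m M) =>
    line_ok (c := τ) (l := 0) (a := m) (b := M) hmM (by linarith) (by linarith)
      (by rw [zero_mul, add_zero]; exact a1) (by rw [zero_mul, add_zero]; exact a2)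
      (by linarith) (by linarith)
      (by rw [zero_mul, add_zero]; exact a3) (by rw [zero_mul, add_zero]; exact a4) hu
  have key := hl (2 * τ) (2 * 0) (fun u hu => (hline u hu).1) (fun u hu => (hline u hu).2)
  refine lt_of_lt_of_le ?_ key
  rw [ENNReal.ofReal_lt_ofReal_iff_of_nonneg (by norm_num)]
  have h2 : 0 ≤ 1 - τ ^ 2 := by nlinarith only [h0, h1]
  have node : ∀ x : ℝ, 1 ≤ Real.pi * x → 1 ≤ Real.pi * (1 - x) →
      Node τ 0 x (Real.sqrt (1 - τ ^ 2)) := by
    intro x hx1 hx2
    have e : τ + 0 * x = τ := by ring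
    refine ⟨?_, ?_, Real.sqrt_nonneg _, ?_, ?_, ?_⟩
    · by_contra h
      push Not at h
      nlinarith only [a1, a2, hx1, h]
    · by_contra h
      push Not at h
      nlinarith only [a1, a2, hx2, h]
    · rw [e, Real.sq_sqrt h2]; linarith
    · rw [e, Real.sq_sqrt h2]; nlinarith only [sq_nonneg τ, hx1]
    · rw [e, Real.sq_sqrt h2]; nlinarith only [sq_nonneg τ, hx2]
  have n0 := node m' c1 (by linarith [mul_nonneg (sub_nonneg.2 a2) (le_of_lt (sub_pos.2 b2)), mul_nonneg (sub_nonneg.2 a1) (le_of_lt (sub_pos.2 b2)), mul_nonneg (sq_nonneg (τ : ℝ)) (le_of_lt (sub_pos.2 b2)), c2])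
  have n1 := node M' (by nlinarith only [a1, a2, b2, c1]) c2
  have k1 := integral_sl_ge n0 n1 b2
  have hmono : ∫ u in m'..M', sl τ 0 u ≤ ∫ u in m..M, sl τ 0 u :=
    intervalIntegral.integral_mono_interval b1 b2.le b3
      (Filter.Eventually.of_forall fun u => sl_nonneg _ _ _) (intervalIntegrable_sl _ _ _ _)
  have k2 := one_lt_aux h0 h1 (sub_nonneg.2 b2.le) hD
  have : (∫ u in m..M, Real.sqrt (1 - ((2 * τ + 2 * 0 * u) / I2 u) ^ 2)) =
      ∫ u in m..M, sl τ 0 u := rfl
  rw [this]
  linarith only [k1, hmono, k2]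

/-- The slab range, when all slices have area between `0.3162` and `0.72`, strict version. -/
theorem slab_mid_lt {m M V : ℝ} {P : ENNReal} (hl : LineHyp m M V P) (hm : 0.3162 ≤ m)
    (hM : M ≤ 0.72) (hmV : m ≤ V) (hVM : V ≤ M) (hV0 : 0.36 ≤ V) (hV1 : V ≤ 0.5)
    (hmM : m < M) : ENNReal.ofReal 2 < P := by
  have hpi := Real.pi_pos
  have p1 := Real.pi_gt_d6
  have p2 := Real.pi_lt_d6
  set q : ℝ := 1 / Real.pi with hq
  have hqp : Real.pi * q = 1 := by rw [hq]; field_simp
  have q1 : 0.318309 ≤ q := by rw [hq, le_div_iff₀ hpi]; linarith only [p1, p2]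
  have q2 : q ≤ 0.31831 := by rw [hq, div_le_iff₀ hpi]; linarith only [p1, p2]
  have hs1 : (0.9966 : ℝ) ^ 2 ≤ Real.pi * m := by nlinarith only [hm, hpi, p1, p2]
  rcases le_or_gt M (1 - q) with hM1 | hM1
  · rcases le_or_gt q m with hm1 | hm1
    · -- everything in the flat part
      set D := M - m with hD
      have hD0 : 0 < D := by rw [hD]; linarith only [hmM]
      have hD1 : D ≤ 0.42 := by rw [hD]; linarith only [p2, p1, hM, hm]
      have hD2 : D ^ 2 ≤ 0.1764 := by nlinarith only [hm, hM, hmV, hVM, p1, p2, q1, hM1, hm1]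
      have hD3 : 0 < D ^ 2 := by positivity
      have g1 : 1 ≤ Real.pi * m := by rw [← hqp]; exact mul_le_mul_of_nonneg_left hm1 hpi.le
      have g2 : 1 ≤ Real.pi * (1 - M) := by
        rw [← hqp]; exact mul_le_mul_of_nonneg_left (by linarith only [hqp, hM1]) hpi.le
      have g3 : 1 ≤ Real.pi * M := g1.trans (mul_le_mul_of_nonneg_left hmM.le hpi.le)
      have g4 : 1 ≤ Real.pi * (1 - m) :=
        g2.trans (mul_le_mul_of_nonneg_left (by linarith only [hmM]) hpi.le)
      have g5 : (1 - D ^ 2) ^ 2 ≤ 1 := by nlinarith only [hD2, hD3]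
      exact const_line_lt (m' := m) (M' := M) (τ := 1 - D ^ 2) hl hmM.le (by linarith only [p1, p2, hD2])
        (by linarith only [hD3]) (g5.trans g1) (g5.trans g4) (g5.trans g3) (g5.trans g2) le_rfl hmM le_rfl
        g1 g2 (by rw [← hD]; nlinarith only [hD2, hD3])
    · refine const_line_lt (m' := q) (M' := M) (τ := 0.9966) hl (hmV.trans hVM) (by norm_num)
        (by norm_num) hs1 (by nlinarith only [hm, p1, p2, q2, hm1]) (by nlinarith only [hm, hM, hVM, hV0, p1, p2, q2, hm1]) (by nlinarith only [hm, hM, p1, q2, hM1, hm1]) hm1.le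
        (by linarith only [hm, hVM, hV0, q2, hm1]) le_rfl hqp.ge (by nlinarith only [hpi, hqp, hM1]) ?_
      have : (0.04169 : ℝ) ^ 2 ≤ (M - q) ^ 2 := by
        apply pow_le_pow_left₀ (by norm_num); linarith only [hVM, hV0, q2]
      linarith only [this]
  · have hs2 : (0.9378 : ℝ) ^ 2 ≤ Real.pi * (1 - M) := by nlinarith only [hM, hpi, p1, q2, hM1]
    refine const_line_lt (m' := max m q) (M' := 1 - q) (τ := 0.9378) hl (hmV.trans hVM)
      (by norm_num) (by norm_num) (by linarith only [hs1]) (by nlinarith only [hm, hM, hmV, hV1, p1, p2, q2, hM1]) (by nlinarith only [hM, p1, p2, q2, hM1]) hs2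
      (le_max_left _ _) (max_lt (by linarith only [hmV, hV1, p1, p2, q2]) (by linarith only [p1, p2, q2])) hM1.le ?_ ?_ ?_
    · rw [← hqp]; exact mul_le_mul_of_nonneg_left (le_max_right _ _) hpi.le
    · rw [sub_sub_cancel, hqp]
    · have : (0.181 : ℝ) ^ 2 ≤ (1 - q - max m q) ^ 2 := by
        apply pow_le_pow_left₀ (by norm_num)
        have : max m q ≤ 0.5 := max_le (by linarith only [hmV, hV1]) (by linarith only [p1, p2, q2])
        linarith only [hM, q2, hM1, this]
      linarith only [this]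

end Vale.Agent.P232
end
end

section

section

open MeasureTheory Set Filter Topology

namespace Vale.Agent.P232

theorem corner_lt {m M V : ℝ} {P : ENNReal} (hl : LineHyp m M V P) (hmpos : 0 < m)
    (hm : m ≤ 0.002) (hM : 0.998 ≤ M) (hM1 : M ≤ 1) (hV0 : 0.36 ≤ V) (hV1 : V ≤ 0.5) :
    ENNReal.ofReal 2 < P := by
  have hm0 : 0 ≤ m := hmpos.le
  have hpi := Real.pi_gt_d6
  have hw0 : 0 ≤ 1 - M := by linarith only [hM1]
  set x := Real.sqrt m with hx
  set y := Real.sqrt (1 - M) with hy
  have hx0 : 0 ≤ x := Real.sqrt_nonneg _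
  have hy0 : 0 ≤ y := Real.sqrt_nonneg _
  have hx2 : x ^ 2 = m := Real.sq_sqrt hm0
  have hy2 : y ^ 2 = 1 - M := Real.sq_sqrt hw0
  have hx1 : x ≤ 0.0448 := by
    by_contra h
    push Not at h
    nlinarith only [hmpos, hm, hx0, hx2, h]
  have hy1 : y ≤ 0.0448 := by
    by_contra h
    push Not at h
    nlinarith only [hmpos, hm, hM, hy0, hy2, h]
  have hmM : m ≤ M := by linarith only [hmpos, hm, hM]
  have hha : 0.38 * x + 0.38 * (y - x) * m ≤ 0.4 * x := by
    rw [← hx2]
    have : y * x ^ 2 ≤ 0.0448 * (0.0448 * x) := by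
      rw [sq]
      have := mul_le_mul hy1 (mul_le_mul_of_nonneg_right hx1 hx0) (by positivity) (by norm_num)
      linarith only [this]
    linarith only [hx0, this, mul_nonneg hx0 (sq_nonneg x)]
  have hha0 : 0 ≤ 0.38 * x + 0.38 * (y - x) * m := by
    have : 0.38 * x + 0.38 * (y - x) * m = 0.38 * (x * (1 - m) + y * m) := by ring
    rw [this]
    have : 0 ≤ 1 - m := by linarith only [hmpos, hm]
    (clear * - hmpos this; positivity)
  have hhb : 0.38 * x + 0.38 * (y - x) * M ≤ 0.4 * y := by
    have e : M = 1 - y ^ 2 := by rw [hy2]; ring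
    rw [e]
    have : x * y ^ 2 ≤ 0.0448 * (0.0448 * y) := by
      rw [sq]
      have := mul_le_mul hx1 (mul_le_mul_of_nonneg_right hy1 hy0) (by (clear * -; positivity)) (by norm_num)
      linarith only [this]
    linarith only [mul_nonneg hy0 (sq_nonneg y), this, hy0]
  have hhb0 : 0 ≤ 0.38 * x + 0.38 * (y - x) * M := by
    have : 0.38 * x + 0.38 * (y - x) * M = 0.38 * (x * (1 - M) + y * M) := by ring
    rw [this]
    have : 0 ≤ M := by linarith only [hmpos, hm, hM]
    (clear * - hmpos hM1 hM; positivity)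
  have hsa : (0.38 * x + 0.38 * (y - x) * m) ^ 2 ≤ 0.16 * m := by
    rw [← hx2]
    calc _ ≤ (0.4 * x) ^ 2 := by
          rw [hx2]
          exact pow_le_pow_left₀ hha0 hha 2
      _ = _ := by ring
  have hsb : (0.38 * x + 0.38 * (y - x) * M) ^ 2 ≤ 0.16 * (1 - M) := by
    rw [← hy2]
    calc _ ≤ (0.4 * y) ^ 2 := pow_le_pow_left₀ hhb0 hhb 2
      _ = _ := by ring
  have hline := fun (u : ℝ) (hu : u ∈ Icc m M) =>
    line_ok (c := 0.38 * x) (l := 0.38 * (y - x)) (a := m) (b := M) hmM hha0 (by linarith only [hha, hx1, hm, hmpos])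
      (hsa.trans (by nlinarith only [hmpos, hm, hpi])) (hsa.trans (by nlinarith only [hmpos, hm, hpi])) hhb0 (by linarith only [hmpos, hm, hy1, hhb])
      (hsb.trans (by nlinarith only [hmpos, hm, hM, hpi])) (hsb.trans (by nlinarith only [hmpos, hm, hM1, hpi])) hu
  have key := hl (2 * (0.38 * x)) (2 * (0.38 * (y - x))) (fun u hu => (hline u hu).1)
    (fun u hu => (hline u hu).2)
  refine lt_of_lt_of_le ?_ key
  rw [ENNReal.ofReal_lt_ofReal_iff_of_nonneg (by norm_num)]
  have hxpos : 0 < x := Real.sqrt_pos.mpr hmpos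
  have e0 : (∫ u in m..M, Real.sqrt (1 - ((2 * (0.38 * x) + 2 * (0.38 * (y - x)) * u) / I2 u) ^ 2)) =
      ∫ u in m..M, sl (0.38 * x) (0.38 * (y - x)) u := rfl
  rw [e0]
  have i1 : IntervalIntegrable (fun u : ℝ => x ^ 2 / u) volume m M := by
    rw [hx2]
    exact intervalIntegrable_div hm0 hmM
  have i2 : IntervalIntegrable (fun u : ℝ => y ^ 2 / (1 - u)) volume m M := by
    rw [hy2]
    have := (intervalIntegrable_div hw0 (by linarith only [hmpos, hm, hM] : 1 - M ≤ 1 - m)).comp_sub_left 1
    simp only [sub_sub_cancel] at this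
    exact this.symm
  have j1 : ∫ u in m..M, x ^ 2 / u ≤ 0.7358 * x := by
    rw [hx2]
    exact integral_div_le hm0 hmM hM1
  have j2 : ∫ u in m..M, y ^ 2 / (1 - u) ≤ 0.7358 * y := by
    rw [hy2]
    have := intervalIntegral.integral_comp_sub_left (a := m) (b := M)
      (fun u : ℝ => (1 - M) / u) 1
    rw [this]
    exact integral_div_le hw0 (by linarith only [hmpos, hm, hM]) (by linarith only [hmpos])
  have j3 : ∫ u in m..M, (1 - 0.0920 * (x ^ 2 / u) - 0.0920 * (y ^ 2 / (1 - u))) ≤
      ∫ u in m..M, sl (0.38 * x) (0.38 * (y - x)) u := by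
    apply intervalIntegral.integral_mono_on hmM
    · exact (intervalIntegrable_const.sub (i1.const_mul _)).sub (i2.const_mul _)
    · exact intervalIntegrable_sl _ _ _ _
    · intro u hu
      exact corner_pointwise (hm0.trans hu.1) (hu.2.trans hM1)
  rw [intervalIntegral.integral_sub (intervalIntegrable_const.sub (i1.const_mul _))
    (i2.const_mul _), intervalIntegral.integral_sub intervalIntegrable_const (i1.const_mul _),
    intervalIntegral.integral_const_mul, intervalIntegral.integral_const_mul,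
    intervalIntegral.integral_const, smul_eq_mul, mul_one] at j3
  have g1 : 2 * (0.38 * (y - x)) * V = 0.76 * (y * V) - 0.76 * (x * V) := by ring
  have g2 : y * 0.36 ≤ y * V := mul_le_mul_of_nonneg_left hV0 hy0
  have g3 : x * V ≤ x * 0.5 := mul_le_mul_of_nonneg_left hV1 hx0
  have g4 : m ≤ 0.0448 * x := by rw [← hx2, sq]; exact mul_le_mul_of_nonneg_right hx1 hx0
  have g5 : 1 - M ≤ 0.0448 * y := by rw [← hy2, sq]; exact mul_le_mul_of_nonneg_right hy1 hy0
  rw [g1]
  linarith only [hmpos, hy0, j1, j2, j3, g2, g3, g4, g5]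

/-- Strictness in the range of slabs. -/
theorem strict_slab {E : Set (Fin 3 → ℝ)} (hE : MeasurableSet E) (hp : IsPeriodic E)
    (h0 : 0.36 ≤ vol E) (h1 : vol E ≤ 0.5) (hP : perimeter E ≤ ENNReal.ofReal 2) :
    (∃ k, ∀ᵐ t ∂mu, sv k E t = vol E) ∨ ∀ j, ∃ M, EssBd (sv j E) 0 M := by
  obtain ⟨k, m, M, hm0, hmV, hVM, hM1, hess, hz, hB, hJ, hL⟩ :=
    geometric_bounds' hE hp (by linarith only [h0])
  rcases hm0.eq_or_lt with hm | hmpos
  · exact Or.inr (hz hm.symm)
  left
  refine ⟨k, ?_⟩
  have hcon : ¬ ENNReal.ofReal 2 < perimeter E := not_lt.mpr hP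
  rcases (hmV.trans hVM).eq_or_lt with hmM | hmM
  · filter_upwards [hess.lower, hess.upper] with t h2 h3
    linarith only [hmV, hVM, hmM, h2, h3]
  exfalso
  have hfin : ∀ {a a2 b : ℚ} {C : Cert}, baseOK a a2 b C = true →
      finSlabS (d 36000) (d 50000) a b C = true → (a : ℝ) ≤ m → m ≤ (a2 : ℝ) → (b : ℝ) < M →
      M ≤ (C.b2 : ℝ) → False := by
    intro a a2 b C k1 k2 k3 k4 k5 k6
    have hb := base_sound k1 (P := perimeter E) (V := vol E) hL k3 k4 k5.le k6
    have h2 := finSlabS_sound k2 (V := vol E) (by rw [cast_d]; norm_num at h0 ⊢; linarith only [h0])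
      (by rw [cast_d]; norm_num at h1 ⊢; linarith only [h1]) (k3.trans hmV) (hVM.trans k6)
    have h3 := (ENNReal.ofReal_le_ofReal_iff (by norm_num)).mp (hb.trans hP)
    linarith only [h2, h3]
  rcases lt_or_ge m 0.002 with hm | hm
  · rcases lt_or_ge 0.998 M with hM | hM
    · exact hcon (corner_lt hL hmpos hm.le hM.le hM1 h0 h1)
    · obtain ⟨a, a2, b, C, k1, k2, k3, k4, k5, k6⟩ :=
        strips_sound slabA 0 (stripsOK_and slabA 0 slabA_ok slabA_S) (m := m)
        (M := M) (by simpa using hm0)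
        (by rw [cast_d]; norm_num at hm ⊢; linarith only [hm])
        (by rw [cast_d]; norm_num at h0 ⊢; linarith only [hVM, hmpos, hm, h0])
        (by rw [cast_d]; norm_num at hM ⊢; linarith only [hM])
      simp only [Bool.and_eq_true] at k2
      exact hfin k1 k2.2 k3 k4 k5 k6
  · rcases lt_or_ge m 0.3163 with hm3 | hm3
    · obtain ⟨a, a2, b, C, k1, k2, k3, k4, k5, k6⟩ :=
        strips_sound slabB (d 200) (stripsOK_and slabB (d 200) slabB_ok slabB_S) (m := m)
        (M := M) (by rw [cast_d]; norm_num at hm ⊢; linarith only [hm])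
        (by rw [cast_d]; norm_num at hm3 ⊢; linarith only [hm3])
        (by rw [cast_d]; norm_num at h0 ⊢; linarith only [hVM, hmpos, hmM, h0])
        (by simpa using hM1)
      simp only [Bool.and_eq_true] at k2
      exact hfin k1 k2.2 k3 k4 k5 k6
    · rcases lt_or_ge 0.72 M with hM | hM
      · obtain ⟨a, a2, b, C, k1, k2, k3, k4, k5, k6⟩ :=
          strips_sound slabC (d 31620) (stripsOK_and slabC (d 31620) slabC_ok slabC_S)
          (m := m) (M := M) (by rw [cast_d]; norm_num at hm3 ⊢; linarith only [hmpos, hm3])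
          (by rw [cast_d]; norm_num at h1 ⊢; linarith only [hmV, hmpos, h1])
          (by rw [cast_d]; norm_num at hM ⊢; linarith only [hM])
          (by simpa using hM1)
        simp only [Bool.and_eq_true] at k2
        exact hfin k1 k2.2 k3 k4 k5 k6
      · exact hcon (slab_mid_lt hL (by linarith only [hmpos, hm3]) hM hmV hVM h0 h1 hmM)

end Vale.Agent.P232
end
end

section

section

open MeasureTheory Set Filter Topology
open scoped Pointwise Convolution

namespace Vale.Agent.P232

theorem nr_le_abs (u : ℝ) (k : ℤ) : nr u ≤ |u - k| := round_le u k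

theorem nr_sq_le (u : ℝ) (k : ℤ) : nr u ^ 2 ≤ (u - k) ^ 2 := by
  rw [← sq_abs (u - k)]
  exact pow_le_pow_left₀ (nr_nonneg u) (nr_le_abs u k) 2

theorem nr_sq_round (u : ℝ) : (u - round u) ^ 2 = nr u ^ 2 := by
  unfold nr
  rw [sq_abs]

theorem ballSet_eq (c : Fin 3 → ℝ) (r : ℝ) : ballSet c r = tball c r := by
  ext x
  simp only [ballSet, tball, mem_ofPred_eq]
  constructor
  · rintro ⟨k, hk⟩
    exact (Finset.sum_le_sum fun j _ => nr_sq_le (x j - c j) (k j)).trans_lt hk
  · intro h
    refine ⟨fun j => round (x j - c j), ?_⟩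
    simp_rw [nr_sq_round]
    exact h

theorem tubeSet_eq (i : Fin 3) (c : Fin 3 → ℝ) (r : ℝ) :
    tubeSet i c r = {x | (fun j => x (i.succAbove j)) ∈ tball (fun j => c (i.succAbove j)) r} := by
  ext x
  simp only [tubeSet, tball, mem_ofPred_eq]
  have key : ∀ f : Fin 3 → ℝ, ∑ j ∈ Finset.univ.erase i, f j = ∑ j, f (i.succAbove j) := by
    intro f
    rw [Finset.sum_erase_eq_sub (Finset.mem_univ i), Fin.sum_univ_succAbove _ i]
    ring
  constructor
  · rintro ⟨k, hk⟩
    rw [key] at hk
    exact (Finset.sum_le_sum fun j _ =>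
      nr_sq_le (x (i.succAbove j) - c (i.succAbove j)) (k (i.succAbove j))).trans_lt hk
  · intro h
    refine ⟨fun j => round (x j - c j), ?_⟩
    rw [key]
    simp_rw [nr_sq_round]
    exact h

theorem slabSet_eq (i : Fin 3) (a w : ℝ) :
    slabSet i a w = {x | 2 * nr (x i - (a + w / 2)) < w} := by
  ext x
  simp only [slabSet, mem_ofPred_eq]
  constructor
  · rintro ⟨k, h1, h2⟩
    have h3 := nr_le_abs (x i - (a + w / 2)) k
    have h4 : |x i - (a + w / 2) - k| < w / 2 := by
      rw [abs_lt]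
      constructor <;> linarith
    linarith
  · intro h
    refine ⟨round (x i - (a + w / 2)), ?_⟩
    have h4 : |x i - (a + w / 2) - round (x i - (a + w / 2))| < w / 2 := by
      change nr _ < w / 2
      linarith
    rw [abs_lt] at h4
    constructor <;> linarith only [h4]

theorem J_one_sub' (V : ℝ) : J (1 - V) = J V := by
  unfold J
  rw [show 1 - (1 - V) = V by ring, min_comm (1 - V) V]

end Vale.Agent.P232
end
end

section

section

open MeasureTheory Set Filter Topology
open scoped Pointwise Convolution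

namespace Vale.Agent.P232

theorem far_eq_zero_of_essBd {E : Set (Fin 3 → ℝ)} (hd : IsDown E) (j : Fin 3) {M : ℝ}
    (h : EssBd (sv j E) 0 M) : far j E = 0 := by
  apply le_antisymm _ (far_nonneg j E)
  apply le_of_forall_pos_lt_add
  intro ε hε
  obtain ⟨t, ht1, ht2, ht3⟩ := ((h.inf ε hε).and_eventually (ae_nr_pos.and ae_nr_lt)).exists
  refine (far_le_sv j E (s := nr t) ⟨ht2, ht3⟩).trans_lt ?_
  rwa [← hd.sv_eq j (nr_nr t)]

/-- The middle range. -/
def MidStatement : Prop := ∀ E : Set (Fin 3 → ℝ), MeasurableSet E → IsDown E →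
  0.267 ≤ vol E → vol E ≤ 0.36 → perimeter E ≤ ENNReal.ofReal (J (vol E)) →
    (∃ k, ∀ᵐ t ∂mu, sv k E t = vol E) ∨ ∀ j, ∃ M, EssBd (sv j E) 0 M

/-- Strictness of the isoperimetric inequality for symmetric decreasing sets. -/
theorem strict7 (hmid : MidStatement) {E : Set (Fin 3 → ℝ)} (hE : MeasurableSet E)
    (hd : IsDown E) (h0 : 0 < vol E) (h1 : vol E ≤ 1 / 2)
    (hP : perimeter E ≤ ENNReal.ofReal (J (vol E))) :
    (∃ k, ∀ᵐ t ∂mu, sv k E t = vol E) ∨ ∀ k, far k E = 0 := by
  have hp := hd.isPeriodic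
  have key : (∃ k, ∀ᵐ t ∂mu, sv k E t = vol E) ∨ ∀ j, ∃ M, EssBd (sv j E) 0 M := by
    rcases le_or_gt (vol E) 0.267 with h2 | h2
    · exact strict_low hE hp h0 h2 (hP.trans (ENNReal.ofReal_le_ofReal (J_le_J0 h1)))
    · rcases le_or_gt (vol E) 0.36 with h3 | h3
      · exact hmid E hE hd h2.le h3 hP
      · exact strict_slab hE hp h3.le (by norm_num at h1 ⊢; linarith only [h1])
          (hP.trans (ENNReal.ofReal_le_ofReal (J_le_two _)))
  rcases key with h | h
  · exact Or.inl h
  · refine Or.inr fun k => ?_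
    obtain ⟨M, hM⟩ := h k
    exact far_eq_zero_of_essBd hd k hM

theorem J_le_I2 {V : ℝ} (h1 : V ≤ 1 / 2) : J V ≤ I2 V := by
  unfold J I2
  rw [min_eq_left (by linarith only [h1] : V ≤ 1 - V)]
  refine le_min (le_min ?_ ?_) (min_le_right _ _)
  · exact (min_le_left _ _).trans (min_le_right _ _)
  · refine ((min_le_left _ _).trans (min_le_right _ _)).trans ?_
    apply mul_le_mul_of_nonneg_left (Real.sqrt_le_sqrt _) (by norm_num)
    exact mul_le_mul_of_nonneg_left (by linarith) Real.pi_pos.le

theorem J_nonneg {V : ℝ} (h0 : 0 ≤ V) (h1 : V ≤ 1) : 0 ≤ J V := by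
  have : 0 ≤ min V (1 - V) := le_min h0 (by linarith)
  unfold J
  refine le_min (le_min (by positivity) (by positivity)) (by norm_num)

theorem lintegral_slice_le {n : ℕ} (i : Fin (n + 1)) {E : Set (Fin (n + 1) → ℝ)}
    (hE : MeasurableSet E) (hp : IsPeriodic E) :
    ∫⁻ t in Ico (0 : ℝ) 1, perimeter (slice i E t) ≤ perimeter E := by
  obtain ⟨s, hs⟩ := (ae_goodPt i hE).exists
  have h9 := weighted_slicing i hE hp (g := fun _ => 0) contDiff_const (fun _ _ => rfl)
    (by simp) (a := 0) (b := 1) le_rfl zero_le_one (by norm_num)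
    (s := fun j => if j = 0 then s else s + 1) (monotone_nat_of_le_succ fun j => by
      rcases j with _ | j <;> simp) (N := 1) (by simp) (fun j => by
      rcases j with _ | j
      · simpa using hs
      · simpa using goodPt_add_one i hp hs)
  simpa using h9

/-- The profile bound follows from the strictness statement. -/
theorem J_le_perimeter_down {E : Set (Fin 3 → ℝ)} (hE : MeasurableSet E)
    (hd : IsDown E) (h1 : vol E ≤ 1 / 2)
    (h : perimeter E ≤ ENNReal.ofReal (J (vol E)) →
      (∃ k, ∀ᵐ t ∂mu, sv k E t = vol E) ∨ ∀ k, far k E = 0) :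
    ENNReal.ofReal (J (vol E)) ≤ perimeter E := by
  have hp := hd.isPeriodic
  by_contra hcon
  push Not at hcon
  rcases h hcon.le with ⟨k, hk⟩ | hfar
  · apply absurd hcon (not_lt.mpr _)
    refine le_trans ?_ (lintegral_slice_le k hE hp)
    have e : ENNReal.ofReal (J (vol E)) = ∫⁻ _ in Ico (0 : ℝ) 1, ENNReal.ofReal (J (vol E)) := by
      simp
    rw [e]
    apply lintegral_mono_ae
    filter_upwards [hk] with t ht
    refine (ENNReal.ofReal_le_ofReal (J_le_I2 h1)).trans ?_
    rw [← ht]
    exact I2_le_perimeter (measurableSet_slice k hE t) (isPeriodic_slice k hp t)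
  · have hb := slice_bound 0 hE (fun t => hd.slice 0 t) (fun _ _ => rfl) hfar
    exact absurd hcon (not_lt.mpr ((ENNReal.ofReal_le_ofReal (J_le_J0 h1)).trans
      (J0_le_perimeter hE hp hb)))

theorem J_le_perimeter_of_mid (hmid : MidStatement) {E : Set (Fin 3 → ℝ)} (hE : MeasurableSet E)
    (hp : IsPeriodic E) (h0 : 0 < vol E) (h1 : vol E < 1) :
    ENNReal.ofReal (J (vol E)) ≤ perimeter E := by
  have key : ∀ E : Set (Fin 3 → ℝ), MeasurableSet E → IsPeriodic E → 0 < vol E →
      vol E ≤ 1 / 2 → ENNReal.ofReal (J (vol E)) ≤ perimeter E := by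
    intro E hE hp h0 h1
    obtain ⟨E', hE', hd, hvol, hper⟩ := exists_isDown hE hp
    rw [← hvol]
    refine (J_le_perimeter_down hE' hd (by rw [hvol]; exact h1)
      (fun h => strict7 hmid hE' hd (by rw [hvol]; exact h0) (by rw [hvol]; exact h1) h)).trans hper
  rcases le_or_gt (vol E) (1 / 2) with h2 | h2
  · exact key E hE hp h0 h2
  · have hv : vol Eᶜ = 1 - vol E := vol_compl hE
    have := key Eᶜ hE.compl (isPeriodic_compl hp) (by rw [hv]; linarith) (by rw [hv]; linarith only [h2])
    rwa [perimeter_compl hE, hv, J_one_sub'] at this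

/-- The isoperimetric profile. -/
theorem profile_eq_J_of_mid (hmid : MidStatement) {V : ℝ} (h0 : 0 < V) (h1 : V < 1) :
    profile 3 V = ENNReal.ofReal (J V) := by
  refine le_antisymm (profile_le_J h0 h1) ?_
  unfold profile
  refine le_iInf fun E => le_iInf fun hE => le_iInf fun hp => le_iInf fun hV => ?_
  rw [← hV] at h0 h1 ⊢
  exact J_le_perimeter_of_mid hmid hE hp h0 h1

end Vale.Agent.P232
end
end

section

section

/-! Volumes and perimeters of balls, tubes and slabs. -/

open MeasureTheory Set Filter Topology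
open scoped Pointwise Convolution

namespace Vale.Agent.P232

theorem divergence_shift {n : ℕ} (X : (Fin n → ℝ) → (Fin n → ℝ)) (z x : Fin n → ℝ) :
    divergence (fun y => X (y + z)) x = divergence X (x + z) := by
  unfold divergence
  simp_rw [fderiv_comp_add_right]

theorem testField_shift {n : ℕ} {X : (Fin n → ℝ) → (Fin n → ℝ)} (hX : TestField X)
    (z : Fin n → ℝ) : TestField fun y => X (y + z) where
  contDiff := hX.contDiff.comp (contDiff_id.add contDiff_const)
  periodic := fun x k => by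
    have h := hX.periodic (x + z) k
    rw [← h]
    congr 1
    ext i
    simp only [Pi.add_apply]
    ring
  bound := fun x => hX.bound (x + z)

theorem perimeter_shift_le {n : ℕ} {E : Set (Fin n → ℝ)} (hE : MeasurableSet E)
    (hp : IsPeriodic E) (z : Fin n → ℝ) : perimeter {x | x + z ∈ E} ≤ perimeter E := by
  have hE' : MeasurableSet {x : Fin n → ℝ | x + z ∈ E} := (measurable_id.add_const z) hE
  unfold perimeter
  apply iSup₂_le
  intro X hX
  refine le_iSup₂_of_le (fun y => X (y + (-z))) (testField_shift hX (-z)) ?_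
  apply ENNReal.ofReal_le_ofReal
  apply le_of_eq
  rw [setIntegral_inter_cube hE', setIntegral_inter_cube hE]
  have hper : PerFun (fun x => E.indicator (fun _ => (1 : ℝ)) x *
      divergence (fun y => X (y + (-z))) x) := by
    intro x k
    simp only
    rw [perFun_indicator hp x k, (testField_shift hX (-z)).perFun.divergence x k]
  rw [← integral_cube_add hper z]
  congr 1
  ext x
  rw [divergence_shift]
  have e : x + z + -z = x := by simp
  rw [e]
  rfl

theorem isPeriodic_shift {n : ℕ} {E : Set (Fin n → ℝ)} (hp : IsPeriodic E) (z : Fin n → ℝ) :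
    IsPeriodic {x | x + z ∈ E} := by
  intro x k
  simp only [mem_ofPred_eq]
  rw [← hp (x + z) k]
  have : (fun i => x i + (k i : ℝ)) + z = fun i => (x + z) i + (k i : ℝ) := by
    ext i
    simp only [Pi.add_apply]
    ring
  rw [this]

theorem perimeter_shift {n : ℕ} {E : Set (Fin n → ℝ)} (hE : MeasurableSet E)
    (hp : IsPeriodic E) (z : Fin n → ℝ) : perimeter {x | x + z ∈ E} = perimeter E := by
  apply le_antisymm (perimeter_shift_le hE hp z)
  have hE' : MeasurableSet {x : Fin n → ℝ | x + z ∈ E} := (measurable_id.add_const z) hE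
  have h := perimeter_shift_le hE' (isPeriodic_shift hp z) (-z)
  have e : {x : Fin n → ℝ | x + -z ∈ {x : Fin n → ℝ | x + z ∈ E}} = E := by
    ext x
    simp
  rwa [e] at h

theorem tball_eq_shift {n : ℕ} (c : Fin n → ℝ) (r : ℝ) :
    tball c r = {x | x + (fun i => 1 / 2 - c i) ∈ ballT n r} := by
  ext x
  simp only [tball, ballT, mem_ofPred_eq, Pi.add_apply]
  have e : ∀ i, nr (x i - c i) ^ 2 = (Int.fract (x i + (1 / 2 - c i)) - 1 / 2) ^ 2 := by
    intro i
    rw [nr_sq_eq]
    congr 3
    ring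
  simp_rw [e]

theorem perimeter_tball_le {n : ℕ} (c : Fin (n + 1) → ℝ) {r : ℝ} (h0 : 0 < r) (h1 : r ≤ 1 / 2) :
    perimeter (tball c r) ≤ ENNReal.ofReal ((n + 1) * omega (n + 1) * r ^ n) := by
  rw [tball_eq_shift, perimeter_shift (measurableSet_ballT _ _) (isPeriodic_ballT _ _)]
  exact perimeter_ballT_le h0 h1

theorem measurableSet_ballSet (c : Fin 3 → ℝ) (r : ℝ) : MeasurableSet (ballSet c r) := by
  rw [ballSet_eq]
  exact measurableSet_tball c r

theorem isPeriodic_ballSet (c : Fin 3 → ℝ) (r : ℝ) : IsPeriodic (ballSet c r) := by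
  rw [ballSet_eq]
  exact isPeriodic_tball c r

theorem vol_ballSet (c : Fin 3 → ℝ) {r : ℝ} (h0 : 0 ≤ r) (h1 : r ≤ 1 / 2) :
    vol (ballSet c r) = 4 / 3 * Real.pi * r ^ 3 := by
  rw [ballSet_eq, vol_tball (n := 2) c h0 h1, omega_three]

theorem perimeter_ballSet_le (c : Fin 3 → ℝ) {r : ℝ} (h0 : 0 < r) (h1 : r ≤ 1 / 2) :
    perimeter (ballSet c r) ≤ ENNReal.ofReal (4 * Real.pi * r ^ 2) := by
  rw [ballSet_eq]
  refine (perimeter_tball_le (n := 2) c h0 h1).trans (ENNReal.ofReal_le_ofReal (le_of_eq ?_))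
  rw [omega_three]
  push_cast
  ring

theorem tubeSet_eq_cylT (i : Fin 3) (c : Fin 3 → ℝ) (r : ℝ) :
    tubeSet i c r = cylT i (tball (fun j => c (i.succAbove j)) r) := tubeSet_eq i c r

theorem measurableSet_tubeSet (i : Fin 3) (c : Fin 3 → ℝ) (r : ℝ) :
    MeasurableSet (tubeSet i c r) := by
  rw [tubeSet_eq_cylT]
  exact measurableSet_cylT i (measurableSet_tball _ _)

theorem isPeriodic_tubeSet (i : Fin 3) (c : Fin 3 → ℝ) (r : ℝ) :
    IsPeriodic (tubeSet i c r) := by
  rw [tubeSet_eq_cylT]
  exact isPeriodic_cylT i (isPeriodic_tball _ _)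

theorem vol_tubeSet (i : Fin 3) (c : Fin 3 → ℝ) {r : ℝ} (h0 : 0 ≤ r) (h1 : r ≤ 1 / 2) :
    vol (tubeSet i c r) = Real.pi * r ^ 2 := by
  rw [tubeSet_eq_cylT, vol_cylT i (measurableSet_tball _ _), vol_tball (n := 1) _ h0 h1,
    omega_two]

theorem perimeter_tubeSet_le (i : Fin 3) (c : Fin 3 → ℝ) {r : ℝ} (h0 : 0 < r)
    (h1 : r ≤ 1 / 2) : perimeter (tubeSet i c r) ≤ ENNReal.ofReal (2 * Real.pi * r) := by
  rw [tubeSet_eq_cylT]
  refine (perimeter_cylT_le i (measurableSet_tball _ _)).trans ?_
  refine (perimeter_tball_le (n := 1) _ h0 h1).trans (ENNReal.ofReal_le_ofReal (le_of_eq ?_))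
  rw [omega_two]
  push_cast
  ring

theorem slabSet_eq_cylT (i : Fin 3) (a : ℝ) {w : ℝ} (hw : 0 ≤ w) :
    ∃ (j : Fin 3) (l : Fin 2), slabSet i a w =
      cylT j (cylT l (tball (fun _ : Fin 1 => a + w / 2) (w / 2))) := by
  have hex : ∀ i : Fin 3, ∃ (j : Fin 3) (l : Fin 2), j.succAbove (l.succAbove 0) = i := by
    decide
  obtain ⟨j, l, hjl⟩ := hex i
  refine ⟨j, l, ?_⟩
  rw [slabSet_eq]
  ext x
  simp only [cylT, tball, mem_ofPred_eq, Finset.univ_unique, Fin.default_eq_zero,
    Finset.sum_singleton]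
  rw [hjl, sq_lt_sq₀ (nr_nonneg _) (by positivity)]
  constructor <;> intro h <;> linarith only [h]

theorem measurableSet_slabSet (i : Fin 3) (a : ℝ) {w : ℝ} (hw : 0 ≤ w) :
    MeasurableSet (slabSet i a w) := by
  obtain ⟨j, l, h⟩ := slabSet_eq_cylT i a hw
  rw [h]
  exact measurableSet_cylT j (measurableSet_cylT l (measurableSet_tball _ _))

theorem isPeriodic_slabSet (i : Fin 3) (a : ℝ) {w : ℝ} (hw : 0 ≤ w) :
    IsPeriodic (slabSet i a w) := by
  obtain ⟨j, l, h⟩ := slabSet_eq_cylT i a hw
  rw [h]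
  exact isPeriodic_cylT j (isPeriodic_cylT l (isPeriodic_tball _ _))

theorem vol_slabSet (i : Fin 3) (a : ℝ) {w : ℝ} (hw : 0 ≤ w) (hw1 : w ≤ 1) :
    vol (slabSet i a w) = w := by
  obtain ⟨j, l, h⟩ := slabSet_eq_cylT i a hw
  rw [h, vol_cylT j (measurableSet_cylT l (measurableSet_tball _ _)),
    vol_cylT l (measurableSet_tball _ _), vol_tball (n := 0) _ (by positivity) (by linarith only [hw1]),
    zero_add, omega_one]
  ring

theorem perimeter_slabSet_le (i : Fin 3) (a : ℝ) {w : ℝ} (hw : 0 < w) (hw1 : w ≤ 1) :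
    perimeter (slabSet i a w) ≤ ENNReal.ofReal 2 := by
  obtain ⟨j, l, h⟩ := slabSet_eq_cylT i a hw.le
  rw [h]
  refine (perimeter_cylT_le j (measurableSet_cylT l (measurableSet_tball _ _))).trans ?_
  refine (perimeter_cylT_le l (measurableSet_tball _ _)).trans ?_
  refine (perimeter_tball_le (n := 0) _ (by positivity) (by linarith only [hw1])).trans
    (ENNReal.ofReal_le_ofReal (le_of_eq ?_))
  rw [zero_add, omega_one]
  simp

/-! ### The thresholds -/

theorem ball_le_tube_iff {v : ℝ} (hv : 0 < v) :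
    (36 * Real.pi) ^ (1 / 3 : ℝ) * v ^ (2 / 3 : ℝ) ≤ 2 * Real.sqrt (Real.pi * v) ↔
      v ≤ 4 * Real.pi / 81 := by
  have hpi := Real.pi_pos
  have hb0 : 0 ≤ (36 * Real.pi) ^ (1 / 3 : ℝ) * v ^ (2 / 3 : ℝ) := by positivity
  have ht0 : 0 ≤ 2 * Real.sqrt (Real.pi * v) := by positivity
  rw [← pow_le_pow_iff_left₀ hb0 ht0 (n := 6) (by norm_num)]
  have e1 : ((36 * Real.pi) ^ (1 / 3 : ℝ) * v ^ (2 / 3 : ℝ)) ^ 6 = (36 * Real.pi * v ^ 2) ^ 2 := by
    rw [← ball_cube hv.le]
    ring
  have e2 : (2 * Real.sqrt (Real.pi * v)) ^ 6 = 64 * (Real.pi * v) ^ 3 := by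
    have : (2 * Real.sqrt (Real.pi * v)) ^ 6 = 64 * (Real.sqrt (Real.pi * v) ^ 2) ^ 3 := by ring
    rw [this, Real.sq_sqrt (by positivity)]
  rw [e1, e2]
  have e3 : (36 * Real.pi * v ^ 2) ^ 2 = (16 * Real.pi ^ 2 * v ^ 3) * (81 * v) := by ring
  have e4 : 64 * (Real.pi * v) ^ 3 = (16 * Real.pi ^ 2 * v ^ 3) * (4 * Real.pi) := by ring
  rw [e3, e4, mul_le_mul_iff_right₀ (by positivity), le_div_iff₀ (by norm_num)]
  constructor <;> intro h <;> linarith only [h]

theorem tube_le_two_iff {v : ℝ} (hv : 0 < v) :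
    2 * Real.sqrt (Real.pi * v) ≤ 2 ↔ v ≤ 1 / Real.pi := by
  have hpi := Real.pi_pos
  rw [le_div_iff₀ hpi]
  constructor
  · intro h
    have h1 : Real.sqrt (Real.pi * v) ≤ 1 := by linarith
    have h2 := (Real.sqrt_le_iff.mp h1).2
    linarith
  · intro h
    have h1 : Real.sqrt (Real.pi * v) ≤ 1 := Real.sqrt_le_iff.mpr ⟨zero_le_one, by linarith⟩
    linarith

theorem threshold_lt : 4 * Real.pi / 81 < 1 / Real.pi := by
  have hpi := Real.pi_pos
  have h4 := Real.pi_lt_four
  rw [lt_div_iff₀ hpi]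
  nlinarith

theorem J_eq_ball {v : ℝ} (h0 : 0 < v) (h1 : v ≤ 1 / 2) (h : v ≤ 4 * Real.pi / 81) :
    J v = (36 * Real.pi) ^ (1 / 3 : ℝ) * v ^ (2 / 3 : ℝ) := by
  unfold J
  rw [min_eq_left (by linarith only [h1] : v ≤ 1 - v)]
  have h2 := (ball_le_tube_iff h0).mpr h
  have h3 := (tube_le_two_iff h0).mpr (h.trans threshold_lt.le)
  rw [min_eq_left h2, min_eq_left (h2.trans h3)]

theorem J_eq_tube {v : ℝ} (h1 : v ≤ 1 / 2) (h : 4 * Real.pi / 81 ≤ v)
    (h' : v ≤ 1 / Real.pi) : J v = 2 * Real.sqrt (Real.pi * v) := by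
  have h0 : 0 < v := lt_of_lt_of_le (by positivity) h
  unfold J
  rw [min_eq_left (by linarith only [h1] : v ≤ 1 - v)]
  have h3 := (tube_le_two_iff h0).mpr h'
  have h2 : 2 * Real.sqrt (Real.pi * v) ≤ (36 * Real.pi) ^ (1 / 3 : ℝ) * v ^ (2 / 3 : ℝ) := by
    rcases h.eq_or_lt with h4 | h4
    · -- equality at the threshold
      by_contra hlt
      push Not at hlt
      have e1 : ((36 * Real.pi) ^ (1 / 3 : ℝ) * v ^ (2 / 3 : ℝ)) ^ 6 =
          (36 * Real.pi * v ^ 2) ^ 2 := by
        rw [← ball_cube h0.le]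
        ring
      have e2 : (2 * Real.sqrt (Real.pi * v)) ^ 6 = 64 * (Real.pi * v) ^ 3 := by
        have : (2 * Real.sqrt (Real.pi * v)) ^ 6 = 64 * (Real.sqrt (Real.pi * v) ^ 2) ^ 3 := by
          ring
        rw [this, Real.sq_sqrt (by positivity)]
      have h5 := pow_lt_pow_left₀ hlt (by positivity) (n := 6) (by norm_num)
      rw [e1, e2] at h5
      have e3 : (36 * Real.pi * v ^ 2) ^ 2 = 64 * (Real.pi * v) ^ 3 := by
        have : (36 * Real.pi * v ^ 2) ^ 2 = (16 * Real.pi ^ 2 * v ^ 3) * (81 * v) := by ring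
        rw [this]
        have : 81 * v = 4 * Real.pi := by rw [← h4]; ring
        rw [this]
        ring
      rw [e3] at h5
      exact lt_irrefl _ h5
    · by_contra hlt
      push Not at hlt
      have := (ball_le_tube_iff h0).mp hlt.le
      linarith only [h4, this]
  rw [min_eq_right h2, min_eq_left h3]

theorem J_eq_two {v : ℝ} (h1 : v ≤ 1 / 2) (h : 1 / Real.pi ≤ v) : J v = 2 := by
  have hpi := Real.pi_pos
  have h0 : 0 < v := lt_of_lt_of_le (by positivity) h
  have h2 : 2 ≤ 2 * Real.sqrt (Real.pi * v) := by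
    have : 1 ≤ Real.sqrt (Real.pi * v) := by
      apply Real.le_sqrt_of_sq_le
      rw [div_le_iff₀ hpi] at h
      linarith
    linarith
  have h3 : 2 * Real.sqrt (Real.pi * v) ≤ (36 * Real.pi) ^ (1 / 3 : ℝ) * v ^ (2 / 3 : ℝ) := by
    by_contra hlt
    push Not at hlt
    have := (ball_le_tube_iff h0).mp hlt.le
    linarith only [threshold_lt, h, this]
  unfold J
  rw [min_eq_left (by linarith only [h1] : v ≤ 1 - v), min_eq_right h3, min_eq_right h2]

end Vale.Agent.P232
end
end

section

section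

/-! The minimizers are exactly the expected sets. -/

open MeasureTheory Set Filter Topology
open scoped Pointwise Convolution

namespace Vale.Agent.P232

theorem radius_ball {r v : ℝ} (h : 4 / 3 * Real.pi * r ^ 3 = v)
    (hv : v ≤ 4 * Real.pi / 81) : r ≤ 1 / 3 := by
  have hpi := Real.pi_pos
  by_contra hcon
  push Not at hcon
  have h1 : (1 / 3 : ℝ) ^ 3 < r ^ 3 := pow_lt_pow_left₀ hcon (by norm_num) (by norm_num)
  have h2 : 4 / 3 * Real.pi * (1 / 3) ^ 3 < 4 / 3 * Real.pi * r ^ 3 :=
    mul_lt_mul_of_pos_left h1 (by positivity)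
  have h3 : 4 / 3 * Real.pi * (1 / 3 : ℝ) ^ 3 = 4 * Real.pi / 81 := by ring
  linarith only [h2, hv, h]

theorem radius_tube {r v : ℝ} (h : Real.pi * r ^ 2 = v)
    (hv : v ≤ 1 / Real.pi) : r ≤ 1 / 2 := by
  have hpi := Real.pi_gt_three
  have hpi0 := Real.pi_pos
  by_contra hcon
  push Not at hcon
  rw [le_div_iff₀ hpi0, ← h] at hv
  have h1 : 1 / 4 < r ^ 2 := by nlinarith only [hcon]
  have h2 : 9 < Real.pi * Real.pi := by nlinarith only [hpi]
  have h3 : 9 * (1 / 4) < Real.pi * Real.pi * r ^ 2 := by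
    have := mul_lt_mul'' h2 h1 (by norm_num) (by norm_num)
    linarith only [hv, this]
  linarith only [hv, h3]

theorem Model.spec {v : ℝ} {B : Set (Fin 3 → ℝ)} (h : Model v B) (h0 : 0 < v)
    (h1 : v ≤ 1 / 2) : MeasurableSet B ∧ IsPeriodic B ∧ vol B = v ∧
      perimeter B ≤ ENNReal.ofReal (J v) := by
  have hpi := Real.pi_pos
  rcases h with ⟨hv, c, r, hr, hV, rfl⟩ | ⟨hv, hv', i, c, r, hr, hV, rfl⟩ | ⟨hv, i, a, rfl⟩
  · have hr1 : r ≤ 1 / 2 := (radius_ball hV hv).trans (by norm_num)
    refine ⟨measurableSet_ballSet c r, isPeriodic_ballSet c r, ?_, ?_⟩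
    · rw [vol_ballSet c hr.le hr1, hV]
    · refine (perimeter_ballSet_le c hr hr1).trans (ENNReal.ofReal_le_ofReal (le_of_eq ?_))
      rw [J_eq_ball h0 h1 hv]
      refine (pow_left_inj₀ (by positivity) (by positivity) (n := 3) (by norm_num)).mp ?_
      rw [ball_cube h0.le, ← hV]
      ring
  · have hr1 : r ≤ 1 / 2 := radius_tube hV hv'
    refine ⟨measurableSet_tubeSet i c r, isPeriodic_tubeSet i c r, ?_, ?_⟩
    · rw [vol_tubeSet i c hr.le hr1, hV]
    · refine (perimeter_tubeSet_le i c hr hr1).trans (ENNReal.ofReal_le_ofReal (le_of_eq ?_))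
      rw [J_eq_tube h1 hv hv', ← hV,
        show Real.pi * (Real.pi * r ^ 2) = (Real.pi * r) ^ 2 by ring,
        Real.sqrt_sq (by positivity)]
      ring
  · refine ⟨measurableSet_slabSet i a h0.le, isPeriodic_slabSet i a h0.le,
      vol_slabSet i a h0.le (by linarith), ?_⟩
    rw [J_eq_two h1 hv]
    exact perimeter_slabSet_le i a h0 (by linarith)

/-- The classification for volumes at most `1/2`, with thresholds. -/
theorem optimal_of_le (hmid : MidStatement) {E : Set (Fin 3 → ℝ)} (hE : MeasurableSet E)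
    (hp : IsPeriodic E) (h0 : 0 < vol E) (h1 : vol E ≤ 1 / 2)
    (hP : perimeter E ≤ ENNReal.ofReal (J (vol E))) :
    ∃ B, Model (vol E) B ∧ E =ᵐ[volume] B := by
  have hpi := Real.pi_pos
  have hJ0 : 0 ≤ J (vol E) := J_nonneg h0.le (by linarith only [h0, h1])
  rcases ball_or_const' hE hp h0 h1 (J_le_J0 h1) hP (fun E' hE' hd' hv' hP' => by
    have h2 := strict7 hmid hE' hd' (by rw [hv']; exact h0) (by rw [hv']; exact h1)
      (by rw [hv']; exact hP')
    rwa [hv'] at h2) with ⟨k, hk⟩ | ⟨hb, c, R, hR0, hR1, hV, h⟩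
  · have hfin : perimeter E ≠ ⊤ := ne_top_of_le_ne_top ENNReal.ofReal_ne_top hP
    have h2 : perimeter E ≤ ∫⁻ t in Ico (0 : ℝ) 1, perimeter (slice k E t) := by
      have e : perimeter E = ∫⁻ _ in Ico (0 : ℝ) 1, perimeter E := by simp
      rw [e]
      apply lintegral_mono_ae
      filter_upwards [hk] with t ht
      refine hP.trans ((ENNReal.ofReal_le_ofReal (J_le_I2 h1)).trans ?_)
      rw [← ht]
      exact I2_le_perimeter (measurableSet_slice k hE t) (isPeriodic_slice k hp t)
    obtain ⟨G, hG, hpG, hvG, hPG, hEG⟩ := cylinder_of_perimeter_le k hE hp hfin h2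
    have h3 := class2D_le' hG hpG (by rw [hvG]; exact h0) (by rw [hvG]; exact h1)
      (by rw [hvG]; exact hPG.trans (hP.trans (ENNReal.ofReal_le_ofReal (J_le_I2 h1))))
    rw [hvG] at h3
    have hcyl : ∀ A : Set (Fin 2 → ℝ), MeasurableSet A → G =ᵐ[volume] A →
        E =ᵐ[volume] cyl k A := fun A hA h => hEG.trans (cyl_congr k hG hA h)
    rcases h3 with ⟨hb, i, c, h⟩ | ⟨hb, c, R, h4, h5, h6, h7⟩
    · -- slab
      have hthr : 1 / Real.pi ≤ vol E := by
        by_contra hlt
        push Not at hlt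
        have h8 := hb.trans (hPG.trans hP)
        rw [ENNReal.ofReal_le_ofReal_iff hJ0] at h8
        have h9 : J (vol E) ≤ 2 * Real.sqrt (Real.pi * vol E) := by
          refine ((min_le_left _ _).trans (min_le_right _ _)).trans (le_of_eq ?_)
          rw [min_eq_left (by linarith only [h1] : vol E ≤ 1 - vol E)]
        have h10 : 1 ≤ Real.sqrt (Real.pi * vol E) := by linarith
        have h11 : Real.sqrt (Real.pi * vol E) < 1 := by
          rw [Real.sqrt_lt' one_pos]
          rw [lt_div_iff₀ hpi] at hlt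
          linarith
        linarith
      refine ⟨slabSet (k.succAbove i) (c - vol E / 2) (vol E), Or.inr (Or.inr
        ⟨hthr, k.succAbove i, c - vol E / 2, rfl⟩), ?_⟩
      have hms : MeasurableSet {x : Fin 2 → ℝ | 2 * nr (x i - c) < vol E} :=
        measurableSet_lt ((measurable_nr.comp
          ((measurable_pi_apply i).sub measurable_const)).const_mul 2) measurable_const
      refine (hcyl _ hms h).trans (Eq.eventuallyEq ?_)
      rw [slabSet_eq]
      ext x
      simp [cyl]
    · -- tube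
      have h8 := hb.trans (hPG.trans hP)
      rw [ENNReal.ofReal_le_ofReal_iff hJ0] at h8
      have hthr : vol E ≤ 1 / Real.pi := by
        rw [← tube_le_two_iff h0]
        exact h8.trans (min_le_right _ _)
      have hthr' : 4 * Real.pi / 81 ≤ vol E := by
        by_contra hlt
        push Not at hlt
        rw [J_eq_ball h0 h1 hlt.le] at h8
        have h9 := (ball_le_tube_iff h0).mpr hlt.le
        -- equality would force the threshold
        have h10 := le_antisymm h9 h8
        have e1 : ((36 * Real.pi) ^ (1 / 3 : ℝ) * vol E ^ (2 / 3 : ℝ)) ^ 6 =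
            (36 * Real.pi * vol E ^ 2) ^ 2 := by
          rw [← ball_cube h0.le]
          ring
        have e2 : (2 * Real.sqrt (Real.pi * vol E)) ^ 6 = 64 * (Real.pi * vol E) ^ 3 := by
          have : (2 * Real.sqrt (Real.pi * vol E)) ^ 6 =
            64 * (Real.sqrt (Real.pi * vol E) ^ 2) ^ 3 := by ring
          rw [this, Real.sq_sqrt (by positivity)]
        rw [h10, e2] at e1
        have e3 : (16 * Real.pi ^ 2 * vol E ^ 3) * (4 * Real.pi) =
            (16 * Real.pi ^ 2 * vol E ^ 3) * (81 * vol E) := by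
          linarith only [e1]
        have e4 := mul_left_cancel₀ (by positivity) e3
        linarith only [hlt, e4]
      refine ⟨tubeSet k (k.insertNth (α := fun _ => ℝ) 0 c) R,
        Or.inr (Or.inl ⟨hthr', hthr, k, _, R, h4, h6.symm, rfl⟩), ?_⟩
      rw [tubeSet_eq]
      simp only [Fin.insertNth_apply_succAbove]
      exact hcyl _ (measurableSet_tball _ _) h7
  · -- ball
    have h8 := hb.trans hP
    rw [ENNReal.ofReal_le_ofReal_iff hJ0] at h8
    have hthr : vol E ≤ 4 * Real.pi / 81 := by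
      rw [← ball_le_tube_iff h0]
      refine h8.trans (((min_le_left _ _).trans (min_le_right _ _)).trans (le_of_eq ?_))
      rw [min_eq_left (by linarith only [h1] : vol E ≤ 1 - vol E)]
    exact ⟨ballSet c R, Or.inl ⟨hthr, c, R, hR0, hV.symm, rfl⟩, by rw [ballSet_eq]; exact h⟩

/-- The minimizers of volume at most `1/2`. -/
theorem minimizer_iff_half (hmid : MidStatement) {E : Set (Fin 3 → ℝ)} (hE : MeasurableSet E)
    (hp : IsPeriodic E) (h0 : 0 < vol E) (h1 : vol E ≤ 1 / 2) :
    perimeter E = profile 3 (vol E) ↔ ∃ B, Model (vol E) B ∧ E =ᵐ[volume] B := by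
  rw [profile_eq_J_of_mid hmid h0 (by linarith only [h0, h1])]
  constructor
  · intro h
    exact optimal_of_le hmid hE hp h0 h1 h.le
  · rintro ⟨B, hB, hEB⟩
    obtain ⟨_, _, _, h2⟩ := hB.spec h0 h1
    rw [← perimeter_congr hEB] at h2
    exact le_antisymm h2 (J_le_perimeter_of_mid hmid hE hp h0 (by linarith))

/-- All minimizers. -/
theorem minimizer_iff (hmid : MidStatement) {E : Set (Fin 3 → ℝ)} (hE : MeasurableSet E)
    (hp : IsPeriodic E) (h0 : 0 < vol E) (h1 : vol E < 1) :
    perimeter E = profile 3 (vol E) ↔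
      ∃ B, Model (min (vol E) (1 - vol E)) B ∧
        ((vol E ≤ 1 / 2 ∧ E =ᵐ[volume] B) ∨
          (1 / 2 ≤ vol E ∧ E =ᵐ[volume] (Bᶜ : Set (Fin 3 → ℝ)))) := by
  have hc : ∀ {A B : Set (Fin 3 → ℝ)}, (Aᶜ : Set (Fin 3 → ℝ)) =ᵐ[volume] B → A =ᵐ[volume] (Bᶜ : Set (Fin 3 → ℝ)) := by
    intro A B h
    have := h.compl
    rwa [compl_compl] at this
  have hc' : ∀ {A B : Set (Fin 3 → ℝ)}, A =ᵐ[volume] (Bᶜ : Set (Fin 3 → ℝ)) →
      (Aᶜ : Set (Fin 3 → ℝ)) =ᵐ[volume] B := by
    intro A B h
    have := h.compl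
    rwa [compl_compl] at this
  have hv : vol Eᶜ = 1 - vol E := vol_compl hE
  have hprof : profile 3 (vol Eᶜ) = profile 3 (vol E) := by
    rw [profile_eq_J_of_mid hmid h0 h1, hv, profile_eq_J_of_mid hmid (by linarith) (by linarith), J_one_sub']
  have hcompl : 1 / 2 ≤ vol E → (perimeter E = profile 3 (vol E) ↔
      ∃ B, Model (1 - vol E) B ∧ E =ᵐ[volume] (Bᶜ : Set (Fin 3 → ℝ))) := by
    intro h2
    have h3 := minimizer_iff_half hmid hE.compl (isPeriodic_compl hp) (by rw [hv]; linarith)
      (by rw [hv]; linarith)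
    rw [perimeter_compl hE, hprof, hv] at h3
    rw [h3]
    constructor
    · rintro ⟨B, hB, h⟩
      exact ⟨B, hB, hc h⟩
    · rintro ⟨B, hB, h⟩
      exact ⟨B, hB, hc' h⟩
  constructor
  · intro h
    rcases le_or_gt (vol E) (1 / 2) with h2 | h2
    · obtain ⟨B, hB, hEB⟩ := (minimizer_iff_half hmid hE hp h0 h2).mp h
      rw [min_eq_left (by linarith : vol E ≤ 1 - vol E)]
      exact ⟨B, hB, Or.inl ⟨h2, hEB⟩⟩
    · obtain ⟨B, hB, hEB⟩ := (hcompl h2.le).mp h
      rw [min_eq_right (by linarith : 1 - vol E ≤ vol E)]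
      exact ⟨B, hB, Or.inr ⟨h2.le, hEB⟩⟩
  · rintro ⟨B, hB, ⟨h2, hEB⟩ | ⟨h2, hEB⟩⟩
    · rw [min_eq_left (by linarith : vol E ≤ 1 - vol E)] at hB
      exact (minimizer_iff_half hmid hE hp h0 h2).mpr ⟨B, hB, hEB⟩
    · rw [min_eq_right (by linarith : 1 - vol E ≤ vol E)] at hB
      exact (hcompl h2).mpr ⟨B, hB, hEB⟩

end Vale.Agent.P232
end
end

section

section

/-! The middle range of the strict isoperimetric inequality. -/

open MeasureTheory Set Filter Topology

namespace Vale.Agent.P232

theorem midStatement_holds : MidStatement := by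
  intro E hE hd h0 h1 hP
  have hp := hd.isPeriodic
  have hpi := Real.pi_pos
  have hpi4 := Real.pi_lt_d6
  have hJ0 : 0 ≤ J (vol E) := J_nonneg (by linarith only [h0]) (by linarith only [h1])
  have hP2 : perimeter E ≤ ENNReal.ofReal 2 := hP.trans (ENNReal.ofReal_le_ofReal (J_le_two _))
  rcases h1.eq_or_lt with h1 | h1
  · exact strict_slab hE hp h1.ge (by rw [h1]; norm_num) hP2
  rcases gap_cases hE hd (by linarith only [h0]) h1 with ⟨x, hx, hxP⟩ | ⟨j, ⟨hess, -⟩ | hper⟩
  · exfalso
    have h2 := hxP.trans hP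
    rw [ENNReal.ofReal_le_ofReal_iff hJ0] at h2
    have h3 : J (vol E) ≤ min (2 * Real.sqrt (Real.pi * vol E)) 2 := by
      unfold J
      rw [min_eq_left (by linarith : vol E ≤ 1 - vol E)]
      exact le_min ((min_le_left _ _).trans (min_le_right _ _)) (min_le_right _ _)
    linarith only [hx, h2, h3]
  · left
    exact ⟨j + 1, slab_corner hE hp hess hP2 (by omega)⟩
  · left
    refine ⟨j, ?_⟩
    rcases J0_eq_cases hE hp hper (by linarith only [h0])
      (hP.trans (ENNReal.ofReal_le_ofReal (J_le_J0 (by linarith)))) with h | ⟨-, h⟩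
    · exact h
    · exfalso
      have h2 : (36 * Real.pi) ^ (1 / 3 : ℝ) * vol E ^ (2 / 3 : ℝ) ≤
          2 * Real.sqrt (Real.pi * vol E) := by
        rw [← h]
        exact min_le_right _ _
      rw [ball_le_tube_iff (by linarith only [h0])] at h2
      linarith only [h0, hpi4, h2]

end Vale.Agent.P232
end
end

section

section

/-! The final form of the classification (from the middle range statement). -/

open MeasureTheory Set Filter Topology

namespace Vale.Agent.P232

/-- The profile and all the minimizers. -/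
theorem classification_of_mid (hmid : MidStatement) :
    (∀ V : ℝ, 0 < V → V < 1 → profile 3 V = ENNReal.ofReal (J V)) ∧
    (∀ E : Set (Fin 3 → ℝ), MeasurableSet E → IsPeriodic E → 0 < vol E → vol E < 1 →
      (perimeter E = profile 3 (vol E) ↔
        (vol E ≤ 1 / 2 ∧ ∃ B, Model (vol E) B ∧ E =ᵐ[volume] B) ∨
        (1 / 2 ≤ vol E ∧ ∃ B, Model (1 - vol E) B ∧ E =ᵐ[volume] (Bᶜ : Set (Fin 3 → ℝ))))) ∧
    (∀ (v : ℝ) (B : Set (Fin 3 → ℝ)), 0 < v → v ≤ 1 / 2 → Model v B →
      MeasurableSet B ∧ IsPeriodic B ∧ vol B = v ∧ perimeter B = ENNReal.ofReal (J v)) := by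
  refine ⟨fun V h0 h1 => profile_eq_J_of_mid hmid h0 h1, ?_, ?_⟩
  · intro E hE hp h0 h1
    rw [minimizer_iff hmid hE hp h0 h1]
    constructor
    · rintro ⟨B, hB, ⟨h2, hEB⟩ | ⟨h2, hEB⟩⟩
      · rw [min_eq_left (by linarith : vol E ≤ 1 - vol E)] at hB
        exact Or.inl ⟨h2, B, hB, hEB⟩
      · rw [min_eq_right (by linarith : 1 - vol E ≤ vol E)] at hB
        exact Or.inr ⟨h2, B, hB, hEB⟩
    · rintro (⟨h2, B, hB, hEB⟩ | ⟨h2, B, hB, hEB⟩)
      · refine ⟨B, ?_, Or.inl ⟨h2, hEB⟩⟩
        rwa [min_eq_left (by linarith : vol E ≤ 1 - vol E)]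
      · refine ⟨B, ?_, Or.inr ⟨h2, hEB⟩⟩
        rwa [min_eq_right (by linarith : 1 - vol E ≤ vol E)]
  · intro v B h0 h1 hB
    obtain ⟨h2, h3, h4, h5⟩ := hB.spec h0 h1
    refine ⟨h2, h3, h4, le_antisymm h5 ?_⟩
    have := J_le_perimeter_of_mid hmid h2 h3 (by rw [h4]; exact h0) (by rw [h4]; linarith)
    rwa [h4] at this

end Vale.Agent.P232
end
end

section

section

open MeasureTheory Set

namespace Vale.Agent.P232

theorem J_le_min {V : ℝ} (h : V ≤ 1 / 2) : J V ≤ min (2 * Real.sqrt (Real.pi * V)) 2 := by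
  unfold J
  rw [min_eq_left (by linarith : V ≤ 1 - V)]
  exact min_le_min (min_le_right _ _) le_rfl

theorem J_le_perimeter_gap {E : Set (Fin 3 → ℝ)} (hE : MeasurableSet E) (hp : IsPeriodic E)
    (h0 : 0.266 ≤ vol E) (h1 : vol E < 0.36) :
    ENNReal.ofReal (J (vol E)) ≤ perimeter E := by
  obtain ⟨E', hE', hd, hvol, hper⟩ := exists_isDown hE hp
  refine le_trans ?_ hper
  rw [← hvol] at h0 h1 ⊢
  rcases gap_cases hE' hd h0 h1 with ⟨x, hx, hP⟩ | ⟨j, ⟨_, h2⟩ | h3⟩
  · exact (ENNReal.ofReal_le_ofReal ((J_le_min (by linarith only [h1])).trans hx.le)).trans hP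
  · exact (ENNReal.ofReal_le_ofReal (J_le_two _)).trans h2
  · exact (ENNReal.ofReal_le_ofReal (J_le_J0 (by linarith only [h1]))).trans
      (J0_le_perimeter (k := j) hE' hd.isPeriodic h3)

theorem J_le_perimeter_all {E : Set (Fin 3 → ℝ)} (hE : MeasurableSet E) (hp : IsPeriodic E)
    (h0 : 0 < vol E) (h1 : vol E < 1) :
    ENNReal.ofReal (J (vol E)) ≤ perimeter E := by
  have half : ∀ {F : Set (Fin 3 → ℝ)}, MeasurableSet F → IsPeriodic F → 0 < vol F →
      vol F ≤ 1 / 2 → ENNReal.ofReal (J (vol F)) ≤ perimeter F := by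
    intro F hF hFp k0 k1
    rcases le_or_gt (vol F) 0.267 with h | h
    · exact J_le_perimeter hF hFp (Or.inl ⟨k0, h⟩)
    rcases lt_or_ge (vol F) 0.36 with h2 | h2
    · exact J_le_perimeter_gap hF hFp (by norm_num at h ⊢; linarith only [k0, h]) h2
    · exact J_le_perimeter hF hFp (Or.inr (Or.inl ⟨h2, by linarith only [h0, h1, k1]⟩))
  rcases le_or_gt (vol E) (1 / 2) with h | h
  · exact half hE hp h0 h
  · have := half hE.compl hp.compl (by rw [vol_compl hE]; linarith)
      (by rw [vol_compl hE]; linarith only [h])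
    rwa [vol_compl hE, J_one_sub, perimeter_compl hE] at this

/-- The isoperimetric profile of the cubic three-torus. -/
theorem profile_eq_J {V : ℝ} (h0 : 0 < V) (h1 : V < 1) :
    profile 3 V = ENNReal.ofReal (J V) := by
  refine le_antisymm (profile_le_J h0 h1) ?_
  unfold profile
  refine le_iInf fun E => le_iInf fun hE => le_iInf fun hp => le_iInf fun hV => ?_
  rw [← hV] at h0 h1 ⊢
  exact J_le_perimeter_all hE hp h0 h1

end Vale.Agent.P232
end
end
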